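import Vale.Agent.P167.CL.Frame
import Vale.Agent.P167.CA.Defs

/-!
# P167, block CLOSE: enlarged lattice polygons

The `N`-fold enlargement `pe` of a lattice polygon `q` with enclosed faces `S`, started at the index
`s`: it is a lattice polygon which encloses `CA.enl S N`.
-/

set_option autoImplicit false

open Set

namespace Vale.Agent.P167.CL

open Vale.Agent.P167.E6

section

variable {m : ℕ} (q : ZMod m → ℤ × ℤ) (N : ℕ)

/-- The vertices of the enlarged polygon. -/
def pe (t : ℕ) : ℤ × ℤ :=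
  (N : ℤ) • q ((t / N : ℕ) : ZMod m) + ((t % N : ℕ) : ℤ) • (q (((t / N : ℕ) : ZMod m) + 1) -
    q ((t / N : ℕ) : ZMod m))

variable {q N}

theorem pe_succ (hN : 0 < N) (t : ℕ) : pe q N (t + 1) = pe q N t +
    (q (((t / N : ℕ) : ZMod m) + 1) - q ((t / N : ℕ) : ZMod m)) := by
  unfold pe
  rcases Nat.lt_or_ge (t % N + 1) N with h | h
  · have e1 : (t + 1) / N = t / N := by
      rw [Nat.div_eq_iff hN]
      have := Nat.div_add_mod t N
      have h2 : N * (t / N) = t / N * N := mul_comm _ _
      constructor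
      · omega
      · have : (t / N + 1) * N = t / N * N + N := by ring
        omega
    have e2 : (t + 1) % N = t % N + 1 := by
      have h1 := Nat.div_add_mod t N
      have h2 := Nat.div_add_mod (t + 1) N
      rw [e1] at h2
      omega
    rw [e1, e2]
    push_cast
    module
  · have hlt := Nat.mod_lt t hN
    have e0 : t % N = N - 1 := by omega
    have h1 := Nat.div_add_mod t N
    have e3 : t + 1 = N * (t / N + 1) := by
      have : N * (t / N + 1) = N * (t / N) + N := by ring
      omega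
    have e1 : (t + 1) / N = t / N + 1 := by rw [e3]; exact Nat.mul_div_cancel_left _ hN
    have e2 : (t + 1) % N = 0 := by rw [e3]; exact Nat.mul_mod_right _ _
    have e4 : ((t % N : ℕ) : ℤ) = N - 1 := by rw [e0]; push_cast [Nat.cast_sub hN]; ring
    rw [e1, e2, e4]
    push_cast
    module

theorem pe_add (hN : 0 < N) (t c : ℕ) : pe q N (t + N * m * c) = pe q N t := by
  unfold pe
  have e1 : (t + N * m * c) / N = t / N + m * c := by
    rw [mul_assoc]; exact Nat.add_mul_div_left _ _ hN
  have e2 : (t + N * m * c) % N = t % N := by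
    rw [mul_assoc]; exact Nat.add_mul_mod_self_left _ _ _
  rw [e1, e2]
  push_cast
  simp

theorem pe_mod (hN : 0 < N) (t : ℕ) : pe q N (t % (N * m)) = pe q N t := by
  have h := pe_add (q := q) hN (t % (N * m)) (t / (N * m))
  rw [Nat.mod_add_div] at h
  exact h.symm

theorem pe_eq (t : ℕ) : pe q N t = (N : ℤ) • q ((t / N : ℕ) : ZMod m) +
    ((t % N : ℕ) : ℤ) • (q (((t / N : ℕ) : ZMod m) + 1) - q ((t / N : ℕ) : ZMod m)) := rfl

theorem pe_mul (hN : 0 < N) (i : ℕ) : pe q N (N * i) = (N : ℤ) • q (i : ZMod m) := by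
  unfold pe
  rw [Nat.mul_div_cancel_left _ hN, Nat.mul_mod_right]
  simp

theorem pe_mul_add (hN : 0 < N) (i : ℕ) {j : ℕ} (hj : j < N) : pe q N (N * i + j) =
    (N : ℤ) • q (i : ZMod m) + (j : ℤ) • (q ((i : ZMod m) + 1) - q (i : ZMod m)) := by
  unfold pe
  have e1 : (N * i + j) / N = i := by
    rw [Nat.mul_add_div hN, Nat.div_eq_of_lt hj, add_zero]
  have e2 : (N * i + j) % N = j := by
    rw [Nat.mul_add_mod, Nat.mod_eq_of_lt hj]
  rw [e1, e2]

/-- The possible coincidences of two points on enlarged unit steps. -/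
theorem step_inj {v v' : ℤ × ℤ} {r r' : Fin 4} {j j' : ℤ} {N : ℤ} (h0 : 0 ≤ j) (h1 : j < N)
    (h0' : 0 ≤ j') (h1' : j' < N) (h : N • v + j • dir r = N • v' + j' • dir r') :
    (v = v' ∧ j = j') ∨ (v' = v + dir r ∧ v = v' + dir r') := by
  obtain ⟨a, b⟩ := v
  obtain ⟨c, d⟩ := v'
  have e1 := congrArg Prod.fst h
  have e2 := congrArg Prod.snd h
  have hN : 0 < N := by omega
  have key : ∀ x y s : ℤ, N * x + s = N * y → -N < s → s < 2 * N → s = 0 ∧ x = y ∨ s = N ∧ y = x + 1 := by
    intro x y s hs h3 h4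
    have h5 : s = N * (y - x) := by linarith
    have h6 : -1 < y - x := by
      by_contra hcon
      push Not at hcon
      nlinarith
    have h7 : y - x < 2 := by
      by_contra hcon
      push Not at hcon
      nlinarith
    have h8 : y - x = 0 ∨ y - x = 1 := by omega
    rcases h8 with h8 | h8
    · left; rw [h8, mul_zero] at h5; exact ⟨h5, by omega⟩
    · right; rw [h8, mul_one] at h5; exact ⟨h5, by omega⟩
  fin_cases r <;> fin_cases r' <;>
    simp only [dir, Prod.smul_mk, smul_eq_mul, Prod.mk_add_mk, Fin.zero_eta, Fin.mk_one,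
      Fin.reduceFinMk, Matrix.cons_val_zero, Matrix.cons_val_one, Matrix.cons_val,
      mul_one, mul_zero, add_zero, mul_neg, Prod.mk.injEq] at e1 e2 ⊢
  -- 0 0
  · have k2 : b = d := by
      rcases key b d 0 (by linarith) (by omega) (by omega) with h | h <;> omega
    rcases key a c (j - j') (by linarith) (by omega) (by omega) with h | h
    · left; omega
    · omega
  -- 0 1
  · rcases key a c j (by linarith) (by omega) (by omega) with h | h
    · rcases key d b j' (by linarith) (by omega) (by omega) with h' | h'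
      · left; omega
      · omega
    · omega
  -- 0 2
  · have k2 : b = d := by
      rcases key b d 0 (by linarith) (by omega) (by omega) with h | h <;> omega
    rcases key a c (j + j') (by linarith) (by omega) (by omega) with h | h
    · left; omega
    · right; omega
  -- 0 3
  · rcases key a c j (by linarith) (by omega) (by omega) with h | h
    · rcases key b d j' (by linarith) (by omega) (by omega) with h' | h'
      · left; omega
      · omega
    · omega
  -- 1 0
  · rcases key c a j' (by linarith) (by omega) (by omega) with h | h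
    · rcases key b d j (by linarith) (by omega) (by omega) with h' | h'
      · left; omega
      · omega
    · omega
  -- 1 1
  · have k2 : a = c := by
      rcases key a c 0 (by linarith) (by omega) (by omega) with h | h <;> omega
    rcases key b d (j - j') (by linarith) (by omega) (by omega) with h | h
    · left; omega
    · omega
  -- 1 2
  · rcases key a c j' (by linarith) (by omega) (by omega) with h | h
    · rcases key b d j (by linarith) (by omega) (by omega) with h' | h'
      · left; omega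
      · omega
    · omega
  -- 1 3
  · have k2 : a = c := by
      rcases key a c 0 (by linarith) (by omega) (by omega) with h | h <;> omega
    rcases key b d (j + j') (by linarith) (by omega) (by omega) with h | h
    · left; omega
    · right; omega
  -- 2 0
  · have k2 : b = d := by
      rcases key b d 0 (by linarith) (by omega) (by omega) with h | h <;> omega
    rcases key c a (j + j') (by linarith) (by omega) (by omega) with h | h
    · left; omega
    · right; omega
  -- 2 1
  · rcases key c a j (by linarith) (by omega) (by omega) with h | h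
    · rcases key d b j' (by linarith) (by omega) (by omega) with h' | h'
      · left; omega
      · omega
    · omega
  -- 2 2
  · have k2 : b = d := by
      rcases key b d 0 (by linarith) (by omega) (by omega) with h | h <;> omega
    rcases key a c (j' - j) (by linarith) (by omega) (by omega) with h | h
    · left; omega
    · omega
  -- 2 3
  · rcases key c a j (by linarith) (by omega) (by omega) with h | h
    · rcases key b d j' (by linarith) (by omega) (by omega) with h' | h'
      · left; omega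
      · omega
    · omega
  -- 3 0
  · rcases key c a j' (by linarith) (by omega) (by omega) with h | h
    · rcases key d b j (by linarith) (by omega) (by omega) with h' | h'
      · left; omega
      · omega
    · omega
  -- 3 1
  · have k2 : a = c := by
      rcases key a c 0 (by linarith) (by omega) (by omega) with h | h <;> omega
    rcases key d b (j + j') (by linarith) (by omega) (by omega) with h | h
    · left; omega
    · right; omega
  -- 3 2
  · rcases key a c j' (by linarith) (by omega) (by omega) with h | h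
    · rcases key d b j (by linarith) (by omega) (by omega) with h' | h'
      · left; omega
      · omega
    · omega
  -- 3 3
  · have k2 : a = c := by
      rcases key a c 0 (by linarith) (by omega) (by omega) with h | h <;> omega
    rcases key b d (j' - j) (by linarith) (by omega) (by omega) with h | h
    · left; omega
    · omega

theorem diff_dir (hq : IsPolygon q) (i : ZMod m) : ∃ r, q (i + 1) - q i = dir r := by
  obtain ⟨r, hr⟩ := hq.2.2 i
  exact ⟨r, by rw [hr]; abel⟩

theorem pe_inj (hq : IsPolygon q) (hN : 0 < N) {t t' : ℕ} (ht : t < N * m) (ht' : t' < N * m)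
    (h : pe q N t = pe q N t') : t = t' := by
  have hm : 2 < m := hq.1
  obtain ⟨r, hr⟩ := diff_dir hq ((t / N : ℕ) : ZMod m)
  obtain ⟨r', hr'⟩ := diff_dir hq ((t' / N : ℕ) : ZMod m)
  rw [pe_eq, pe_eq, hr, hr'] at h
  have hd : ∀ u : ℕ, u < N * m → u / N < m := fun u hu => Nat.div_lt_of_lt_mul hu
  have hcast : ∀ a b : ℕ, a < m → b < m → ((a : ℕ) : ZMod m) = b → a = b := by
    intro a b ha hb hab
    have := (ZMod.natCast_eq_natCast_iff' _ _ _).1 hab
    rwa [Nat.mod_eq_of_lt ha, Nat.mod_eq_of_lt hb] at this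
  rcases step_inj (by positivity) (by exact_mod_cast Nat.mod_lt t hN) (by positivity)
    (by exact_mod_cast Nat.mod_lt t' hN) h with ⟨h1, h2⟩ | ⟨h1, h2⟩
  · have h3 := hcast _ _ (hd t ht) (hd t' ht') (hq.2.1 h1)
    have h4 : t % N = t' % N := by exact_mod_cast h2
    rw [← Nat.div_add_mod t N, ← Nat.div_add_mod t' N, h3, h4]
  · exfalso
    rw [← hr] at h1
    rw [← hr'] at h2
    have e1 : q ((t' / N : ℕ) : ZMod m) = q (((t / N : ℕ) : ZMod m) + 1) := by
      rw [h1]; abel
    have e2 : q ((t / N : ℕ) : ZMod m) = q (((t' / N : ℕ) : ZMod m) + 1) := by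
      rw [h2]; abel
    have e3 := hq.2.1 e1
    have e4 := hq.2.1 e2
    rw [e3, add_assoc] at e4
    have e5 : ((1 : ZMod m) + 1) = 0 := by
      have : ((t / N : ℕ) : ZMod m) + 0 = ((t / N : ℕ) : ZMod m) + (1 + 1) := by
        rw [add_zero]; exact e4
      exact (add_left_cancel this).symm
    have e6 : ((2 : ℕ) : ZMod m) = 0 := by
      push_cast
      rw [← e5]; norm_num
    rw [ZMod.natCast_eq_zero_iff] at e6
    have := Nat.le_of_dvd (by norm_num) e6
    omega

/-- The enlarged polygon started at the index `s`. -/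
def re (q : ZMod m → ℤ × ℤ) (N s : ℕ) (x : ZMod (N * m)) : ℤ × ℤ := pe q N (x.val + s)

theorem re_nat (hN : 0 < N) (s t : ℕ) : re q N s (t : ZMod (N * m)) = pe q N (t + s) := by
  unfold re
  rw [ZMod.val_natCast, ← pe_mod hN (t % (N * m) + s), ← pe_mod hN (t + s)]
  congr 1
  rw [Nat.mod_add_mod]

theorem re_succ (hq : IsPolygon q) (hN : 0 < N) (s : ℕ) (x : ZMod (N * m)) :
    re q N s (x + 1) = pe q N (x.val + s + 1) := by
  have hm : 2 < m := hq.1
  have : NeZero (N * m) := ⟨by positivity⟩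
  have h := re_nat (q := q) hN s (x.val + 1)
  rw [Nat.cast_add, ZMod.natCast_zmod_val, Nat.cast_one] at h
  rw [h]
  congr 1
  ring

theorem re_poly (hq : IsPolygon q) (hN : 0 < N) (s : ℕ) : IsPolygon (re q N s) := by
  have hm : 2 < m := hq.1
  have hne : NeZero (N * m) := ⟨by positivity⟩
  refine ⟨?_, ?_, ?_⟩
  · calc 2 < m := hm
      _ = 1 * m := (one_mul m).symm
      _ ≤ N * m := Nat.mul_le_mul_right m hN
  · intro x y hxy
    unfold re at hxy
    rw [← pe_mod hN (x.val + s), ← pe_mod hN (y.val + s)] at hxy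
    have hpos : 0 < N * m := by positivity
    have h1 := pe_inj hq hN (Nat.mod_lt _ hpos) (Nat.mod_lt _ hpos) hxy
    have h2 : ((x.val + s : ℕ) : ZMod (N * m)) = ((y.val + s : ℕ) : ZMod (N * m)) :=
      (ZMod.natCast_eq_natCast_iff' _ _ _).2 h1
    push_cast at h2
    rw [ZMod.natCast_zmod_val, ZMod.natCast_zmod_val] at h2
    exact add_right_cancel h2
  · intro x
    rw [re_succ hq hN, pe_succ hN]
    obtain ⟨r, hr⟩ := diff_dir hq (((x.val + s) / N : ℕ) : ZMod m)
    exact ⟨r, by rw [hr]; rfl⟩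

theorem mem_enl_iff {S : Finset (ℤ × ℤ)} (hN : 0 < N) {f : ℤ × ℤ} :
    f ∈ CA.enl S N ↔ (f.1 / N, f.2 / N) ∈ S := by
  have hN' : (0 : ℤ) < N := by exact_mod_cast hN
  unfold CA.enl
  rw [Finset.mem_biUnion]
  constructor
  · rintro ⟨v, hv, h⟩
    rw [Finset.mem_image] at h
    obtain ⟨⟨a, b⟩, hab, rfl⟩ := h
    rw [Finset.mem_product, Finset.mem_range, Finset.mem_range] at hab
    have e1 : ((N : ℤ) * v.1 + (a : ℤ)) / N = v.1 := by
      rw [Int.add_comm, Int.add_mul_ediv_left _ _ hN'.ne', Int.ediv_eq_zero_of_lt (by positivity)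
        (by exact_mod_cast hab.1), zero_add]
    have e2 : ((N : ℤ) * v.2 + (b : ℤ)) / N = v.2 := by
      rw [Int.add_comm, Int.add_mul_ediv_left _ _ hN'.ne', Int.ediv_eq_zero_of_lt (by positivity)
        (by exact_mod_cast hab.2), zero_add]
    simp only [e1, e2]
    exact hv
  · intro h
    refine ⟨_, h, ?_⟩
    rw [Finset.mem_image]
    refine ⟨((f.1 % N).toNat, (f.2 % N).toNat), ?_, ?_⟩
    · rw [Finset.mem_product, Finset.mem_range, Finset.mem_range]
      have h1 := Int.emod_lt_of_pos f.1 hN'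
      have h2 := Int.emod_nonneg f.1 hN'.ne'
      have h3 := Int.emod_lt_of_pos f.2 hN'
      have h4 := Int.emod_nonneg f.2 hN'.ne'
      constructor <;> simp only <;> omega
    · have h2 := Int.emod_nonneg f.1 hN'.ne'
      have h4 := Int.emod_nonneg f.2 hN'.ne'
      ext
      · simp only [Int.toNat_of_nonneg h2]; exact Int.mul_ediv_add_emod _ _
      · simp only [Int.toNat_of_nonneg h4]; exact Int.mul_ediv_add_emod _ _

/-- Floors of neighbours. -/
theorem div_sub_one {N x : ℤ} (hN : 0 < N) (h : (x - 1) / N ≠ x / N) :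
    x = N * (x / N) ∧ (x - 1) / N = x / N - 1 := by
  have h1 := Int.mul_ediv_add_emod x N
  have h2 := Int.emod_nonneg x hN.ne'
  have h3 := Int.emod_lt_of_pos x hN
  rcases h2.lt_or_eq with h4 | h4
  · exfalso
    apply h
    rw [Int.ediv_eq_iff_of_pos hN]
    constructor <;> nlinarith
  · refine ⟨by omega, ?_⟩
    rw [Int.ediv_eq_iff_of_pos hN]
    constructor <;> nlinarith

/-- The boundary edges of the enlargement. -/
theorem enl_edge {S : Finset (ℤ × ℤ)} (hN : 0 < N) (v : ℤ × ℤ) (r : Fin 4) :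
    (face v r ∈ CA.enl S N ∧ face v (r - 1) ∉ CA.enl S N) ↔
      ∃ (a : ℤ × ℤ) (t : ℕ), t < N ∧ v = (N : ℤ) • a + (t : ℤ) • dir r ∧ face a r ∈ S ∧
        face a (r - 1) ∉ S := by
  have hN' : (0 : ℤ) < N := by exact_mod_cast hN
  obtain ⟨x, y⟩ := v
  have hx1 := Int.mul_ediv_add_emod x N
  have hx2 := Int.emod_nonneg x hN'.ne'
  have hx3 := Int.emod_lt_of_pos x hN'
  have hy1 := Int.mul_ediv_add_emod y N
  have hy2 := Int.emod_nonneg y hN'.ne'
  have hy3 := Int.emod_lt_of_pos y hN'
  have hu1 := Int.mul_ediv_add_emod (x - 1) N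
  have hu2 := Int.emod_nonneg (x - 1) hN'.ne'
  have hu3 := Int.emod_lt_of_pos (x - 1) hN'
  have hw1 := Int.mul_ediv_add_emod (y - 1) N
  have hw2 := Int.emod_nonneg (y - 1) hN'.ne'
  have hw3 := Int.emod_lt_of_pos (y - 1) hN'
  rw [mem_enl_iff hN, mem_enl_iff hN]
  -- floors of `N c + t`, `N c - t`, `N c + t - 1`, `N c - t - 1`
  have f1 : ∀ (c : ℤ) (t : ℕ), t < N → (N * c + (t : ℤ)) / N = c := by
    intro c t ht
    rw [Int.ediv_eq_iff_of_pos hN']
    constructor
    · nlinarith [(Nat.cast_nonneg t : (0 : ℤ) ≤ t)]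
    · have : (t : ℤ) < N := by exact_mod_cast ht
      nlinarith
  have f2 : ∀ (c : ℤ) (t : ℕ), t < N → (N * c - (t : ℤ) - 1) / N = c - 1 := by
    intro c t ht
    rw [Int.ediv_eq_iff_of_pos hN']
    have h1 : (t : ℤ) < N := by exact_mod_cast ht
    have h2 : (0 : ℤ) ≤ t := Nat.cast_nonneg t
    constructor <;> nlinarith
  have f3 : ∀ c : ℤ, (N * c) / N = c := fun c => Int.mul_ediv_cancel_left c hN'.ne'
  have f4 : ∀ c : ℤ, (N * c - 1) / N = c - 1 := by
    intro c
    have := f2 c 0 hN
    simpa using this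
  fin_cases r
  · -- east
    have e : (⟨0, by norm_num⟩ : Fin 4) - 1 = 3 := rfl
    simp only [Fin.zero_eta, face, dir, Matrix.cons_val_zero, Matrix.cons_val, e,
      Prod.mk_add_mk, add_zero, Prod.smul_mk, smul_eq_mul, mul_one, mul_zero, Fin.reduceSub,
      Fin.isValue, zero_sub]
    rw [show y + -1 = y - 1 by ring]
    constructor
    · rintro ⟨h1, h2⟩
      have hne : (y - 1) / (N : ℤ) ≠ y / N := by
        intro h; rw [h] at h2; exact h2 h1
      obtain ⟨g1, g2⟩ := div_sub_one hN' hne
      refine ⟨(x / N, y / N), (x % N).toNat, by omega, ?_, ?_, ?_⟩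
      · rw [Int.toNat_of_nonneg hx2]
        simp only [Prod.smul_mk, smul_eq_mul, Prod.mk_add_mk, add_zero, Prod.mk.injEq]
        exact ⟨hx1.symm, g1⟩
      · simpa using h1
      · rw [g2] at h2
        simpa [sub_eq_add_neg] using h2
    · rintro ⟨⟨a, b⟩, t, ht, h, h1, h2⟩
      simp only [Prod.smul_mk, smul_eq_mul, Prod.mk_add_mk, add_zero, Prod.mk.injEq] at h h1 h2
      obtain ⟨rfl, rfl⟩ := h
      rw [f1 a t ht, f3, f4]
      exact ⟨h1, h2⟩
  · -- north
    simp only [Fin.mk_one, face, dir, Matrix.cons_val_zero, Matrix.cons_val_one, Matrix.cons_val,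
      Prod.mk_add_mk, add_zero, Prod.smul_mk, smul_eq_mul, mul_one, mul_zero, sub_self]
    rw [show x + -1 = x - 1 by ring]
    constructor
    · rintro ⟨h1, h2⟩
      have hne : (x - 1) / (N : ℤ) ≠ x / N := by
        intro h; rw [h] at h1; exact h2 h1
      obtain ⟨g1, g2⟩ := div_sub_one hN' hne
      refine ⟨(x / N, y / N), (y % N).toNat, by omega, ?_, ?_, ?_⟩
      · rw [Int.toNat_of_nonneg hy2]
        simp only [Prod.smul_mk, smul_eq_mul, Prod.mk_add_mk, add_zero, Prod.mk.injEq]
        exact ⟨g1, hy1.symm⟩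
      · rw [g2] at h1
        simpa [sub_eq_add_neg] using h1
      · simpa using h2
    · rintro ⟨⟨a, b⟩, t, ht, h, h1, h2⟩
      simp only [Prod.smul_mk, smul_eq_mul, Prod.mk_add_mk, add_zero, Prod.mk.injEq] at h h1 h2
      obtain ⟨rfl, rfl⟩ := h
      rw [f1 b t ht, f3, f4]
      exact ⟨h1, h2⟩
  · -- west
    have e : (⟨2, by norm_num⟩ : Fin 4) - 1 = 1 := rfl
    simp only [Fin.reduceFinMk, face, dir, Matrix.cons_val_zero, Matrix.cons_val_one,
      Matrix.cons_val, e, Prod.mk_add_mk, add_zero, Prod.smul_mk, smul_eq_mul, mul_zero,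
      mul_neg, mul_one, Fin.reduceSub, Fin.isValue]
    rw [show x + -1 = x - 1 by ring, show y + -1 = y - 1 by ring]
    constructor
    · rintro ⟨h1, h2⟩
      have hne : (y - 1) / (N : ℤ) ≠ y / N := by
        intro h; rw [h] at h1; exact h2 h1
      obtain ⟨g1, g2⟩ := div_sub_one hN' hne
      refine ⟨((x - 1) / N + 1, y / N), (N - 1 - (x - 1) % N).toNat, by omega, ?_, ?_, ?_⟩
      · rw [Int.toNat_of_nonneg (by omega)]
        simp only [Prod.smul_mk, smul_eq_mul, Prod.mk_add_mk, add_zero, Prod.mk.injEq]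
        refine ⟨?_, g1⟩
        linarith
      · rw [g2] at h1
        simpa [sub_eq_add_neg] using h1
      · simpa [sub_eq_add_neg] using h2
    · rintro ⟨⟨a, b⟩, t, ht, h, h1, h2⟩
      simp only [Prod.smul_mk, smul_eq_mul, Prod.mk_add_mk, add_zero, Prod.mk.injEq] at h h1 h2
      obtain ⟨rfl, rfl⟩ := h
      rw [show (N : ℤ) * a + -(t : ℤ) - 1 = N * a - t - 1 by ring, f2 a t ht, f3, f4]
      exact ⟨h1, h2⟩
  · -- south
    have e : (⟨3, by norm_num⟩ : Fin 4) - 1 = 2 := rfl
    simp only [Fin.reduceFinMk, face, dir, Matrix.cons_val_zero, Matrix.cons_val_one,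
      Matrix.cons_val, e, Prod.mk_add_mk, add_zero, Prod.smul_mk, smul_eq_mul, mul_zero,
      mul_neg, mul_one, Fin.reduceSub, Fin.isValue]
    rw [show x + -1 = x - 1 by ring, show y + -1 = y - 1 by ring]
    constructor
    · rintro ⟨h1, h2⟩
      have hne : (x - 1) / (N : ℤ) ≠ x / N := by
        intro h; rw [h] at h2; exact h2 h1
      obtain ⟨g1, g2⟩ := div_sub_one hN' hne
      refine ⟨(x / N, (y - 1) / N + 1), (N - 1 - (y - 1) % N).toNat, by omega, ?_, ?_, ?_⟩
      · rw [Int.toNat_of_nonneg (by omega)]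
        simp only [Prod.smul_mk, smul_eq_mul, Prod.mk_add_mk, add_zero, Prod.mk.injEq]
        refine ⟨g1, ?_⟩
        linarith
      · simpa [sub_eq_add_neg] using h1
      · rw [g2] at h2
        simpa [sub_eq_add_neg] using h2
    · rintro ⟨⟨a, b⟩, t, ht, h, h1, h2⟩
      simp only [Prod.smul_mk, smul_eq_mul, Prod.mk_add_mk, add_zero, Prod.mk.injEq] at h h1 h2
      obtain ⟨rfl, rfl⟩ := h
      rw [show (N : ℤ) * b + -(t : ℤ) - 1 = N * b - t - 1 by ring, f2 b t ht, f3, f4]
      exact ⟨h1, h2⟩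

theorem re_encl {S : Finset (ℤ × ℤ)} (hq : IsPolygon q) (hE : Encloses q S) (hN : 0 < N) (s : ℕ) :
    Encloses (re q N s) (CA.enl S N) := by
  have hm : 2 < m := hq.1
  have hnm : NeZero m := ⟨by omega⟩
  have hne : NeZero (N * m) := ⟨by positivity⟩
  intro v r
  rw [enl_edge hN]
  constructor
  · rintro ⟨x, h1, h2⟩
    rw [re_succ hq hN, pe_succ hN] at h2
    set i : ZMod m := (((x.val + s) / N : ℕ) : ZMod m) with hi
    have h1' : pe q N (x.val + s) = v := h1
    have h3 : q (i + 1) - q i = dir r := by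
      rw [h1'] at h2
      exact add_left_cancel h2
    refine ⟨q i, (x.val + s) % N, Nat.mod_lt _ hN, ?_, ?_⟩
    · rw [← h1', pe_eq, ← hi, h3]
    · rw [← hE (q i) r]
      exact ⟨i, rfl, by rw [← h3]; abel⟩
  · rintro ⟨a, t, ht, rfl, h⟩
    rw [← hE a r] at h
    obtain ⟨i, h1, h2⟩ := h
    -- the index `N i + t - s`
    obtain ⟨c, hc⟩ : ∃ c : ℕ, s ≤ N * i.val + t + N * m * c := by
      refine ⟨s, ?_⟩
      have h3 : 1 ≤ N * m := Nat.one_le_iff_ne_zero.2 (by positivity)
      calc s = 1 * s := (one_mul s).symm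
        _ ≤ N * m * s := Nat.mul_le_mul_right s h3
        _ ≤ _ := Nat.le_add_left _ _
    set w : ℕ := N * i.val + t + N * m * c - s with hw
    have hws : w + s = N * i.val + t + N * m * c := by omega
    have h3 : q ((i.val : ℕ) : ZMod m) = a := by rw [ZMod.natCast_zmod_val]; exact h1
    have h4 : q (((i.val : ℕ) : ZMod m) + 1) = a + dir r := by rw [ZMod.natCast_zmod_val]; exact h2
    have h5 : pe q N (w + s) = (N : ℤ) • a + (t : ℤ) • dir r := by
      rw [hws, pe_add hN, pe_mul_add hN _ ht, h3, h4, add_sub_cancel_left]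
    refine ⟨(w : ZMod (N * m)), ?_, ?_⟩
    · rw [re_nat hN, h5]
    · have e : ((w : ZMod (N * m)) + 1) = ((w + 1 : ℕ) : ZMod (N * m)) := by push_cast; rfl
      rw [e, re_nat hN, show w + 1 + s = w + s + 1 by ring, pe_succ hN, h5]
      have e2 : ((w + s) / N : ℕ) = i.val + m * c := by
        rw [hws, mul_assoc, Nat.add_mul_div_left _ _ hN, Nat.mul_add_div hN,
          Nat.div_eq_of_lt ht, add_zero]
      have e3 : (((w + s) / N : ℕ) : ZMod m) = i := by
        rw [e2]; push_cast; simp
      rw [e3, h1, h2, add_sub_cancel_left]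

/-- Flatness of the enlargement. -/
theorem enl_flat {S : Finset (ℤ × ℤ)} (hN : 0 < N) {b : ℤ × ℤ} {ρ : ℤ} (h : BR.Flt S b ρ) {R : ℤ}
    (hR : R ≤ N * ρ) : BR.Flt (CA.enl S N) ((N : ℤ) • b) R := by
  have hN' : (0 : ℤ) < N := by exact_mod_cast hN
  intro v h1 h2 h3 h4
  simp only [Prod.smul_fst, Prod.smul_snd, smul_eq_mul] at h1 h2 h3 h4 ⊢
  rw [mem_enl_iff hN]
  have a1 : b.1 - ρ ≤ v.1 / N := by rw [Int.le_ediv_iff_mul_le hN']; nlinarith
  have a2 : v.1 / N < b.1 + ρ := by rw [Int.ediv_lt_iff_lt_mul hN']; nlinarith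
  have a3 : b.2 - ρ ≤ v.2 / N := by rw [Int.le_ediv_iff_mul_le hN']; nlinarith
  have a4 : v.2 / N < b.2 + ρ := by rw [Int.ediv_lt_iff_lt_mul hN']; nlinarith
  rw [h _ a1 a2 a3 a4]
  show b.2 ≤ v.2 / N ↔ _
  rw [Int.le_ediv_iff_mul_le hN']
  constructor <;> intro h5 <;> nlinarith

end

section Shp

variable {P : Shp} {N : ℕ}

theorem en_eq (hN : 0 < N) (v₀ : ℤ × ℤ) (t : ℕ) :
    en N v₀ P (t : ZMod (N * P.m)) = pe P.q N t + v₀ := by
  unfold en
  rw [← pe_eq, ZMod.val_natCast, pe_mod hN]

theorem sq_eq (hN : 0 < N) (v₀ : ℤ × ℤ) : sq N v₀ P = (CA.enl P.S N).image (· + v₀) := by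
  classical
  unfold sq
  congr 1
  ext f
  rw [mem_enl_iff hN, Finset.mem_biUnion]
  have hN' : (0 : ℤ) < N := by exact_mod_cast hN
  constructor
  · rintro ⟨v, hv, h⟩
    rw [Finset.mem_product, Finset.mem_Ico, Finset.mem_Ico] at h
    have e1 : f.1 / N = v.1 := by
      rw [Int.ediv_eq_iff_of_pos hN']
      constructor <;> nlinarith [h.1.1, h.1.2]
    have e2 : f.2 / N = v.2 := by
      rw [Int.ediv_eq_iff_of_pos hN']
      constructor <;> nlinarith [h.2.1, h.2.2]
    rw [e1, e2]
    exact hv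
  · intro h
    refine ⟨_, h, ?_⟩
    rw [Finset.mem_product, Finset.mem_Ico, Finset.mem_Ico]
    have h1 := Int.mul_ediv_add_emod f.1 N
    have h2 := Int.emod_nonneg f.1 hN'.ne'
    have h3 := Int.emod_lt_of_pos f.1 hN'
    have h4 := Int.mul_ediv_add_emod f.2 N
    have h5 := Int.emod_nonneg f.2 hN'.ne'
    have h6 := Int.emod_lt_of_pos f.2 hN'
    refine ⟨⟨?_, ?_⟩, ?_, ?_⟩ <;> simp only <;> nlinarith

theorem larc_tr (hN : 0 < N) (v₀ : ℤ × ℤ) : larc N v₀ P = (· + v₀) '' larc N 0 P := by
  ext z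
  constructor
  · rintro ⟨x, h1, h2, rfl⟩
    refine ⟨pe P.q N x, ⟨x, h1, h2, ?_⟩, ?_⟩
    · rw [en_eq hN, add_zero]
    · rw [en_eq hN]
  · rintro ⟨w, ⟨x, h1, h2, rfl⟩, rfl⟩
    refine ⟨x, h1, h2, ?_⟩
    simp only [en_eq hN, add_zero]

/-- The arc of the rerooted polygon. -/
theorem arc_re (hN : 0 < N) {k : ℕ} (hk : 0 < P.k) (hk' : k = N * P.k - N / 2) :
    BR.arc (re P.q N (N / 2)) k = larc N 0 P := by
  have h2 : N / 2 ≤ N * P.k := (Nat.div_le_self _ _).trans (Nat.le_mul_of_pos_right _ hk)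
  ext z
  constructor
  · rintro ⟨i, hi, rfl⟩
    refine ⟨i + N / 2, Nat.le_add_left _ _, by omega, ?_⟩
    rw [en_eq hN, add_zero, re_nat hN]
  · rintro ⟨x, h1, h3, rfl⟩
    refine ⟨x - N / 2, by omega, ?_⟩
    rw [en_eq hN, add_zero, re_nat hN]
    congr 1
    omega

end Shp

end Vale.Agent.P167.CL
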