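import Vale.Agent.P167.CL.TopDefs
import Vale.Agent.P167.CA.Cell
import Mathlib.Analysis.Calculus.BumpFunction.FiniteDimension
import Mathlib.Analysis.Calculus.BumpFunction.Normed

/-!
# P167, block CLOSE: smooth bumps and their cell masses
-/

set_option autoImplicit false

open MeasureTheory Filter Topology Set

namespace Vale.Agent.P167.CL

open Vale.Agent.P167.BVP (Test)
open Vale.Agent.P167.CA (cms enl cl mem_cl measurableSet_cl cms_eq)
open Vale.Agent.P167.E6 (pt region)
open Vale.Agent.P167.BR (Bmp Flt hbox sites)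

/-- There is a bump. -/
theorem exists_bmp0 : ∃ χ : ℂ → ℝ, Bmp0 χ := by
  set c : ℂ := ⟨0, 3 / 8⟩ with hc
  let f : ContDiffBump c := ⟨1 / 32, 1 / 16, by norm_num, by norm_num⟩
  refine ⟨fun z => Real.pi / 3 * f.normed volume z, ?_, ?_, ?_, ?_⟩
  · exact contDiff_const.mul f.contDiff_normed
  · intro z
    exact mul_nonneg (by positivity) (f.nonneg_normed z)
  · have h1 : tsupport (fun z => Real.pi / 3 * f.normed volume z) ⊆ tsupport (f.normed volume) :=
      closure_mono fun z hz => by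
        rw [Function.mem_support] at hz ⊢
        exact right_ne_zero_of_mul hz
    refine h1.trans ?_
    rw [f.tsupport_normed_eq]
    intro z hz
    rw [Metric.mem_closedBall, dist_eq_norm] at hz
    have hr : f.rOut = 1 / 16 := rfl
    rw [hr] at hz
    have h2 := (Complex.abs_re_le_norm (z - c)).trans hz
    have h3 := (Complex.abs_im_le_norm (z - c)).trans hz
    rw [Complex.sub_re, hc] at h2
    rw [Complex.sub_im, hc] at h3
    simp only [sub_zero] at h2 h3
    rw [abs_le] at h3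
    refine ⟨h2.trans (by norm_num), by linarith [h3.1], by linarith [h3.2]⟩
  · rw [integral_const_mul, f.integral_normed, mul_one]

variable {χ : ℂ → ℝ}

theorem Bmp0.compact (h : Bmp0 χ) : HasCompactSupport χ := by
  refine HasCompactSupport.of_support_subset_isCompact (K := Metric.closedBall 0 1)
    (isCompact_closedBall _ _) fun z hz => ?_
  obtain ⟨h1, h2, h3⟩ := h.supp (subset_tsupport _ hz)
  rw [mem_closedBall_zero_iff]
  refine (Complex.norm_le_abs_re_add_abs_im z).trans ?_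
  rw [abs_of_nonneg (by linarith : (0 : ℝ) ≤ z.im)]
  linarith

theorem Bmp0.bdd (h : Bmp0 χ) : ∃ B : ℝ, 0 < B ∧ ∀ z, χ z ≤ B := by
  obtain ⟨B, hB⟩ := h.smooth.continuous.bounded_above_of_compact_support h.compact
  refine ⟨max B 1, by positivity, fun z => ?_⟩
  have := hB z
  rw [Real.norm_eq_abs] at this
  exact (le_abs_self _).trans (this.trans (le_max_left _ _))

section scale

variable {b : ℂ} {η : ℝ}

theorem bmp_nonneg (h : Bmp0 χ) (z : ℂ) : 0 ≤ bmp χ b η z :=
  div_nonneg (h.nonneg _) (by positivity)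

theorem bmp_smooth (h : Bmp0 χ) : ContDiff ℝ (⊤ : ℕ∞) (bmp χ b η) := by
  unfold bmp
  have h1 : ContDiff ℝ (⊤ : ℕ∞) fun z : ℂ => (z - b) / η := by fun_prop
  exact (h.smooth.comp h1).div_const _

theorem bmp_ne {z : ℂ} (h : Bmp0 χ) (hη : 0 < η) (hz : z ∈ tsupport (bmp χ b η)) :
    |z.re - b.re| ≤ η / 2 ∧ η / 4 ≤ z.im - b.im ∧ z.im - b.im ≤ η / 2 := by
  have hcl : IsClosed {z : ℂ | |z.re - b.re| ≤ η / 2 ∧ η / 4 ≤ z.im - b.im ∧
      z.im - b.im ≤ η / 2} := by
    have c1 : Continuous fun z : ℂ => |z.re - b.re| := by fun_prop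
    have c2 : Continuous fun z : ℂ => z.im - b.im := by fun_prop
    exact (isClosed_le c1 continuous_const).inter ((isClosed_le continuous_const c2).inter
      (isClosed_le c2 continuous_const))
  refine closure_minimal ?_ hcl hz
  intro w hw
  have h1 : χ ((w - b) / η) ≠ 0 := by
    intro h0
    apply hw
    rw [bmp, h0, zero_div]
  obtain ⟨h2, h3, h4⟩ := h.supp (subset_tsupport _ h1)
  have e1 : ((w - b) / η).re = (w.re - b.re) / η := by
    rw [Complex.div_ofReal_re, Complex.sub_re]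
  have e2 : ((w - b) / η).im = (w.im - b.im) / η := by
    rw [Complex.div_ofReal_im, Complex.sub_im]
  rw [e1, abs_div, abs_of_pos hη, div_le_iff₀ hη] at h2
  rw [e2, le_div_iff₀ hη] at h3
  rw [e2, div_le_iff₀ hη] at h4
  exact ⟨by linarith, by linarith, by linarith⟩

theorem bmp_compact (h : Bmp0 χ) (hη : 0 < η) : HasCompactSupport (bmp χ b η) := by
  refine HasCompactSupport.of_support_subset_isCompact (K := Metric.closedBall b η)
    (isCompact_closedBall _ _) fun z hz => ?_
  obtain ⟨h1, h2, h3⟩ := bmp_ne h hη (subset_tsupport _ hz)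
  rw [Metric.mem_closedBall, dist_eq_norm]
  refine (Complex.norm_le_abs_re_add_abs_im _).trans ?_
  rw [Complex.sub_re, Complex.sub_im, abs_of_nonneg (by linarith : (0 : ℝ) ≤ z.im - b.im)]
  linarith

theorem bmp_test (h : Bmp0 χ) {P : Set ℂ} {r : ℝ} (hP : FlatAt P b r) (hη : 0 < η) (hr : η ≤ r) :
    Test P (bmp χ b η) := by
  refine ⟨bmp_smooth h, bmp_compact h hη, fun z hz => ?_⟩
  obtain ⟨h1, h2, h3⟩ := bmp_ne h hη hz
  refine (hP z (by linarith) ?_).2 (by linarith)
  rw [abs_of_nonneg (by linarith)]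
  linarith

theorem bmp_mass (h : Bmp0 χ) (hη : 0 < η) : ∫ z, bmp χ b η z = Real.pi / 3 := by
  unfold bmp
  rw [integral_div]
  have h1 : ∫ z : ℂ, χ ((z - b) / η) = ∫ z : ℂ, χ (z / η) :=
    integral_sub_right_eq_self (fun z : ℂ => χ (z / η)) b
  have h2 : ∫ z : ℂ, χ (z / η) = η ^ 2 * ∫ z, χ z := by
    have h3 := Measure.integral_comp_inv_smul (volume : Measure ℂ) χ η
    rw [Complex.finrank_real_complex, smul_eq_mul, abs_of_nonneg (by positivity)] at h3
    rw [← h3]
    congr 1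
    funext z
    rw [Complex.real_smul]
    congr 1
    push_cast
    field_simp
  rw [h1, h2, h.mass]
  field_simp

theorem bmp_le {B : ℝ} (hB : ∀ z, χ z ≤ B) (z : ℂ) : bmp χ b η z ≤ B / η ^ 2 := by
  unfold bmp
  exact div_le_div_of_nonneg_right (hB _) (by positivity)

end scale

/-- The cell of a site with upper right corner `s / n`. -/
theorem mem_cell {n : ℕ} (hn : 0 < n) {s : ℤ × ℤ} {z : ℂ} (h : z ∈ cl n s) :
    ((s.1 : ℝ) - 1 ≤ n * z.re ∧ n * z.re < s.1) ∧ ((s.2 : ℝ) - 1 ≤ n * z.im ∧ n * z.im < s.2) := by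
  obtain ⟨h1, h2⟩ := h
  rw [div_div_eq_mul_div, div_one, Int.floor_eq_iff] at h1 h2
  push_cast at h1 h2
  refine ⟨⟨?_, ?_⟩, ?_, ?_⟩ <;> nlinarith [h1.1, h1.2, h2.1, h2.2]

theorem vol_cell {n : ℕ} (hn : 0 < n) (s : ℤ × ℤ) : volume.real (cl n s) ≤ 1 / (n : ℝ) ^ 2 := by
  have hn' : (0 : ℝ) < n := by exact_mod_cast hn
  set a : ℂ := ⟨((s.1 : ℝ) - 1) / n, ((s.2 : ℝ) - 1) / n⟩ with ha
  set c : ℂ := ⟨(s.1 : ℝ) / n, (s.2 : ℝ) / n⟩ with hc
  have hsub : cl n s ⊆ Icc a.re c.re ×ℂ Icc a.im c.im := by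
    intro z hz
    obtain ⟨⟨h1, h2⟩, h3, h4⟩ := mem_cell hn hz
    rw [Complex.mem_reProdIm]
    refine ⟨⟨?_, ?_⟩, ?_, ?_⟩
    · rw [ha]; simp only; rw [div_le_iff₀ hn']; linarith
    · rw [hc]; simp only; rw [le_div_iff₀ hn']; linarith
    · rw [ha]; simp only; rw [div_le_iff₀ hn']; linarith
    · rw [hc]; simp only; rw [le_div_iff₀ hn']; linarith
  have hv : volume (Icc a.re c.re ×ℂ Icc a.im c.im) = ENNReal.ofReal (1 / n) * ENNReal.ofReal (1 / n) := by
    have h1 : (Icc a.re c.re ×ℂ Icc a.im c.im) =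
        Complex.measurableEquivRealProd ⁻¹' (Icc a.re c.re ×ˢ Icc a.im c.im) := by
      ext z
      simp only [Complex.mem_reProdIm, mem_preimage, Complex.measurableEquivRealProd_apply,
        mem_prod]
    rw [h1, Complex.volume_preserving_equiv_real_prod.measure_preimage
      (measurableSet_Icc.prod measurableSet_Icc).nullMeasurableSet, Measure.volume_eq_prod,
      Measure.prod_prod, Real.volume_Icc, Real.volume_Icc]
    have e1 : c.re - a.re = 1 / n := by rw [ha, hc]; simp only; field_simp; ring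
    have e2 : c.im - a.im = 1 / n := by rw [ha, hc]; simp only; field_simp; ring
    rw [e1, e2]
  have hfin : volume (Icc a.re c.re ×ℂ Icc a.im c.im) ≠ ⊤ := by
    rw [hv]; exact (ENNReal.mul_lt_top ENNReal.ofReal_lt_top ENNReal.ofReal_lt_top).ne
  refine (measureReal_mono hsub hfin).trans (le_of_eq ?_)
  rw [Measure.real, hv, ← ENNReal.ofReal_mul (by positivity), ENNReal.toReal_ofReal (by positivity)]
  field_simp

/-- **The cell masses of a bump.** -/
theorem bmp_cms {B : ℝ} (h : Bmp0 χ) (hB0 : 0 < B) (hB : ∀ z, χ z ≤ B) {n : ℕ} {η : ℝ}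
    (hη : 0 < η) (hn : 2 ≤ η * n) {β : ℤ × ℤ} {Q : Finset (ℤ × ℤ)} {r : ℝ}
    (hQ : FlatAt (interior (region 1 Q)) (pt β) r) (hr : η ≤ r) :
    Bmp (max (4 * B) 8) ((n : ℤ) • β) ⌈η * n⌉ (cms (bmp χ (pt β) η) (1 / n)) := by
  have hn0 : 0 < n := by
    rcases Nat.eq_zero_or_pos n with h0 | h0
    · rw [h0] at hn; norm_num at hn
    · exact h0
  have hn' : (0 : ℝ) < n := by exact_mod_cast hn0
  have ht : Test (interior (region 1 Q)) (bmp χ (pt β) η) := bmp_test h hQ hη hr
  have hint : Integrable (bmp χ (pt β) η) := CA.Test.integrable ht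
  have hr1 : η * n ≤ (⌈η * n⌉ : ℝ) := Int.le_ceil _
  have hr2 : (⌈η * n⌉ : ℝ) ≤ 2 * (η * n) := by
    have := (Int.ceil_lt_add_one (η * n)).le
    linarith
  have hr0 : (0 : ℝ) < (⌈η * n⌉ : ℝ) := by linarith
  have hs1 : (((n : ℤ) • β).1 : ℝ) = n * β.1 := by simp
  have hs2 : (((n : ℤ) • β).2 : ℝ) = n * β.2 := by simp
  have hre : (pt β).re = β.1 := rfl
  have him : (pt β).im = β.2 := rfl
  refine ⟨fun z => ?_, fun z => ?_, fun z hz => ?_, ?_⟩
  · rw [cms_eq]
    exact integral_nonneg fun w => bmp_nonneg h w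
  · rw [cms_eq]
    have h1 : ‖∫ w in cl n z, bmp χ (pt β) η w‖ ≤ B / η ^ 2 * volume.real (cl n z) := by
      refine norm_setIntegral_le_of_norm_le_const ?_ fun w _ => ?_
      · refine lt_of_le_of_lt ?_ (lt_top_iff_ne_top.2 (ENNReal.ofReal_ne_top (r := 1)))
        by_contra hlt
        push Not at hlt
        rcases eq_or_ne (volume (cl n z)) ⊤ with htop | htop
        · have hcb : cl n z ⊆ Metric.closedBall 0 ((|(z.1 : ℝ)| + 1 + (|(z.2 : ℝ)| + 1)) / n) := by
            intro w hw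
            obtain ⟨⟨g1, g2⟩, g3, g4⟩ := mem_cell hn0 hw
            rw [mem_closedBall_zero_iff, le_div_iff₀ hn']
            have a1 : |w.re| * n ≤ |(z.1 : ℝ)| + 1 := by
              have h5 : |w.re| * n = |n * w.re| := by
                rw [abs_mul, abs_of_pos hn']; ring
              rw [h5, abs_le]
              constructor
              · linarith [neg_abs_le (z.1 : ℝ)]
              · linarith [le_abs_self (z.1 : ℝ)]
            have a2 : |w.im| * n ≤ |(z.2 : ℝ)| + 1 := by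
              have h5 : |w.im| * n = |n * w.im| := by
                rw [abs_mul, abs_of_pos hn']; ring
              rw [h5, abs_le]
              constructor
              · linarith [neg_abs_le (z.2 : ℝ)]
              · linarith [le_abs_self (z.2 : ℝ)]
            have := mul_le_mul_of_nonneg_right (Complex.norm_le_abs_re_add_abs_im w) hn'.le
            linarith
          exact absurd htop ((measure_mono hcb).trans_lt measure_closedBall_lt_top).ne
        · have h6 := vol_cell hn0 z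
          have h7 : volume.real (cl n z) ≤ 1 := by
            refine h6.trans ?_
            rw [div_le_one (by positivity)]
            have : (1 : ℝ) ≤ n := by exact_mod_cast hn0
            nlinarith
          have h8 : volume (cl n z) ≤ ENNReal.ofReal 1 := by
            rw [← ENNReal.ofReal_toReal htop]
            exact ENNReal.ofReal_le_ofReal h7
          exact absurd h8 (not_le.2 hlt)
      · rw [Real.norm_eq_abs, abs_of_nonneg (bmp_nonneg h w)]
        exact bmp_le hB w
    refine (le_abs_self _).trans (h1.trans ?_)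
    calc B / η ^ 2 * volume.real (cl n z) ≤ B / η ^ 2 * (1 / (n : ℝ) ^ 2) := by
          gcongr; exact vol_cell hn0 z
      _ = B / (η * n) ^ 2 := by field_simp
      _ = 4 * B / (2 * (η * n)) ^ 2 := by field_simp; ring
      _ ≤ 4 * B / (⌈η * n⌉ : ℝ) ^ 2 := by gcongr
      _ ≤ max (4 * B) 8 / (⌈η * n⌉ : ℝ) ^ 2 := by gcongr; exact le_max_left _ _
  · have hex : ∃ w ∈ cl n z, bmp χ (pt β) η w ≠ 0 := by
      by_contra hcon
      push Not at hcon
      apply hz
      rw [cms_eq]
      exact setIntegral_eq_zero_of_forall_eq_zero hcon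
    obtain ⟨w, hw, hne⟩ := hex
    obtain ⟨g1, g2, g3⟩ := bmp_ne h hη (subset_tsupport _ hne)
    obtain ⟨⟨k1, k2⟩, k3, k4⟩ := mem_cell hn0 hw
    rw [hre, abs_le] at g1
    rw [him] at g2 g3
    have m1 : n * w.re - n * β.1 ≤ η * n / 2 := by nlinarith [g1.2]
    have m2 : -(η * n / 2) ≤ n * w.re - n * β.1 := by nlinarith [g1.1]
    have m3 : η * n / 4 ≤ n * w.im - n * β.2 := by nlinarith
    have m4 : n * w.im - n * β.2 ≤ η * n / 2 := by nlinarith
    have c1 : ((n : ℤ) • β).1 - ⌈η * n⌉ ≤ z.1 := by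
      have : (((n : ℤ) • β).1 : ℝ) - ⌈η * n⌉ < z.1 + 1 := by rw [hs1]; linarith
      have h9 : ((((n : ℤ) • β).1 - ⌈η * n⌉ : ℤ) : ℝ) < ((z.1 + 1 : ℤ) : ℝ) := by
        push_cast; exact_mod_cast this
      have := Int.cast_lt.1 h9
      omega
    have c2 : z.1 ≤ ((n : ℤ) • β).1 + ⌈η * n⌉ := by
      have : (z.1 : ℝ) ≤ (((n : ℤ) • β).1 : ℝ) + ⌈η * n⌉ := by rw [hs1]; linarith
      exact_mod_cast this
    have c4 : z.2 ≤ ((n : ℤ) • β).2 + ⌈η * n⌉ := by
      have : (z.2 : ℝ) ≤ (((n : ℤ) • β).2 : ℝ) + ⌈η * n⌉ := by rw [hs2]; linarith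
      exact_mod_cast this
    refine ⟨c1, c2, ?_, c4⟩
    rw [hs2]
    have hK : (8 : ℝ) ≤ max (4 * B) 8 := le_max_right _ _
    have h10 : (⌈η * n⌉ : ℝ) / max (4 * B) 8 ≤ η * n / 4 := by
      rw [div_le_iff₀ (by linarith)]
      nlinarith
    linarith
  · have h1 := CA.sum_cms (Q := Q) (n := n) hn0 hint (fun x hx => CA.Test.mem ht hx) (fun _ => 1)
    simp only [mul_one] at h1
    rw [bmp_mass h hη] at h1
    rw [← h1]
    refine finsum_eq_sum_of_support_subset _ fun z hz => ?_
    rw [Finset.mem_coe]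
    rw [Function.mem_support] at hz
    have hex : ∃ w ∈ cl n z, bmp χ (pt β) η w ≠ 0 := by
      by_contra hcon
      push Not at hcon
      apply hz
      rw [cms_eq]
      exact setIntegral_eq_zero_of_forall_eq_zero hcon
    obtain ⟨w, hw, hne⟩ := hex
    rw [← mem_cl.1 hw]
    exact CA.cs_mem hn0 (CA.Test.mem ht hne)

end Vale.Agent.P167.CL
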