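import Vale.Agent.P167.CL.LocT

/-!
# P167, block CLOSE: the cut, lattice side

A chain of squares `c 0, c 1, …` (consecutive ones with a common side), `c 0` below the base `b` of the
zone, frozen open; its neighbours are frozen closed. Then the cut is as in `CutOk`.
-/

set_option autoImplicit false

open MeasureTheory Filter Topology Set Metric

namespace Vale.Agent.P167.CL

open Vale.Agent.P145.FB (PStep)
open Vale.Agent.P167.H531 Vale.Agent.P167.H558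
open Vale.Agent.P167.E6 Vale.Agent.P167.E2 Vale.Agent.P167.H411
open Vale.Agent.P167.H161 (Rd cex_eq)

/-! ### Corners and chains of squares -/

/-- `u` is a corner of the square `v`. -/
def Crn (v u : ℤ × ℤ) : Prop := (u.1 = v.1 ∨ u.1 = v.1 + 1) ∧ (u.2 = v.2 ∨ u.2 = v.2 + 1)

/-- Two squares with a common side. -/
def SAdj (v w : ℤ × ℤ) : Prop :=
  (v.1 = w.1 ∧ (v.2 = w.2 + 1 ∨ w.2 = v.2 + 1)) ∨ (v.2 = w.2 ∧ (v.1 = w.1 + 1 ∨ w.1 = v.1 + 1))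

theorem SAdj.symm {v w : ℤ × ℤ} (h : SAdj v w) : SAdj w v := by
  unfold SAdj at h ⊢; omega

theorem crn_of_step {c : ℤ} {i u v : ℤ × ℤ} (h : StM c i u v) : Crn i u ∧ Crn i v := by
  obtain ⟨h1, h2, h3, -⟩ := h
  have e1 : i.1 = min u.1 v.1 := by rw [h1]
  have e2 : i.2 = min u.2 v.2 := by rw [h1]
  unfold Crn
  omega

theorem mem_sites {B : Finset (ℤ × ℤ)} {u : ℤ × ℤ} : u ∈ BR.sites B ↔ ∃ v ∈ B, Crn v u := by
  unfold BR.sites Crn
  simp only [Finset.mem_biUnion, Finset.mem_insert, Finset.mem_singleton, Prod.ext_iff]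
  constructor
  · rintro ⟨v, hv, h⟩
    exact ⟨v, hv, by omega⟩
  · rintro ⟨v, hv, h⟩
    exact ⟨v, hv, by omega⟩

/-- Two even corners of a square are joined by it. -/
theorem cn_sq {G : Set (ℤ × ℤ)} {v u u' : ℤ × ℤ} (hv : v ∈ G) (hu : Crn v u) (hu' : Crn v u')
    (h0 : (u.1 + u.2) % 2 = 0) (h0' : (u'.1 + u'.2) % 2 = 0) : Cn (StM 0) G u u' := by
  by_cases h : u = u'
  · rw [h]; exact Cn.refl _ _
  · refine Relation.ReflTransGen.single ⟨v, hv, ?_⟩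
    have hne : u.1 ≠ u'.1 ∨ u.2 ≠ u'.2 := by
      by_contra hcon
      push Not at hcon
      exact h (Prod.ext hcon.1 hcon.2)
    unfold Crn at hu hu'
    refine ⟨Prod.ext ?_ ?_, ?_, ?_, h0⟩
    · show v.1 = min u.1 u'.1
      omega
    · show v.2 = min u.2 u'.2
      omega
    · omega
    · omega

/-- Squares with a common side have a common even corner. -/
theorem SAdj.corner {v w : ℤ × ℤ} (h : SAdj v w) :
    ∃ u, Crn v u ∧ Crn w u ∧ (u.1 + u.2) % 2 = 0 := by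
  unfold SAdj at h
  have mk : ∀ a b : ℤ, (a = v.1 ∨ a = v.1 + 1) ∧ (b = v.2 ∨ b = v.2 + 1) →
      (a = w.1 ∨ a = w.1 + 1) ∧ (b = w.2 ∨ b = w.2 + 1) → (a + b) % 2 = 0 →
      ∃ u, Crn v u ∧ Crn w u ∧ (u.1 + u.2) % 2 = 0 := fun a b h1 h2 h3 => ⟨(a, b), h1, h2, h3⟩
  rcases h with ⟨h1, h2⟩ | ⟨h1, h2⟩
  · by_cases hp : (v.1 + max v.2 w.2) % 2 = 0
    · exact mk v.1 (max v.2 w.2) (by omega) (by omega) hp
    · exact mk (v.1 + 1) (max v.2 w.2) (by omega) (by omega) (by omega)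
  · by_cases hp : (max v.1 w.1 + v.2) % 2 = 0
    · exact mk (max v.1 w.1) v.2 (by omega) (by omega) (by omega)
    · exact mk (max v.1 w.1) (v.2 + 1) (by omega) (by omega) (by omega)

/-- The squares of `G` are connected through sides. -/
def SConn (G : Set (ℤ × ℤ)) : Prop :=
  ∀ v ∈ G, ∀ w ∈ G, Relation.ReflTransGen (fun a b => SAdj a b ∧ b ∈ G) v w

theorem cn_conn {G : Set (ℤ × ℤ)} {v w u u' : ℤ × ℤ} (hv : v ∈ G)
    (h : Relation.ReflTransGen (fun a b => SAdj a b ∧ b ∈ G) v w) (hu : Crn v u) (hu' : Crn w u')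
    (h0 : (u.1 + u.2) % 2 = 0) (h0' : (u'.1 + u'.2) % 2 = 0) : Cn (StM 0) G u u' := by
  induction h generalizing u' with
  | refl => exact cn_sq hv hu hu' h0 h0'
  | @tail a b hab hb ih =>
    obtain ⟨z, hz1, hz2, hz0⟩ := hb.1.corner
    exact (ih hz1 hz0).trans (cn_sq hb.2 hz2 hu' hz0 h0')

theorem SConn.cn {G : Set (ℤ × ℤ)} (hG : SConn G) {v w u u' : ℤ × ℤ} (hv : v ∈ G) (hw : w ∈ G)
    (hu : Crn v u) (hu' : Crn w u') (h0 : (u.1 + u.2) % 2 = 0) (h0' : (u'.1 + u'.2) % 2 = 0) :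
    Cn (StM 0) G u u' := cn_conn hv (hG v hv w hw) hu hu' h0 h0'

/-- The class of `x`. -/
theorem class_even {G : Set (ℤ × ℤ)} {x u : ℤ × ℤ} (h0 : (x.1 + x.2) % 2 = 0)
    (h : Cn (StM 0) G x u) : (u.1 + u.2) % 2 = 0 ∧ (u = x ∨ ∃ v ∈ G, Crn v u) := by
  induction h with
  | refl => exact ⟨h0, Or.inl rfl⟩
  | @tail a b _ hb ih =>
    obtain ⟨i, hi, hs⟩ := hb
    refine ⟨?_, Or.inr ⟨i, hi, (crn_of_step hs).2⟩⟩
    obtain ⟨-, h2, h3, h4⟩ := hs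
    omega

/-- `CutOk` from a connected set of open squares. -/
theorem cutOk_of {D Kc B O : Finset (ℤ × ℤ)} {κ : Cfg} {x : ℤ × ℤ} {T : Set (ℤ × ℤ)}
    (hκ : ∀ v ∈ D, v ∈ Kc → (κ v = true ↔ v ∈ O)) (hOD : O ⊆ D) (hOK : O ⊆ Kc) (hB : B ⊆ D)
    (hcon : SConn (↑O ∪ ↑B : Set (ℤ × ℤ))) (hx0 : (x.1 + x.2) % 2 = 0) (hx : ∃ v ∈ O, Crn v x)
    (hout : ∀ v ∈ O, ∀ i ∈ D, i ∉ Kc → i ∉ B → ∀ u, (u.1 + u.2) % 2 = 0 → Crn v u → Crn i u →
      u ∈ BR.sites B)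
    (htgt : ∀ t ∈ T, ∀ v ∈ O, Crn v t → t ∈ BR.sites B) (hdis : Disjoint Kc B) :
    CutOk D Kc B κ x T := by
  obtain ⟨v₀, hv₀, hx⟩ := hx
  have hG : (op κ ∩ (↑D ∩ ↑Kc)) ∪ (↑D ∩ ↑B) = (↑O ∪ ↑B : Set (ℤ × ℤ)) := by
    ext v
    simp only [op, mem_union, mem_inter_iff, mem_ofPred_eq, Finset.mem_coe]
    constructor
    · rintro (⟨h1, h2, h3⟩ | ⟨-, h⟩)
      · exact Or.inl ((hκ v h2 h3).1 h1)
      · exact Or.inr h
    · rintro (h | h)
      · exact Or.inl ⟨(hκ v (hOD h) (hOK h)).2 h, hOD h, hOK h⟩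
      · exact Or.inr ⟨hB h, h⟩
  have key : ∀ u, Cn (StM 0) (↑O ∪ ↑B : Set (ℤ × ℤ)) x u → (u.1 + u.2) % 2 = 0 ∧
      ((∃ v ∈ O, Crn v u) ∨ u ∈ ev (BR.sites B)) := by
    intro u hu
    obtain ⟨h1, h2⟩ := class_even hx0 hu
    refine ⟨h1, ?_⟩
    rcases h2 with rfl | ⟨v, hv | hv, h2⟩
    · exact Or.inl ⟨v₀, hv₀, hx⟩
    · exact Or.inl ⟨v, hv, h2⟩
    · exact Or.inr ⟨mem_sites.2 ⟨v, hv, h2⟩, h1⟩
  refine ⟨?_, ?_, ?_, ?_, hdis⟩
  · rintro z ⟨hz, hz0⟩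
    rw [hG]
    obtain ⟨w, hw, hwz⟩ := mem_sites.1 (Finset.mem_coe.1 hz)
    exact hcon.cn (Or.inl hv₀) (Or.inr hw) hx hwz hx0 hz0
  · intro u hu i hi hK hiB v hs
    rw [hG] at hu
    obtain ⟨h1, h2⟩ := key u hu
    rcases h2 with ⟨w, hw, h2⟩ | h2
    · exact ⟨hout w hw i hi hK hiB u h1 h2 (crn_of_step hs).1, h1⟩
    · exact h2
  · intro i hi hK hκi u v hs
    rw [hG]
    have hO := (hκ i hi hK).1 hκi
    exact hcon.cn (Or.inl hv₀) (Or.inl hO) hx (crn_of_step hs).1 hx0 hs.2.2.2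
  · intro t ht hc
    rw [hG] at hc
    obtain ⟨h1, h2⟩ := key t hc
    rcases h2 with ⟨w, hw, h2⟩ | h2
    · exact ⟨htgt t ht w hw h2, h1⟩
    · exact h2

/-! ### Boxes and chains -/

theorem sconn_rect (a b c d : ℤ) : SConn (↑(Finset.Icc a b ×ˢ Finset.Icc c d) : Set (ℤ × ℤ)) := by
  -- rows
  have hrow : ∀ (n : ℕ) (x y z : ℤ), c ≤ z → z ≤ d → a ≤ x → x ≤ b → a ≤ y → y ≤ b →
      (x - y = n ∨ y - x = n) → Relation.ReflTransGen (fun p q : ℤ × ℤ => SAdj p q ∧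
        q ∈ (↑(Finset.Icc a b ×ˢ Finset.Icc c d) : Set (ℤ × ℤ))) (x, z) (y, z) := by
    intro n
    induction n with
    | zero =>
      intro x y z _ _ _ _ _ _ h
      have : x = y := by omega
      rw [this]
    | succ n ih =>
      intro x y z h1 h2 h3 h4 h5 h6 h
      push_cast at h
      rcases lt_or_ge x y with hxy | hxy
      · refine Relation.ReflTransGen.tail (ih x (y - 1) z h1 h2 h3 h4 (by omega) (by omega)
          (by omega)) ⟨?_, ?_⟩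
        · exact Or.inr ⟨rfl, Or.inr (by show y = y - 1 + 1; omega)⟩
        · simp only [Finset.coe_product, Finset.coe_Icc, mem_prod, mem_Icc]; omega
      · refine Relation.ReflTransGen.tail (ih x (y + 1) z h1 h2 h3 h4 (by omega) (by omega)
          (by omega)) ⟨?_, ?_⟩
        · exact Or.inr ⟨rfl, Or.inl rfl⟩
        · simp only [Finset.coe_product, Finset.coe_Icc, mem_prod, mem_Icc]; omega
  have hcol : ∀ (n : ℕ) (x y z : ℤ), a ≤ z → z ≤ b → c ≤ x → x ≤ d → c ≤ y → y ≤ d →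
      (x - y = n ∨ y - x = n) → Relation.ReflTransGen (fun p q : ℤ × ℤ => SAdj p q ∧
        q ∈ (↑(Finset.Icc a b ×ˢ Finset.Icc c d) : Set (ℤ × ℤ))) (z, x) (z, y) := by
    intro n
    induction n with
    | zero =>
      intro x y z _ _ _ _ _ _ h
      have : x = y := by omega
      rw [this]
    | succ n ih =>
      intro x y z h1 h2 h3 h4 h5 h6 h
      push_cast at h
      rcases lt_or_ge x y with hxy | hxy
      · refine Relation.ReflTransGen.tail (ih x (y - 1) z h1 h2 h3 h4 (by omega) (by omega)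
          (by omega)) ⟨?_, ?_⟩
        · exact Or.inl ⟨rfl, Or.inr (by show y = y - 1 + 1; omega)⟩
        · simp only [Finset.coe_product, Finset.coe_Icc, mem_prod, mem_Icc]; omega
      · refine Relation.ReflTransGen.tail (ih x (y + 1) z h1 h2 h3 h4 (by omega) (by omega)
          (by omega)) ⟨?_, ?_⟩
        · exact Or.inl ⟨rfl, Or.inl rfl⟩
        · simp only [Finset.coe_product, Finset.coe_Icc, mem_prod, mem_Icc]; omega
  rintro ⟨x, y⟩ h ⟨x', y'⟩ h'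
  simp only [Finset.coe_product, Finset.coe_Icc, mem_prod, mem_Icc] at h h'
  obtain ⟨n, hn⟩ : ∃ n : ℕ, x - x' = n ∨ x' - x = n := ⟨(x - x').natAbs, by omega⟩
  obtain ⟨m, hm⟩ : ∃ m : ℕ, y - y' = m ∨ y' - y = m := ⟨(y - y').natAbs, by omega⟩
  exact (hrow n x x' y (by omega) (by omega) (by omega) (by omega) (by omega) (by omega) hn).trans
    (hcol m y y' x' (by omega) (by omega) (by omega) (by omega) (by omega) (by omega) hm)

theorem sconn_hbox (b : ℤ × ℤ) (r : ℤ) : SConn (↑(BR.hbox b r) : Set (ℤ × ℤ)) :=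
  sconn_rect _ _ _ _

/-- Union of two connected sets with adjacent squares. -/
theorem SConn.union {G H : Set (ℤ × ℤ)} (hG : SConn G) (hH : SConn H) {v w : ℤ × ℤ} (hv : v ∈ G)
    (hw : w ∈ H) (h : SAdj v w) : SConn (G ∪ H) := by
  have mG : ∀ {x y : ℤ × ℤ}, Relation.ReflTransGen (fun a b => SAdj a b ∧ b ∈ G) x y →
      Relation.ReflTransGen (fun a b => SAdj a b ∧ b ∈ G ∪ H) x y := fun h =>
    Relation.ReflTransGen.mono (fun a b h => ⟨h.1, Or.inl h.2⟩) _ _ h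
  have mH : ∀ {x y : ℤ × ℤ}, Relation.ReflTransGen (fun a b => SAdj a b ∧ b ∈ H) x y →
      Relation.ReflTransGen (fun a b => SAdj a b ∧ b ∈ G ∪ H) x y := fun h =>
    Relation.ReflTransGen.mono (fun a b h => ⟨h.1, Or.inr h.2⟩) _ _ h
  rintro x (hx | hx) y (hy | hy)
  · exact mG (hG x hx y hy)
  · exact ((mG (hG x hx v hv)).tail ⟨h, Or.inr hw⟩).trans (mH (hH w hw y hy))
  · exact ((mH (hH x hx w hw)).tail ⟨h.symm, Or.inl hv⟩).trans (mG (hG v hv y hy))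
  · exact mH (hH x hx y hy)

/-- A chain of squares is connected. -/
theorem sconn_chain {c : ℕ → ℤ × ℤ} {L : ℕ} (h : ∀ i, i + 1 < L → SAdj (c i) (c (i + 1))) :
    SConn {v | ∃ i < L, c i = v} := by
  set G : Set (ℤ × ℤ) := {v | ∃ i < L, c i = v} with hG
  have up : ∀ i j, i ≤ j → j < L →
      Relation.ReflTransGen (fun a b => SAdj a b ∧ b ∈ G) (c i) (c j) := by
    intro i j hij
    induction j, hij using Nat.le_induction with
    | base => intro _; exact Relation.ReflTransGen.refl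
    | succ j _ ih =>
      intro hj
      exact (ih (by omega)).tail ⟨h j hj, j + 1, hj, rfl⟩
  have dn : ∀ i j, i ≤ j → j < L →
      Relation.ReflTransGen (fun a b => SAdj a b ∧ b ∈ G) (c j) (c i) := by
    intro i j hij
    induction j, hij using Nat.le_induction with
    | base => intro _; exact Relation.ReflTransGen.refl
    | succ j _ ih =>
      intro hj
      exact Relation.ReflTransGen.head ⟨(h j hj).symm, j, by omega, rfl⟩ (ih (by omega))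
  rintro v ⟨i, hi, rfl⟩ w ⟨j, hj, rfl⟩
  rcases le_total i j with hij | hij
  · exact up i j hij hj
  · exact dn j i hij hi

/-- **The cut, for a chain.** -/
theorem cutOk_chain {D Kc : Finset (ℤ × ℤ)} {κ : Cfg} {x b : ℤ × ℤ} {r : ℤ} {T : Set (ℤ × ℤ)}
    {c : ℕ → ℤ × ℤ} {L : ℕ} (hL : 0 < L) (hr : 0 < r) (hc0 : c 0 = (b.1, b.2 - 1))
    (hc : ∀ i, i + 1 < L → SAdj (c i) (c (i + 1))) (hcD : ∀ i < L, c i ∈ D)
    (hcK : ∀ i < L, c i ∈ Kc) (hκ : ∀ v ∈ D, v ∈ Kc → (κ v = true ↔ ∃ i < L, c i = v))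
    (hB : BR.hbox b r ⊆ D) (hdis : Disjoint Kc (BR.hbox b r))
    (hN : ∀ j < L, ∀ i ∈ D, i ∉ Kc → (∃ u, Crn (c j) u ∧ Crn i u) → j = 0 ∧ b.2 ≤ i.2)
    (hx0 : (x.1 + x.2) % 2 = 0) (hx : Crn (c (L - 1)) x)
    (hT : ∀ t ∈ T, ∀ j < L, ¬ Crn (c j) t) : CutOk D Kc (BR.hbox b r) κ x T := by
  classical
  set O : Finset (ℤ × ℤ) := (Finset.range L).image c with hO
  have mO : ∀ {v}, v ∈ O ↔ ∃ i < L, c i = v := by
    intro v
    simp only [hO, Finset.mem_image, Finset.mem_range]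
  have hOs : (↑O : Set (ℤ × ℤ)) = {v | ∃ i < L, c i = v} := by
    ext v
    rw [Finset.mem_coe, mO]
    rfl
  have hb0 : b ∈ BR.hbox b r := by
    rw [BR.hbox, Finset.mem_product, Finset.mem_Icc, Finset.mem_Icc]
    omega
  refine cutOk_of (O := O) (fun v h1 h2 => (hκ v h1 h2).trans mO.symm) ?_ ?_ hB ?_ hx0 ?_ ?_ ?_ hdis
  · intro v hv
    obtain ⟨i, hi, rfl⟩ := mO.1 hv
    exact hcD i hi
  · intro v hv
    obtain ⟨i, hi, rfl⟩ := mO.1 hv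
    exact hcK i hi
  · rw [hOs]
    refine SConn.union (sconn_chain hc) (sconn_hbox b r) (v := c 0) (w := b) ⟨0, hL, rfl⟩ hb0 ?_
    rw [hc0]
    exact Or.inl ⟨rfl, Or.inr (by simp only; omega)⟩
  · exact ⟨c (L - 1), mO.2 ⟨L - 1, by omega, rfl⟩, hx⟩
  · intro v hv i hi hK hiB u h0 hu hiu
    obtain ⟨j, hj, rfl⟩ := mO.1 hv
    obtain ⟨rfl, h2⟩ := hN j hj i hi hK ⟨u, hu, hiu⟩
    rw [hc0] at hu
    rw [mem_sites]
    unfold Crn at hu hiu
    simp only at hu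
    by_cases h1 : u.1 = b.1
    · refine ⟨b, hb0, ?_⟩
      unfold Crn
      omega
    · refine ⟨b, hb0, ?_⟩
      unfold Crn
      omega
  · intro t ht v hv htv
    obtain ⟨j, hj, rfl⟩ := mO.1 hv
    exact absurd htv (hT t ht j hj)

/-! ### Islands -/

/-- Squares which do not touch `P` do not matter for paths from the zone of `P`. -/
theorem jn_island {P PE : Finset (ℤ × ℤ)} (hP : P ⊆ PE)
    (hi : ∀ i ∈ PE, i ∉ P → ∀ v ∈ P, ∀ u, Crn i u → ¬ Crn v u) {ω : Cfg} {U T : Set (ℤ × ℤ)}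
    (hU : U ⊆ ↑(BR.sites P)) : BR.Jn true PE ω U T ↔ BR.Jn true P ω U T := by
  rw [jn_iff, jn_iff]
  constructor
  · rintro ⟨u, hu, t, ht, h⟩
    refine ⟨u, hu, t, ht, ?_⟩
    have key : ∀ w, Cn (StM 0) (op ω ∩ ↑PE) u w → Cn (StM 0) (op ω ∩ ↑P) u w ∧ w ∈ BR.sites P := by
      intro w hw
      induction hw with
      | refl => exact ⟨Cn.refl _ _, hU hu.1⟩
      | @tail a b _ hb ih =>
        obtain ⟨ih1, ih2⟩ := ih
        obtain ⟨i, ⟨hi1, hi2⟩, hs⟩ := hb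
        obtain ⟨v, hv, hva⟩ := mem_sites.1 ih2
        have hiP : i ∈ P := by
          by_contra hcon
          exact hi i hi2 hcon v hv a (crn_of_step hs).1 hva
        exact ⟨ih1.tail ⟨i, ⟨hi1, hiP⟩, hs⟩, mem_sites.2 ⟨i, hiP, (crn_of_step hs).2⟩⟩
    exact (key t h).1
  · rintro ⟨u, hu, t, ht, h⟩
    refine ⟨u, hu, t, ht, h.mono ?_⟩
    rintro i ⟨h1, h2⟩
    exact ⟨h1, hP h2⟩

theorem OF_island {P PE : Finset (ℤ × ℤ)} (hP : P ⊆ PE)
    (hi : ∀ i ∈ PE, i ∉ P → ∀ v ∈ P, ∀ u, Crn i u → ¬ Crn v u) {L : Set (ℤ × ℤ)} {b : ℤ × ℤ} {r : ℤ}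
    (hb : BR.hbox b r ⊆ P) (F : Cfg → ℝ) : OF PE L b r F = OF P L b r F := by
  classical
  unfold OF ind
  refine integral_congr_ae (ae_of_all _ fun ω => ?_)
  have h := jn_island hP hi (ω := ω) (U := ↑(BR.sites (BR.hbox b r))) (T := L) fun u hu => by
    obtain ⟨v, hv, h⟩ := mem_sites.1 (Finset.mem_coe.1 hu)
    exact Finset.mem_coe.2 (mem_sites.2 ⟨v, hb hv, h⟩)
  show F ω * (if BR.Jn true PE ω (BR.sites (BR.hbox b r)) L then 1 else 0) =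
    F ω * (if BR.Jn true P ω (BR.sites (BR.hbox b r)) L then 1 else 0)
  by_cases h1 : BR.Jn true PE ω (BR.sites (BR.hbox b r)) L
  · rw [if_pos h1, if_pos (h.1 h1)]
  · rw [if_neg h1, if_neg fun h2 => h1 (h.2 h2)]

/-- `geo_i` with islands: `P` is a part of `PE \ Kc` which does not touch the rest. -/
theorem geo_i' (δ : ℕ → ℝ) (N k : ℕ → ℕ) (p : ∀ n, ZMod (N n) → ℤ × ℤ)
    (S : ℕ → Finset (ℤ × ℤ)) (ψn : ℕ → ℂ → ℂ) (n : ℕ) {A : Finset (Sym2 (ℤ × ℤ))}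
    (hA : A ⊆ edges (S n)) (j : ℕ) {Kc PE P : Finset (ℤ × ℤ)} {κ : Cfg} {x y : ℤ × ℤ}
    {L : Set (ℤ × ℤ)} {b : ℤ × ℤ} {r Rb : ℤ} (hrR : r ≤ Rb)
    (hx : CutOk (H192.dq (p n) (k n) (S n)) Kc (BR.hbox b r) κ x (wst (p n) (k n)))
    (hy : CutOk PE Kc (BR.hbox b r) κ y L) (hP : P ⊆ PE \ Kc)
    (hisl : ∀ i ∈ PE \ Kc, i ∉ P → ∀ v ∈ P, ∀ u, Crn i u → ¬ Crn v u)
    (hbP : BR.hbox b r ⊆ P)
    (hB : BR.hbox b Rb ⊆ H192.dq (p n) (k n) (S n))
    (hBK : Disjoint Kc (BR.hbox b Rb)) (hBR : Disjoint (Rd (p n) (k n) (S n) A j) (BR.hbox b Rb))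
    (hKR : Disjoint (Rd (p n) (k n) (S n) A j) Kc) (hPR : Disjoint (Rd (p n) (k n) (S n) A j) PE)
    {e : ℝ} (he : 0 ≤ e)
    (hcmp : ∀ ω₀ : Cfg, (∀ v ∈ Rd (p n) (k n) (S n) A j, ω₀ v = H192.cfg (A : Set _) v) →
      (∀ v ∈ Kc, ω₀ v = κ v) → (∀ v ∈ BR.hbox b r, ω₀ v = true) →
      cpr fair (StM 0) (H192.dq (p n) (k n) (S n))
          (Rd (p n) (k n) (S n) A j ∪ Kc ∪ BR.hbox b Rb) {x} (wst (p n) (k n)) ω₀ ≤
        cpr fair (StM 0) PE (Rd (p n) (k n) (S n) A j ∪ Kc ∪ BR.hbox b Rb) {y} L ω₀ +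
          ENNReal.ofReal e ∧
      cpr fair (StM 0) PE (Rd (p n) (k n) (S n) A j ∪ Kc ∪ BR.hbox b Rb) {y} L ω₀ ≤
        cpr fair (StM 0) (H192.dq (p n) (k n) (S n))
          (Rd (p n) (k n) (S n) A j ∪ Kc ∪ BR.hbox b Rb) {x} (wst (p n) (k n)) ω₀ +
          ENNReal.ofReal e)
    {F : Cfg → ℝ} (hF : DepOn (BR.hbox b Rb) F) :
    |cex (exn δ N k p S ψn n) (fun A' => F (H192.cfg (A' : Set _)) *
        ind (H192.dq (p n) (k n) (S n) \ Kc) (wst (p n) (k n)) b r (H192.cfg (A' : Set _))) A j -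
      OF P L b r F| ≤ e * ∫ ω, |F ω| ∂μ := by
  rw [← OF_island hP hisl hbP F]
  exact geo_i δ N k p S ψn n hA j hrR hx hy rfl hB hBK hBR hKR hPR he hcmp hF

end Vale.Agent.P167.CL
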