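import Vale.Agent.P167.CL.Cut
import Vale.Agent.P167.H531.Hcmp
import Vale.Agent.P167.H450.Brick2
import Vale.Agent.P167.H161.ArmE
import Vale.Agent.P167.H756.Exn

/-!
# P167, block CUT: definitions and statements

Coordinates: the rotated plane (multiplication by `1 + I`), moved and scaled such that the marked point
`b'` is `0` and the faces have side `ℓ`. The cut: the bricks `KF` (a box of size `q` below `b'`, the row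
below the line, and a straight leg in one of the four directions `dv`) and the closed segment
`lam = [w - (d / 4 - ℓ) dv, w]`, `w` a point outside of `D` such that `D` contains the balls of radius
`τ / 2` around `w - τ dv`. `gg = [w - τ₀ dv, w]` is the short end of the segment.
-/

set_option autoImplicit false

open MeasureTheory Filter Topology Set Metric Complex

namespace Vale.Agent.P167.CL

open Vale.Agent.P153.R2 (Ex)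
open Vale.Agent.P153.R2.R1 (IsU)
open Vale.Agent.P164 (loewnerDomain)
open Vale.Agent.P167.E6 Vale.Agent.P167.E2 Vale.Agent.P167.H411 Vale.Agent.P167.H450

/-- Parameters of the cut, in faces: horizontal (`hor`) or vertical leg, in the positive (`pos`) or
negative direction; `2 m` is the column of the vertical leg, `q` the size of the box below `b'`, `e`
the index of the last brick of the leg. -/
structure CutP where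
  hor : Bool
  pos : Bool
  m : ℤ
  q : ℤ
  e : ℤ

/-- The sign of the direction. -/
def CutP.sg (c : CutP) : ℤ := if c.pos then 1 else -1

/-- The direction of the leg. -/
noncomputable def CutP.dv (c : CutP) : ℂ := if c.hor then (c.sg : ℂ) else (c.sg : ℂ) * I

/-- The faces met by the cut: the box, the row below the line, the leg. -/
def CutP.lf (c : CutP) : Set (ℤ × ℤ) :=
  {F | (-c.q ≤ F.2 ∧ F.2 < 0 ∧ -c.q ≤ F.1 ∧ F.1 < c.q) ∨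
    (c.hor = true ∧ F.2 = -1 ∧ 0 ≤ c.sg * F.1 ∧ c.sg * F.1 ≤ 2 * c.e) ∨
    (c.hor = false ∧ F.2 = -1 ∧ 0 ≤ F.1 ∧ F.1 ≤ 2 * c.m) ∨
    (c.hor = false ∧ c.pos = true ∧ F.1 = 2 * c.m ∧ -1 ≤ F.2 ∧ F.2 ≤ c.e) ∨
    (c.hor = false ∧ c.pos = false ∧ F.1 = 2 * c.m ∧ -c.e ≤ F.2 ∧ F.2 ≤ -1)}

/-- The faces of the bricks of the cut. -/
def CutP.KF (c : CutP) : Set (ℤ × ℤ) := {F | ∃ G ∈ c.lf, br F = br G}

/-- The segment of the cut. -/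
def lam (ℓ d : ℝ) (c : CutP) (w : ℂ) : Set ℂ := segment ℝ (w - ((d / 4 - ℓ : ℝ) : ℂ) * c.dv) w

/-- The end of the segment. -/
def gg (τ₀ : ℝ) (c : CutP) (w : ℂ) : Set ℂ := segment ℝ (w - (τ₀ : ℂ) * c.dv) w

/-- The whole cut. -/
def cutSet (ℓ d : ℝ) (c : CutP) (w : ℂ) : Set ℂ := reg ℓ c.KF ∪ lam ℓ d c w

/-- The geometric hypotheses. `ϱ` is the margin of the bricks, `μ` the error of the position. -/
structure CutC (ℓ ϱ μ d τ₀ : ℝ) (c : CutP) (D : Set ℂ) (w : ℂ) : Prop where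
  hℓ : 0 < ℓ
  hϱ : 0 < ϱ
  hμ : 0 ≤ μ
  hμℓ : 8 * μ ≤ ℓ
  hτ : 4 * ϱ + 20 * ℓ ≤ τ₀
  hd : 32 * (τ₀ + ϱ + ℓ) ≤ d
  hq : 32 ≤ c.q
  hqd : 64 * (ℓ * (c.q + 3)) ≤ d
  hm : c.q + 3 ≤ 2 * c.m
  hmd : 64 * (ℓ * (2 * c.m + 3)) ≤ d
  posh : c.hor = true → |w.im + ℓ / 2| ≤ μ ∧ |c.sg * w.re - d / 4| ≤ μ
  posv : c.hor = false → |w.re - ℓ * (2 * c.m + 1 / 2)| ≤ μ ∧ |c.sg * w.im - d / 4| ≤ μ
  eh : c.hor = true →
    ℓ * (2 * c.e + 1) ≤ c.sg * w.re - τ₀ - ϱ ∧ c.sg * w.re - τ₀ - ϱ < ℓ * (2 * c.e + 3)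
  evp : c.hor = false → c.pos = true →
    ℓ * (c.e + 1) ≤ w.im - τ₀ - ϱ ∧ w.im - τ₀ - ϱ < ℓ * (c.e + 2)
  evn : c.hor = false → c.pos = false →
    ℓ * c.e ≤ -w.im - τ₀ - ϱ ∧ -w.im - τ₀ - ϱ < ℓ * (c.e + 1)
  out : w ∉ D
  clr : ∀ τ : ℝ, 0 < τ → τ ≤ d / 2 → ball (w - (τ : ℂ) * c.dv) (τ / 2) ⊆ D

/-- **[CutG1]** Elementary geometry of the cut. -/
def S_cutG1 : Prop := ∀ (ℓ ϱ μ d τ₀ : ℝ) (c : CutP) (D : Set ℂ) (w : ℂ),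
  CutC ℓ ϱ μ d τ₀ c D w →
    IsPreconnected (cutSet ℓ d c w) ∧
    (∀ z ∈ cutSet ℓ d c w, dist z w ≤ d / 3) ∧
    (∀ z ∈ D, z ∉ gg τ₀ c w → z ∈ cutSet ℓ d c w →
      ∃ F, z ∈ sqr ℓ F ∧ ¬ (obk ℓ (br F) ⊆ D \ cutSet ℓ d c w)) ∧
    c.KF ⊆ GF ℓ ϱ (D \ gg τ₀ c w) (D \ gg τ₀ c w) ∧
    (∀ F ∉ c.KF, (obk ℓ (br F) ∩ lam ℓ d c w).Nonempty →
      F ∉ GF ℓ ϱ (D \ gg τ₀ c w) (D \ gg τ₀ c w)) ∧
    (∀ F : ℤ × ℤ, 0 ≤ F.2 → F.2 < c.q → -c.q ≤ F.1 → F.1 < c.q →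
      F ∈ GF ℓ ϱ (D \ cutSet ℓ d c w) (D \ gg τ₀ c w))

/-- **[CutG2]** The base point can be joined to the point above `b'` off the cut. -/
def S_cutG2 : Prop := ∀ (ℓ ϱ μ d τ₀ : ℝ) (c : CutP) (D : Set ℂ) (w : ℂ),
  CutC ℓ ϱ μ d τ₀ c D w → ∀ (c₀ : ℝ) (C : Set ℂ) (z₀ : ℂ), 32 * ℓ ≤ c₀ → IsPreconnected C →
    z₀ ∈ C → w - ((d / 4 : ℝ) : ℂ) * c.dv ∈ C → (∀ z ∈ C, ball z c₀ ⊆ D) → d ≤ dist z₀ w →
    ∃ C' : Set ℂ, IsPreconnected C' ∧ z₀ ∈ C' ∧ ((ℓ * c.q / 2 : ℝ) : ℂ) * I ∈ C' ∧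
      ∀ z ∈ C', ball z (min c₀ (ℓ * c.q) / 16) ⊆ D \ cutSet ℓ d c w

/-- The centre of the square `v` in the plane of `E6` (mesh `δ`). -/
noncomputable def zc (δ : ℝ) (v : ℤ × ℤ) : ℂ :=
  δ * (((v.1 : ℂ) + 1 / 2) + ((v.2 : ℂ) + 1 / 2) * I) / (1 + I)

/-- The closed square `v` of the rotated plane (mesh `δ`). -/
def csq (δ : ℝ) (v : ℤ × ℤ) : Set ℂ :=
  {w | δ * v.1 ≤ w.re ∧ w.re ≤ δ * (v.1 + 1) ∧ δ * v.2 ≤ w.im ∧ w.im ≤ δ * (v.2 + 1)}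

/-- **[CutW]** A straight row of squares, from a deep square to a point `w` (of the rotated plane)
outside of the domain: the first contact with the polygon is a free vertex. Also: deep squares are
squares of the domain and have no corner on the polygon. -/
def S_cutW : Prop := ∀ (n : ℕ) (p : ZMod n → ℤ × ℤ) (S : Finset (ℤ × ℤ)) (k : ℕ) (δ : ℝ),
  IsPolygon p → Encloses p S → 0 < δ →
    (∀ v : ℤ × ℤ, ball (zc δ v) (3 * δ) ⊆ Om δ S → v ∈ H192.dq p k S ∧ ∀ i, ¬ Crn v (H192.ro (p i))) ∧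
    ∀ (w : ℂ) (v s : ℤ × ℤ) (K : ℕ), (s = (1, 0) ∨ s = (-1, 0) ∨ s = (0, 1) ∨ s = (0, -1)) →
      (∀ z ∈ Om δ S, (1 + I) * z ≠ w) → ball (zc δ v) (3 * δ) ⊆ Om δ S → w ∈ csq δ (v + K • s) →
      (∀ i : ℕ, k ≤ i → i < n → ((K : ℝ) + 4) * δ < dist ((1 + I) * ((δ : ℂ) * pt (p i))) w) →
      ∃ L j : ℕ, L ≤ K ∧ j < k ∧ (∀ i ≤ L, v + i • s ∈ H192.dq p k S) ∧
        (∀ i < L, ∀ m, ¬ Crn (v + i • s) (H192.ro (p m))) ∧ Crn (v + L • s) (H192.ro (p j))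

/-- The coordinate of the site `u` perpendicular to the unit vector `s`, relative to `v`. -/
def perp (s v u : ℤ × ℤ) : ℤ := if s.1 = 0 then u.1 - v.1 else u.2 - v.2

/-- The coordinate along the unit vector `s`. -/
def alon (s v u : ℤ × ℤ) : ℤ := s.1 * (u.1 - v.1) + s.2 * (u.2 - v.2)

/-- The site `u` is on the line through the near side of the square `v`, seen in the direction `s`. -/
def Near (s v u : ℤ × ℤ) : Prop :=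
  (s = (1, 0) ∧ u.1 = v.1) ∨ (s = (-1, 0) ∧ u.1 = v.1 + 1) ∨ (s = (0, 1) ∧ u.2 = v.2) ∨
    (s = (0, -1) ∧ u.2 = v.2 + 1)

/-- **[Tube]** The closed squares around the straight leg `v, v + s, …, v + L s` which ends at the
polygon vertex `p j` do not join its two sides. -/
def S_tube : Prop := ∀ (n : ℕ) (p : ZMod n → ℤ × ℤ) (S : Finset (ℤ × ℤ)) (k : ℕ),
  IsPolygon p → Encloses p S → ∀ (v s : ℤ × ℤ) (L j : ℕ),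
    (s = (1, 0) ∨ s = (-1, 0) ∨ s = (0, 1) ∨ s = (0, -1)) →
    (∀ m, ¬ Crn (v - s) (H192.ro (p m))) → (∀ i ≤ L, v + i • s ∈ H192.dq p k S) →
    (∀ i < L, ∀ m, ¬ Crn (v + i • s) (H192.ro (p m))) → Crn (v + L • s) (H192.ro (p j)) →
    ∀ G : Set (ℤ × ℤ), (∀ g ∈ G, g ∈ H192.dq p k S ∧ (∀ i ≤ L, g ≠ v + i • s) ∧ 0 ≤ alon s v g ∧
      ∃ i ≤ L, ∃ u : ℤ × ℤ, (u.1 + u.2) % 2 = 0 ∧ Crn (v + i • s) u ∧ Crn g u) →
    ∀ a b : (ℤ × ℤ) ⊕ ZMod n, H531.Cn (H531.StQ p S) G a b → Near s v (H531.pos p a) →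
      Near s v (H531.pos p b) →
      (perp s v (H531.pos p a) ≤ 0 ↔ perp s v (H531.pos p b) ≤ 0)

/-- **[Sep]** Uniform injectivity near the real point `X`, and uniform continuity. -/
def S_sep : Prop := ∀ (Φ : (ℝ × ℝ) ≃ₜ (ℝ × ℝ)) (ψ : ℂ → ℂ)
  (δ : ℕ → ℝ) (N k : ℕ → ℕ) (p : ∀ n, ZMod (N n) → ℤ × ℤ) (S : ℕ → Finset (ℤ × ℤ))
  (ψn : ℕ → ℂ → ℂ), Set6 Φ ψ δ N k p S ψn → ∀ M κ : ℝ, 0 < κ →
    (∃ η : ℝ, 0 < η ∧ ∀ᶠ n in atTop, ∀ z z' : ℂ, 0 ≤ z.im → 0 ≤ z'.im → ‖z‖ ≤ M →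
      dist (ψn n z) (ψn n z') ≤ η → dist z z' ≤ κ) ∧
    ∃ η : ℝ, 0 < η ∧ ∀ᶠ n in atTop, ∀ z z' : ℂ, 0 ≤ z.im → 0 ≤ z'.im → ‖z‖ ≤ M →
      dist z z' ≤ η → dist (ψn n z) (ψn n z') ≤ κ

/-- **[Pick]** The point `w` and the direction of the leg, in the rotated plane. -/
def S_pick : Prop := ∀ (Φ : (ℝ × ℝ) ≃ₜ (ℝ × ℝ)) (ψ : ℂ → ℂ)
  (δ : ℕ → ℝ) (N k : ℕ → ℕ) (p : ∀ n, ZMod (N n) → ℤ × ℤ) (S : ℕ → Finset (ℤ × ℤ))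
  (ψn : ℕ → ℂ → ℂ), Set6 Φ ψ δ N k p S ψn → ∀ X κ : ℝ, 0 < X → 0 < κ →
    ∃ d : ℝ, 0 < d ∧ ∀ᶠ n in atTop, ∃ (w : ℂ) (hor pos : Bool),
      (∀ z ∈ Om (δ n) (S n), (1 + I) * z ≠ w) ∧
      (∀ τ : ℝ, 0 < τ → τ ≤ d / 2 → ∀ u ∈ ball (w - (τ : ℂ) * (CutP.mk hor pos 0 0 0).dv) (τ / 2),
        ∃ z ∈ Om (δ n) (S n), (1 + I) * z = u) ∧
      ∀ z : ℂ, 0 ≤ z.im → dist ((1 + I) * ψn n z) w ≤ 8 * d → dist z X ≤ κ

/-- **[Path]** A connected set from the base point to a point near `ψn X` at uniform distance from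
the boundary of the slit domains. -/
def S_path : Prop := ∀ (Φ : (ℝ × ℝ) ≃ₜ (ℝ × ℝ)) (ψ : ℂ → ℂ)
  (δ : ℕ → ℝ) (N k : ℕ → ℕ) (p : ∀ n, ZMod (N n) → ℤ × ℤ) (S : ℕ → Finset (ℤ × ℤ))
  (ψn : ℕ → ℂ → ℂ), Set6 Φ ψ δ N k p S ψn → ∀ T R X Y r : ℝ, 0 ≤ T → 0 ≤ R → 0 < X → 8 * R ≤ X →
    256 * T ≤ X ^ 2 → 0 < Y → 8 * R ≤ Y → 64 * T ≤ Y ^ 2 → 0 < r →
    ∃ c₀ : ℝ, 0 < c₀ ∧ ∀ᶠ n in atTop, ∀ (W : ℝ → ℝ) (t : ℝ), H756.Drv T R W t →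
      ∀ z : ℂ, 0 < z.im → dist z X ≤ X / 4 → ball (ψn n z) r ⊆ Om (δ n) (S n) →
      ∃ C : Set ℂ, IsPreconnected C ∧ ψn n (Y * I) ∈ C ∧ ψn n z ∈ C ∧
        ∀ u ∈ C, ball u c₀ ⊆ ψn n '' loewnerDomain W t

end Vale.Agent.P167.CL
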