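import Vale.Agent.P167.CL.CutG1a

/-!
# P167, block CUT: elementary geometry of the cut
-/

set_option autoImplicit false

namespace Vale.Agent.P167.CL

/-- **[CutG1]** -/
theorem cutG1 : S_cutG1 := fun _ _ _ _ _ _ _ _ H =>
  ⟨G1.cut_conn H, fun _ hz => G1.cut_dist H hz, fun _ _ _ hz => G1.cut_flat H hz, G1.kf_good H,
    fun _ hF hn => G1.lam_bad H hF hn, fun _ h1 h2 h3 h4 => G1.box_good H h1 h2 h3 h4⟩

end Vale.Agent.P167.CL
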