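import Vale.Agent.P167.CL.CutG1c

/-!
# P167, block CUT: elementary geometry of the cut, connectedness and the squares at the cut
-/

set_option autoImplicit false

open Set Metric Complex

namespace Vale.Agent.P167.CL.G1

open Vale.Agent.P167.E6 Vale.Agent.P167.H450 Vale.Agent.P167.CL

variable {ℓ ϱ μ d τ₀ : ℝ} {c : CutP} {D : Set ℂ} {w z u : ℂ} {F G b : ℤ × ℤ}

/-- one dimension: an interval next to `x` whose interior meets the given one -/
theorem oned (hℓ : 0 < ℓ) {T t x₀ s : ℝ} (hT : 0 < T) (h0 : 0 ≤ t) (h1 : t ≤ T)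
    (hs : s = 1 ∨ s = -1) : ∃ (i : ℤ) (t' : ℝ), 0 ≤ t' ∧ t' ≤ T ∧ ℓ * i ≤ x₀ - s * t ∧
      x₀ - s * t ≤ ℓ * (i + 1) ∧ ℓ * i < x₀ - s * t' ∧ x₀ - s * t' < ℓ * (i + 1) := by
  set x := x₀ - s * t with hx
  have f1 : ℓ * ⌊x / ℓ⌋ ≤ x := by
    have := Int.floor_le (x / ℓ)
    rw [le_div_iff₀ hℓ] at this
    linarith
  have f2 : x < ℓ * (⌊x / ℓ⌋ + 1) := by
    have := Int.lt_floor_add_one (x / ℓ)
    rw [div_lt_iff₀ hℓ] at this
    linarith
  rcases f1.eq_or_lt with f | f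
  · -- an integer point
    obtain ⟨t', g0, g1, g2, g3, g4⟩ : ∃ t', 0 ≤ t' ∧ t' ≤ T ∧ t' ≠ t ∧ t' < t + ℓ ∧ t - ℓ < t' := by
      rcases le_total t (T / 2) with h | h
      · refine ⟨t + min (ℓ / 2) (T / 2), ?_, ?_, ?_, ?_, ?_⟩
        · have : 0 ≤ min (ℓ / 2) (T / 2) := by positivity
          linarith
        · have := min_le_right (ℓ / 2) (T / 2)
          linarith
        · have : 0 < min (ℓ / 2) (T / 2) := by positivity
          intro h; linarith
        · have := min_le_left (ℓ / 2) (T / 2)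
          linarith
        · have : 0 ≤ min (ℓ / 2) (T / 2) := by positivity
          linarith
      · refine ⟨t - min (ℓ / 2) (T / 2), ?_, ?_, ?_, ?_, ?_⟩
        · have := min_le_right (ℓ / 2) (T / 2)
          linarith
        · have : 0 ≤ min (ℓ / 2) (T / 2) := by positivity
          linarith
        · have : 0 < min (ℓ / 2) (T / 2) := by positivity
          intro h; linarith
        · have : 0 ≤ min (ℓ / 2) (T / 2) := by positivity
          linarith
        · have := min_le_left (ℓ / 2) (T / 2)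
          linarith
    have e : x₀ - s * t' = x - s * (t' - t) := by rw [hx]; ring
    rcases lt_or_gt_of_ne (show s * (t' - t) ≠ 0 from by
      apply mul_ne_zero
      · rcases hs with h | h <;> rw [h] <;> norm_num
      · exact sub_ne_zero.2 g2) with h | h
    · refine ⟨⌊x / ℓ⌋, t', g0, g1, f1, f2.le, by rw [e]; linarith, ?_⟩
      have : -ℓ < s * (t' - t) := by rcases hs with h | h <;> rw [h] <;> linarith
      rw [e]; linarith
    · refine ⟨⌊x / ℓ⌋ - 1, t', g0, g1, ?_, ?_, ?_, ?_⟩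
      · push_cast; linarith
      · push_cast; linarith
      · have : s * (t' - t) < ℓ := by rcases hs with h | h <;> rw [h] <;> linarith
        rw [e]; push_cast; linarith
      · rw [e]; push_cast; linarith
  · exact ⟨⌊x / ℓ⌋, t, h0, h1, f1, f2.le, f, f2⟩

/-- the open square is in the open brick -/
theorem osq_obk (hℓ : 0 < ℓ) (h1 : ℓ * F.1 < z.re) (h2 : z.re < ℓ * (F.1 + 1))
    (h3 : ℓ * F.2 < z.im) (h4 : z.im < ℓ * (F.2 + 1)) : z ∈ obk ℓ (br F) := by
  obtain ⟨k1, k2⟩ := (br_eq_iff (F := F) (b := br F)).1 rfl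
  have e2 : (F.2 : ℝ) = (br F).2 := by exact_mod_cast k2
  have l1 : ((2 * (br F).1 - (br F).2 : ℤ) : ℝ) ≤ F.1 := by
    exact_mod_cast (by omega : 2 * (br F).1 - (br F).2 ≤ F.1)
  have l2 : ((F.1 + 1 : ℤ) : ℝ) ≤ ((2 * (br F).1 - (br F).2 + 2 : ℤ) : ℝ) := by
    exact_mod_cast (by omega : F.1 + 1 ≤ 2 * (br F).1 - (br F).2 + 2)
  push_cast at l1 l2
  refine ⟨?_, ?_, ?_, ?_⟩
  · have := mul_le_mul_of_nonneg_left l1 hℓ.le
    linarith
  · have := mul_le_mul_of_nonneg_left l2 hℓ.le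
    linarith
  · rw [← e2]; exact h3
  · rw [← e2]; exact h4

/-- a rectangle -/
def rect (ℓ : ℝ) (i₁ i₂ j₁ j₂ : ℤ) : Set ℂ :=
  {z | ℓ * i₁ ≤ z.re ∧ z.re ≤ ℓ * i₂ ∧ ℓ * j₁ ≤ z.im ∧ z.im ≤ ℓ * j₂}

theorem rect_pre (ℓ : ℝ) (i₁ i₂ j₁ j₂ : ℤ) : IsPreconnected (rect ℓ i₁ i₂ j₁ j₂) := by
  apply Convex.isPreconnected
  intro z hz w hw s t hs ht hst
  obtain ⟨h1, h2, h3, h4⟩ := hz
  obtain ⟨g1, g2, g3, g4⟩ := hw
  have e1 : (s • z + t • w).re = s * z.re + t * w.re := by simp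
  have e2 : (s • z + t • w).im = s * z.im + t * w.im := by simp
  have ht' : t = 1 - s := by linarith
  subst ht'
  refine ⟨?_, ?_, ?_, ?_⟩
  · rw [e1]; nlinarith
  · rw [e1]; nlinarith
  · rw [e2]; nlinarith
  · rw [e2]; nlinarith

/-- integers next to a number in an interval -/
theorem exi (hℓ : 0 < ℓ) {i₁ i₂ : ℤ} (hi : i₁ < i₂) {x : ℝ} (h1 : ℓ * i₁ ≤ x) (h2 : x ≤ ℓ * i₂) :
    ∃ i : ℤ, i₁ ≤ i ∧ i < i₂ ∧ ℓ * i ≤ x ∧ x ≤ ℓ * (i + 1) := by
  have f1 : ℓ * ⌊x / ℓ⌋ ≤ x := by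
    have := Int.floor_le (x / ℓ)
    rw [le_div_iff₀ hℓ] at this
    linarith
  have f2 : x < ℓ * (⌊x / ℓ⌋ + 1) := by
    have := Int.lt_floor_add_one (x / ℓ)
    rw [div_lt_iff₀ hℓ] at this
    linarith
  have g1 : i₁ ≤ ⌊x / ℓ⌋ := by
    rw [Int.le_floor, le_div_iff₀ hℓ]; linarith
  rcases lt_or_ge ⌊x / ℓ⌋ i₂ with g | g
  · exact ⟨_, g1, g, f1, f2.le⟩
  · refine ⟨i₂ - 1, by omega, by omega, ?_, ?_⟩
    · have : (i₂ : ℝ) ≤ ⌊x / ℓ⌋ := by exact_mod_cast g
      have := mul_le_mul_of_nonneg_left this hℓ.le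
      push_cast
      linarith
    · push_cast
      linarith

theorem rect_reg (hℓ : 0 < ℓ) {i₁ i₂ j₁ j₂ : ℤ} (hi : i₁ < i₂) (hj : j₁ < j₂)
    (h : ∀ i j : ℤ, i₁ ≤ i → i < i₂ → j₁ ≤ j → j < j₂ → ((i, j) : ℤ × ℤ) ∈ c.lf) :
    rect ℓ i₁ i₂ j₁ j₂ ⊆ reg ℓ c.KF := by
  rintro z ⟨h1, h2, h3, h4⟩
  obtain ⟨i, a1, a2, a3, a4⟩ := exi hℓ hi h1 h2
  obtain ⟨j, b1, b2, b3, b4⟩ := exi hℓ hj h3 h4
  exact ⟨(i, j), ⟨(i, j), h i j a1 a2 b1 b2, rfl⟩, a3, a4, b3, b4⟩

/-- the centre of a square of a rectangle -/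
theorem cen_rect (hℓ : 0 < ℓ) {i₁ i₂ j₁ j₂ : ℤ} (h1 : i₁ ≤ G.1) (h2 : G.1 < i₂) (h3 : j₁ ≤ G.2)
    (h4 : G.2 < j₂) : (⟨ℓ * (G.1 + 1 / 2), ℓ * (G.2 + 1 / 2)⟩ : ℂ) ∈ rect ℓ i₁ i₂ j₁ j₂ := by
  have a1 : (i₁ : ℝ) ≤ G.1 := by exact_mod_cast h1
  have a2 : (G.1 : ℝ) + 1 ≤ i₂ := by exact_mod_cast h2
  have a3 : (j₁ : ℝ) ≤ G.2 := by exact_mod_cast h3
  have a4 : (G.2 : ℝ) + 1 ≤ j₂ := by exact_mod_cast h4
  refine ⟨?_, ?_, ?_, ?_⟩
  · exact mul_le_mul_of_nonneg_left (by linarith) hℓ.le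
  · exact mul_le_mul_of_nonneg_left (by linarith) hℓ.le
  · exact mul_le_mul_of_nonneg_left (by linarith) hℓ.le
  · exact mul_le_mul_of_nonneg_left (by linarith) hℓ.le

theorem lam_pre : IsPreconnected (lam ℓ d c w) :=
  (convex_segment _ _).isPreconnected

/-- from the core to the cut -/
theorem conn_of (hℓ : 0 < ℓ) {C : Set ℂ} (hC : IsPreconnected C) (h1 : C ⊆ cutSet ℓ d c w)
    (h2 : lam ℓ d c w ⊆ C)
    (h3 : ∀ G ∈ c.lf, (⟨ℓ * (G.1 + 1 / 2), ℓ * (G.2 + 1 / 2)⟩ : ℂ) ∈ C) :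
    IsPreconnected (cutSet ℓ d c w) := by
  have hw : w ∈ C := h2 (right_mem_segment ℝ _ _)
  refine isPreconnected_of_forall w fun z hz => ?_
  rcases hz with ⟨F, ⟨G, hG, hb⟩, hz⟩ | hz
  · have c1 := h3 G hG
    have c2 := obk_subset_bk (center_mem hℓ G)
    refine ⟨C ∪ bk ℓ (br G), ?_, Or.inl hw, Or.inr ?_, ?_⟩
    · refine union_subset h1 fun u hu => ?_
      obtain ⟨F', hF', hu'⟩ := bk_subset hu
      exact Or.inl ⟨F', ⟨G, hG, hF'⟩, hu'⟩
    · rw [← hb]; exact sqr_subset_bk hℓ hz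
    · exact hC.union _ c1 c2 (convex_bk ℓ _).isPreconnected
  · exact ⟨C, h1, hw, h2 hz, hC⟩

section

variable (H : CutC ℓ ϱ μ d τ₀ c D w)
include H

/-- **(3)** -/
theorem cut_flat (h : z ∈ cutSet ℓ d c w) :
    ∃ F, z ∈ sqr ℓ F ∧ ¬ (obk ℓ (br F) ⊆ D \ cutSet ℓ d c w) := by
  have hℓ := H.hℓ
  have hd := d_pos H
  have hl := ell_le H
  have hmu := ml H
  rcases h with ⟨F, hF, hz⟩ | h
  · refine ⟨F, hz, fun h => ?_⟩
    refine (h (center_mem hℓ F)).2 (Or.inl ⟨F, hF, ?_⟩)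
    refine ⟨?_, ?_, ?_, ?_⟩ <;>
      exact mul_le_mul_of_nonneg_left (by linarith) hℓ.le
  · obtain ⟨t, ht0, ht1, rfl⟩ := (mem_lam H).1 h
    have hs : (c.sg : ℝ) = 1 ∨ (c.sg : ℝ) = -1 := by
      rcases sg_or c with h | h
      · left; rw [h]; norm_num
      · right; rw [h]; norm_num
    cases hh : c.hor
    · obtain ⟨p1, p2⟩ := H.posv hh
      rw [abs_le] at p1
      obtain ⟨j, t', a0, a1, a2, a3, a4, a5⟩ := oned hℓ (T := d / 4 - ℓ) (t := t) (x₀ := w.im)
        (by linarith) ht0 ht1 hs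
      refine ⟨(2 * c.m, j), ⟨?_, ?_, ?_, ?_⟩, fun h => ?_⟩
      · rw [pw_re_ver hh]; push_cast; linarith [p1.1]
      · rw [pw_re_ver hh]; push_cast; linarith [p1.2]
      · rw [pw_im_ver hh]; exact a2
      · rw [pw_im_ver hh]; exact a3
      · refine (h (a := pw c w t') ?_).2 (Or.inr ((mem_lam H).2 ⟨t', a0, a1, rfl⟩))
        apply osq_obk hℓ
        · rw [pw_re_ver hh]; push_cast; linarith [p1.1]
        · rw [pw_re_ver hh]; push_cast; linarith [p1.2]
        · rw [pw_im_ver hh]; exact a4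
        · rw [pw_im_ver hh]; exact a5
    · obtain ⟨p1, p2⟩ := H.posh hh
      rw [abs_le] at p1
      obtain ⟨i, t', a0, a1, a2, a3, a4, a5⟩ := oned hℓ (T := d / 4 - ℓ) (t := t) (x₀ := w.re)
        (by linarith) ht0 ht1 hs
      refine ⟨(i, -1), ⟨?_, ?_, ?_, ?_⟩, fun h => ?_⟩
      · rw [pw_re_hor hh]; exact a2
      · rw [pw_re_hor hh]; exact a3
      · rw [pw_im_hor hh]; push_cast; linarith [p1.1]
      · rw [pw_im_hor hh]; push_cast; linarith [p1.2]
      · refine (h (a := pw c w t') ?_).2 (Or.inr ((mem_lam H).2 ⟨t', a0, a1, rfl⟩))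
        apply osq_obk hℓ
        · rw [pw_re_hor hh]; exact a4
        · rw [pw_re_hor hh]; exact a5
        · rw [pw_im_hor hh]; push_cast; linarith [p1.1]
        · rw [pw_im_hor hh]; push_cast; linarith [p1.2]

/-- **(1)** -/
theorem cut_conn : IsPreconnected (cutSet ℓ d c w) := by
  have hℓ := H.hℓ
  have hd := d_pos H
  have hl := ell_le H
  have hmu := ml H
  have hq := H.hq
  have hm := H.hm
  have he := e_ge H
  have he' : (2 : ℝ) ≤ c.e := by exact_mod_cast he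
  have hq' : (32 : ℝ) ≤ c.q := by exact_mod_cast hq
  have hmm : (35 : ℝ) ≤ 2 * c.m := by exact_mod_cast (by omega : (35 : ℤ) ≤ 2 * c.m)
  have hqm : (c.q : ℝ) + 3 ≤ 2 * c.m := by exact_mod_cast hm
  have le' : ℓ * 2 ≤ ℓ * c.e := mul_le_mul_of_nonneg_left he' hℓ.le
  have lq' : ℓ * 32 ≤ ℓ * c.q := mul_le_mul_of_nonneg_left hq' hℓ.le
  have lm' : ℓ * 35 ≤ ℓ * (2 * c.m) := mul_le_mul_of_nonneg_left hmm hℓ.le
  have q1 : rect ℓ (-c.q) c.q (-c.q) 0 ⊆ reg ℓ c.KF :=
    rect_reg hℓ (by omega) (by omega) fun i j h1 h2 h3 h4 => Or.inl ⟨h3, h4, h1, h2⟩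
  have hlam : pw c w (d / 4 - ℓ) ∈ lam ℓ d c w := (mem_lam H).2 ⟨_, by linarith, le_refl _, rfl⟩
  cases hh : c.hor
  · obtain ⟨p1, p2⟩ := H.posv hh
    rw [abs_le] at p1 p2
    have q2 : rect ℓ 0 (2 * c.m + 1) (-1) 0 ⊆ reg ℓ c.KF :=
      rect_reg hℓ (by omega) (by omega) fun i j h1 h2 h3 h4 =>
        Or.inr (Or.inr (Or.inl ⟨hh, show j = -1 by omega, h1, show i ≤ 2 * c.m by omega⟩))
    have hc12 := (rect_pre ℓ (-c.q) c.q (-c.q) 0).union 0
      (⟨by push_cast; simp only [Complex.zero_re]; linarith,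
        by push_cast; simp only [Complex.zero_re]; linarith,
        by push_cast; simp only [Complex.zero_im]; linarith,
        by push_cast; simp only [Complex.zero_im]; linarith⟩ :
          (0 : ℂ) ∈ rect ℓ (-c.q) c.q (-c.q) 0)
      (⟨by push_cast; simp only [Complex.zero_re]; linarith,
        by push_cast; simp only [Complex.zero_re]; linarith,
        by push_cast; simp only [Complex.zero_im]; linarith,
        by push_cast; simp only [Complex.zero_im]; linarith⟩ : (0 : ℂ) ∈ rect ℓ 0 (2 * c.m + 1) (-1) 0)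
      (rect_pre ℓ 0 (2 * c.m + 1) (-1) 0)
    rcases sg_or c with hs | hs
    · have hp := pos_of hs
      rw [hs] at p2
      push_cast at p2
      have q3 : rect ℓ (2 * c.m) (2 * c.m + 1) (-1) (c.e + 1) ⊆ reg ℓ c.KF :=
        rect_reg hℓ (by omega) (by omega) fun i j h1 h2 h3 h4 =>
          Or.inr (Or.inr (Or.inr (Or.inl ⟨hh, hp, show i = 2 * c.m by omega, h3,
            show j ≤ c.e by omega⟩)))
      have hc123 := hc12.union (⟨ℓ * (2 * c.m), -ℓ⟩ : ℂ)
        (Or.inr ⟨by push_cast; linarith, by push_cast; linarith, by push_cast; linarith,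
          by push_cast; linarith⟩)
        (⟨by push_cast; linarith, by push_cast; linarith, by push_cast; linarith,
          by push_cast; linarith⟩ : _ ∈ rect ℓ (2 * c.m) (2 * c.m + 1) (-1) (c.e + 1))
        (rect_pre ℓ (2 * c.m) (2 * c.m + 1) (-1) (c.e + 1))
      have hc := hc123.union (pw c w (d / 4 - ℓ))
        (Or.inr ⟨by rw [pw_re_ver hh]; push_cast; linarith [p1.1],
          by rw [pw_re_ver hh]; push_cast; linarith [p1.2],
          by rw [pw_im_ver hh, hs]; push_cast; linarith [p2.1],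
          by rw [pw_im_ver hh, hs]; push_cast; linarith [p2.2]⟩) hlam
        (lam_pre (ℓ := ℓ) (d := d) (c := c) (w := w))
      refine conn_of hℓ hc ?_ subset_union_right ?_
      · exact union_subset_union_left _ (union_subset (union_subset q1 q2) q3)
      · rintro G (⟨g1, g2, g3, g4⟩ | ⟨g0, g1, g2, g3⟩ | ⟨g0, g1, g2, g3⟩ | ⟨g0, gp, g1, g2, g3⟩ |
          ⟨g0, gp, g1, g2, g3⟩)
        · exact Or.inl (Or.inl (Or.inl (cen_rect hℓ g3 g4 g1 g2)))
        · rw [hh] at g0; exact absurd g0 (by decide)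
        · exact Or.inl (Or.inl (Or.inr (cen_rect hℓ g2 (by omega) (by omega) (by omega))))
        · exact Or.inl (Or.inr (cen_rect hℓ (by omega) (by omega) (by omega) (by omega)))
        · rw [hp] at gp; exact absurd gp (by decide)
    · have hp := neg_of hs
      rw [hs] at p2
      push_cast at p2
      have q3 : rect ℓ (2 * c.m) (2 * c.m + 1) (-c.e) 0 ⊆ reg ℓ c.KF :=
        rect_reg hℓ (by omega) (by omega) fun i j h1 h2 h3 h4 =>
          Or.inr (Or.inr (Or.inr (Or.inr ⟨hh, hp, show i = 2 * c.m by omega, h3,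
            show j ≤ -1 by omega⟩)))
      have hc123 := hc12.union (⟨ℓ * (2 * c.m), -ℓ⟩ : ℂ)
        (Or.inr ⟨by push_cast; linarith, by push_cast; linarith, by push_cast; linarith,
          by push_cast; linarith⟩)
        (⟨by push_cast; linarith, by push_cast; linarith, by push_cast; linarith,
          by push_cast; linarith⟩ : _ ∈ rect ℓ (2 * c.m) (2 * c.m + 1) (-c.e) 0)
        (rect_pre ℓ (2 * c.m) (2 * c.m + 1) (-c.e) 0)
      have hc := hc123.union (pw c w (d / 4 - ℓ))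
        (Or.inr ⟨by rw [pw_re_ver hh]; push_cast; linarith [p1.1],
          by rw [pw_re_ver hh]; push_cast; linarith [p1.2],
          by rw [pw_im_ver hh, hs]; push_cast; linarith [p2.2],
          by rw [pw_im_ver hh, hs]; push_cast; linarith [p2.1]⟩) hlam
        (lam_pre (ℓ := ℓ) (d := d) (c := c) (w := w))
      refine conn_of hℓ hc ?_ subset_union_right ?_
      · exact union_subset_union_left _ (union_subset (union_subset q1 q2) q3)
      · rintro G (⟨g1, g2, g3, g4⟩ | ⟨g0, g1, g2, g3⟩ | ⟨g0, g1, g2, g3⟩ | ⟨g0, gp, g1, g2, g3⟩ |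
          ⟨g0, gp, g1, g2, g3⟩)
        · exact Or.inl (Or.inl (Or.inl (cen_rect hℓ g3 g4 g1 g2)))
        · rw [hh] at g0; exact absurd g0 (by decide)
        · exact Or.inl (Or.inl (Or.inr (cen_rect hℓ g2 (by omega) (by omega) (by omega))))
        · rw [hp] at gp; exact absurd gp (by decide)
        · exact Or.inl (Or.inr (cen_rect hℓ (by omega) (by omega) (by omega) (by omega)))
  · obtain ⟨p1, p2⟩ := H.posh hh
    rw [abs_le] at p1 p2
    rcases sg_or c with hs | hs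
    · rw [hs] at p2
      push_cast at p2
      have q3 : rect ℓ 0 (2 * c.e + 1) (-1) 0 ⊆ reg ℓ c.KF :=
        rect_reg hℓ (by omega) (by omega) fun i j h1 h2 h3 h4 =>
          Or.inr (Or.inl ⟨hh, show j = -1 by omega, show 0 ≤ c.sg * i by rw [hs]; omega,
            show c.sg * i ≤ 2 * c.e by rw [hs]; omega⟩)
      have hc13 := (rect_pre ℓ (-c.q) c.q (-c.q) 0).union 0
        (⟨by push_cast; simp only [Complex.zero_re]; linarith,
          by push_cast; simp only [Complex.zero_re]; linarith,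
          by push_cast; simp only [Complex.zero_im]; linarith,
          by push_cast; simp only [Complex.zero_im]; linarith⟩ :
            (0 : ℂ) ∈ rect ℓ (-c.q) c.q (-c.q) 0)
        (⟨by push_cast; simp only [Complex.zero_re]; linarith,
          by push_cast; simp only [Complex.zero_re]; linarith,
          by push_cast; simp only [Complex.zero_im]; linarith,
          by push_cast; simp only [Complex.zero_im]; linarith⟩ :
            (0 : ℂ) ∈ rect ℓ 0 (2 * c.e + 1) (-1) 0)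
        (rect_pre ℓ 0 (2 * c.e + 1) (-1) 0)
      have hc := hc13.union (pw c w (d / 4 - ℓ))
        (Or.inr ⟨by rw [pw_re_hor hh, hs]; push_cast; linarith [p2.1],
          by rw [pw_re_hor hh, hs]; push_cast; linarith [p2.2],
          by rw [pw_im_hor hh]; push_cast; linarith [p1.1],
          by rw [pw_im_hor hh]; push_cast; linarith [p1.2]⟩) hlam
        (lam_pre (ℓ := ℓ) (d := d) (c := c) (w := w))
      refine conn_of hℓ hc ?_ subset_union_right ?_
      · exact union_subset_union_left _ (union_subset q1 q3)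
      · rintro G (⟨g1, g2, g3, g4⟩ | ⟨g0, g1, g2, g3⟩ | ⟨g0, g1, g2, g3⟩ | ⟨g0, gp, g1, g2, g3⟩ |
          ⟨g0, gp, g1, g2, g3⟩)
        · exact Or.inl (Or.inl (cen_rect hℓ g3 g4 g1 g2))
        · rw [hs] at g2 g3
          exact Or.inl (Or.inr (cen_rect hℓ (by omega) (by omega) (by omega) (by omega)))
        · rw [hh] at g0; exact absurd g0 (by decide)
        · rw [hh] at g0; exact absurd g0 (by decide)
        · rw [hh] at g0; exact absurd g0 (by decide)
    · rw [hs] at p2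
      push_cast at p2
      have q3 : rect ℓ (-2 * c.e) 1 (-1) 0 ⊆ reg ℓ c.KF :=
        rect_reg hℓ (by omega) (by omega) fun i j h1 h2 h3 h4 =>
          Or.inr (Or.inl ⟨hh, show j = -1 by omega, show 0 ≤ c.sg * i by rw [hs]; omega,
            show c.sg * i ≤ 2 * c.e by rw [hs]; omega⟩)
      have hc13 := (rect_pre ℓ (-c.q) c.q (-c.q) 0).union 0
        (⟨by push_cast; simp only [Complex.zero_re]; linarith,
          by push_cast; simp only [Complex.zero_re]; linarith,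
          by push_cast; simp only [Complex.zero_im]; linarith,
          by push_cast; simp only [Complex.zero_im]; linarith⟩ :
            (0 : ℂ) ∈ rect ℓ (-c.q) c.q (-c.q) 0)
        (⟨by push_cast; simp only [Complex.zero_re]; linarith,
          by push_cast; simp only [Complex.zero_re]; linarith,
          by push_cast; simp only [Complex.zero_im]; linarith,
          by push_cast; simp only [Complex.zero_im]; linarith⟩ :
            (0 : ℂ) ∈ rect ℓ (-2 * c.e) 1 (-1) 0)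
        (rect_pre ℓ (-2 * c.e) 1 (-1) 0)
      have hc := hc13.union (pw c w (d / 4 - ℓ))
        (Or.inr ⟨by rw [pw_re_hor hh, hs]; push_cast; linarith [p2.2],
          by rw [pw_re_hor hh, hs]; push_cast; linarith [p2.1],
          by rw [pw_im_hor hh]; push_cast; linarith [p1.1],
          by rw [pw_im_hor hh]; push_cast; linarith [p1.2]⟩) hlam
        (lam_pre (ℓ := ℓ) (d := d) (c := c) (w := w))
      refine conn_of hℓ hc ?_ subset_union_right ?_
      · exact union_subset_union_left _ (union_subset q1 q3)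
      · rintro G (⟨g1, g2, g3, g4⟩ | ⟨g0, g1, g2, g3⟩ | ⟨g0, g1, g2, g3⟩ | ⟨g0, gp, g1, g2, g3⟩ |
          ⟨g0, gp, g1, g2, g3⟩)
        · exact Or.inl (Or.inl (cen_rect hℓ g3 g4 g1 g2))
        · rw [hs] at g2 g3
          exact Or.inl (Or.inr (cen_rect hℓ (by omega) (by omega) (by omega) (by omega)))
        · rw [hh] at g0; exact absurd g0 (by decide)
        · rw [hh] at g0; exact absurd g0 (by decide)
        · rw [hh] at g0; exact absurd g0 (by decide)

end

end Vale.Agent.P167.CL.G1
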