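import Vale.Agent.P167.CL.CutDefs

/-!
# P167, block CUT: elementary geometry of the cut, margins

Coordinates along (`al`) and across (`tr`) the leg.
-/

set_option autoImplicit false

open Set Metric Complex

namespace Vale.Agent.P167.CL.G1

open Vale.Agent.P167.E6 Vale.Agent.P167.H450 Vale.Agent.P167.CL

variable {ℓ ϱ μ d τ₀ : ℝ} {c : CutP} {D : Set ℂ} {w z u : ℂ}

theorem sg_or (c : CutP) : c.sg = 1 ∨ c.sg = -1 := by
  unfold CutP.sg
  split_ifs
  · exact Or.inl rfl
  · exact Or.inr rfl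

theorem sg_sq (c : CutP) : (c.sg : ℝ) * c.sg = 1 := by
  rcases sg_or c with h | h <;> rw [h] <;> norm_num

/-- coordinate along the leg, from `w` backwards -/
noncomputable def al (c : CutP) (w z : ℂ) : ℝ :=
  if c.hor then c.sg * (w.re - z.re) else c.sg * (w.im - z.im)

/-- coordinate across the leg -/
noncomputable def tr (c : CutP) (w z : ℂ) : ℝ :=
  if c.hor then z.im - w.im else z.re - w.re

theorem dv_hor (h : c.hor = true) : c.dv = (c.sg : ℂ) := by simp [CutP.dv, h]

theorem dv_ver (h : c.hor = false) : c.dv = (c.sg : ℂ) * I := by simp [CutP.dv, h]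

/-- the point at distance `t` behind `w` -/
noncomputable def pw (c : CutP) (w : ℂ) (t : ℝ) : ℂ := w - (t : ℂ) * c.dv

theorem pw_re_hor (h : c.hor = true) (t : ℝ) : (pw c w t).re = w.re - c.sg * t := by
  rw [pw, dv_hor h]; simp; ring

theorem pw_im_hor (h : c.hor = true) (t : ℝ) : (pw c w t).im = w.im := by
  rw [pw, dv_hor h]; simp

theorem pw_re_ver (h : c.hor = false) (t : ℝ) : (pw c w t).re = w.re := by
  rw [pw, dv_ver h]; simp

theorem pw_im_ver (h : c.hor = false) (t : ℝ) : (pw c w t).im = w.im - c.sg * t := by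
  rw [pw, dv_ver h]; simp; ring

theorem al_pw (t : ℝ) : al c w (pw c w t) = t := by
  have h1 := sg_sq c
  cases h : c.hor
  · simp only [al, h, pw_im_ver h, Bool.false_eq_true, if_false]
    linear_combination t * h1
  · simp only [al, h, pw_re_hor h, if_true]
    linear_combination t * h1

theorem tr_pw (t : ℝ) : tr c w (pw c w t) = 0 := by
  cases h : c.hor
  · simp [tr, h, pw_re_ver h]
  · simp [tr, h, pw_im_hor h]

theorem eq_pw (h0 : tr c w z = 0) : z = pw c w (al c w z) := by
  have h1 := sg_sq c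
  cases h : c.hor
  · simp only [tr, h, Bool.false_eq_true, if_false] at h0
    apply Complex.ext
    · rw [pw_re_ver h]; linarith
    · rw [pw_im_ver h]
      simp only [al, h, Bool.false_eq_true, if_false]
      linear_combination (w.im - z.im) * h1
  · simp only [tr, h, if_true] at h0
    apply Complex.ext
    · rw [pw_re_hor h]
      simp only [al, h, if_true]
      linear_combination (w.re - z.re) * h1
    · rw [pw_im_hor h]; linarith

theorem dist_le_abs (z u : ℂ) : dist z u ≤ |z.re - u.re| + |z.im - u.im| := by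
  rw [dist_eq_norm]
  have := Complex.norm_le_abs_re_add_abs_im (z - u)
  simpa using this

theorem abs_re_le (z u : ℂ) : |z.re - u.re| ≤ dist z u := by
  rw [dist_eq_norm]
  have := Complex.abs_re_le_norm (z - u)
  simpa using this

theorem abs_im_le (z u : ℂ) : |z.im - u.im| ≤ dist z u := by
  rw [dist_eq_norm]
  have := Complex.abs_im_le_norm (z - u)
  simpa using this

theorem abs_sg_mul (c : CutP) (x : ℝ) : |(c.sg : ℝ) * x| = |x| := by
  rw [abs_mul]
  rcases sg_or c with h | h <;> rw [h] <;> simp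

/-- distance to the leg -/
theorem dist_pw_le : dist z (pw c w (al c w z)) ≤ |tr c w z| := by
  have h1 := sg_sq c
  cases h : c.hor
  · refine (dist_le_abs _ _).trans ?_
    have e : z.im - (pw c w (al c w z)).im = 0 := by
      rw [pw_im_ver h]
      simp only [al, h, Bool.false_eq_true, if_false]
      linear_combination (w.im - z.im) * h1
    rw [e, pw_re_ver h]
    simp [tr, h]
  · refine (dist_le_abs _ _).trans ?_
    have e : z.re - (pw c w (al c w z)).re = 0 := by
      rw [pw_re_hor h]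
      simp only [al, h, if_true]
      linear_combination (w.re - z.re) * h1
    rw [e, pw_im_hor h]
    simp [tr, h]

theorem al_sub_le : |al c w z - al c w u| ≤ dist z u := by
  cases h : c.hor
  · refine le_trans (le_of_eq ?_) (abs_im_le z u)
    simp only [al, h, Bool.false_eq_true, if_false]
    rw [← mul_sub, abs_sg_mul, ← abs_neg]
    congr 1
    ring
  · refine le_trans (le_of_eq ?_) (abs_re_le z u)
    simp only [al, h, if_true]
    rw [← mul_sub, abs_sg_mul, ← abs_neg]
    congr 1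
    ring

theorem dist_pw_pw (s t : ℝ) : dist (pw c w s) (pw c w t) = |s - t| := by
  rw [dist_eq_norm]
  have e : pw c w s - pw c w t = ((t - s : ℝ) : ℂ) * c.dv := by
    simp only [pw]; push_cast; ring
  have hd : ‖c.dv‖ = 1 := by
    cases h : c.hor
    · rw [dv_ver h]
      rcases sg_or c with h | h <;> rw [h] <;> simp
    · rw [dv_hor h]
      rcases sg_or c with h | h <;> rw [h] <;> simp
  rw [e, norm_mul, hd, mul_one, Complex.norm_real, Real.norm_eq_abs, abs_sub_comm]

/-- points of a segment which ends in `w` -/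
theorem mem_seg {a : ℝ} (ha : 0 ≤ a) :
    z ∈ segment ℝ (w - (a : ℂ) * c.dv) w ↔ ∃ t, 0 ≤ t ∧ t ≤ a ∧ z = pw c w t := by
  constructor
  · rintro ⟨s, r, hs, hr, hsr, rfl⟩
    refine ⟨s * a, by positivity, by nlinarith, ?_⟩
    have e : (r : ℂ) = 1 - s := by
      rw [eq_sub_iff_add_eq, add_comm]; exact_mod_cast hsr
    simp only [pw, real_smul, e]
    push_cast
    ring
  · rintro ⟨t, ht, hta, rfl⟩
    rcases ha.eq_or_lt with h | h
    · have : t = 0 := by linarith
      rw [this]
      simp only [pw]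
      simp only [ofReal_zero, zero_mul, sub_zero]
      exact right_mem_segment ℝ _ _
    · refine ⟨t / a, 1 - t / a, by positivity, ?_, by ring, ?_⟩
      · rw [sub_nonneg, div_le_one h]; exact hta
      · simp only [pw, real_smul]
        push_cast
        have : (a : ℂ) ≠ 0 := by exact_mod_cast h.ne'
        field_simp
        ring

section

variable (H : CutC ℓ ϱ μ d τ₀ c D w)
include H

theorem d_pos : 0 < d := by
  have h1 := H.hℓ
  have h2 := H.hϱ
  have h3 := H.hτ
  have h4 := H.hd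
  linarith

theorem ml : μ ≤ ℓ / 8 := by linarith [H.hμℓ]

theorem q_real : (32 : ℝ) ≤ c.q := by exact_mod_cast H.hq

theorem ell_le : 64 * 35 * ℓ ≤ d := by
  have h1 := H.hqd
  have h2 := q_real H
  have h3 := H.hℓ
  nlinarith

theorem mem_lam : z ∈ lam ℓ d c w ↔ ∃ t, 0 ≤ t ∧ t ≤ d / 4 - ℓ ∧ z = pw c w t :=
  mem_seg (by linarith [ell_le H, H.hℓ])

theorem mem_gg : z ∈ gg τ₀ c w ↔ ∃ t, 0 ≤ t ∧ t ≤ τ₀ ∧ z = pw c w t :=
  mem_seg (by linarith [H.hτ, H.hϱ, H.hℓ])

/-- **near the box** -/
theorem near (hz : dist z (pw c w (d / 4)) ≤ 5 * d / 64) : ball z ϱ ⊆ D \ gg τ₀ c w := by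
  intro u hu
  rw [mem_ball] at hu
  have hd := d_pos H
  have h1 := H.hd
  have h2 := H.hℓ
  have h3 := H.hτ
  have h4 := H.hϱ
  have h5 : dist u (pw c w (d / 4)) < d / 8 := by
    have := dist_triangle u z (pw c w (d / 4))
    linarith
  refine ⟨H.clr (d / 4) (by linarith) (by linarith) (mem_ball.2 (by
    have : d / 4 / 2 = d / 8 := by ring
    rw [this]; exact h5)), fun h => ?_⟩
  obtain ⟨t, ht0, ht1, rfl⟩ := (mem_gg H).1 h
  rw [dist_pw_pw, abs_lt] at h5
  linarith [h5.1]

/-- **near the leg** -/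
theorem legm (h1 : τ₀ + ϱ ≤ al c w z) (h2 : al c w z ≤ d / 2) (h3 : |tr c w z| ≤ 2 * ℓ) :
    ball z ϱ ⊆ D \ gg τ₀ c w := by
  intro u hu
  rw [mem_ball] at hu
  have k1 := H.hτ
  have k2 := H.hℓ
  have k3 := H.hϱ
  have k4 := dist_pw_le (c := c) (w := w) (z := z)
  refine ⟨H.clr (al c w z) (by linarith) h2 (mem_ball.2 ?_), fun h => ?_⟩
  · have := dist_triangle u z (pw c w (al c w z))
    show dist u (pw c w (al c w z)) < _
    linarith
  · obtain ⟨t, ht0, ht1, rfl⟩ := (mem_gg H).1 h
    have h5 := al_sub_le (c := c) (w := w) (z := pw c w t) (u := z)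
    rw [al_pw, abs_le] at h5
    linarith [h5.1]

/-- coordinates of a point of a brick of the box or of the row -/
theorem near_box {z : ℂ} (h1 : c.hor = true → |z.re| ≤ ℓ * (c.q + 1))
    (h1' : c.hor = false → -(ℓ * (c.q + 1)) ≤ z.re ∧ z.re ≤ ℓ * (2 * c.m + 1))
    (h2 : |z.im| ≤ ℓ * (c.q + 1)) : dist z (pw c w (d / 4)) ≤ 3 * d / 64 := by
  refine (dist_le_abs _ _).trans ?_
  have hm := ml H
  have hq := H.hqd
  have hmd := H.hmd
  have hl := H.hℓ
  have h3 := sg_sq c
  have h4 := sg_or c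
  have hmm : ((c.q + 3 : ℤ) : ℝ) ≤ ((2 * c.m : ℤ) : ℝ) := by exact_mod_cast H.hm
  push_cast at hmm
  cases h : c.hor
  · rw [pw_re_ver h, pw_im_ver h]
    obtain ⟨p1, p2⟩ := H.posv h
    obtain ⟨g1, g2⟩ := h1' h
    rw [abs_le] at p1 p2 h2
    have a1 : |z.re - w.re| ≤ ℓ * (c.q + 1) + ℓ * (2 * c.m + 1 / 2) + μ := by
      rw [abs_le]
      constructor <;> nlinarith [p1.1, p1.2]
    have a2 : |z.im - (w.im - c.sg * (d / 4))| ≤ ℓ * (c.q + 1) + μ := by
      have e : z.im - (w.im - c.sg * (d / 4)) = z.im - c.sg * (c.sg * w.im - d / 4) := by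
        linear_combination w.im * h3
      rw [e, abs_le]
      rcases h4 with h4 | h4 <;> rw [h4] at p2 ⊢ <;> push_cast at p2 ⊢ <;>
        constructor <;> linarith [p2.1, p2.2, h2.1, h2.2]
    nlinarith
  · rw [pw_re_hor h, pw_im_hor h]
    obtain ⟨p1, p2⟩ := H.posh h
    have g1 := h1 h
    rw [abs_le] at p1 p2 h2 g1
    have a1 : |z.im - w.im| ≤ ℓ * (c.q + 1) + ℓ / 2 + μ := by
      rw [abs_le]
      constructor <;> linarith [p1.1, p1.2, h2.1, h2.2]
    have a2 : |z.re - (w.re - c.sg * (d / 4))| ≤ ℓ * (c.q + 1) + μ := by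
      have e : z.re - (w.re - c.sg * (d / 4)) = z.re - c.sg * (c.sg * w.re - d / 4) := by
        linear_combination w.re * h3
      rw [e, abs_le]
      rcases h4 with h4 | h4 <;> rw [h4] at p2 ⊢ <;> push_cast at p2 ⊢ <;>
        constructor <;> linarith [p2.1, p2.2, g1.1, g1.2]
    nlinarith

end

end Vale.Agent.P167.CL.G1
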