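import Vale.Agent.P167.CL.CutG1b

/-!
# P167, block CUT: elementary geometry of the cut, the bricks
-/

set_option autoImplicit false

open Set Metric Complex

namespace Vale.Agent.P167.CL.G1

open Vale.Agent.P167.E6 Vale.Agent.P167.H450 Vale.Agent.P167.CL

variable {ℓ ϱ μ d τ₀ : ℝ} {c : CutP} {D : Set ℂ} {w z u : ℂ} {F G b : ℤ × ℤ}

/-- The bricks of the cut. -/
def KB (c : CutP) (b : ℤ × ℤ) : Prop :=
  (-c.q ≤ b.2 ∧ b.2 < 0 ∧ -c.q - 1 ≤ 2 * b.1 - b.2 ∧ 2 * b.1 - b.2 ≤ c.q - 1) ∨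
  (c.hor = true ∧ c.sg = 1 ∧ b.2 = -1 ∧ -1 ≤ b.1 ∧ b.1 ≤ c.e - 1) ∨
  (c.hor = true ∧ c.sg = -1 ∧ b.2 = -1 ∧ -c.e - 1 ≤ b.1 ∧ b.1 ≤ -1) ∨
  (c.hor = false ∧ b.2 = -1 ∧ -1 ≤ b.1 ∧ b.1 ≤ c.m - 1) ∨
  (c.hor = false ∧ c.sg = 1 ∧ -1 ≤ b.2 ∧ b.2 ≤ c.e ∧ 2 * c.m - 1 ≤ 2 * b.1 - b.2 ∧
    2 * b.1 - b.2 ≤ 2 * c.m) ∨
  (c.hor = false ∧ c.sg = -1 ∧ -c.e ≤ b.2 ∧ b.2 ≤ -1 ∧ 2 * c.m - 1 ≤ 2 * b.1 - b.2 ∧
    2 * b.1 - b.2 ≤ 2 * c.m)

theorem kb_of (h : F ∈ c.KF) : KB c (br F) := by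
  obtain ⟨G, hG, hb⟩ := h
  rw [hb]
  obtain ⟨h1, h2⟩ := (br_eq_iff (F := G) (b := br G)).1 rfl
  unfold KB
  rcases hG with ⟨g1, g2, g3, g4⟩ | ⟨g0, g1, g2, g3⟩ | ⟨g0, g1, g2, g3⟩ | ⟨g0, gp, g1, g2, g3⟩ |
    ⟨g0, gp, g1, g2, g3⟩
  · left
    omega
  · right
    rcases sg_or c with h | h
    · left
      rw [h] at g2 g3
      exact ⟨g0, h, by omega, by omega, by omega⟩
    · right; left
      rw [h] at g2 g3
      exact ⟨g0, h, by omega, by omega, by omega⟩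
  · right; right; right; left
    exact ⟨g0, by omega, by omega, by omega⟩
  · right; right; right; right; left
    exact ⟨g0, by simp [CutP.sg, gp], by omega, by omega, by omega, by omega⟩
  · right; right; right; right; right
    exact ⟨g0, by simp [CutP.sg, gp], by omega, by omega, by omega, by omega⟩

theorem pos_of (h : c.sg = 1) : c.pos = true := by
  cases hp : c.pos
  · simp [CutP.sg, hp] at h
  · rfl

theorem neg_of (h : c.sg = -1) : c.pos = false := by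
  cases hp : c.pos
  · rfl
  · simp [CutP.sg, hp] at h

theorem of_kb (hq : 1 ≤ c.q) (h : KB c (br F)) : F ∈ c.KF := by
  have key : ∀ G : ℤ × ℤ, G ∈ c.lf → (G.1 = 2 * (br F).1 - (br F).2 ∨
      G.1 = 2 * (br F).1 - (br F).2 + 1) → G.2 = (br F).2 → F ∈ c.KF := fun G hG h1 h2 =>
    ⟨G, hG, (br_eq_iff.2 ⟨h1, h2⟩).symm⟩
  rcases h with ⟨g1, g2, g3, g4⟩ | ⟨g0, gs, g1, g2, g3⟩ | ⟨g0, gs, g1, g2, g3⟩ | ⟨g0, g1, g2, g3⟩ |
    ⟨g0, gs, g1, g2, g3, g4⟩ | ⟨g0, gs, g1, g2, g3, g4⟩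
  · rcases le_or_gt (-c.q) (2 * (br F).1 - (br F).2) with h | h
    · exact key (2 * (br F).1 - (br F).2, (br F).2) (Or.inl ⟨g1, g2, h, by simp only; omega⟩)
        (Or.inl rfl) rfl
    · exact key (2 * (br F).1 - (br F).2 + 1, (br F).2)
        (Or.inl ⟨g1, g2, by simp only; omega, by simp only; omega⟩) (Or.inr rfl) rfl
  · refine key (2 * (br F).1 - (br F).2 + 1, (br F).2)
      (Or.inr (Or.inl ⟨g0, g1, ?_, ?_⟩)) (Or.inr rfl) rfl
    · rw [gs]; simp only; omega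
    · rw [gs]; simp only; omega
  · refine key (2 * (br F).1 - (br F).2 + 1, (br F).2)
      (Or.inr (Or.inl ⟨g0, g1, ?_, ?_⟩)) (Or.inr rfl) rfl
    · rw [gs]; simp only; omega
    · rw [gs]; simp only; omega
  · refine key (2 * (br F).1 - (br F).2 + 1, (br F).2)
      (Or.inr (Or.inr (Or.inl ⟨g0, g1, ?_, ?_⟩))) (Or.inr rfl) rfl
    · simp only; omega
    · simp only; omega
  · refine key (2 * c.m, (br F).2)
      (Or.inr (Or.inr (Or.inr (Or.inl ⟨g0, pos_of gs, rfl, g1, g2⟩)))) ?_ rfl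
    simp only; omega
  · refine key (2 * c.m, (br F).2)
      (Or.inr (Or.inr (Or.inr (Or.inr ⟨g0, neg_of gs, rfl, g1, g2⟩)))) ?_ rfl
    simp only; omega

/-- the squares at a point of an open brick -/
theorem obk_sqr (hℓ : 0 < ℓ) (hz : z ∈ obk ℓ b) (hG : z ∈ sqr ℓ G) : br G = b := by
  obtain ⟨g1, g2, g3, g4⟩ := hG
  obtain ⟨k1, k2, k3, k4⟩ := hz
  rw [br_eq_iff]
  have c1 : ℓ * ((2 * b.1 - b.2 : ℤ) : ℝ) < ℓ * ((G.1 + 1 : ℤ) : ℝ) := by
    push_cast; linarith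
  have c2 : ℓ * ((G.1 : ℤ) : ℝ) < ℓ * ((2 * b.1 - b.2 + 2 : ℤ) : ℝ) := by
    push_cast; linarith
  have c3 : ℓ * ((b.2 : ℤ) : ℝ) < ℓ * ((G.2 + 1 : ℤ) : ℝ) := by
    push_cast; linarith
  have c4 : ℓ * ((G.2 : ℤ) : ℝ) < ℓ * ((b.2 + 1 : ℤ) : ℝ) := by
    push_cast; linarith
  have d1 := Int.cast_lt.1 (lt_of_mul_lt_mul_left c1 hℓ.le)
  have d2 := Int.cast_lt.1 (lt_of_mul_lt_mul_left c2 hℓ.le)
  have d3 := Int.cast_lt.1 (lt_of_mul_lt_mul_left c3 hℓ.le)
  have d4 := Int.cast_lt.1 (lt_of_mul_lt_mul_left c4 hℓ.le)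
  constructor
  · omega
  · omega

/-- bounds with integers -/
theorem lb (hℓ : 0 < ℓ) {i j : ℤ} (h : i ≤ j) {x : ℝ} (hx : ℓ * j ≤ x) : ℓ * i ≤ x :=
  le_trans (mul_le_mul_of_nonneg_left (by exact_mod_cast h) hℓ.le) hx

theorem ub (hℓ : 0 < ℓ) {i j : ℤ} (h : i ≤ j) {x : ℝ} (hx : x ≤ ℓ * i) : x ≤ ℓ * j :=
  le_trans hx (mul_le_mul_of_nonneg_left (by exact_mod_cast h) hℓ.le)

theorem il (hℓ : 0 < ℓ) {i j : ℤ} {x : ℝ} (h1 : ℓ * i < x) (h2 : x < ℓ * j) : i < j :=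
  Int.cast_lt.1 (lt_of_mul_lt_mul_left (h1.trans h2) hℓ.le)

/-- the points of a brick, with integer bounds -/
theorem bk_b (h : z ∈ bk ℓ b) : ℓ * ((2 * b.1 - b.2 : ℤ) : ℝ) ≤ z.re ∧
    z.re ≤ ℓ * ((2 * b.1 - b.2 + 2 : ℤ) : ℝ) ∧ ℓ * (b.2 : ℝ) ≤ z.im ∧
    z.im ≤ ℓ * ((b.2 + 1 : ℤ) : ℝ) := by
  obtain ⟨h1, h2, h3, h4⟩ := h
  push_cast
  exact ⟨h1, h2, h3, h4⟩

theorem obk_b (h : z ∈ obk ℓ b) : ℓ * ((2 * b.1 - b.2 : ℤ) : ℝ) < z.re ∧
    z.re < ℓ * ((2 * b.1 - b.2 + 2 : ℤ) : ℝ) ∧ ℓ * (b.2 : ℝ) < z.im ∧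
    z.im < ℓ * ((b.2 + 1 : ℤ) : ℝ) := by
  obtain ⟨h1, h2, h3, h4⟩ := h
  push_cast
  exact ⟨h1, h2, h3, h4⟩

section

variable (H : CutC ℓ ϱ μ d τ₀ c D w)
include H

theorem e_ge : 2 ≤ c.e := by
  have h1 := H.hℓ
  have h2 := H.hd
  have h3 := ell_le H
  have h4 := ml H
  have h5 := H.hϱ
  by_contra hc
  push Not at hc
  have hc' : (c.e : ℝ) ≤ 1 := by exact_mod_cast (by omega : c.e ≤ 1)
  have h6 : ℓ * c.e ≤ ℓ * 1 := mul_le_mul_of_nonneg_left hc' h1.le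
  cases h : c.hor
  · obtain ⟨p1, p2⟩ := H.posv h
    rcases sg_or c with hs | hs
    · have h7 := (H.evp h (pos_of hs)).2
      rw [hs] at p2
      rw [abs_le] at p2
      push_cast at p2
      nlinarith [p2.1]
    · have h7 := (H.evn h (neg_of hs)).2
      rw [hs] at p2
      rw [abs_le] at p2
      push_cast at p2
      nlinarith [p2.1]
  · obtain ⟨p1, p2⟩ := H.posh h
    have h7 := (H.eh h).2
    rw [abs_le] at p2
    nlinarith [p2.1]

theorem kf_iff : F ∈ c.KF ↔ KB c (br F) :=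
  ⟨kb_of, of_kb (by linarith [H.hq])⟩

/-- **position of the bricks** -/
theorem kf_pos (h : KB c b) (hz : z ∈ bk ℓ b) :
    dist z (pw c w (d / 4)) ≤ 3 * d / 64 ∨
      (τ₀ + ϱ ≤ al c w z ∧ al c w z ≤ d / 4 + 2 * ℓ ∧ |tr c w z| ≤ 2 * ℓ) := by
  obtain ⟨z1, z2, z3, z4⟩ := bk_b hz
  have hℓ := H.hℓ
  have hq := H.hq
  have hm := H.hm
  have hmu := ml H
  rcases h with ⟨g1, g2, g3, g4⟩ | ⟨g0, gs, g1, g2, g3⟩ | ⟨g0, gs, g1, g2, g3⟩ | ⟨g0, g1, g2, g3⟩ |
    ⟨g0, gs, g1, g2, g3, g4⟩ | ⟨g0, gs, g1, g2, g3, g4⟩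
  · left
    have k1 := lb hℓ (i := -c.q - 1) (by omega) z1
    have k2 := ub hℓ (j := c.q + 1) (by omega) z2
    have k3 := lb hℓ (i := -c.q - 1) (by omega) z3
    have k4 := ub hℓ (j := c.q + 1) (by omega) z4
    have k5 := ub hℓ (j := 2 * c.m + 1) (by omega) z2
    push_cast at k1 k2 k3 k4 k5
    refine near_box H (fun _ => ?_) (fun _ => ⟨?_, k5⟩) ?_
    · rw [abs_le]; exact ⟨by linarith, k2⟩
    · linarith
    · rw [abs_le]; exact ⟨by linarith, k4⟩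
  · right
    have k1 := lb hℓ (i := -1) (by omega) z1
    have k2 := ub hℓ (j := 2 * c.e + 1) (by omega) z2
    have k3 := lb hℓ (i := -1) (by omega) z3
    have k4 := ub hℓ (j := 0) (by omega) z4
    push_cast at k1 k2 k3 k4
    obtain ⟨p1, p2⟩ := H.posh g0
    have e1 := (H.eh g0).1
    rw [gs] at p2 e1
    rw [abs_le] at p1 p2
    push_cast at p2 e1
    simp only [al, tr, g0, if_true, gs]
    push_cast
    refine ⟨by linarith [p2.1], by linarith [p2.2], ?_⟩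
    rw [abs_le]
    constructor <;> linarith [p1.1, p1.2]
  · right
    have k1 := lb hℓ (i := -2 * c.e - 1) (by omega) z1
    have k2 := ub hℓ (j := 1) (by omega) z2
    have k3 := lb hℓ (i := -1) (by omega) z3
    have k4 := ub hℓ (j := 0) (by omega) z4
    push_cast at k1 k2 k3 k4
    obtain ⟨p1, p2⟩ := H.posh g0
    have e1 := (H.eh g0).1
    rw [gs] at p2 e1
    rw [abs_le] at p1 p2
    push_cast at p2 e1
    simp only [al, tr, g0, if_true, gs]
    push_cast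
    refine ⟨by linarith [p2.1], by linarith [p2.2], ?_⟩
    rw [abs_le]
    constructor <;> linarith [p1.1, p1.2]
  · left
    have k1 := lb hℓ (i := -c.q - 1) (by omega) z1
    have k3 := lb hℓ (i := -c.q - 1) (by omega) z3
    have k4 := ub hℓ (j := c.q + 1) (by omega) z4
    have k5 := ub hℓ (j := 2 * c.m + 1) (by omega) z2
    push_cast at k1 k3 k4 k5
    refine near_box H (fun h => ?_) (fun _ => ⟨?_, k5⟩) ?_
    · rw [g0] at h; exact absurd h (by decide)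
    · linarith
    · rw [abs_le]; exact ⟨by linarith, k4⟩
  · right
    have k1 := lb hℓ (i := 2 * c.m - 1) (by omega) z1
    have k2 := ub hℓ (j := 2 * c.m + 2) (by omega) z2
    have k3 := lb hℓ (i := -1) (by omega) z3
    have k4 := ub hℓ (j := c.e + 1) (by omega) z4
    push_cast at k1 k2 k3 k4
    obtain ⟨p1, p2⟩ := H.posv g0
    have e1 := (H.evp g0 (pos_of gs)).1
    rw [gs] at p2
    rw [abs_le] at p1 p2
    push_cast at p2
    simp only [al, tr, g0, if_false, gs, Bool.false_eq_true]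
    push_cast
    refine ⟨by linarith [p2.1], by linarith [p2.2], ?_⟩
    rw [abs_le]
    constructor <;> linarith [p1.1, p1.2]
  · right
    have k1 := lb hℓ (i := 2 * c.m - 1) (by omega) z1
    have k2 := ub hℓ (j := 2 * c.m + 2) (by omega) z2
    have k3 := lb hℓ (i := -c.e) (by omega) z3
    have k4 := ub hℓ (j := 0) (by omega) z4
    push_cast at k1 k2 k3 k4
    obtain ⟨p1, p2⟩ := H.posv g0
    have e1 := (H.evn g0 (neg_of gs)).1
    rw [gs] at p2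
    rw [abs_le] at p1 p2
    push_cast at p2
    simp only [al, tr, g0, if_false, gs, Bool.false_eq_true]
    push_cast
    refine ⟨by linarith [p2.1], by linarith [p2.2], ?_⟩
    rw [abs_le]
    constructor <;> linarith [p1.1, p1.2]

/-- the points of the region are in bricks of the cut -/
theorem reg_bk (h : z ∈ reg ℓ c.KF) : ∃ b, KB c b ∧ z ∈ bk ℓ b := by
  obtain ⟨F, hF, hz⟩ := h
  exact ⟨br F, kb_of hF, sqr_subset_bk H.hℓ hz⟩

omit H in
theorem pw_zero : pw c w 0 = w := by simp [pw]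

/-- **(2)** -/
theorem cut_dist (h : z ∈ cutSet ℓ d c w) : dist z w ≤ d / 3 := by
  have hd := d_pos H
  have hl := ell_le H
  have hℓ := H.hℓ
  rcases h with h | h
  · obtain ⟨b, hb, hz⟩ := reg_bk H h
    rcases kf_pos H hb hz with h1 | ⟨h1, h2, h3⟩
    · have h4 := dist_triangle z (pw c w (d / 4)) w
      have h5 := dist_pw_pw (c := c) (w := w) (d / 4) 0
      rw [pw_zero, sub_zero, abs_of_pos (by linarith)] at h5
      linarith
    · have h4 := dist_triangle z (pw c w (al c w z)) w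
      have h5 := dist_pw_pw (c := c) (w := w) (al c w z) 0
      have h6 := H.hτ
      have h7 := H.hϱ
      rw [pw_zero, sub_zero, abs_of_pos (by linarith)] at h5
      have h8 := dist_pw_le (c := c) (w := w) (z := z)
      linarith
  · obtain ⟨t, ht0, ht1, rfl⟩ := (mem_lam H).1 h
    have h5 := dist_pw_pw (c := c) (w := w) t 0
    rw [pw_zero, sub_zero, abs_of_nonneg ht0] at h5
    linarith

theorem kf_ball (h : KB c b) (hz : z ∈ bk ℓ b) : ball z ϱ ⊆ D \ gg τ₀ c w := by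
  have hd := d_pos H
  rcases kf_pos H h hz with h1 | ⟨h1, h2, h3⟩
  · exact near H (by linarith)
  · exact legm H h1 (by linarith [ell_le H, H.hℓ]) h3

/-- **(4)** -/
theorem kf_good : c.KF ⊆ GF ℓ ϱ (D \ gg τ₀ c w) (D \ gg τ₀ c w) := by
  intro F hF
  exact ⟨fun z hz => kf_ball H (kb_of hF) hz, fun z hz =>
    kf_ball H (kb_of hF) (obk_subset_bk hz) (mem_ball_self H.hϱ)⟩

/-- **(6)** -/
theorem box_good (h1 : 0 ≤ F.2) (h2 : F.2 < c.q) (h3 : -c.q ≤ F.1) (h4 : F.1 < c.q) :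
    F ∈ GF ℓ ϱ (D \ cutSet ℓ d c w) (D \ gg τ₀ c w) := by
  have hℓ := H.hℓ
  have hd := d_pos H
  have hq := H.hq
  have hm := H.hm
  have hmu := ml H
  obtain ⟨b1, b2⟩ := (br_eq_iff (F := F) (b := br F)).1 rfl
  have hball : ∀ z ∈ bk ℓ (br F), ball z ϱ ⊆ D \ gg τ₀ c w := by
    intro z hz
    obtain ⟨z1, z2, z3, z4⟩ := bk_b hz
    have k1 := lb hℓ (i := -c.q - 1) (by omega) z1
    have k2 := ub hℓ (j := c.q + 1) (by omega) z2
    have k3 := lb hℓ (i := -c.q - 1) (by omega) z3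
    have k4 := ub hℓ (j := c.q + 1) (by omega) z4
    have k5 := ub hℓ (j := 2 * c.m + 1) (by omega) z2
    push_cast at k1 k2 k3 k4 k5
    have : dist z (pw c w (d / 4)) ≤ 3 * d / 64 := by
      refine near_box H (fun _ => ?_) (fun _ => ⟨?_, k5⟩) ?_
      · rw [abs_le]; exact ⟨by linarith, k2⟩
      · linarith
      · rw [abs_le]; exact ⟨by linarith, k4⟩
    exact near H (by linarith)
  refine ⟨hball, fun z hz => ⟨(hball z (obk_subset_bk hz) (mem_ball_self H.hϱ)).1, ?_⟩⟩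
  obtain ⟨z1, z2, z3, z4⟩ := obk_b hz
  rintro (h | h)
  · obtain ⟨G, hG, hzG⟩ := h
    have h5 := obk_sqr hℓ hz hzG
    have h6 := kb_of hG
    rw [h5] at h6
    rcases h6 with ⟨g1, g2, g3, g4⟩ | ⟨g0, gs, g1, g2, g3⟩ | ⟨g0, gs, g1, g2, g3⟩ |
      ⟨g0, g1, g2, g3⟩ | ⟨g0, gs, g1, g2, g3, g4⟩ | ⟨g0, gs, g1, g2, g3, g4⟩ <;> omega
  · obtain ⟨t, ht0, ht1, rfl⟩ := (mem_lam H).1 h
    cases hh : c.hor
    · rw [pw_re_ver hh] at z2
      have k2 := ub hℓ (j := 2 * c.m - 1) (by omega) z2.le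
      obtain ⟨p1, p2⟩ := H.posv hh
      rw [abs_le] at p1
      push_cast at k2
      linarith [p1.1]
    · rw [pw_im_hor hh] at z3
      have k2 := lb hℓ (i := 0) (by omega) z3.le
      obtain ⟨p1, p2⟩ := H.posh hh
      rw [abs_le] at p1
      push_cast at k2
      linarith [p1.2]

/-- **(5)** -/
theorem lam_bad (hF : F ∉ c.KF) (hn : (obk ℓ (br F) ∩ lam ℓ d c w).Nonempty) :
    F ∉ GF ℓ ϱ (D \ gg τ₀ c w) (D \ gg τ₀ c w) := by
  intro hG
  have hℓ := H.hℓ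
  have hϱ := H.hϱ
  have hd := d_pos H
  have hq := H.hq
  have hm := H.hm
  have hmu := ml H
  have hτ := H.hτ
  -- a point of the brick close to the short segment is impossible
  have key : ∀ t : ℝ, 0 ≤ t → t < τ₀ + ϱ → pw c w t ∉ bk ℓ (br F) := by
    intro t ht0 ht1 hb
    have h1 := hG.1 _ hb
    rcases le_total t τ₀ with h | h
    · exact (h1 (mem_ball_self hϱ)).2 ((mem_gg H).2 ⟨t, ht0, h, rfl⟩)
    · have h2 : pw c w τ₀ ∈ ball (pw c w t) ϱ := by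
        rw [mem_ball, dist_pw_pw, abs_lt]
        constructor <;> linarith
      exact (h1 h2).2 ((mem_gg H).2 ⟨τ₀, by linarith, le_refl _, rfl⟩)
  obtain ⟨z, hz, hzl⟩ := hn
  obtain ⟨t, ht0, ht1, rfl⟩ := (mem_lam H).1 hzl
  rcases lt_or_ge t (τ₀ + ϱ) with ht | ht
  · exact key t ht0 ht (obk_subset_bk hz)
  have hKB : ¬ KB c (br F) := fun h => hF ((kf_iff H).2 h)
  obtain ⟨z1, z2, z3, z4⟩ := obk_b hz
  generalize br F = b at *
  cases hh : c.hor
  · obtain ⟨p1, p2⟩ := H.posv hh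
    rw [pw_re_ver hh] at z1 z2
    rw [pw_im_ver hh] at z3 z4
    rw [abs_le] at p1 p2
    have c1 : 2 * b.1 - b.2 < 2 * c.m + 1 := il hℓ z1 (by push_cast; linarith [p1.2])
    have c2 : 2 * c.m < 2 * b.1 - b.2 + 2 := il hℓ (by push_cast; linarith [p1.1]) z2
    rcases sg_or c with hs | hs
    · have e1 := H.evp hh (pos_of hs)
      rw [hs] at z3 z4 p2
      push_cast at p2
      have c3 : (0 : ℤ) < b.2 + 1 := il hℓ (x := w.im - ((1 : ℤ) : ℝ) * t)
        (by push_cast; linarith [p2.1]) z4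
      have c4 : b.2 < c.e + 2 := il hℓ z3 (by push_cast; linarith [e1.2])
      have c5 : b.2 = c.e + 1 := by
        by_contra hc
        exact hKB (Or.inr (Or.inr (Or.inr (Or.inr (Or.inl
          ⟨hh, hs, by omega, by omega, by omega, by omega⟩)))))
      have e5 : (b.2 : ℝ) = c.e + 1 := by exact_mod_cast c5
      refine key (w.im - ℓ * (c.e + 2)) (by linarith [e1.1]) (by linarith [e1.2]) ⟨?_, ?_, ?_, ?_⟩
      · rw [pw_re_ver hh]; push_cast at z1; exact z1.le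
      · rw [pw_re_ver hh]; push_cast at z2; exact z2.le
      · rw [pw_im_ver hh, hs, e5]; push_cast; linarith
      · rw [pw_im_ver hh, hs, e5]; push_cast; linarith
    · have e1 := H.evn hh (neg_of hs)
      rw [hs] at z3 z4 p2
      push_cast at p2
      have c3 : b.2 < 0 := il hℓ (x := w.im - ((-1 : ℤ) : ℝ) * t) z3
        (by push_cast; linarith [p2.1])
      have c4 : -c.e - 1 < b.2 + 1 := il hℓ (x := w.im - ((-1 : ℤ) : ℝ) * t)
        (by push_cast; linarith [e1.2]) z4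
      have c5 : b.2 = -c.e - 1 := by
        by_contra hc
        exact hKB (Or.inr (Or.inr (Or.inr (Or.inr (Or.inr
          ⟨hh, hs, by omega, by omega, by omega, by omega⟩)))))
      have e5 : (b.2 : ℝ) = -c.e - 1 := by exact_mod_cast c5
      refine key (-w.im - ℓ * (c.e + 1)) (by linarith [e1.1]) (by linarith [e1.2])
        ⟨?_, ?_, ?_, ?_⟩
      · rw [pw_re_ver hh]; push_cast at z1; exact z1.le
      · rw [pw_re_ver hh]; push_cast at z2; exact z2.le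
      · rw [pw_im_ver hh, hs, e5]; push_cast; linarith
      · rw [pw_im_ver hh, hs, e5]; push_cast; linarith
  · obtain ⟨p1, p2⟩ := H.posh hh
    rw [pw_re_hor hh] at z1 z2
    rw [pw_im_hor hh] at z3 z4
    rw [abs_le] at p1 p2
    have e1 := H.eh hh
    have c1 : b.2 < 0 := il hℓ z3 (by push_cast; linarith [p1.2])
    have c2 : -1 < b.2 + 1 := il hℓ (x := w.im) (by push_cast; linarith [p1.1]) z4
    have c0 : b.2 = -1 := by omega
    have e0 : (b.2 : ℝ) = -1 := by exact_mod_cast c0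
    rcases sg_or c with hs | hs
    · rw [hs] at z1 z2 p2 e1
      push_cast at p2 e1
      have c3 : (0 : ℤ) < 2 * b.1 - b.2 + 2 := il hℓ (x := w.re - ((1 : ℤ) : ℝ) * t)
        (by push_cast; linarith [p2.1]) z2
      have c4 : 2 * b.1 - b.2 < 2 * c.e + 3 := il hℓ z1 (by push_cast; linarith [e1.2])
      have c5 : b.1 = c.e := by
        by_contra hc
        exact hKB (Or.inr (Or.inl ⟨hh, hs, c0, by omega, by omega⟩))
      have e5 : (b.1 : ℝ) = c.e := by exact_mod_cast c5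
      refine key (w.re - ℓ * (2 * c.e + 3)) (by linarith [e1.1]) (by linarith [e1.2])
        ⟨?_, ?_, ?_, ?_⟩
      · rw [pw_re_hor hh, hs, e5, e0]; push_cast; linarith
      · rw [pw_re_hor hh, hs, e5, e0]; push_cast; linarith
      · rw [pw_im_hor hh]; exact z3.le
      · rw [pw_im_hor hh]; push_cast at z4; exact z4.le
    · rw [hs] at z1 z2 p2 e1
      push_cast at p2 e1
      have c3 : 2 * b.1 - b.2 < 0 := il hℓ (x := w.re - ((-1 : ℤ) : ℝ) * t) z1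
        (by push_cast; linarith [p2.1])
      have c4 : -(2 * c.e + 3) < 2 * b.1 - b.2 + 2 := il hℓ (x := w.re - ((-1 : ℤ) : ℝ) * t)
        (by push_cast; linarith [e1.2]) z2
      have c5 : b.1 = -c.e - 2 := by
        by_contra hc
        exact hKB (Or.inr (Or.inr (Or.inl ⟨hh, hs, c0, by omega, by omega⟩)))
      have e5 : (b.1 : ℝ) = -c.e - 2 := by exact_mod_cast c5
      refine key (-w.re - ℓ * (2 * c.e + 3)) (by linarith [e1.1]) (by linarith [e1.2])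
        ⟨?_, ?_, ?_, ?_⟩
      · rw [pw_re_hor hh, hs, e5, e0]; push_cast; linarith
      · rw [pw_re_hor hh, hs, e5, e0]; push_cast; linarith
      · rw [pw_im_hor hh]; exact z3.le
      · rw [pw_im_hor hh]; push_cast at z4; exact z4.le

end

end Vale.Agent.P167.CL.G1
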