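import Vale.Agent.P167.CL.CutDefs

/-!
# P167, block CUT: the base point can be joined to the point above `b'` off the cut

`arm`: the statement in the coordinates `u = (w - z) / dv`: the cut is in the box `|u - d / 4| ≤ d / 32`
and in the strip `|Im u| ≤ s / 16`. The connected set `C` is replaced by `(C \ R) ∪ U`, `R` the union of
a box and of a strip, `U` its boundary without the end of the strip.
-/

set_option autoImplicit false

open MeasureTheory Filter Topology Set Metric Complex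

namespace Vale.Agent.P167.CL

open Vale.Agent.P167.H450

namespace CG2

/-- A closed rectangle. -/
def rec4 (x1 x2 y1 y2 : ℝ) : Set ℂ := {z | x1 ≤ z.re ∧ z.re ≤ x2 ∧ y1 ≤ z.im ∧ z.im ≤ y2}

/-- An open rectangle. -/
def orec (x1 x2 y1 y2 : ℝ) : Set ℂ := {z | x1 < z.re ∧ z.re < x2 ∧ y1 < z.im ∧ z.im < y2}

theorem rec4_pre (x1 x2 y1 y2 : ℝ) : IsPreconnected (rec4 x1 x2 y1 y2) := by
  apply Convex.isPreconnected
  intro z hz w hw a b ha hb hab
  obtain ⟨h1, h2, h3, h4⟩ := hz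
  obtain ⟨k1, k2, k3, k4⟩ := hw
  have e : b = 1 - a := by linarith
  subst e
  simp only [rec4, mem_ofPred_eq, add_re, real_smul, mul_re, ofReal_re, ofReal_im, zero_mul,
    sub_zero, add_im, mul_im, add_zero]
  refine ⟨?_, ?_, ?_, ?_⟩ <;> nlinarith

theorem orec_open (x1 x2 y1 y2 : ℝ) : IsOpen (orec x1 x2 y1 y2) :=
  (isOpen_lt continuous_const continuous_re).inter ((isOpen_lt continuous_re continuous_const).inter
    ((isOpen_lt continuous_const continuous_im).inter (isOpen_lt continuous_im continuous_const)))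

theorem rec4_closed (x1 x2 y1 y2 : ℝ) : IsClosed (rec4 x1 x2 y1 y2) :=
  (isClosed_le continuous_const continuous_re).inter
    ((isClosed_le continuous_re continuous_const).inter
    ((isClosed_le continuous_const continuous_im).inter (isClosed_le continuous_im continuous_const)))

theorem orec_closure (x1 x2 y1 y2 : ℝ) : closure (orec x1 x2 y1 y2) ⊆ rec4 x1 x2 y1 y2 :=
  closure_minimal (fun _ h => ⟨h.1.le, h.2.1.le, h.2.2.1.le, h.2.2.2.le⟩) (rec4_closed _ _ _ _)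

theorem push_aux {C R U u v : Set ℂ} (hC : IsPreconnected C) (hR : IsOpen R)
    (hf : ∀ z ∈ C, z ∈ closure R → z ∉ R → z ∈ U) (hne : (C ∩ R).Nonempty) (hu : IsOpen u)
    (hv : IsOpen v) (hcov : (C \ R) ∪ U ⊆ u ∪ v) (h2 : (((C \ R) ∪ U) ∩ v).Nonempty)
    (hUv : ¬ (U ∩ v).Nonempty) (hno : ¬ (((C \ R) ∪ U) ∩ (u ∩ v)).Nonempty) : False := by
  have hUu : ∀ z ∈ U, z ∈ u := fun z hz => by
    rcases hcov (Or.inr hz) with h | h
    · exact h
    · exact absurd ⟨z, hz, h⟩ hUv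
  obtain ⟨y, hy, hyv⟩ := h2
  have hy1 : y ∈ C \ R := by
    rcases hy with h | h
    · exact h
    · exact absurd ⟨y, h, hyv⟩ hUv
  have hy2 : y ∉ closure R := fun h => hUv ⟨y, hf y hy1.1 h hy1.2, hyv⟩
  obtain ⟨x, hxC, hxR⟩ := hne
  obtain ⟨z, hz, hz1, hz2⟩ := hC (u ∪ R) (v \ closure R) (hu.union hR)
    (hv.sdiff isClosed_closure) (fun z hz => by
      by_cases hzR : z ∈ R
      · exact Or.inl (Or.inr hzR)
      rcases hcov (Or.inl ⟨hz, hzR⟩) with h | h
      · exact Or.inl (Or.inl h)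
      · by_cases hzc : z ∈ closure R
        · exact Or.inl (Or.inl (hUu z (hf z hz hzc hzR)))
        · exact Or.inr ⟨h, hzc⟩) ⟨x, hxC, Or.inr hxR⟩ ⟨y, hy1.1, hyv, hy2⟩
  have hzR : z ∉ R := fun h => hz2.2 (subset_closure h)
  rcases hz1 with h | h
  · exact hno ⟨z, Or.inl ⟨hz, hzR⟩, h, hz2.1⟩
  · exact hzR h

/-- Pushing a connected set off an open set, along a connected set. -/
theorem push {C R U : Set ℂ} (hC : IsPreconnected C) (hR : IsOpen R) (hU : IsPreconnected U)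
    (hf : ∀ z ∈ C, z ∈ closure R → z ∉ R → z ∈ U) (hne : (C ∩ R).Nonempty) :
    IsPreconnected ((C \ R) ∪ U) := by
  intro u v hu hv hcov h1 h2
  by_contra hno
  by_cases hUu : (U ∩ u).Nonempty
  · by_cases hUv : (U ∩ v).Nonempty
    · obtain ⟨z, hz, hz1⟩ := hU u v hu hv (subset_union_right.trans hcov) hUu hUv
      exact hno ⟨z, Or.inr hz, hz1⟩
    · exact push_aux hC hR hf hne hu hv hcov h2 hUv hno
  · rw [union_comm u v] at hcov
    rw [inter_comm u v] at hno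
    exact push_aux hC hR hf hne hv hu hcov h1 hUu hno

/-- The open set `R`. -/
def RR (d s c₀ : ℝ) : Set ℂ :=
  orec (d / 4 - 3 * d / 64) (d / 4 + 3 * d / 64) (-(3 * d / 64)) (3 * d / 64) ∪
    orec (c₀ / 2) (d / 4) (-(s / 8)) (s / 8)

/-- The connected set `U`. -/
def UU (d s c₀ : ℝ) : Set ℂ :=
  ((((((rec4 (c₀ / 2) (d / 4 - 3 * d / 64) (s / 8) (s / 8) ∪
    rec4 (d / 4 - 3 * d / 64) (d / 4 - 3 * d / 64) (s / 8) (3 * d / 64)) ∪
    rec4 (d / 4 - 3 * d / 64) (d / 4 + 3 * d / 64) (3 * d / 64) (3 * d / 64)) ∪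
    rec4 (d / 4 + 3 * d / 64) (d / 4 + 3 * d / 64) (-(3 * d / 64)) (3 * d / 64)) ∪
    rec4 (d / 4 - 3 * d / 64) (d / 4 + 3 * d / 64) (-(3 * d / 64)) (-(3 * d / 64))) ∪
    rec4 (d / 4 - 3 * d / 64) (d / 4 - 3 * d / 64) (-(3 * d / 64)) (-(s / 8))) ∪
    rec4 (c₀ / 2) (d / 4 - 3 * d / 64) (-(s / 8)) (-(s / 8)))

variable {d s c₀ : ℝ}

theorem uu_pre (hs : 0 < s) (hsd : 64 * s ≤ d) (hcd : c₀ ≤ d / 4) :
    IsPreconnected (UU d s c₀) := by
  have hd : 0 < d := by linarith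
  refine IsPreconnected.union (⟨d / 4 - 3 * d / 64, -(s / 8)⟩ : ℂ) ?_ ?_ ?_ (rec4_pre _ _ _ _)
  · right
    refine ⟨?_, ?_, ?_, ?_⟩ <;> simp only [] <;> linarith
  · refine ⟨?_, ?_, ?_, ?_⟩ <;> simp only [] <;> linarith
  refine IsPreconnected.union (⟨d / 4 - 3 * d / 64, -(3 * d / 64)⟩ : ℂ) ?_ ?_ ?_
    (rec4_pre _ _ _ _)
  · right
    refine ⟨?_, ?_, ?_, ?_⟩ <;> simp only [] <;> linarith
  · refine ⟨?_, ?_, ?_, ?_⟩ <;> simp only [] <;> linarith
  refine IsPreconnected.union (⟨d / 4 + 3 * d / 64, -(3 * d / 64)⟩ : ℂ) ?_ ?_ ?_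
    (rec4_pre _ _ _ _)
  · right
    refine ⟨?_, ?_, ?_, ?_⟩ <;> simp only [] <;> linarith
  · refine ⟨?_, ?_, ?_, ?_⟩ <;> simp only [] <;> linarith
  refine IsPreconnected.union (⟨d / 4 + 3 * d / 64, (3 * d / 64)⟩ : ℂ) ?_ ?_ ?_
    (rec4_pre _ _ _ _)
  · right
    refine ⟨?_, ?_, ?_, ?_⟩ <;> simp only [] <;> linarith
  · refine ⟨?_, ?_, ?_, ?_⟩ <;> simp only [] <;> linarith
  refine IsPreconnected.union (⟨d / 4 - 3 * d / 64, (3 * d / 64)⟩ : ℂ) ?_ ?_ ?_
    (rec4_pre _ _ _ _)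
  · right
    refine ⟨?_, ?_, ?_, ?_⟩ <;> simp only [] <;> linarith
  · refine ⟨?_, ?_, ?_, ?_⟩ <;> simp only [] <;> linarith
  refine IsPreconnected.union (⟨d / 4 - 3 * d / 64, (s / 8)⟩ : ℂ) ?_ ?_ (rec4_pre _ _ _ _)
    (rec4_pre _ _ _ _)
  · refine ⟨?_, ?_, ?_, ?_⟩ <;> simp only [] <;> linarith
  · refine ⟨?_, ?_, ?_, ?_⟩ <;> simp only [] <;> linarith

/-- The cases of a point of `U`. -/
theorem uu_cases {z : ℂ} (hz : z ∈ UU d s c₀) (hs : 0 < s) (hsd : 64 * s ≤ d) :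
    (c₀ / 2 ≤ z.re ∧ z.re ≤ d / 4 - 3 * d / 64 ∧ |z.im| = s / 8) ∨
    (z.re = d / 4 - 3 * d / 64 ∧ s / 8 ≤ |z.im| ∧ |z.im| ≤ 3 * d / 64) ∨
    (z.re = d / 4 + 3 * d / 64 ∧ |z.im| ≤ 3 * d / 64) ∨
    (|z.re - d / 4| ≤ 3 * d / 64 ∧ |z.im| = 3 * d / 64) := by
  rcases hz with (((((h | h) | h) | h) | h) | h) | h <;> obtain ⟨h1, h2, h3, h4⟩ := h
  · left
    refine ⟨h1, h2, ?_⟩
    rw [abs_of_nonneg (by linarith)]; linarith
  · right; left
    have : |z.im| = z.im := abs_of_nonneg (by linarith)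
    rw [this]
    exact ⟨by linarith, h3, h4⟩
  · right; right; right
    refine ⟨abs_le.2 ⟨by linarith, by linarith⟩, ?_⟩
    rw [abs_of_nonneg (by linarith)]; linarith
  · right; right; left
    exact ⟨by linarith, abs_le.2 ⟨by linarith, by linarith⟩⟩
  · right; right; right
    refine ⟨abs_le.2 ⟨by linarith, by linarith⟩, ?_⟩
    rw [abs_of_nonpos (by linarith)]; linarith
  · right; left
    have : |z.im| = -z.im := abs_of_nonpos (by linarith)
    rw [this]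
    exact ⟨by linarith, by linarith, by linarith⟩
  · left
    refine ⟨h1, h2, ?_⟩
    rw [abs_of_nonpos (by linarith)]; linarith

theorem uu_of_im {z : ℂ} (h1 : |z.re - d / 4| ≤ 3 * d / 64) (h2 : |z.im| = 3 * d / 64) :
    z ∈ UU d s c₀ := by
  rw [abs_le] at h1
  rcases abs_cases z.im with ⟨h3, h4⟩ | ⟨h3, h4⟩
  · rw [h3] at h2
    exact Or.inl (Or.inl (Or.inl (Or.inl (Or.inr ⟨by linarith, by linarith, by linarith,
      by linarith⟩))))
  · rw [h3] at h2
    exact Or.inl (Or.inl (Or.inr ⟨by linarith, by linarith, by linarith, by linarith⟩))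

theorem uu_of_back {z : ℂ} (h1 : z.re = d / 4 + 3 * d / 64) (h2 : |z.im| ≤ 3 * d / 64) :
    z ∈ UU d s c₀ := by
  rw [abs_le] at h2
  exact Or.inl (Or.inl (Or.inl (Or.inr ⟨by linarith, by linarith, by linarith, by linarith⟩)))

theorem uu_of_front {z : ℂ} (h1 : z.re = d / 4 - 3 * d / 64) (h2 : s / 8 ≤ |z.im|)
    (h3 : |z.im| ≤ 3 * d / 64) : z ∈ UU d s c₀ := by
  rcases abs_cases z.im with ⟨h4, h5⟩ | ⟨h4, h5⟩
  · rw [h4] at h2 h3
    exact Or.inl (Or.inl (Or.inl (Or.inl (Or.inl (Or.inr ⟨by linarith, by linarith, by linarith,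
      by linarith⟩)))))
  · rw [h4] at h2 h3
    exact Or.inl (Or.inr ⟨by linarith, by linarith, by linarith, by linarith⟩)

theorem uu_of_side {z : ℂ} (h1 : c₀ / 2 ≤ z.re) (h2 : z.re ≤ d / 4 - 3 * d / 64)
    (h3 : |z.im| = s / 8) : z ∈ UU d s c₀ := by
  rcases abs_cases z.im with ⟨h4, h5⟩ | ⟨h4, h5⟩
  · rw [h4] at h3
    exact Or.inl (Or.inl (Or.inl (Or.inl (Or.inl (Or.inl ⟨by linarith, by linarith, by linarith,
      by linarith⟩)))))
  · rw [h4] at h3
    exact Or.inr ⟨by linarith, by linarith, by linarith, by linarith⟩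

theorem mem_R1 {z : ℂ} (h1 : |z.re - d / 4| < 3 * d / 64) (h2 : |z.im| < 3 * d / 64) :
    z ∈ RR d s c₀ := by
  rw [abs_lt] at h1 h2
  exact Or.inl ⟨by linarith, by linarith, by linarith, by linarith⟩

theorem mem_R2 {z : ℂ} (h1 : c₀ / 2 < z.re) (h2 : z.re < d / 4) (h3 : |z.im| < s / 8) :
    z ∈ RR d s c₀ := by
  rw [abs_lt] at h3
  exact Or.inr ⟨by linarith, by linarith, by linarith, by linarith⟩

theorem cl_RR {z : ℂ} (hz : z ∈ closure (RR d s c₀)) :
    (|z.re - d / 4| ≤ 3 * d / 64 ∧ |z.im| ≤ 3 * d / 64) ∨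
      (c₀ / 2 ≤ z.re ∧ z.re ≤ d / 4 ∧ |z.im| ≤ s / 8) := by
  rw [RR, closure_union] at hz
  rcases hz with h | h
  · obtain ⟨h1, h2, h3, h4⟩ := orec_closure _ _ _ _ h
    exact Or.inl ⟨abs_le.2 ⟨by linarith, by linarith⟩, abs_le.2 ⟨by linarith, by linarith⟩⟩
  · obtain ⟨h1, h2, h3, h4⟩ := orec_closure _ _ _ _ h
    exact Or.inr ⟨by linarith, by linarith, abs_le.2 ⟨by linarith, by linarith⟩⟩

theorem norm_le_add (z : ℂ) : ‖z‖ ≤ |z.re| + |z.im| := Complex.norm_le_abs_re_add_abs_im z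

/-- The frontier of `R` is in `U`, apart from the end of the strip. -/
theorem fr_RR (hs : 0 < s) (hsd : 64 * s ≤ d) (hsc : s ≤ c₀) (hcd : c₀ ≤ d / 4) {z : ℂ}
    (hz : z ∈ closure (RR d s c₀)) (hz' : z ∉ RR d s c₀) (hn : c₀ ≤ ‖z‖) : z ∈ UU d s c₀ := by
  rcases cl_RR hz with ⟨h1, h2⟩ | ⟨h1, h2, h3⟩
  · rcases h2.lt_or_eq with h3 | h3
    · rcases h1.lt_or_eq with h4 | h4
      · exact absurd (mem_R1 h4 h3) hz'
      · rcases abs_cases (z.re - d / 4) with ⟨h5, -⟩ | ⟨h5, -⟩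
        · rw [h5] at h4
          exact uu_of_back (by linarith) h2
        · rw [h5] at h4
          by_cases h6 : s / 8 ≤ |z.im|
          · exact uu_of_front (by linarith) h6 h2
          · push Not at h6
            exact absurd (mem_R2 (by linarith) (by linarith) h6) hz'
    · exact uu_of_im h1 h3
  · by_cases h4 : z.re ≤ d / 4 - 3 * d / 64
    · rcases h3.lt_or_eq with h5 | h5
      · rcases h1.lt_or_eq with h6 | h6
        · exact absurd (mem_R2 h6 (by linarith) h5) hz'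
        · exfalso
          have h7 := norm_le_add z
          rw [abs_of_nonneg (show 0 ≤ z.re by linarith)] at h7
          linarith
      · exact uu_of_side h1 h4 h5
    · push Not at h4
      exact absurd (mem_R1 (abs_lt.2 ⟨by linarith, by linarith⟩) (by linarith)) hz'

theorem ball_abs {z u : ℂ} {r : ℝ} (h : u ∈ ball z r) : |u.re - z.re| < r ∧ |u.im - z.im| < r := by
  rw [mem_ball, dist_eq_norm] at h
  constructor
  · have := Complex.abs_re_le_norm (u - z)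
    rw [sub_re] at this
    linarith
  · have := Complex.abs_im_le_norm (u - z)
    rw [sub_im] at this
    linarith

/-- The cut in the coordinates `u`. -/
def TT (d s : ℝ) (u : ℂ) : Prop :=
  (|u.re - d / 4| ≤ d / 32 ∧ |u.im| ≤ d / 32) ∨ (0 ≤ u.re ∧ u.re ≤ d / 4 + d / 32 ∧ |u.im| ≤ s / 16)

/-- Off `R` and away from `0` the cut is far. -/
theorem far_off (hs : 0 < s) (hsd : 64 * s ≤ d) (hsc : s ≤ c₀) {z v : ℂ}
    (hz' : z ∉ RR d s c₀) (hn : c₀ ≤ ‖z‖) (hv : v ∈ ball z (s / 16)) : ¬ TT d s v := by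
  obtain ⟨h1, h2⟩ := ball_abs hv
  rw [abs_lt] at h1 h2
  rintro (⟨h3, h4⟩ | ⟨h3, h4, h5⟩)
  · rw [abs_le] at h3 h4
    exact hz' (mem_R1 (abs_lt.2 ⟨by linarith, by linarith⟩) (abs_lt.2 ⟨by linarith, by linarith⟩))
  · rw [abs_le] at h5
    have h6 : |z.im| < s / 8 := abs_lt.2 ⟨by linarith, by linarith⟩
    by_cases h7 : c₀ / 2 < z.re
    · by_cases h8 : z.re < d / 4
      · exact hz' (mem_R2 h7 h8 h6)
      · push Not at h8
        exact hz' (mem_R1 (abs_lt.2 ⟨by linarith, by linarith⟩) (by linarith))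
    · push Not at h7
      have h9 := norm_le_add z
      have h10 : |z.re| ≤ c₀ / 2 := abs_le.2 ⟨by linarith, by linarith⟩
      linarith

/-- The clearance of `U` from the cut. -/
theorem far_U (hs : 0 < s) (hsd : 64 * s ≤ d) {z v : ℂ} (hz : z ∈ UU d s c₀)
    (hv : v ∈ ball z (s / 16)) : ¬ TT d s v := by
  obtain ⟨h1, h2⟩ := ball_abs hv
  have h2' : |z.im| < |v.im| + s / 16 := by
    have := abs_sub_abs_le_abs_sub z.im v.im
    rw [abs_sub_comm] at this
    linarith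
  rw [abs_lt] at h1 h2
  rintro (⟨h3, h4⟩ | ⟨h3, h4, h5⟩)
  · rw [abs_le] at h3
    rcases uu_cases hz hs hsd with ⟨a1, a2, a3⟩ | ⟨a1, a2, a3⟩ | ⟨a1, a2⟩ | ⟨a1, a2⟩ <;> linarith
  · rcases uu_cases hz hs hsd with ⟨a1, a2, a3⟩ | ⟨a1, a2, a3⟩ | ⟨a1, a2⟩ | ⟨a1, a2⟩ <;> linarith

/-- `U` is deep in `D`. -/
theorem deep_U (hs : 0 < s) (hsd : 64 * s ≤ d) (hsc : s ≤ c₀) {D : Set ℂ}
    (hclr : ∀ τ : ℝ, 0 < τ → τ ≤ d / 2 → ball (τ : ℂ) (τ / 2) ⊆ D) {z : ℂ} (hz : z ∈ UU d s c₀) :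
    ball z (s / 16) ⊆ D := by
  have key : ∀ τ : ℝ, 0 < τ → τ ≤ d / 2 → |z.re - τ| + |z.im| + s / 16 ≤ τ / 2 →
      ball z (s / 16) ⊆ D := by
    intro τ h1 h2 h3 v hv
    apply hclr τ h1 h2
    rw [mem_ball] at hv ⊢
    have h4 := norm_le_add (z - τ)
    rw [sub_re, sub_im, ofReal_re, ofReal_im, sub_zero] at h4
    have h5 := dist_triangle v z τ
    rw [dist_eq_norm z] at h5
    linarith
  rcases uu_cases hz hs hsd with ⟨a1, a2, a3⟩ | ⟨a1, a2, a3⟩ | ⟨a1, a2⟩ | ⟨a1, a2⟩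
  · apply key z.re (by linarith) (by linarith)
    rw [sub_self, abs_zero, a3]; linarith
  · apply key (d / 4) (by linarith) (by linarith)
    rw [a1, show d / 4 - 3 * d / 64 - d / 4 = -(3 * d / 64) by ring, abs_neg,
      abs_of_nonneg (by linarith)]
    linarith
  · apply key (d / 4) (by linarith) (by linarith)
    rw [a1, show d / 4 + 3 * d / 64 - d / 4 = (3 * d / 64) by ring,
      abs_of_nonneg (by linarith)]
    linarith
  · apply key (d / 4) (by linarith) (by linarith)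
    linarith

/-- **The statement in the coordinates `u`.** -/
theorem arm {D T C V : Set ℂ} {z₀ b : ℂ} (hs : 0 < s) (hsc : s ≤ c₀) (hsd : 64 * s ≤ d)
    (h0 : (0 : ℂ) ∉ D) (hclr : ∀ τ : ℝ, 0 < τ → τ ≤ d / 2 → ball (τ : ℂ) (τ / 2) ⊆ D)
    (hT : ∀ u ∈ T, TT d s u) (hC : IsPreconnected C) (hz₀ : z₀ ∈ C) (hz₁ : ((d / 4 : ℝ) : ℂ) ∈ C)
    (hCD : ∀ z ∈ C, ball z c₀ ⊆ D) (hd : d ≤ ‖z₀‖) (hV : IsPreconnected V) (hb : b ∈ V)
    (hVD : ∀ z ∈ V, ball z (s / 16) ⊆ D \ T) (hVe : (V ∩ UU d s c₀).Nonempty) :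
    ∃ C' : Set ℂ, IsPreconnected C' ∧ z₀ ∈ C' ∧ b ∈ C' ∧ ∀ z ∈ C', ball z (s / 16) ⊆ D \ T := by
  have hn : ∀ z ∈ C, c₀ ≤ ‖z‖ := by
    intro z hz
    by_contra h
    push Not at h
    apply h0
    apply hCD z hz
    rw [mem_ball, dist_eq_norm, zero_sub, norm_neg]
    exact h
  have hcd : c₀ ≤ d / 4 := by
    have := hn _ hz₁
    rw [norm_real, Real.norm_of_nonneg (by linarith)] at this
    exact this
  have hRo : IsOpen (RR d s c₀) := (orec_open _ _ _ _).union (orec_open _ _ _ _)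
  have h1 : IsPreconnected ((C \ RR d s c₀) ∪ UU d s c₀) := by
    refine push hC hRo (uu_pre hs hsd hcd) (fun z hz h2 h3 => fr_RR hs hsd hsc hcd h2 h3 (hn z hz))
      ⟨_, hz₁, ?_⟩
    apply mem_R1
    · rw [ofReal_re, sub_self, abs_zero]; linarith
    · rw [ofReal_im, abs_zero]; linarith
  obtain ⟨e, he1, he2⟩ := hVe
  refine ⟨((C \ RR d s c₀) ∪ UU d s c₀) ∪ V, IsPreconnected.union e (Or.inr he2) he1 h1 hV,
    Or.inl (Or.inl ⟨hz₀, ?_⟩), Or.inr hb, ?_⟩
  · intro h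
    rcases cl_RR (subset_closure h) with ⟨h2, h3⟩ | ⟨h2, h3, h4⟩
    · have h5 := norm_le_add z₀
      rw [abs_le] at h2
      rw [abs_of_nonneg (show 0 ≤ z₀.re by linarith)] at h5
      linarith
    · have h5 := norm_le_add z₀
      rw [abs_of_nonneg (show 0 ≤ z₀.re by linarith)] at h5
      linarith
  · rintro z ((⟨hz, hzR⟩ | hz) | hz)
    · intro v hv
      refine ⟨hCD z hz (ball_subset_ball (by linarith) hv), fun hvT => ?_⟩
      exact far_off hs hsd hsc hzR (hn z hz) hv (hT v hvT)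
    · intro v hv
      exact ⟨deep_U hs hsd hsc hclr hz hv, fun hvT => far_U hs hsd hz hv (hT v hvT)⟩
    · exact hVD z hz

/-! ### The cut -/

theorem kf_cases {c : CutP} {F : ℤ × ℤ} (h : F ∈ c.KF) :
    ∃ G ∈ c.lf, F.2 = G.2 ∧ G.1 - 1 ≤ F.1 ∧ F.1 ≤ G.1 + 1 := by
  obtain ⟨G, hG, hb⟩ := h
  refine ⟨G, hG, ?_⟩
  simp only [br, Prod.mk.injEq] at hb
  obtain ⟨h1, h2⟩ := hb
  exact ⟨h2, by omega, by omega⟩

theorem mul_cast_le {ℓ : ℝ} (hℓ : 0 < ℓ) {a b : ℤ} (h : a ≤ b) : ℓ * (a : ℝ) ≤ ℓ * (b : ℝ) :=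
  mul_le_mul_of_nonneg_left (by exact_mod_cast h) hℓ.le

/-- The points of the bricks of the cut, horizontal leg. -/
theorem reg_hor {ℓ : ℝ} (hℓ : 0 < ℓ) {pos : Bool} {m q e : ℤ} {z : ℂ}
    (hz : z ∈ reg ℓ (CutP.mk true pos m q e).KF) :
    (|z.re| ≤ ℓ * (q + 1) ∧ -(ℓ * q) ≤ z.im ∧ z.im ≤ 0) ∨
    (-(2 * ℓ) ≤ ((CutP.mk true pos m q e).sg : ℝ) * z.re ∧
      ((CutP.mk true pos m q e).sg : ℝ) * z.re ≤ ℓ * (2 * e + 2) ∧ -ℓ ≤ z.im ∧ z.im ≤ 0) := by
  obtain ⟨F, hF, h1, h2, h3, h4⟩ := hz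
  obtain ⟨G, hG, g1, g2, g3⟩ := kf_cases hF
  have k3 : ∀ a : ℤ, a ≤ F.1 → ℓ * (a : ℝ) ≤ z.re := fun a ha => (mul_cast_le hℓ ha).trans h1
  have k4 : ∀ a : ℤ, F.1 + 1 ≤ a → z.re ≤ ℓ * (a : ℝ) := fun a ha => by
    have := mul_cast_le hℓ ha
    push_cast at this
    exact h2.trans this
  have k5 : ∀ a : ℤ, a ≤ F.2 → ℓ * (a : ℝ) ≤ z.im := fun a ha => (mul_cast_le hℓ ha).trans h3
  have k6 : ∀ a : ℤ, F.2 + 1 ≤ a → z.im ≤ ℓ * (a : ℝ) := fun a ha => by
    have := mul_cast_le hℓ ha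
    push_cast at this
    exact h4.trans this
  rcases hG with ⟨a1, a2, a3, a4⟩ | ⟨-, a2, a3, a4⟩ | ⟨a1, -⟩ | ⟨a1, -⟩ | ⟨a1, -⟩
  · left
    simp only at a1 a2 a3 a4
    have b1 := k3 (-q - 1) (by omega)
    have b2 := k4 (q + 1) (by omega)
    have b3 := k5 (-q) (by omega)
    have b4 := k6 0 (by omega)
    push_cast at b1 b2 b3 b4
    exact ⟨abs_le.2 ⟨by linarith, by linarith⟩, by linarith, by linarith⟩
  · right
    simp only [CutP.sg] at a2 a3 a4 ⊢
    have b3 := k5 (-1) (by omega)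
    have b4 := k6 0 (by omega)
    push_cast at b3 b4
    cases pos
    · simp only [Bool.false_eq_true, if_false] at a3 a4 ⊢
      have b1 := k3 (-(2 * e) - 1) (by omega)
      have b2 := k4 2 (by omega)
      push_cast at b1 b2 ⊢
      exact ⟨by linarith, by linarith, by linarith, by linarith⟩
    · simp only [if_true] at a3 a4 ⊢
      have b1 := k3 (-1) (by omega)
      have b2 := k4 (2 * e + 2) (by omega)
      push_cast at b1 b2 ⊢
      exact ⟨by linarith, by linarith, by linarith, by linarith⟩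
  · simp at a1
  · simp at a1
  · simp at a1

/-- The points of the bricks of the cut, vertical leg. -/
theorem reg_ver {ℓ : ℝ} (hℓ : 0 < ℓ) {pos : Bool} {m q e : ℤ} {z : ℂ}
    (hz : z ∈ reg ℓ (CutP.mk false pos m q e).KF) :
    (|z.re| ≤ ℓ * (q + 1) ∧ -(ℓ * q) ≤ z.im ∧ z.im ≤ 0) ∨
    (-ℓ ≤ z.re ∧ z.re ≤ ℓ * (2 * m + 2) ∧ -ℓ ≤ z.im ∧ z.im ≤ 0) ∨
    (pos = true ∧ ℓ * (2 * m - 1) ≤ z.re ∧ z.re ≤ ℓ * (2 * m + 2) ∧ -ℓ ≤ z.im ∧
      z.im ≤ ℓ * (e + 1)) ∨
    (pos = false ∧ ℓ * (2 * m - 1) ≤ z.re ∧ z.re ≤ ℓ * (2 * m + 2) ∧ -(ℓ * e) ≤ z.im ∧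
      z.im ≤ 0) := by
  obtain ⟨F, hF, h1, h2, h3, h4⟩ := hz
  obtain ⟨G, hG, g1, g2, g3⟩ := kf_cases hF
  have k3 : ∀ a : ℤ, a ≤ F.1 → ℓ * (a : ℝ) ≤ z.re := fun a ha => (mul_cast_le hℓ ha).trans h1
  have k4 : ∀ a : ℤ, F.1 + 1 ≤ a → z.re ≤ ℓ * (a : ℝ) := fun a ha => by
    have := mul_cast_le hℓ ha
    push_cast at this
    exact h2.trans this
  have k5 : ∀ a : ℤ, a ≤ F.2 → ℓ * (a : ℝ) ≤ z.im := fun a ha => (mul_cast_le hℓ ha).trans h3
  have k6 : ∀ a : ℤ, F.2 + 1 ≤ a → z.im ≤ ℓ * (a : ℝ) := fun a ha => by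
    have := mul_cast_le hℓ ha
    push_cast at this
    exact h4.trans this
  rcases hG with ⟨a1, a2, a3, a4⟩ | ⟨a1, -⟩ | ⟨-, a2, a3, a4⟩ | ⟨-, a1, a2, a3, a4⟩ |
    ⟨-, a1, a2, a3, a4⟩
  · left
    simp only at a1 a2 a3 a4
    have b1 := k3 (-q - 1) (by omega)
    have b2 := k4 (q + 1) (by omega)
    have b3 := k5 (-q) (by omega)
    have b4 := k6 0 (by omega)
    push_cast at b1 b2 b3 b4
    exact ⟨abs_le.2 ⟨by linarith, by linarith⟩, by linarith, by linarith⟩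
  · simp at a1
  · right; left
    simp only at a2 a3 a4
    have b1 := k3 (-1) (by omega)
    have b2 := k4 (2 * m + 2) (by omega)
    have b3 := k5 (-1) (by omega)
    have b4 := k6 0 (by omega)
    push_cast at b1 b2 b3 b4
    exact ⟨by linarith, by linarith, by linarith, by linarith⟩
  · right; right; left
    simp only at a1 a2 a3 a4
    have b1 := k3 (2 * m - 1) (by omega)
    have b2 := k4 (2 * m + 2) (by omega)
    have b3 := k5 (-1) (by omega)
    have b4 := k6 (e + 1) (by omega)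
    push_cast at b1 b2 b3 b4
    exact ⟨a1, by linarith, by linarith, by linarith, by linarith⟩
  · right; right; right
    simp only at a1 a2 a3 a4
    have b1 := k3 (2 * m - 1) (by omega)
    have b2 := k4 (2 * m + 2) (by omega)
    have b3 := k5 (-e) (by omega)
    have b4 := k6 0 (by omega)
    push_cast at b1 b2 b3 b4
    exact ⟨a1, by linarith, by linarith, by linarith, by linarith⟩

theorem lam_cases {ℓ d : ℝ} {c : CutP} {w z : ℂ} (hd : ℓ ≤ d / 4) (hz : z ∈ lam ℓ d c w) :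
    ∃ t : ℝ, 0 ≤ t ∧ t ≤ d / 4 - ℓ ∧ z = w - t * c.dv := by
  rw [lam, segment_eq_image] at hz
  obtain ⟨θ, ⟨h1, h2⟩, rfl⟩ := hz
  refine ⟨(1 - θ) * (d / 4 - ℓ), mul_nonneg (by linarith) (by linarith), ?_, ?_⟩
  · have : (1 - θ) * (d / 4 - ℓ) ≤ 1 * (d / 4 - ℓ) :=
      mul_le_mul_of_nonneg_right (by linarith) (by linarith)
    linarith
  · simp only [real_smul]
    push_cast
    ring

/-- Transport to the plane. -/
theorem arm' {D K C V : Set ℂ} {w v z₀ b : ℂ} (hv : ‖v‖ = 1) (hs : 0 < s) (hsc : s ≤ c₀)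
    (hsd : 64 * s ≤ d) (h0 : w ∉ D)
    (hclr : ∀ τ : ℝ, 0 < τ → τ ≤ d / 2 → ball (w - (τ : ℂ) * v) (τ / 2) ⊆ D)
    (hT : ∀ z ∈ K, TT d s ((w - z) / v)) (hC : IsPreconnected C) (hz₀ : z₀ ∈ C)
    (hz₁ : w - ((d / 4 : ℝ) : ℂ) * v ∈ C) (hCD : ∀ z ∈ C, ball z c₀ ⊆ D) (hd : d ≤ dist z₀ w)
    (hV : IsPreconnected V) (hb : b ∈ V) (hVD : ∀ z ∈ V, ball z (s / 16) ⊆ D \ K)
    (hVe : ∃ e ∈ V, (w - e) / v ∈ UU d s c₀) :
    ∃ C' : Set ℂ, IsPreconnected C' ∧ z₀ ∈ C' ∧ b ∈ C' ∧ ∀ z ∈ C', ball z (s / 16) ⊆ D \ K := by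
  have hv0 : v ≠ 0 := norm_ne_zero_iff.1 (by rw [hv]; exact one_ne_zero)
  have e1 : ∀ z : ℂ, w - (w - z) / v * v = z := fun z => by
    rw [div_mul_cancel₀ _ hv0]; ring
  have e2 : ∀ u : ℂ, (w - (w - u * v)) / v = u := fun u => by
    field_simp
    ring
  have d1 : ∀ u u' : ℂ, dist (w - u * v) (w - u' * v) = dist u u' := fun u u' => by
    rw [dist_eq_norm, dist_eq_norm, show w - u * v - (w - u' * v) = (u' - u) * v by ring, norm_mul,
      hv, mul_one, norm_sub_rev]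
  have hcont : Continuous fun z : ℂ => (w - z) / v := (continuous_const.sub continuous_id).div_const v
  have hb1 : ∀ (u : ℂ) (r : ℝ) (A : Set ℂ), ball (w - u * v) r ⊆ A →
      ball u r ⊆ {u | w - u * v ∈ A} := by
    intro u r A h x hx
    apply h
    rw [mem_ball, d1]
    exact hx
  obtain ⟨C', c1, c2, c3, c4⟩ := arm (D := {u | w - u * v ∈ D}) (T := {u | w - u * v ∈ K})
    (C := (fun z => (w - z) / v) '' C) (V := (fun z => (w - z) / v) '' V) (z₀ := (w - z₀) / v)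
    (b := (w - b) / v) hs hsc hsd (by simpa using h0)
    (fun τ h1 h2 => hb1 _ _ _ (hclr τ h1 h2))
    (fun u hu => by
      have := hT _ hu
      rw [e2] at this
      exact this)
    (hC.image _ hcont.continuousOn) ⟨z₀, hz₀, rfl⟩ ⟨_, hz₁, e2 _⟩
    (by
      rintro _ ⟨z, hz, rfl⟩
      refine hb1 _ _ _ ?_
      rw [e1]
      exact hCD z hz)
    (by
      rw [norm_div, hv, div_one, ← dist_eq_norm, dist_comm]
      exact hd)
    (hV.image _ hcont.continuousOn) ⟨b, hb, rfl⟩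
    (by
      rintro _ ⟨z, hz, rfl⟩
      have := hb1 ((w - z) / v) (s / 16) (D \ K) (by rw [e1]; exact hVD z hz)
      exact this)
    (by
      obtain ⟨e, he1, he2⟩ := hVe
      exact ⟨_, ⟨e, he1, rfl⟩, he2⟩)
  have hcont2 : Continuous fun u : ℂ => w - u * v := by fun_prop
  refine ⟨(fun u => w - u * v) '' C', c1.image _ hcont2.continuousOn, ⟨_, c2, e1 _⟩,
    ⟨_, c3, e1 _⟩, ?_⟩
  rintro _ ⟨u, hu, rfl⟩ x hx
  have h1 : (w - x) / v ∈ ball u (s / 16) := by
    rw [mem_ball, ← d1, e1]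
    exact hx
  have h2 := c4 u hu h1
  rw [Set.mem_sdiff, mem_ofPred_eq, mem_ofPred_eq, e1] at h2
  exact h2

/-- The geometric facts, in one of the four directions. -/
structure Geo (ℓ d s μ c₀ : ℝ) (q : ℤ) (v w : ℂ) (K : Set ℂ) : Prop where
  nv : ‖v‖ = 1
  tt : ∀ z ∈ K, TT d s ((w - z) / v)
  cv : ∀ z ∈ K, z.im ≤ 0 ∨ ℓ * q ≤ z.re
  re : |(w - ((d / 4 : ℝ) : ℂ) * v).re| ≤ d / 64
  im : -ℓ ≤ (w - ((d / 4 : ℝ) : ℂ) * v).im ∧ (w - ((d / 4 : ℝ) : ℂ) * v).im ≤ μ
  uu : (w - ⟨0, (w - ((d / 4 : ℝ) : ℂ) * v).im + 3 * d / 64⟩) / v ∈ UU d s c₀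

theorem geo {ℓ ϱ μ τ₀ : ℝ} {c : CutP} {D : Set ℂ} {w : ℂ} (h : CutC ℓ ϱ μ d τ₀ c D w)
    (hs : 32 * ℓ ≤ s) (hsq : s ≤ ℓ * c.q) (c₀ : ℝ) :
    Geo ℓ d s μ c₀ c.q c.dv w (cutSet ℓ d c w) := by
  obtain ⟨hor, pos, m, q, e⟩ := c
  have hℓ := h.hℓ
  have hϱ := h.hϱ
  have hμ := h.hμ
  have hμℓ := h.hμℓ
  have hτ := h.hτ
  have hd := h.hd
  have hqd := h.hqd
  have hmd := h.hmd
  have hq : (32 : ℝ) ≤ q := by exact_mod_cast h.hq
  have hm : (q : ℝ) + 3 ≤ 2 * m := by exact_mod_cast h.hm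
  have hqp : 32 * ℓ ≤ ℓ * q := by nlinarith
  have hmp : ℓ * q + 3 * ℓ ≤ ℓ * (2 * m) := by nlinarith
  have hposh := h.posh
  have hposv := h.posv
  have heh := h.eh
  have hevp := h.evp
  have hevn := h.evn
  simp only at hposh hposv heh hevp hevn hqd hmd hsq ⊢
  cases hor
  · -- vertical
    obtain ⟨p1, p2⟩ := hposv rfl
    rw [abs_le] at p1 p2
    cases pos
    · -- negative
      have hdv : (CutP.mk false false m q e).dv = -I := by simp [CutP.dv, CutP.sg]
      have hsg : ((CutP.mk false false m q e).sg : ℝ) = -1 := by simp [CutP.sg]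
      obtain ⟨e1, e2⟩ := hevn rfl rfl
      rw [hsg] at p2
      rw [hdv]
      have q1 : ∀ z : ℂ, ((w - z) / -I).re = -(w.im - z.im) ∧ ((w - z) / -I).im = w.re - z.re := by
        intro z
        rw [div_neg, div_I]
        simp
      have q2 : (w - ((d / 4 : ℝ) : ℂ) * -I).re = w.re ∧
          (w - ((d / 4 : ℝ) : ℂ) * -I).im = w.im + d / 4 := by
        simp
      refine ⟨by simp, ?_, ?_, ?_, ?_, ?_⟩
      · rintro z (hz | hz)
        · rw [TT, (q1 z).1, (q1 z).2]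
          rcases reg_ver hℓ hz with ⟨a1, a2, a3⟩ | ⟨a1, a2, a3, a4⟩ | ⟨a0, -⟩ | ⟨-, a1, a2, a3, a4⟩
          · rw [abs_le] at a1
            left
            exact ⟨abs_le.2 ⟨by linarith, by linarith⟩, abs_le.2 ⟨by linarith, by linarith⟩⟩
          · left
            exact ⟨abs_le.2 ⟨by linarith, by linarith⟩, abs_le.2 ⟨by linarith, by linarith⟩⟩
          · simp at a0
          · right
            exact ⟨by linarith, by linarith, abs_le.2 ⟨by linarith, by linarith⟩⟩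
        · obtain ⟨t, t1, t2, rfl⟩ := lam_cases (by linarith) hz
          right
          rw [hdv, show w - (w - (t : ℂ) * -I) = t * -I by ring,
            mul_div_assoc, div_self (by simp), mul_one, ofReal_re, ofReal_im, abs_zero]
          exact ⟨t1, by linarith, by linarith⟩
      · rintro z (hz | hz)
        · rcases reg_ver hℓ hz with ⟨a1, a2, a3⟩ | ⟨a1, a2, a3, a4⟩ | ⟨a0, -⟩ | ⟨-, a1, a2, a3, a4⟩
          · exact Or.inl a3
          · exact Or.inl a4
          · simp at a0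
          · exact Or.inl a4
        · obtain ⟨t, t1, t2, rfl⟩ := lam_cases (by linarith) hz
          left
          rw [hdv]
          simp
          linarith
      · rw [q2.1]
        exact abs_le.2 ⟨by linarith, by linarith⟩
      · rw [q2.2]
        exact ⟨by linarith, by linarith⟩
      · rw [q2.2]
        apply uu_of_back
        · rw [(q1 _).1]; simp only []; ring
        · rw [(q1 _).2]; simp only []
          exact abs_le.2 ⟨by linarith, by linarith⟩
    · -- positive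
      have hdv : (CutP.mk false true m q e).dv = I := by simp [CutP.dv, CutP.sg]
      have hsg : ((CutP.mk false true m q e).sg : ℝ) = 1 := by simp [CutP.sg]
      obtain ⟨e1, e2⟩ := hevp rfl rfl
      rw [hsg] at p2
      rw [hdv]
      have q1 : ∀ z : ℂ, ((w - z) / I).re = w.im - z.im ∧ ((w - z) / I).im = -(w.re - z.re) := by
        intro z
        rw [div_I]
        simp
      have q2 : (w - ((d / 4 : ℝ) : ℂ) * I).re = w.re ∧
          (w - ((d / 4 : ℝ) : ℂ) * I).im = w.im - d / 4 := by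
        simp
      refine ⟨by simp, ?_, ?_, ?_, ?_, ?_⟩
      · rintro z (hz | hz)
        · rw [TT, (q1 z).1, (q1 z).2]
          rcases reg_ver hℓ hz with ⟨a1, a2, a3⟩ | ⟨a1, a2, a3, a4⟩ | ⟨-, a1, a2, a3, a4⟩ | ⟨a0, -⟩
          · rw [abs_le] at a1
            left
            exact ⟨abs_le.2 ⟨by linarith, by linarith⟩, abs_le.2 ⟨by linarith, by linarith⟩⟩
          · left
            exact ⟨abs_le.2 ⟨by linarith, by linarith⟩, abs_le.2 ⟨by linarith, by linarith⟩⟩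
          · right
            exact ⟨by linarith, by linarith, abs_le.2 ⟨by linarith, by linarith⟩⟩
          · simp at a0
        · obtain ⟨t, t1, t2, rfl⟩ := lam_cases (by linarith) hz
          right
          rw [hdv, show w - (w - (t : ℂ) * I) = t * I by ring,
            mul_div_assoc, div_self (by simp), mul_one, ofReal_re, ofReal_im, abs_zero]
          exact ⟨t1, by linarith, by linarith⟩
      · rintro z (hz | hz)
        · rcases reg_ver hℓ hz with ⟨a1, a2, a3⟩ | ⟨a1, a2, a3, a4⟩ | ⟨-, a1, a2, a3, a4⟩ | ⟨a0, -⟩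
          · exact Or.inl a3
          · exact Or.inl a4
          · right; linarith
          · simp at a0
        · obtain ⟨t, t1, t2, rfl⟩ := lam_cases (by linarith) hz
          right
          rw [hdv]
          simp
          linarith
      · rw [q2.1]
        exact abs_le.2 ⟨by linarith, by linarith⟩
      · rw [q2.2]
        exact ⟨by linarith, by linarith⟩
      · rw [q2.2]
        have hw : |((w - (⟨0, w.im - d / 4 + 3 * d / 64⟩ : ℂ)) / I).im| = w.re := by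
          rw [(q1 _).2, abs_neg]; simp only []
          rw [sub_zero, abs_of_nonneg (by linarith)]
        apply uu_of_front
        · rw [(q1 _).1]; simp only []; ring
        · rw [hw]; linarith
        · rw [hw]; linarith
  · -- horizontal
    obtain ⟨p1, p2⟩ := hposh rfl
    obtain ⟨e1, e2⟩ := heh rfl
    rw [abs_le] at p1 p2
    cases pos
    · -- negative
      have hdv : (CutP.mk true false m q e).dv = -1 := by simp [CutP.dv, CutP.sg]
      have hsg : ((CutP.mk true false m q e).sg : ℝ) = -1 := by simp [CutP.sg]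
      rw [hsg] at p2 e1 e2
      rw [hdv]
      have q1 : ∀ z : ℂ, ((w - z) / -1).re = -(w.re - z.re) ∧
          ((w - z) / -1).im = -(w.im - z.im) := by
        intro z
        rw [div_neg, div_one]
        simp
      have q2 : (w - ((d / 4 : ℝ) : ℂ) * -1).re = w.re + d / 4 ∧
          (w - ((d / 4 : ℝ) : ℂ) * -1).im = w.im := by
        simp
      refine ⟨by simp, ?_, ?_, ?_, ?_, ?_⟩
      · rintro z (hz | hz)
        · rw [TT, (q1 z).1, (q1 z).2]
          rcases reg_hor hℓ hz with ⟨a1, a2, a3⟩ | ⟨a1, a2, a3, a4⟩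
          · rw [abs_le] at a1
            left
            exact ⟨abs_le.2 ⟨by linarith, by linarith⟩, abs_le.2 ⟨by linarith, by linarith⟩⟩
          · rw [hsg] at a1 a2
            right
            exact ⟨by linarith, by linarith, abs_le.2 ⟨by linarith, by linarith⟩⟩
        · obtain ⟨t, t1, t2, rfl⟩ := lam_cases (by linarith) hz
          right
          rw [hdv, show w - (w - (t : ℂ) * -1) = t * -1 by ring,
            mul_div_assoc, div_self (by simp), mul_one, ofReal_re, ofReal_im, abs_zero]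
          exact ⟨t1, by linarith, by linarith⟩
      · rintro z (hz | hz)
        · rcases reg_hor hℓ hz with ⟨a1, a2, a3⟩ | ⟨a1, a2, a3, a4⟩
          · exact Or.inl a3
          · exact Or.inl a4
        · obtain ⟨t, t1, t2, rfl⟩ := lam_cases (by linarith) hz
          left
          rw [hdv]
          simp
          linarith
      · rw [q2.1]
        exact abs_le.2 ⟨by linarith, by linarith⟩
      · rw [q2.2]
        exact ⟨by linarith, by linarith⟩
      · rw [q2.2]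
        apply uu_of_im
        · rw [(q1 _).1]; simp only []
          exact abs_le.2 ⟨by linarith, by linarith⟩
        · rw [(q1 _).2]; simp only []
          rw [abs_of_nonneg (by linarith)]; ring
    · -- positive
      have hdv : (CutP.mk true true m q e).dv = 1 := by simp [CutP.dv, CutP.sg]
      have hsg : ((CutP.mk true true m q e).sg : ℝ) = 1 := by simp [CutP.sg]
      rw [hsg] at p2 e1 e2
      rw [hdv]
      have q1 : ∀ z : ℂ, ((w - z) / 1).re = w.re - z.re ∧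
          ((w - z) / 1).im = w.im - z.im := by
        intro z
        rw [div_one]
        simp
      have q2 : (w - ((d / 4 : ℝ) : ℂ) * 1).re = w.re - d / 4 ∧
          (w - ((d / 4 : ℝ) : ℂ) * 1).im = w.im := by
        simp
      refine ⟨by simp, ?_, ?_, ?_, ?_, ?_⟩
      · rintro z (hz | hz)
        · rw [TT, (q1 z).1, (q1 z).2]
          rcases reg_hor hℓ hz with ⟨a1, a2, a3⟩ | ⟨a1, a2, a3, a4⟩
          · rw [abs_le] at a1
            left
            exact ⟨abs_le.2 ⟨by linarith, by linarith⟩, abs_le.2 ⟨by linarith, by linarith⟩⟩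
          · rw [hsg] at a1 a2
            right
            exact ⟨by linarith, by linarith, abs_le.2 ⟨by linarith, by linarith⟩⟩
        · obtain ⟨t, t1, t2, rfl⟩ := lam_cases (by linarith) hz
          right
          rw [hdv, show w - (w - (t : ℂ) * 1) = t * 1 by ring,
            mul_div_assoc, div_self (by simp), mul_one, ofReal_re, ofReal_im, abs_zero]
          exact ⟨t1, by linarith, by linarith⟩
      · rintro z (hz | hz)
        · rcases reg_hor hℓ hz with ⟨a1, a2, a3⟩ | ⟨a1, a2, a3, a4⟩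
          · exact Or.inl a3
          · exact Or.inl a4
        · obtain ⟨t, t1, t2, rfl⟩ := lam_cases (by linarith) hz
          left
          rw [hdv]
          simp
          linarith
      · rw [q2.1]
        exact abs_le.2 ⟨by linarith, by linarith⟩
      · rw [q2.2]
        exact ⟨by linarith, by linarith⟩
      · rw [q2.2]
        apply uu_of_im
        · rw [(q1 _).1]; simp only []
          exact abs_le.2 ⟨by linarith, by linarith⟩
        · rw [(q1 _).2]; simp only []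
          rw [abs_of_nonpos (by linarith)]; ring

end CG2

open CG2

/-- **[CutG2]** -/
theorem cutG2 : S_cutG2 := by
  intro ℓ ϱ μ d τ₀ c D w h c₀ C z₀ hc₀ hC hz₀ hz₁ hCD hd
  have hℓ := h.hℓ
  have hμ := h.hμ
  have hμℓ := h.hμℓ
  have hq : (32 : ℝ) ≤ c.q := by exact_mod_cast h.hq
  have hqd := h.hqd
  have hqp : 32 * ℓ ≤ ℓ * c.q := by nlinarith
  set s := min c₀ (ℓ * c.q) with hsdef
  have hs1 : s ≤ c₀ := min_le_left _ _
  have hs2 : s ≤ ℓ * c.q := min_le_right _ _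
  have hs3 : 32 * ℓ ≤ s := le_min hc₀ hqp
  have hs0 : 0 < s := by linarith
  have g := geo h hs3 hs2 c₀
  set v := c.dv with hvdef
  set w₂ := w - ((d / 4 : ℝ) : ℂ) * v with hw₂
  obtain ⟨i1, i2⟩ := g.im
  refine arm' (d := d) (V := rec4 0 0 (ℓ * c.q / 2) (w₂.im + 3 * d / 64)) g.nv hs0 hs1 (by linarith)
    h.out h.clr g.tt hC hz₀ hz₁ hCD hd (rec4_pre _ _ _ _) ?_ ?_ ⟨⟨0, w₂.im + 3 * d / 64⟩, ?_, g.uu⟩
  · refine ⟨?_, ?_, ?_, ?_⟩ <;> simp <;> linarith
  · rintro z ⟨z1, z2, z3, z4⟩ x hx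
    refine ⟨?_, fun hxK => ?_⟩
    · apply h.clr (d / 4) (by linarith) (by linarith)
      rw [mem_ball] at hx ⊢
      have h4 := norm_le_add (z - w₂)
      rw [sub_re, sub_im] at h4
      have h5 := dist_triangle x z w₂
      rw [dist_eq_norm z] at h5
      have h6 : |z.re - w₂.re| ≤ d / 64 := by
        rw [show z.re = 0 by linarith, zero_sub, abs_neg]
        exact g.re
      have h7 : |z.im - w₂.im| ≤ 3 * d / 64 := abs_le.2 ⟨by linarith, by linarith⟩
      linarith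
    · obtain ⟨h1, h2⟩ := ball_abs hx
      rw [abs_lt] at h1 h2
      rcases g.cv x hxK with h3 | h3 <;> linarith
  · refine ⟨?_, ?_, ?_, ?_⟩ <;> simp only [] <;> linarith

end Vale.Agent.P167.CL
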