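import Vale.Agent.P167.CL.CutO

/-!
# P167, block CUT: the frozen squares outside of the inner polygon (`Iso2` and the foot)
-/

set_option autoImplicit false

open MeasureTheory Filter Topology Set Metric

namespace Vale.Agent.P167.CL

open Vale.Agent.P167.H531 Vale.Agent.P167.H558
open Vale.Agent.P167.E6 Vale.Agent.P167.E2 Vale.Agent.P167.H411

/-- The inner polygon near the leg: it contains the open squares up to the index `E` and the squares
around them (except beyond the exit); near the leg beyond the exit it consists of the squares before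
the exit line. -/
structure LegPE (g : LegP) (E L : ℕ) (PE : Finset (ℤ × ℤ)) : Prop where
  lt : E < L
  inO : g.O E ⊆ PE
  hin : ∀ v ∈ g.O E, ∀ i, (∃ u, Crn v u ∧ Crn i u) → i ∉ PE →
    v = g.lv E ∧ 0 ≤ alon g.s (g.lv (E + 1)) i
  hex : ∀ j, E < j → j ≤ L → ∀ i : ℤ × ℤ, |i.1 - (g.lv j).1| ≤ 2 → |i.2 - (g.lv j).2| ≤ 2 →
    (i ∈ PE ↔ alon g.s (g.lv (E + 1)) i < 0)

variable {g : LegP} {E L : ℕ} {PE : Finset (ℤ × ℤ)}

theorem s_cases (g : LegP) : g.s = (1, 0) ∨ g.s = (-1, 0) ∨ g.s = (0, 1) ∨ g.s = (0, -1) :=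
  usv_cases _ _

/-- Position of a square of the leg. -/
theorem alon_lv (E i : ℕ) : alon g.s (g.lv E) (g.lv i) = (i : ℤ) - E := by
  unfold alon
  rw [LegP.lv_1, LegP.lv_1, LegP.lv_2, LegP.lv_2]
  rcases g.lv_cases 0 with ⟨-, -, h, -⟩ | ⟨-, -, h, -⟩ | ⟨-, -, h, -⟩ | ⟨-, -, h, -⟩ <;>
  · rw [h]; simp only; ring

/-- A common corner of a square before the line and of a square behind it is on the line. -/
theorem near_of {s v : ℤ × ℤ} (hs : s = (1, 0) ∨ s = (-1, 0) ∨ s = (0, 1) ∨ s = (0, -1))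
    {t w u : ℤ × ℤ} (ht : 0 ≤ alon s v t) (hw : alon s v w < 0) (htu : Crn t u) (hwu : Crn w u) :
    Near s v u := by
  unfold alon at ht hw
  unfold Crn at htu hwu
  unfold Near
  rcases hs with rfl | rfl | rfl | rfl
  · left; refine ⟨rfl, ?_⟩; simp only at ht hw; omega
  · right; left; refine ⟨rfl, ?_⟩; simp only at ht hw; omega
  · right; right; left; refine ⟨rfl, ?_⟩; simp only at ht hw; omega
  · right; right; right; refine ⟨rfl, ?_⟩; simp only at ht hw; omega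

/-- Sites of the line with the same parity on the same side near the leg are equal. -/
theorem near_uniq {s v : ℤ × ℤ} (hs : s = (1, 0) ∨ s = (-1, 0) ∨ s = (0, 1) ∨ s = (0, -1))
    {u u' : ℤ × ℤ} (hu : Near s v u) (hu' : Near s v u')
    (hp : (u.1 + u.2) % 2 = (u'.1 + u'.2) % 2)
    (h : (perp s v u ≤ 0 ∧ -1 ≤ perp s v u ∧ perp s v u' ≤ 0 ∧ -1 ≤ perp s v u') ∨
      (0 < perp s v u ∧ perp s v u ≤ 2 ∧ 0 < perp s v u' ∧ perp s v u' ≤ 2) ∨
      (0 ≤ perp s v u ∧ perp s v u ≤ 1 ∧ 0 ≤ perp s v u' ∧ perp s v u' ≤ 1)) : u = u' := by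
  unfold Near at hu hu'
  unfold perp at h
  rcases hs with rfl | rfl | rfl | rfl
  · simp only [one_ne_zero, if_false, Prod.mk.injEq, true_and, zero_ne_one, and_false,
      false_and, or_false, and_true] at h hu hu'
    have e1 : u.1 = u'.1 := by
      rcases hu with hu | ⟨hu, -⟩
      · rcases hu' with hu' | ⟨hu', -⟩
        · omega
        · omega
      · omega
    exact Prod.ext e1 (by omega)
  · simp only [Prod.mk.injEq, and_true, neg_eq_zero, one_ne_zero, if_false, false_and, or_false,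
      true_and] at h hu hu'
    have e1 : u.1 = u'.1 := by
      rcases hu with ⟨hu, -⟩ | hu
      · omega
      · rcases hu' with ⟨hu', -⟩ | hu'
        · omega
        · omega
    exact Prod.ext e1 (by omega)
  · simp only [if_true, Prod.mk.injEq, zero_ne_one, false_and, true_and, false_or] at h hu hu'
    have e1 : u.2 = u'.2 := by
      rcases hu with ⟨⟨hu, -⟩, -⟩ | hu | ⟨hu, -⟩
      · omega
      · rcases hu' with ⟨⟨hu', -⟩, -⟩ | hu' | ⟨hu', -⟩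
        · omega
        · omega
        · omega
      · omega
    exact Prod.ext (by omega) e1
  · simp only [if_true, Prod.mk.injEq, zero_ne_one, false_and, true_and, false_or] at h hu hu'
    have e1 : u.2 = u'.2 := by
      rcases hu with ⟨⟨hu, -⟩, -⟩ | ⟨hu, -⟩ | hu
      · omega
      · omega
      · rcases hu' with ⟨⟨hu', -⟩, -⟩ | ⟨hu', -⟩ | hu'
        · omega
        · omega
        · omega
    exact Prod.ext (by omega) e1

theorem perp_nbr {g : LegP} {E i : ℕ} {t u : ℤ × ℤ} (hu : Crn (g.lv i) u) (htu : Crn t u)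
    {o : ℤ × ℤ} (ho : Crn t o) : -1 ≤ perp g.s (g.lv E) o ∧ perp g.s (g.lv E) o ≤ 2 := by
  unfold perp
  have e1 := g.lv_1 E
  have e2 := g.lv_2 E
  have e3 := g.lv_1 i
  have e4 := g.lv_2 i
  unfold Crn at hu htu ho
  rcases g.lv_cases 0 with ⟨-, -, h, -⟩ | ⟨-, -, h, -⟩ | ⟨-, -, h, -⟩ | ⟨-, -, h, -⟩
  · rw [h] at e1 e2 e3 e4 ⊢
    simp only [one_ne_zero, if_false, mul_zero, add_zero] at e2 e4 ⊢
    omega
  · rw [h] at e1 e2 e3 e4 ⊢
    simp only [neg_eq_zero, one_ne_zero, if_false, mul_zero, add_zero] at e2 e4 ⊢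
    omega
  · rw [h] at e1 e2 e3 e4 ⊢
    simp only [if_true, mul_zero, add_zero] at e1 e3 ⊢
    omega
  · rw [h] at e1 e2 e3 e4 ⊢
    simp only [if_true, mul_zero, add_zero] at e1 e3 ⊢
    omega

theorem perp_lv {g : LegP} {E i : ℕ} {u : ℤ × ℤ} (hu : Crn (g.lv i) u) :
    0 ≤ perp g.s (g.lv E) u ∧ perp g.s (g.lv E) u ≤ 1 := by
  unfold perp
  have e1 := g.lv_1 E
  have e2 := g.lv_2 E
  have e3 := g.lv_1 i
  have e4 := g.lv_2 i
  unfold Crn at hu
  rcases g.lv_cases 0 with ⟨-, -, h, -⟩ | ⟨-, -, h, -⟩ | ⟨-, -, h, -⟩ | ⟨-, -, h, -⟩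
  · rw [h] at e1 e2 e3 e4 ⊢
    simp only [one_ne_zero, if_false, mul_zero, add_zero] at e2 e4 ⊢
    omega
  · rw [h] at e1 e2 e3 e4 ⊢
    simp only [neg_eq_zero, one_ne_zero, if_false, mul_zero, add_zero] at e2 e4 ⊢
    omega
  · rw [h] at e1 e2 e3 e4 ⊢
    simp only [if_true, mul_zero, add_zero] at e1 e3 ⊢
    omega
  · rw [h] at e1 e2 e3 e4 ⊢
    simp only [if_true, mul_zero, add_zero] at e1 e3 ⊢
    omega

/-- Squares with a common corner. -/
theorem dist_of_crn {v w u : ℤ × ℤ} (h1 : Crn v u) (h2 : Crn w u) :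
    |w.1 - v.1| ≤ 1 ∧ |w.2 - v.2| ≤ 1 := by
  unfold Crn at h1 h2
  rw [abs_le, abs_le]
  omega

/-- The exit site. -/
theorem exists_exit (g : LegP) (E : ℕ) : ∃ y : ℤ × ℤ, (y.1 + y.2) % 2 = 0 ∧ Crn (g.lv E) y ∧
    Crn (g.lv (E + 1)) y ∧ Near g.s (g.lv (E + 1)) y := by
  obtain ⟨y, h1, h2, h0⟩ := (g.lv_adj E).corner
  refine ⟨y, h0, h1, h2, near_of (s_cases g) ?_ ?_ h2 h1⟩
  · rw [alon_lv]; omega
  · rw [alon_lv]; push_cast; omega

/-- A common corner of a square of `PE` and of a square of the leg beyond the exit. -/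
theorem LegPE.eq_exit (h : LegPE g E L PE) {y : ℤ × ℤ} (hy0 : (y.1 + y.2) % 2 = 0)
    (hy : Crn (g.lv (E + 1)) y) (hyn : Near g.s (g.lv (E + 1)) y) {j : ℕ} (hj : E < j) (hjL : j ≤ L)
    {w u : ℤ × ℤ} (hw : w ∈ PE) (hu0 : (u.1 + u.2) % 2 = 0) (hu : Crn (g.lv j) u) (hwu : Crn w u) :
    u = y := by
  obtain ⟨a1, a2⟩ := dist_of_crn hu hwu
  have h1 := (h.hex j hj hjL w (by omega) (by omega)).1 hw
  have h2 : 0 ≤ alon g.s (g.lv (E + 1)) (g.lv j) := by rw [alon_lv]; push_cast; omega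
  have h3 := near_of (s_cases g) h2 h1 hu hwu
  refine near_uniq (s_cases g) h3 hyn (by omega) (Or.inr (Or.inr ?_))
  have b1 := perp_lv (E := E + 1) hu
  have b2 := perp_lv (E := E + 1) hy
  exact ⟨b1.1, b1.2, b2.1, b2.2⟩

/-- **The open frozen squares outside of the inner polygon.** -/
theorem iso_open (h : LegPE g E L PE) {y : ℤ × ℤ} (hy0 : (y.1 + y.2) % 2 = 0)
    (hy : Crn (g.lv (E + 1)) y) (hyn : Near g.s (g.lv (E + 1)) y) {G R : Set (ℤ × ℤ)}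
    (hG : ∀ v ∈ G, v ∉ PE → v ∈ R ∨ ∃ j, E < j ∧ j ≤ L ∧ g.lv j = v)
    (hR1 : ∀ v ∈ R, ∀ w ∈ PE, ∀ u, Crn v u → ¬ Crn w u)
    (hR2 : ∀ v ∈ R, ∀ j, E < j → j ≤ L → ∀ u, Crn v u → ¬ Crn (g.lv j) u) {B C : Set (ℤ × ℤ)}
    (hB : ∀ x ∈ B ∪ C, ∃ w ∈ PE, Crn w x) : Iso2 (StM 0) PE G B C := by
  have hPE : ∀ x, (x ∈ B ∪ C ∨ Touch (StM 0) PE x) → ∃ w ∈ PE, Crn w x := by
    rintro x (hx | ⟨i, hi, z, hz⟩)
    · exact hB x hx
    · exact ⟨i, hi, (crn_of_step hz).2⟩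
  intro x z hx hz hxz
  left
  by_contra hne
  obtain ⟨wx, hwx, hwx'⟩ := hPE x hx
  obtain ⟨wz, hwz, hwz'⟩ := hPE z hz
  -- every site of the path after the first one is a corner of a square of the leg
  have key : ∀ z', Cn (StM 0) (G \ ↑PE) x z' → z' = x ∨ ((x.1 + x.2) % 2 = 0 ∧
      (z'.1 + z'.2) % 2 = 0 ∧ (∃ j, E < j ∧ j ≤ L ∧ Crn (g.lv j) x) ∧
      ∃ j, E < j ∧ j ≤ L ∧ Crn (g.lv j) z') := by
    intro z' hz'
    induction hz' with
    | refl => exact Or.inl rfl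
    | @tail a b _ hb ih =>
      obtain ⟨i, ⟨hiG, hiP⟩, hs⟩ := hb
      have hi1 := crn_of_step hs
      have hp : (a.1 + a.2) % 2 = 0 ∧ (b.1 + b.2) % 2 = 0 := by
        obtain ⟨-, c2, c3, c4⟩ := hs
        omega
      right
      rcases ih with rfl | ⟨p1, p2, p3, j, hj, hjL, hja⟩
      · rcases hG i hiG hiP with hR | ⟨j, hj, hjL, rfl⟩
        · exact absurd hwx' (hR1 i hR wx hwx a hi1.1)
        · exact ⟨hp.1, hp.2, ⟨j, hj, hjL, hi1.1⟩, j, hj, hjL, hi1.2⟩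
      · rcases hG i hiG hiP with hR | ⟨j', hj', hjL', rfl⟩
        · exact absurd hja (hR2 i hR j hj hjL a hi1.1)
        · exact ⟨p1, hp.2, p3, j', hj', hjL', hi1.2⟩
  rcases key z hxz with h1 | ⟨p1, p2, ⟨j, hj, hjL, hjx⟩, j', hj', hjL', hjz⟩
  · exact hne h1.symm
  · exact hne ((h.eq_exit hy0 hy hyn hj hjL hwx p1 hjx hwx').trans
      (h.eq_exit hy0 hy hyn hj' hjL' hwz p2 hjz hwz').symm)

/-- **The foot**: the polygon vertex is joined to the exit site by the frozen open squares. -/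
theorem foot_of {G : Set (ℤ × ℤ)} {x y : ℤ × ℤ} (hEL : E < L)
    (hG : ∀ j, E < j → j ≤ L → g.lv j ∈ G) (hx0 : (x.1 + x.2) % 2 = 0) (hx : Crn (g.lv L) x)
    (hy0 : (y.1 + y.2) % 2 = 0) (hy : Crn (g.lv (E + 1)) y) : Cn (StM 0) G x y := by
  have h1 : SConn {v | ∃ i < L - E, g.lv (E + 1 + i) = v} :=
    sconn_chain fun i _ => by rw [← add_assoc]; exact g.lv_adj _
  refine (h1.cn (v := g.lv L) (w := g.lv (E + 1)) ⟨L - E - 1, by omega, ?_⟩ ⟨0, by omega, rfl⟩ hx hy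
    hx0 hy0).mono ?_
  · congr 1
    omega
  · rintro v ⟨i, hi, rfl⟩
    exact hG _ (by omega) (by omega)

/-- The squares around the path outside of the inner polygon. -/
theorem LegPE.tube (h : LegPE g E L PE) {y : ℤ × ℤ} (hy0 : (y.1 + y.2) % 2 = 0)
    (hy : Crn (g.lv (E + 1)) y) (hyn : Near g.s (g.lv (E + 1)) y) {t : ℤ × ℤ} (ht : t ∉ PE)
    (htn : t ∈ nbh (g.O L)) : 0 ≤ alon g.s (g.lv (E + 1)) t ∧ ∃ j, E < j ∧ j ≤ L ∧
      ∃ u : ℤ × ℤ, (u.1 + u.2) % 2 = 0 ∧ Crn (g.lv j) u ∧ Crn t u := by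
  obtain ⟨v, hv, u, hu0, hvu, htu⟩ := mem_nbh.1 htn
  by_cases hvE : v ∈ g.O E
  · obtain ⟨rfl, h2⟩ := h.hin v hvE t ⟨u, hvu, htu⟩ ht
    refine ⟨h2, E + 1, by omega, h.lt, u, hu0, ?_, htu⟩
    have h3 : alon g.s (g.lv (E + 1)) (g.lv E) < 0 := by rw [alon_lv]; push_cast; omega
    have h4 := near_of (s_cases g) h2 h3 htu hvu
    have h5 : u = y := by
      refine near_uniq (s_cases g) h4 hyn (by omega) (Or.inr (Or.inr ?_))
      have b1 := perp_lv (E := E + 1) hvu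
      have b2 := perp_lv (E := E + 1) hy
      exact ⟨b1.1, b1.2, b2.1, b2.2⟩
    rw [h5]
    exact hy
  · have : ∃ j, E < j ∧ j ≤ L ∧ g.lv j = v := by
      rw [LegP.mem_O] at hv
      rcases hv with hv | hv | ⟨j, hj, hv⟩
      · exact absurd (LegP.mem_O.2 (Or.inl hv)) hvE
      · exact absurd (LegP.mem_O.2 (Or.inr (Or.inl hv))) hvE
      · refine ⟨j, ?_, hj, hv⟩
        by_contra hcon
        exact hvE (LegP.mem_O.2 (Or.inr (Or.inr ⟨j, by omega, hv⟩)))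
    obtain ⟨j, hj, hjL, rfl⟩ := this
    obtain ⟨a1, a2⟩ := dist_of_crn hvu htu
    refine ⟨?_, j, hj, hjL, u, hu0, hvu, htu⟩
    by_contra hcon
    exact ht ((h.hex j hj hjL t (by omega) (by omega)).2 (by omega))

/-- **The closed frozen squares outside of the inner polygon.** -/
theorem iso_closed (hT : S_tube) {n : ℕ} {p : ZMod n → ℤ × ℤ} {S : Finset (ℤ × ℤ)} {k j₀ : ℕ}
    (hp : IsPolygon p) (hS : Encloses p S) (h : LegPE g E L PE)
    (hdq : ∀ i ≤ L, g.lv i ∈ H192.dq p k S) (hno : ∀ i < L, ∀ m, ¬ Crn (g.lv i) (H192.ro (p m)))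
    (hj₀ : Crn (g.lv L) (H192.ro (p j₀))) {G R : Set (ℤ × ℤ)}
    (hG : ∀ v ∈ G, v ∉ PE → v ∈ R ∨ (v ∈ H192.dq p k S ∧ v ∉ g.O L ∧ v ∈ nbh (g.O L)))
    (hR1 : ∀ v ∈ R, ∀ w ∈ PE, ∀ u, Crn v u → ¬ Crn w u)
    (hR2 : ∀ v ∈ R, ∀ w ∈ nbh (g.O L), ∀ u, Crn v u → ¬ Crn w u)
    {B C : Set ((ℤ × ℤ) ⊕ ZMod n)}
    (hX : ∀ x, (x ∈ B ∪ C ∨ Touch (StQ p S) PE x) → ∃ o : ℤ × ℤ, (o.1 + o.2) % 2 = 1 ∧
      x = dmo n o ∧ ∃ w ∈ PE, Crn w o) : Iso2 (StQ p S) PE G B C := by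
  obtain ⟨y, hy0, -, hy, hyn⟩ := exists_exit g E
  intro x z hx hz hxz
  left
  by_contra hne
  obtain ⟨ox, hox, rfl, wx, hwx, hwxo⟩ := hX x hx
  obtain ⟨oz, hoz, rfl, wz, hwz, hwzo⟩ := hX z hz
  have hpos : ∀ o : ℤ × ℤ, (o.1 + o.2) % 2 = 1 → H531.pos p (dmo n o) = o := by
    intro o ho
    show H192.rf (H192.rf' o) = o
    exact H192.rf_rf' (by rw [Int.not_even_iff]; exact ho)
  set Tb : Set (ℤ × ℤ) := {v | v ∈ H192.dq p k S ∧ v ∉ PE ∧ v ∉ g.O L ∧ v ∈ nbh (g.O L)} with hTb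
  have key : ∀ z', Cn (StQ p S) (G \ ↑PE) (dmo n ox) z' → z' = dmo n ox ∨
      (Cn (StQ p S) Tb (dmo n ox) z' ∧ (∃ t ∈ Tb, Crn t ox) ∧ ∃ t ∈ Tb, Crn t (H531.pos p z')) := by
    intro z' hz'
    induction hz' with
    | refl => exact Or.inl rfl
    | @tail a b _ hb ih =>
      obtain ⟨i, ⟨hiG, hiP⟩, hs⟩ := hb
      have hi1 := crn_of_step (stQ_pos hp hs)
      right
      rcases ih with rfl | ⟨c1, c2, t, ht, hta⟩
      · rw [hpos ox hox] at hi1
        rcases hG i hiG hiP with hR | hR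
        · exact absurd hwxo (hR1 i hR wx hwx ox hi1.1)
        · have hi : i ∈ Tb := ⟨hR.1, hiP, hR.2.1, hR.2.2⟩
          exact ⟨Relation.ReflTransGen.single ⟨i, hi, hs⟩, ⟨i, hi, hi1.1⟩, i, hi, hi1.2⟩
      · rcases hG i hiG hiP with hR | hR
        · exact absurd hta (hR2 i hR t ht.2.2.2 _ hi1.1)
        · have hi : i ∈ Tb := ⟨hR.1, hiP, hR.2.1, hR.2.2⟩
          exact ⟨c1.tail ⟨i, hi, hs⟩, c2, i, hi, hi1.2⟩
  rcases key _ hxz with h1 | ⟨hc, ⟨tx, htx, htxo⟩, tz, htz, htzo⟩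
  · exact hne h1.symm
  rw [hpos oz hoz] at htzo
  -- both are near the exit line
  have hline : ∀ {t w o : ℤ × ℤ}, t ∈ Tb → w ∈ PE → Crn t o → Crn w o →
      Near g.s (g.lv (E + 1)) o ∧ -1 ≤ perp g.s (g.lv (E + 1)) o ∧
        perp g.s (g.lv (E + 1)) o ≤ 2 := by
    intro t w o ht hw hto hwo
    obtain ⟨b1, j, hj, hjL, u, hu0, hju, htu⟩ := h.tube hy0 hy hyn ht.2.1 ht.2.2.2
    obtain ⟨a1, a2⟩ := dist_of_crn hju htu
    obtain ⟨a3, a4⟩ := dist_of_crn hto hwo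
    rw [abs_le] at a1 a2 a3 a4
    have h5 := (h.hex j hj hjL w (by rw [abs_le]; omega) (by rw [abs_le]; omega)).1 hw
    exact ⟨near_of (s_cases g) b1 h5 hto hwo, perp_nbr hju htu hto⟩
  obtain ⟨n1, n2, n3⟩ := hline htx hwx htxo hwxo
  obtain ⟨n4, n5, n6⟩ := hline htz hwz htzo hwzo
  have e1 : ∀ i : ℕ, g.lv (E + 1) + i • g.s = g.lv (E + 1 + i) := fun i => (g.lv_add _ _).symm
  have hlt := h.lt
  have hside := hT n p S k hp hS (g.lv (E + 1)) g.s (L - (E + 1)) j₀ (s_cases g)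
    (by
      intro m
      have : g.lv (E + 1) - g.s = g.lv E := by
        rw [g.lv_add, one_smul, add_sub_cancel_right]
      rw [this]
      exact hno E hlt m)
    (fun i hi => by rw [e1]; exact hdq _ (by omega))
    (fun i hi m => by rw [e1]; exact hno _ (by omega) m)
    (by
      rw [e1]
      have : E + 1 + (L - (E + 1)) = L := by omega
      rw [this]
      exact hj₀) Tb
    (by
      intro t ht
      obtain ⟨b1, j, hj, hjL, u, hu0, hju, htu⟩ := h.tube hy0 hy hyn ht.2.1 ht.2.2.2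
      refine ⟨ht.1, ?_, b1, j - (E + 1), by omega, u, hu0, ?_, htu⟩
      · intro i hi hcon
        rw [e1] at hcon
        exact ht.2.2.1 (hcon ▸ LegP.lv_mem (by omega))
      · rw [e1]
        have : E + 1 + (j - (E + 1)) = j := by omega
        rw [this]
        exact hju)
    _ _ hc (by rw [hpos ox hox]; exact n1) (by rw [hpos oz hoz]; exact n4)
  rw [hpos ox hox, hpos oz hoz] at hside
  apply hne
  have : ox = oz := by
    refine near_uniq (s_cases g) n1 n4 (by omega) ?_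
    by_cases h0 : perp g.s (g.lv (E + 1)) ox ≤ 0
    · exact Or.inl ⟨h0, n2, hside.1 h0, n5⟩
    · refine Or.inr (Or.inl ⟨by omega, n3, ?_, n6⟩)
      by_contra hcon
      exact h0 (hside.2 (by omega))
  rw [this]

end Vale.Agent.P167.CL
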