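import Vale.Agent.P167.CL.CutQ

/-!
# P167, block CUT: the position of the leg in the plane of the faces
-/

set_option autoImplicit false

open MeasureTheory Filter Topology Set Metric

namespace Vale.Agent.P167.CL.CutL

open Vale.Agent.P167.CL

open Vale.Agent.P153.R2.L1 (HH)
open Vale.Agent.P167.H531 Vale.Agent.P167.H558
open Vale.Agent.P167.E6 Vale.Agent.P167.E2 Vale.Agent.P167.H411 Vale.Agent.P167.H450

/-- The direction as a complex number. -/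
theorem dv_eq (c : CutP) (N : ℕ) (v₀ u : ℤ × ℤ) :
    c.dv = ⟨((c.leg N v₀ u).s.1 : ℝ), ((c.leg N v₀ u).s.2 : ℝ)⟩ := by
  have e : (c.leg N v₀ u).s = usv c.hor c.pos := rfl
  rw [e]
  obtain ⟨hor, pos, m, q, e⟩ := c
  cases hor <;> cases pos <;> apply Complex.ext <;> simp [CutP.dv, CutP.sg, usv]

theorem fc_add (ℓ : ℝ) (N : ℕ) (v₀ v s : ℤ × ℤ) (i : ℕ) :
    fc ℓ N v₀ (v + i • s) = fc ℓ N v₀ v + ((i * (ℓ / N) : ℝ) : ℂ) * ⟨(s.1 : ℝ), (s.2 : ℝ)⟩ := by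
  apply Complex.ext
  · simp [fc]; ring
  · simp [fc]; ring

/-- The centres of the squares of the leg. -/
theorem fc_lv (ℓ : ℝ) (c : CutP) (N : ℕ) (v₀ u : ℤ × ℤ) (i j : ℕ) :
    fc ℓ N v₀ ((c.leg N v₀ u).lv (i + j)) =
      fc ℓ N v₀ ((c.leg N v₀ u).lv i) + ((j * (ℓ / N) : ℝ) : ℂ) * c.dv := by
  rw [LegP.lv_add, fc_add, dv_eq c N v₀ u]

variable {ℓ X κ d ϱ τ₀ : ℝ} {N : ℕ} {ψ : ℂ → ℂ} {c : CutP} {w : ℂ} {v₀ u : ℤ × ℤ}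

/-- Sizes. -/
theorem _root_.Vale.Agent.P167.CL.CutC.sizes {ϱ μ d τ₀ : ℝ} {D : Set ℂ} (C : CutC ℓ ϱ μ d τ₀ c D w) :
    0 < ℓ ∧ 0 < ϱ ∧ 2240 * ℓ ≤ d ∧ 32 * (τ₀ + ϱ) + 32 * ℓ ≤ d ∧ 20 * ℓ + 4 * ϱ ≤ τ₀ ∧
      64 * ℓ * (2 * c.m) + 192 * ℓ ≤ d := by
  have h1 := C.hℓ
  have h2 := C.hϱ
  have h3 := C.hd
  have h4 := C.hqd
  have h5 : (32 : ℝ) ≤ c.q := by exact_mod_cast C.hq
  have h6 := C.hτ
  have h7 := C.hmd
  refine ⟨h1, h2, by nlinarith, by linarith, by linarith, by linarith⟩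

theorem _root_.Vale.Agent.P167.CL.CutM.exists_K_nn (M : CutM ℓ N ψ X κ d ϱ τ₀ c w) (hN : 16 ≤ N) (hN2 : 4 ∣ N)
    (hu : u ∈ Uset) (ho : c.hor = false) (hp : c.pos = false) : ∃ K : ℕ,
      ℓ / N * (((c.leg N v₀ u).lv K).1 - v₀.1) ≤ w.re ∧
      w.re ≤ ℓ / N * (((c.leg N v₀ u).lv K).1 - v₀.1 + 1) ∧
      ℓ / N * (((c.leg N v₀ u).lv K).2 - v₀.2) ≤ w.im ∧
      w.im ≤ ℓ / N * (((c.leg N v₀ u).lv K).2 - v₀.2 + 1) ∧
      (∀ E : ℕ, ExitE c N E → E + 18 ≤ K) ∧ (K : ℝ) * (ℓ / N) ≤ 3 / 8 * d := by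
  obtain ⟨k1, k2, k3, k4, k5, k6⟩ := M.cut.sizes
  have hu2 : u.2 = 0 ∧ (u.1 = 0 ∨ u.1 = 1) := by
    rcases hu with rfl | rfl <;> simp
  have hb1 : (v₀ + u).1 = v₀.1 + u.1 := rfl
  have hb2 : (v₀ + u).2 = v₀.2 + u.2 := rfl
  obtain ⟨Q, rfl⟩ := hN2
  have hQ : 4 ≤ Q := by omega
  have hQ' : (4 : ℝ) ≤ Q := by exact_mod_cast hQ
  have hH : ((4 * Q : ℕ) : ℤ) / 2 = 2 * Q := by push_cast; omega
  obtain ⟨h, hh⟩ : ∃ h : ℝ, h = ℓ / (4 * Q : ℕ) := ⟨_, rfl⟩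
  have hNh : 4 * Q * h = ℓ := by
    rw [hh]; push_cast; field_simp
  have hh0 : 0 < h := by rw [hh]; positivity
  have hμ : 2 * ℓ / ((4 * Q : ℕ) : ℝ) = 2 * h := by rw [hh]; ring
  rw [← hh]
  have h16 : 16 * h ≤ ℓ := by nlinarith
  have hcast : ∀ a b : ℤ, h * a < h * b → a < b := fun a b hab => by
    exact_mod_cast lt_of_mul_lt_mul_left hab hh0.le
  -- vertical, down
  obtain ⟨e1, e2⟩ := leg_nn (N := 4 * Q) (v₀ := v₀) (u := u) ho hp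
  have hsg : (c.sg : ℝ) = -1 := by simp [CutP.sg, hp]
  obtain ⟨q1, q2⟩ := M.cut.posv ho
  rw [hsg, hμ, abs_le] at q2
  obtain ⟨r1, r2⟩ := M.col ho
  rw [← hh] at r2
  have hz1 : h * ⌊w.im / h⌋ ≤ w.im := by
    have := Int.floor_le (w.im / h)
    rw [le_div_iff₀ hh0] at this
    linarith
  have hz2 : w.im < h * (⌊w.im / h⌋ + 1) := by
    have := Int.lt_floor_add_one (w.im / h)
    rw [div_lt_iff₀ hh0] at this
    linarith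
  set z := ⌊w.im / h⌋ with hz
  have hK0 : 0 ≤ -(2 * (Q : ℤ)) - z := by
    by_contra hcon
    have h1 : -(2 * (Q : ℤ)) ≤ z - 1 := by omega
    have h2 : -(2 * (Q : ℝ)) ≤ z - 1 := by exact_mod_cast h1
    nlinarith
  obtain ⟨K, hK⟩ := Int.eq_ofNat_of_zero_le hK0
  have hK' : -(2 * (Q : ℝ)) - z = K := by exact_mod_cast hK
  refine ⟨K, ?_⟩
  rw [(e2 K).1, (e2 K).2, hH, hb2, hu2.1]
  push_cast
  refine ⟨by nlinarith, by nlinarith, by nlinarith, by nlinarith, ?_, by nlinarith⟩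
  intro E hE
  unfold ExitE at hE
  rw [ho, hp] at hE
  simp only at hE
  rw [hH] at hE
  have hE' : (E : ℝ) + 1 = c.e * (4 * Q) - 2 * Q + 1 := by exact_mod_cast hE
  have h3 := (M.cut.evn ho hp).1
  have h4 : h * ((E : ℤ) + 320 : ℤ) < h * ((K : ℤ) + 2 : ℤ) := by
    push_cast
    rw [← hK']
    nlinarith
  have := hcast _ _ h4
  omega

theorem _root_.Vale.Agent.P167.CL.CutM.exists_K_np (M : CutM ℓ N ψ X κ d ϱ τ₀ c w) (hN : 16 ≤ N) (hN2 : 4 ∣ N)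
    (hu : u ∈ Uset) (ho : c.hor = false) (hp : c.pos = true) : ∃ K : ℕ,
      ℓ / N * (((c.leg N v₀ u).lv K).1 - v₀.1) ≤ w.re ∧
      w.re ≤ ℓ / N * (((c.leg N v₀ u).lv K).1 - v₀.1 + 1) ∧
      ℓ / N * (((c.leg N v₀ u).lv K).2 - v₀.2) ≤ w.im ∧
      w.im ≤ ℓ / N * (((c.leg N v₀ u).lv K).2 - v₀.2 + 1) ∧
      (∀ E : ℕ, ExitE c N E → E + 18 ≤ K) ∧ (K : ℝ) * (ℓ / N) ≤ 3 / 8 * d := by
  obtain ⟨k1, k2, k3, k4, k5, k6⟩ := M.cut.sizes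
  have hu2 : u.2 = 0 ∧ (u.1 = 0 ∨ u.1 = 1) := by
    rcases hu with rfl | rfl <;> simp
  have hb1 : (v₀ + u).1 = v₀.1 + u.1 := rfl
  have hb2 : (v₀ + u).2 = v₀.2 + u.2 := rfl
  obtain ⟨Q, rfl⟩ := hN2
  have hQ : 4 ≤ Q := by omega
  have hQ' : (4 : ℝ) ≤ Q := by exact_mod_cast hQ
  have hH : ((4 * Q : ℕ) : ℤ) / 2 = 2 * Q := by push_cast; omega
  obtain ⟨h, hh⟩ : ∃ h : ℝ, h = ℓ / (4 * Q : ℕ) := ⟨_, rfl⟩
  have hNh : 4 * Q * h = ℓ := by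
    rw [hh]; push_cast; field_simp
  have hh0 : 0 < h := by rw [hh]; positivity
  have hμ : 2 * ℓ / ((4 * Q : ℕ) : ℝ) = 2 * h := by rw [hh]; ring
  rw [← hh]
  have h16 : 16 * h ≤ ℓ := by nlinarith
  have hcast : ∀ a b : ℤ, h * a < h * b → a < b := fun a b hab => by
    exact_mod_cast lt_of_mul_lt_mul_left hab hh0.le
  -- vertical, up
  obtain ⟨e1, e2⟩ := leg_np (N := 4 * Q) (v₀ := v₀) (u := u) ho hp
  have hsg : (c.sg : ℝ) = 1 := by simp [CutP.sg, hp]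
  obtain ⟨q1, q2⟩ := M.cut.posv ho
  rw [hsg, hμ, abs_le] at q2
  obtain ⟨r1, r2⟩ := M.col ho
  rw [← hh] at r2
  have hz1 : h * ⌊w.im / h⌋ ≤ w.im := by
    have := Int.floor_le (w.im / h)
    rw [le_div_iff₀ hh0] at this
    linarith
  have hz2 : w.im < h * (⌊w.im / h⌋ + 1) := by
    have := Int.lt_floor_add_one (w.im / h)
    rw [div_lt_iff₀ hh0] at this
    linarith
  set z := ⌊w.im / h⌋ with hz
  have hK0 : 0 ≤ (2 * (Q : ℤ)) + z := by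
    by_contra hcon
    have h1 : z + 1 ≤ -(2 * (Q : ℤ)) := by omega
    have h2 : (z : ℝ) + 1 ≤ -(2 * (Q : ℝ)) := by exact_mod_cast h1
    nlinarith
  obtain ⟨K, hK⟩ := Int.eq_ofNat_of_zero_le hK0
  have hK' : (2 * (Q : ℝ)) + z = K := by exact_mod_cast hK
  refine ⟨K, ?_⟩
  rw [(e2 K).1, (e2 K).2, hH, hb2, hu2.1]
  push_cast
  refine ⟨by nlinarith, by nlinarith, by nlinarith, by nlinarith, ?_, by nlinarith⟩
  intro E hE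
  unfold ExitE at hE
  rw [ho, hp] at hE
  simp only at hE
  rw [hH] at hE
  have hE' : (E : ℝ) + 1 = (c.e + 1) * (4 * Q) + 2 * Q := by exact_mod_cast hE
  have h3 := (M.cut.evp ho hp).1
  have h4 : h * ((E : ℤ) + 320 : ℤ) < h * ((K : ℤ) + 2 : ℤ) := by
    push_cast
    rw [← hK']
    nlinarith
  have := hcast _ _ h4
  omega

theorem _root_.Vale.Agent.P167.CL.CutM.exists_K_pn (M : CutM ℓ N ψ X κ d ϱ τ₀ c w) (hN : 16 ≤ N) (hN2 : 4 ∣ N)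
    (hu : u ∈ Uset) (ho : c.hor = true) (hp : c.pos = false) : ∃ K : ℕ,
      ℓ / N * (((c.leg N v₀ u).lv K).1 - v₀.1) ≤ w.re ∧
      w.re ≤ ℓ / N * (((c.leg N v₀ u).lv K).1 - v₀.1 + 1) ∧
      ℓ / N * (((c.leg N v₀ u).lv K).2 - v₀.2) ≤ w.im ∧
      w.im ≤ ℓ / N * (((c.leg N v₀ u).lv K).2 - v₀.2 + 1) ∧
      (∀ E : ℕ, ExitE c N E → E + 18 ≤ K) ∧ (K : ℝ) * (ℓ / N) ≤ 3 / 8 * d := by
  obtain ⟨k1, k2, k3, k4, k5, k6⟩ := M.cut.sizes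
  have hu2 : u.2 = 0 ∧ (u.1 = 0 ∨ u.1 = 1) := by
    rcases hu with rfl | rfl <;> simp
  have hb1 : (v₀ + u).1 = v₀.1 + u.1 := rfl
  have hb2 : (v₀ + u).2 = v₀.2 + u.2 := rfl
  obtain ⟨Q, rfl⟩ := hN2
  have hQ : 4 ≤ Q := by omega
  have hQ' : (4 : ℝ) ≤ Q := by exact_mod_cast hQ
  have hH : ((4 * Q : ℕ) : ℤ) / 2 = 2 * Q := by push_cast; omega
  obtain ⟨h, hh⟩ : ∃ h : ℝ, h = ℓ / (4 * Q : ℕ) := ⟨_, rfl⟩
  have hNh : 4 * Q * h = ℓ := by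
    rw [hh]; push_cast; field_simp
  have hh0 : 0 < h := by rw [hh]; positivity
  have hμ : 2 * ℓ / ((4 * Q : ℕ) : ℝ) = 2 * h := by rw [hh]; ring
  rw [← hh]
  have h16 : 16 * h ≤ ℓ := by nlinarith
  have hcast : ∀ a b : ℤ, h * a < h * b → a < b := fun a b hab => by
    exact_mod_cast lt_of_mul_lt_mul_left hab hh0.le
  -- horizontal, left
  obtain ⟨e1, e2⟩ := leg_pn (N := 4 * Q) (v₀ := v₀) (u := u) ho hp
  have hsg : (c.sg : ℝ) = -1 := by simp [CutP.sg, hp]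
  obtain ⟨q1, q2⟩ := M.cut.posh ho
  rw [hsg, hμ, abs_le] at q2
  obtain ⟨r1, r2⟩ := M.row ho
  rw [← hh] at r2
  have hz1 : h * ⌊w.re / h⌋ ≤ w.re := by
    have := Int.floor_le (w.re / h)
    rw [le_div_iff₀ hh0] at this
    linarith
  have hz2 : w.re < h * (⌊w.re / h⌋ + 1) := by
    have := Int.lt_floor_add_one (w.re / h)
    rw [div_lt_iff₀ hh0] at this
    linarith
  set z := ⌊w.re / h⌋ with hz
  have hK0 : 0 ≤ u.1 - z := by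
    by_contra hcon
    have h1 : 1 ≤ z := by omega
    have h2 : (1 : ℝ) ≤ z := by exact_mod_cast h1
    nlinarith
  obtain ⟨K, hK⟩ := Int.eq_ofNat_of_zero_le hK0
  have hK' : (u.1 : ℝ) - z = K := by exact_mod_cast hK
  have hu1 : (0 : ℝ) ≤ u.1 ∧ (u.1 : ℝ) ≤ 1 := by
    rcases hu2.2 with h | h <;> rw [h] <;> norm_num
  refine ⟨K, ?_⟩
  rw [(e2 K).1, (e2 K).2, hH, hb2, hb1, hu2.1]
  push_cast
  refine ⟨by nlinarith, by nlinarith, by nlinarith, by nlinarith, ?_, by nlinarith⟩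
  intro E hE
  unfold ExitE at hE
  rw [ho, hp] at hE
  simp only at hE
  have hE' : (E : ℝ) + 1 = (2 * c.e + 1) * (4 * Q) + 1 := by exact_mod_cast hE
  have h3 := (M.cut.eh ho).1
  rw [hsg] at h3
  have h4 : h * ((E : ℤ) + 320 : ℤ) < h * ((K : ℤ) + 2 : ℤ) := by
    push_cast
    rw [← hK']
    nlinarith
  have := hcast _ _ h4
  omega

theorem _root_.Vale.Agent.P167.CL.CutM.exists_K_pp (M : CutM ℓ N ψ X κ d ϱ τ₀ c w) (hN : 16 ≤ N) (hN2 : 4 ∣ N)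
    (hu : u ∈ Uset) (ho : c.hor = true) (hp : c.pos = true) : ∃ K : ℕ,
      ℓ / N * (((c.leg N v₀ u).lv K).1 - v₀.1) ≤ w.re ∧
      w.re ≤ ℓ / N * (((c.leg N v₀ u).lv K).1 - v₀.1 + 1) ∧
      ℓ / N * (((c.leg N v₀ u).lv K).2 - v₀.2) ≤ w.im ∧
      w.im ≤ ℓ / N * (((c.leg N v₀ u).lv K).2 - v₀.2 + 1) ∧
      (∀ E : ℕ, ExitE c N E → E + 18 ≤ K) ∧ (K : ℝ) * (ℓ / N) ≤ 3 / 8 * d := by
  obtain ⟨k1, k2, k3, k4, k5, k6⟩ := M.cut.sizes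
  have hu2 : u.2 = 0 ∧ (u.1 = 0 ∨ u.1 = 1) := by
    rcases hu with rfl | rfl <;> simp
  have hb1 : (v₀ + u).1 = v₀.1 + u.1 := rfl
  have hb2 : (v₀ + u).2 = v₀.2 + u.2 := rfl
  obtain ⟨Q, rfl⟩ := hN2
  have hQ : 4 ≤ Q := by omega
  have hQ' : (4 : ℝ) ≤ Q := by exact_mod_cast hQ
  have hH : ((4 * Q : ℕ) : ℤ) / 2 = 2 * Q := by push_cast; omega
  obtain ⟨h, hh⟩ : ∃ h : ℝ, h = ℓ / (4 * Q : ℕ) := ⟨_, rfl⟩
  have hNh : 4 * Q * h = ℓ := by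
    rw [hh]; push_cast; field_simp
  have hh0 : 0 < h := by rw [hh]; positivity
  have hμ : 2 * ℓ / ((4 * Q : ℕ) : ℝ) = 2 * h := by rw [hh]; ring
  rw [← hh]
  have h16 : 16 * h ≤ ℓ := by nlinarith
  have hcast : ∀ a b : ℤ, h * a < h * b → a < b := fun a b hab => by
    exact_mod_cast lt_of_mul_lt_mul_left hab hh0.le
  -- horizontal, right
  obtain ⟨e1, e2⟩ := leg_pp (N := 4 * Q) (v₀ := v₀) (u := u) ho hp
  have hsg : (c.sg : ℝ) = 1 := by simp [CutP.sg, hp]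
  obtain ⟨q1, q2⟩ := M.cut.posh ho
  rw [hsg, hμ, abs_le] at q2
  obtain ⟨r1, r2⟩ := M.row ho
  rw [← hh] at r2
  have hz1 : h * ⌊w.re / h⌋ ≤ w.re := by
    have := Int.floor_le (w.re / h)
    rw [le_div_iff₀ hh0] at this
    linarith
  have hz2 : w.re < h * (⌊w.re / h⌋ + 1) := by
    have := Int.lt_floor_add_one (w.re / h)
    rw [div_lt_iff₀ hh0] at this
    linarith
  set z := ⌊w.re / h⌋ with hz
  have hK0 : 0 ≤ z - u.1 := by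
    by_contra hcon
    have h1 : z ≤ 0 := by omega
    have h2 : (z : ℝ) ≤ 0 := by exact_mod_cast h1
    nlinarith
  obtain ⟨K, hK⟩ := Int.eq_ofNat_of_zero_le hK0
  have hK' : (z : ℝ) - u.1 = K := by exact_mod_cast hK
  have hu1 : (0 : ℝ) ≤ u.1 ∧ (u.1 : ℝ) ≤ 1 := by
    rcases hu2.2 with h | h <;> rw [h] <;> norm_num
  refine ⟨K, ?_⟩
  rw [(e2 K).1, (e2 K).2, hH, hb2, hb1, hu2.1]
  push_cast
  refine ⟨by nlinarith, by nlinarith, by nlinarith, by nlinarith, ?_, by nlinarith⟩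
  intro E hE
  unfold ExitE at hE
  rw [ho, hp] at hE
  simp only at hE
  have hE' : (E : ℝ) + 1 = (2 * c.e + 1) * (4 * Q) := by exact_mod_cast hE
  have h3 := (M.cut.eh ho).1
  rw [hsg] at h3
  have h4 : h * ((E : ℤ) + 320 : ℤ) < h * ((K : ℤ) + 2 : ℤ) := by
    push_cast
    rw [← hK']
    nlinarith
  have := hcast _ _ h4
  omega

/-- The index of the square which contains the end `w`. -/
theorem _root_.Vale.Agent.P167.CL.CutM.exists_K (M : CutM ℓ N ψ X κ d ϱ τ₀ c w) (hN : 16 ≤ N) (hN2 : 4 ∣ N)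
    (hu : u ∈ Uset) : ∃ K : ℕ,
      ℓ / N * (((c.leg N v₀ u).lv K).1 - v₀.1) ≤ w.re ∧
      w.re ≤ ℓ / N * (((c.leg N v₀ u).lv K).1 - v₀.1 + 1) ∧
      ℓ / N * (((c.leg N v₀ u).lv K).2 - v₀.2) ≤ w.im ∧
      w.im ≤ ℓ / N * (((c.leg N v₀ u).lv K).2 - v₀.2 + 1) ∧
      (∀ E : ℕ, ExitE c N E → E + 18 ≤ K) ∧ (K : ℝ) * (ℓ / N) ≤ 3 / 8 * d := by
  rcases ho : c.hor with _ | _ <;> rcases hp : c.pos with _ | _
  · exact M.exists_K_nn hN hN2 hu ho hp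
  · exact M.exists_K_np hN hN2 hu ho hp
  · exact M.exists_K_pn hN hN2 hu ho hp
  · exact M.exists_K_pp hN hN2 hu ho hp

end Vale.Agent.P167.CL.CutL
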