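import Vale.Agent.P167.CL.CutDefs
import Vale.Agent.P167.E2.Om

/-!
# P167, block CUT: `cutW : S_cutW`, the first contact of a straight row of squares with the polygon
-/

set_option autoImplicit false

open Filter Topology Set Metric

namespace Vale.Agent.P167.CL

open Vale.Agent.P167.E6 Vale.Agent.P167.E2
open Vale.Agent.P167.H192 (dq ed ea eb wires mem_dq ed_sq exists_dir ro' ro_ro')
open Complex (I)

namespace CW

/-- All faces around the vertex `a` are in `S`. -/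
def Inn (S : Finset (ℤ × ℤ)) (a : ℤ × ℤ) : Prop := ∀ r, face a r ∈ S

theorem edge_of_crn {v a : ℤ × ℤ} (h : Crn v (H192.ro a)) : ∃ r, ed v = s(a, a + dir r) := by
  obtain ⟨b, hb1, hb2⟩ : ∃ b : ℤ × ℤ, ((H192.ro b).1 = (H192.ro a).1 + 1 ∨
      (H192.ro b).1 = (H192.ro a).1 - 1) ∧ ((H192.ro b).2 = (H192.ro a).2 + 1 ∨
      (H192.ro b).2 = (H192.ro a).2 - 1) ∧
      v = (min (H192.ro a).1 (H192.ro b).1, min (H192.ro a).2 (H192.ro b).2) := by
    unfold Crn at h
    have hx : ∃ x y : ℤ, (x = (H192.ro a).1 + 1 ∨ x = (H192.ro a).1 - 1) ∧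
        (y = (H192.ro a).2 + 1 ∨ y = (H192.ro a).2 - 1) ∧ v.1 = min (H192.ro a).1 x ∧
        v.2 = min (H192.ro a).2 y := by
      rcases h.1 with h1 | h1 <;> rcases h.2 with h2 | h2
      · exact ⟨(H192.ro a).1 + 1, (H192.ro a).2 + 1, by omega, by omega, by omega, by omega⟩
      · exact ⟨(H192.ro a).1 + 1, (H192.ro a).2 - 1, by omega, by omega, by omega, by omega⟩
      · exact ⟨(H192.ro a).1 - 1, (H192.ro a).2 + 1, by omega, by omega, by omega, by omega⟩
      · exact ⟨(H192.ro a).1 - 1, (H192.ro a).2 - 1, by omega, by omega, by omega, by omega⟩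
    obtain ⟨x, y, h1, h2, h3, h4⟩ := hx
    have e : H192.ro (ro' (x, y)) = (x, y) := by
      refine ro_ro' ?_
      rw [Int.even_iff]
      simp only [H192.ro] at h1 h2
      simp only
      omega
    refine ⟨ro' (x, y), ?_, ?_, ?_⟩
    · rw [e]; exact h1
    · rw [e]; exact h2
    · rw [e]; exact Prod.ext h3 h4
  obtain ⟨r, hr⟩ := exists_dir hb1 hb2.1
  refine ⟨r, ?_⟩
  rw [hb2.2, ← H192.sq_mk, ed_sq ⟨a, r, by rw [hr]⟩, hr]

variable {n : ℕ} {p : ZMod n → ℤ × ℤ} {S : Finset (ℤ × ℤ)} {k : ℕ} {δ : ℝ}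

theorem Inn.ne (hp : IsPolygon p) (hS : Encloses p S) {a : ℤ × ℤ} (h : Inn S a) (i : ZMod n) :
    p i ≠ a := by
  intro e
  have h1 := (enc_out hp hS (i := i)).2
  rw [e] at h1
  exact h1 (h _)

theorem Inn.mem_dq (hp : IsPolygon p) (hS : Encloses p S) {a v : ℤ × ℤ} (h : Inn S a)
    (hv : Crn v (H192.ro a)) : v ∈ dq p k S := by
  obtain ⟨r, hr⟩ := edge_of_crn hv
  rw [H192.mem_dq, hr]
  refine ⟨(mem_edges r).2 (Or.inl (h r)), ?_⟩
  rintro ⟨i, -, -, hi⟩
  rw [Sym2.eq_iff] at hi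
  rcases hi with ⟨h1, -⟩ | ⟨h1, -⟩
  · exact h.ne hp hS _ h1.symm
  · exact h.ne hp hS _ h1.symm

theorem inn_of (hS : Encloses p S) {a v : ℤ × ℤ} (hv : v ∈ dq p k S) (hc : Crn v (H192.ro a))
    (ha : ∀ i, p i ≠ a) : Inn S a := by
  obtain ⟨r, hr⟩ := edge_of_crn hc
  rw [H192.mem_dq, hr] at hv
  intro t
  by_contra hcon
  rcases (mem_edges r).1 hv.1 with h1 | h1
  · obtain ⟨i, hi⟩ := exists_of_mixed hS h1 hcon
    exact ha i hi
  · obtain ⟨i, hi⟩ := exists_of_mixed hS h1 hcon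
    exact ha i hi

theorem mem_region (hδ : 0 < δ) {a v : ℤ × ℤ} (h : Inn S a) (hc : Crn v (H192.ro a)) {z : ℂ}
    (hz : (1 + I) * z ∈ csq δ v) : z ∈ region δ S := by
  obtain ⟨h1, h2, h3, h4⟩ := hz
  have e1 : ((1 + I) * z).re = z.re - z.im := by simp
  have e2 : ((1 + I) * z).im = z.re + z.im := by simp; ring
  rw [e1] at h1 h2
  rw [e2] at h3 h4
  have k1 : |z.re - z.im - δ * (a.1 - a.2)| ≤ δ := by
    rw [abs_le]
    rcases hc.1 with c | c
    · have c' : (v.1 : ℝ) = a.1 - a.2 := by rw [← c]; simp [H192.ro]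
      rw [c'] at h1 h2
      constructor <;> linarith
    · have c' : (v.1 : ℝ) = a.1 - a.2 - 1 := by
        have : (v.1 : ℤ) = a.1 - a.2 - 1 := by simp only [H192.ro] at c; omega
        rw [this]; push_cast; ring
      rw [c'] at h1 h2
      constructor <;> linarith
  have k2 : |z.re + z.im - δ * (a.1 + a.2)| ≤ δ := by
    rw [abs_le]
    rcases hc.2 with c | c
    · have c' : (v.2 : ℝ) = a.1 + a.2 := by rw [← c]; simp [H192.ro]
      rw [c'] at h3 h4
      constructor <;> linarith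
    · have c' : (v.2 : ℝ) = a.1 + a.2 - 1 := by
        have : (v.2 : ℤ) = a.1 + a.2 - 1 := by simp only [H192.ro] at c; omega
        rw [this]; push_cast; ring
      rw [c'] at h3 h4
      constructor <;> linarith
  rw [abs_le] at k1 k2
  have g0 := h 0
  have g1 := h 1
  have g2 := h 2
  have g3 := h 3
  have f0 : face a 0 = a := by simp [face]
  have f1 : face a 1 = (a.1 - 1, a.2) := by
    simp only [face]; ext <;> simp; ring
  have f2 : face a 2 = (a.1 - 1, a.2 - 1) := by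
    simp only [face]; ext <;> simp <;> ring
  have f3 : face a 3 = (a.1, a.2 - 1) := by
    simp only [face]; ext <;> simp; ring
  rw [f0] at g0
  rw [f1] at g1
  rw [f2] at g2
  rw [f3] at g3
  rcases le_total (δ * a.1) z.re with hx | hx <;> rcases le_total (δ * a.2) z.im with hy | hy
  · exact ⟨_, g0, hx, by linarith, hy, by linarith⟩
  · refine ⟨_, g3, hx, by linarith, ?_, ?_⟩ <;> push_cast <;> linarith
  · refine ⟨_, g1, ?_, ?_, hy, by linarith⟩ <;> push_cast <;> linarith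
  · refine ⟨_, g2, ?_, ?_, ?_, ?_⟩ <;> push_cast <;> linarith

/-- The face of a centre which is in the domain. -/
theorem face_of_centre (hδ : 0 < δ) {g : ℤ × ℤ}
    (h : (δ : ℂ) * ⟨(g.1 : ℝ) + 1 / 2, (g.2 : ℝ) + 1 / 2⟩ ∈ Om δ S) : g ∈ S := by
  rw [mem_Om hδ] at h
  obtain ⟨f, hf, h1, h2, h3, h4⟩ := h
  simp only at h1 h2 h3 h4
  have a1 : (f.1 : ℝ) < ((g.1 + 1 : ℤ) : ℝ) := by push_cast; linarith
  have a2 : (g.1 : ℝ) < ((f.1 + 1 : ℤ) : ℝ) := by push_cast; linarith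
  have a3 : (f.2 : ℝ) < ((g.2 + 1 : ℤ) : ℝ) := by push_cast; linarith
  have a4 : (g.2 : ℝ) < ((f.2 + 1 : ℤ) : ℝ) := by push_cast; linarith
  have b1 := Int.cast_lt.1 a1
  have b2 := Int.cast_lt.1 a2
  have b3 := Int.cast_lt.1 a3
  have b4 := Int.cast_lt.1 a4
  have : f = g := Prod.ext (by omega) (by omega)
  rwa [← this]

theorem zc_re (v : ℤ × ℤ) : (zc δ v).re = δ * ((v.1 + v.2 + 1) / 2) := by
  have h2 : ((1 : ℂ) + I) * (1 - I) = 2 := by
    have := Complex.I_sq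
    linear_combination -this
  have hne : (1 + I : ℂ) ≠ 0 := by
    intro h
    have := congrArg Complex.re h
    simp at this
  have e : zc δ v = δ * ((((v.1 + v.2 + 1) / 2 : ℝ) : ℂ) + (((v.2 - v.1) / 2 : ℝ) : ℂ) * I) := by
    rw [zc, div_eq_iff hne]
    push_cast
    linear_combination (-(δ : ℂ) * ((v.2 : ℂ) - v.1) / 2) * Complex.I_sq
  rw [e]
  simp

theorem zc_im (v : ℤ × ℤ) : (zc δ v).im = δ * ((v.2 - v.1) / 2) := by
  have hne : (1 + I : ℂ) ≠ 0 := by
    intro h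
    have := congrArg Complex.re h
    simp at this
  have e : zc δ v = δ * ((((v.1 + v.2 + 1) / 2 : ℝ) : ℂ) + (((v.2 - v.1) / 2 : ℝ) : ℂ) * I) := by
    rw [zc, div_eq_iff hne]
    push_cast
    linear_combination (-(δ : ℂ) * ((v.2 : ℂ) - v.1) / 2) * Complex.I_sq
  rw [e]
  simp

/-- The even corners of a deep square are interior vertices. -/
theorem inn_deep (hδ : 0 < δ) {v a : ℤ × ℤ} (hv : ball (zc δ v) (3 * δ) ⊆ Om δ S)
    (ha : Crn v (H192.ro a)) : Inn S a := by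
  intro r
  refine face_of_centre hδ (hv ?_)
  rw [mem_ball, dist_eq_norm]
  refine (Complex.norm_le_abs_re_add_abs_im _).trans_lt ?_
  rw [Complex.sub_re, Complex.sub_im, zc_re, zc_im]
  have e1 : ((δ : ℂ) * ⟨((face a r).1 : ℝ) + 1 / 2, ((face a r).2 : ℝ) + 1 / 2⟩).re =
      δ * ((face a r).1 + 1 / 2) := by simp
  have e2 : ((δ : ℂ) * ⟨((face a r).1 : ℝ) + 1 / 2, ((face a r).2 : ℝ) + 1 / 2⟩).im =
      δ * ((face a r).2 + 1 / 2) := by simp
  rw [e1, e2, ← mul_sub, ← mul_sub, abs_mul, abs_mul, abs_of_pos hδ, ← mul_add]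
  have hf : ((face a r).1 = a.1 ∨ (face a r).1 = a.1 - 1) ∧
      ((face a r).2 = a.2 ∨ (face a r).2 = a.2 - 1) := by
    fin_cases r <;> simp [face] <;> omega
  have hc : (a.1 - a.2 = v.1 ∨ a.1 - a.2 = v.1 + 1) ∧ (a.1 + a.2 = v.2 ∨ a.1 + a.2 = v.2 + 1) := ha
  have k1 : |(((face a r).1 : ℝ) + 1 / 2) - (v.1 + v.2 + 1) / 2| ≤ 1 := by
    have : (2 * (face a r).1 - (v.1 + v.2) ≤ 2 ∧ -2 ≤ 2 * (face a r).1 - (v.1 + v.2) : Prop) := by
      omega
    have c1 : ((2 * (face a r).1 - (v.1 + v.2) : ℤ) : ℝ) ≤ ((2 : ℤ) : ℝ) := Int.cast_le.2 this.1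
    have c2 : (((-2 : ℤ)) : ℝ) ≤ ((2 * (face a r).1 - (v.1 + v.2) : ℤ) : ℝ) := Int.cast_le.2 this.2
    push_cast at c1 c2
    rw [abs_le]
    constructor <;> linarith
  have k2 : |(((face a r).2 : ℝ) + 1 / 2) - (v.2 - v.1) / 2| ≤ 3 / 2 := by
    have : (2 * (face a r).2 - (v.2 - v.1) ≤ 2 ∧ -3 ≤ 2 * (face a r).2 - (v.2 - v.1) : Prop) := by
      omega
    have c1 : ((2 * (face a r).2 - (v.2 - v.1) : ℤ) : ℝ) ≤ ((2 : ℤ) : ℝ) := Int.cast_le.2 this.1
    have c2 : (((-3 : ℤ)) : ℝ) ≤ ((2 * (face a r).2 - (v.2 - v.1) : ℤ) : ℝ) := Int.cast_le.2 this.2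
    push_cast at c1 c2
    rw [abs_le]
    constructor <;> linarith
  nlinarith

/-- Every square has an even corner. -/
theorem exists_even (v : ℤ × ℤ) : ∃ a, Crn v (H192.ro a) := by
  by_cases h : (v.1 + v.2) % 2 = 0
  · refine ⟨((v.1 + v.2) / 2, (v.2 - v.1) / 2), ?_⟩
    unfold Crn
    simp only [H192.ro]
    omega
  · refine ⟨((v.1 + v.2 + 1) / 2, (v.2 - v.1 - 1) / 2), ?_⟩
    unfold Crn
    simp only [H192.ro]
    omega

theorem deep (hp : IsPolygon p) (hS : Encloses p S) (hδ : 0 < δ) {v : ℤ × ℤ}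
    (hv : ball (zc δ v) (3 * δ) ⊆ Om δ S) : v ∈ dq p k S ∧ ∀ i, ¬ Crn v (H192.ro (p i)) := by
  obtain ⟨a, ha⟩ := exists_even v
  refine ⟨(inn_deep hδ hv ha).mem_dq hp hS ha, fun i hi => ?_⟩
  exact (inn_deep hδ hv hi).ne hp hS i rfl

theorem sAdj_step {v s : ℤ × ℤ} (hs : s = (1, 0) ∨ s = (-1, 0) ∨ s = (0, 1) ∨ s = (0, -1)) (i : ℕ) :
    SAdj (v + i • s) (v + (i + 1) • s) := by
  unfold SAdj
  rcases hs with rfl | rfl | rfl | rfl <;> simp [add_smul] <;> omega

/-- As long as there is no contact with the polygon, the squares are in the domain. -/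
theorem mem_upto (hp : IsPolygon p) (hS : Encloses p S) {v s : ℤ × ℤ}
    (hs : s = (1, 0) ∨ s = (-1, 0) ∨ s = (0, 1) ∨ s = (0, -1)) (hv : v ∈ dq p k S) {L : ℕ}
    (hL : ∀ i < L, ∀ m, ¬ Crn (v + i • s) (H192.ro (p m))) :
    ∀ i ≤ L, v + i • s ∈ dq p k S := by
  intro i
  induction i with
  | zero => intro _; simpa using hv
  | succ i ih =>
    intro hi
    obtain ⟨u, hu1, hu2, hu0⟩ := (sAdj_step (v := v) hs i).corner
    have e : H192.ro (ro' u) = u := ro_ro' (Int.even_iff.2 hu0)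
    rw [← e] at hu1 hu2
    have hI : Inn S (ro' u) := by
      refine inn_of (k := k) hS (ih (by omega)) hu1 fun m hm => ?_
      exact hL i (by omega) m (by rw [hm]; exact hu1)
    exact hI.mem_dq hp hS hu2

end CW

open CW in
/-- **[CutW]** -/
theorem cutW : S_cutW := by
  intro n p S k δ hp hS hδ
  refine ⟨fun v hv => deep hp hS hδ hv, ?_⟩
  intro w v s K hs hw hv hwv hfar
  have hn : 2 < n := hp.1
  have hv0 := (deep (k := k) hp hS hδ hv).1
  have hex : ∃ i, i ≤ K ∧ ∃ m, Crn (v + i • s) (H192.ro (p m)) := by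
    by_contra hcon
    push Not at hcon
    obtain ⟨a, ha⟩ := exists_even (v + K • s)
    have h1 := mem_upto hp hS hs hv0 (fun i hi => hcon i hi.le) K le_rfl
    have hI : Inn S a := inn_of (k := k) hS h1 ha fun m hm => hcon K le_rfl m (by rw [hm]; exact ha)
    have hne : (1 + I : ℂ) ≠ 0 := by
      intro h
      have := congrArg Complex.re h
      simp at this
    have e : (1 + I) * (w / (1 + I)) = w := mul_div_cancel₀ _ hne
    have h2 : w / (1 + I) ∈ region δ S := mem_region hδ hI ha (by rw [e]; exact hwv)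
    refine hw _ ⟨_, h2, ?_, ?_⟩ e
    · rw [sub_self, abs_zero]; linarith
    · rw [sub_self, abs_zero]; linarith
  classical
  set L := Nat.find hex with hLdef
  obtain ⟨hLK, m, hm⟩ := Nat.find_spec hex
  have hmin : ∀ i < L, ∀ m, ¬ Crn (v + i • s) (H192.ro (p m)) := by
    intro i hi m hm
    exact Nat.find_min hex hi ⟨by omega, m, hm⟩
  have : NeZero n := ⟨by omega⟩
  refine ⟨L, m.val, hLK, ?_, mem_upto hp hS hs hv0 hmin, hmin, ?_⟩
  · by_contra hcon
    push Not at hcon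
    have h1 := hfar m.val hcon (ZMod.val_lt m)
    rw [ZMod.natCast_zmod_val] at h1
    refine absurd h1 (not_lt.2 ?_)
    rw [dist_eq_norm]
    refine (Complex.norm_le_abs_re_add_abs_im _).trans ?_
    have hm' : Crn (v + L • s) (H192.ro (p m)) := hm
    obtain ⟨g1, g2, g3, g4⟩ := hwv
    have e1 : ((1 + I) * ((δ : ℂ) * pt (p m)) - w).re = δ * (H192.ro (p m)).1 - w.re := by
      simp [pt, H192.ro]; ring
    have e2 : ((1 + I) * ((δ : ℂ) * pt (p m)) - w).im = δ * (H192.ro (p m)).2 - w.im := by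
      simp [pt, H192.ro]; ring
    rw [e1, e2]
    have hb : ∃ x y : ℤ, |x| + |y| ≤ K ∧ (v + K • s).1 = (v + L • s).1 + x ∧
        (v + K • s).2 = (v + L • s).2 + y := by
      refine ⟨((K : ℤ) - L) * s.1, ((K : ℤ) - L) * s.2, ?_, ?_, ?_⟩
      · have : (0 : ℤ) ≤ (K : ℤ) - L := by omega
        rw [abs_mul, abs_mul, abs_of_nonneg this]
        rcases hs with rfl | rfl | rfl | rfl <;> simp
      · simp; ring
      · simp; ring
    obtain ⟨x, y, hxy, hx, hy⟩ := hb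
    have hxy' : |(x : ℝ)| + |(y : ℝ)| ≤ K := by exact_mod_cast hxy
    rw [hx] at g1 g2
    rw [hy] at g3 g4
    push_cast at g1 g2 g3 g4
    have c1 : |δ * (H192.ro (p m)).1 - w.re| ≤ δ * (|(x : ℝ)| + 1) := by
      have u1 := neg_abs_le (x : ℝ)
      have u2 := le_abs_self (x : ℝ)
      rw [abs_le]
      rcases hm'.1 with h | h
      · rw [h]; constructor <;> nlinarith
      · rw [h]; push_cast; constructor <;> nlinarith
    have c2 : |δ * (H192.ro (p m)).2 - w.im| ≤ δ * (|(y : ℝ)| + 1) := by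
      have u1 := neg_abs_le (y : ℝ)
      have u2 := le_abs_self (y : ℝ)
      rw [abs_le]
      rcases hm'.2 with h | h
      · rw [h]; constructor <;> nlinarith
      · rw [h]; push_cast; constructor <;> nlinarith
    nlinarith
  · rw [ZMod.natCast_zmod_val]
    exact hm

end Vale.Agent.P167.CL
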