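import Vale.Agent.P167.CL.CutL1
import Vale.Agent.P167.CL.CutW

/-!
# P167, block CUT: deep squares of the path
-/

set_option autoImplicit false

open MeasureTheory Filter Topology Set Metric

namespace Vale.Agent.P167.CL.CutL

open Vale.Agent.P167.CL

open Vale.Agent.P153.R2.L1 (HH)
open Vale.Agent.P167.H531 Vale.Agent.P167.H558
open Vale.Agent.P167.E6 Vale.Agent.P167.E2 Vale.Agent.P167.H411 Vale.Agent.P167.H450
open Complex (I)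

variable {ℓ X κ d ϱ τ₀ δ : ℝ} {N : ℕ} {ψ : ℂ → ℂ} {c : CutP} {w : ℂ} {v₀ u : ℤ × ℤ}

/-! ### The two planes -/

/-- The map between the planes. -/
noncomputable def rp (δ ℓ : ℝ) (N : ℕ) (v₀ : ℤ × ℤ) (z : ℂ) : ℂ :=
  ((ℓ / (N * δ) : ℝ) : ℂ) * ((1 + I) * z - δ * pt v₀)

theorem one_I_ne' : (1 + I : ℂ) ≠ 0 := by
  intro h
  have := congrArg Complex.re h
  simp at this

theorem norm_one_I' : ‖(1 + I : ℂ)‖ ≤ 3 / 2 := by
  have : ‖(1 + I : ℂ)‖ = √2 := by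
    rw [Complex.norm_def, Complex.normSq_apply]
    simp
    norm_num
  rw [this, Real.sqrt_le_left (by norm_num)]
  norm_num

theorem rp_inj (hℓ : 0 < ℓ) (hN : 0 < N) (hδ : 0 < δ) {x y : ℂ}
    (h : rp δ ℓ N v₀ x = rp δ ℓ N v₀ y) : x = y := by
  have hr : ((ℓ / (N * δ) : ℝ) : ℂ) ≠ 0 := by
    rw [Complex.ofReal_ne_zero]
    positivity
  have h1 := mul_left_cancel₀ hr h
  exact mul_left_cancel₀ one_I_ne' (sub_left_inj.1 h1)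

theorem rp_zc (hN : 0 < N) (hδ : 0 < δ) (v : ℤ × ℤ) : rp δ ℓ N v₀ (zc δ v) = fc ℓ N v₀ v := by
  have hN' : (0 : ℝ) < N := by exact_mod_cast hN
  have e : (1 + I) * zc δ v = δ * (((v.1 : ℂ) + 1 / 2) + ((v.2 : ℂ) + 1 / 2) * I) := by
    unfold zc
    rw [mul_div_cancel₀ _ one_I_ne']
  unfold rp
  rw [e]
  have e2 : (δ : ℂ) * (((v.1 : ℂ) + 1 / 2) + ((v.2 : ℂ) + 1 / 2) * I) - δ * pt v₀ =
      ((δ : ℝ) : ℂ) * ⟨v.1 - v₀.1 + 1 / 2, v.2 - v₀.2 + 1 / 2⟩ := by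
    apply Complex.ext
    · simp [pt]; ring
    · simp [pt]; ring
  rw [e2, ← mul_assoc, ← Complex.ofReal_mul]
  have e3 : ℓ / (N * δ) * δ = ℓ / N := by field_simp
  rw [e3]
  apply Complex.ext <;> simp [fc]

theorem dist_rp (hℓ : 0 < ℓ) (hN : 0 < N) (hδ : 0 < δ) (x y : ℂ) :
    dist (rp δ ℓ N v₀ x) (rp δ ℓ N v₀ y) = ℓ / (N * δ) * (‖(1 + I : ℂ)‖ * dist x y) := by
  have hN' : (0 : ℝ) < N := by exact_mod_cast hN
  rw [dist_eq_norm, dist_eq_norm]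
  have e : rp δ ℓ N v₀ x - rp δ ℓ N v₀ y = ((ℓ / (N * δ) : ℝ) : ℂ) * ((1 + I) * (x - y)) := by
    unfold rp; ring
  rw [e, norm_mul, norm_mul, Complex.norm_real, Real.norm_of_nonneg (by positivity)]

theorem mem_Psi_img {Ω : Set ℂ} (hI : ψ '' HH = Ω) {y : ℂ} :
    y ∈ Psi δ ℓ N v₀ ψ '' HH ↔ ∃ z ∈ Ω, rp δ ℓ N v₀ z = y := by
  rw [← hI]
  constructor
  · rintro ⟨z, hz, rfl⟩
    exact ⟨ψ z, ⟨z, hz, rfl⟩, rfl⟩
  · rintro ⟨-, ⟨z, hz, rfl⟩, rfl⟩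
    exact ⟨z, hz, rfl⟩

theorem ball_zc {S : Finset (ℤ × ℤ)} (hℓ : 0 < ℓ) (hN : 0 < N) (hδ : 0 < δ)
    (hI : ψ '' HH = Om δ S) {v : ℤ × ℤ}
    (h : ball (fc ℓ N v₀ v) (6 * (ℓ / N)) ⊆ Psi δ ℓ N v₀ ψ '' HH) :
    ball (zc δ v) (3 * δ) ⊆ Om δ S := by
  have hN' : (0 : ℝ) < N := by exact_mod_cast hN
  intro x hx
  have h1 : rp δ ℓ N v₀ x ∈ ball (fc ℓ N v₀ v) (6 * (ℓ / N)) := by
    rw [mem_ball, ← rp_zc hN hδ, dist_rp hℓ hN hδ]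
    rw [mem_ball] at hx
    have e : 6 * (ℓ / N) = ℓ / (N * δ) * (2 * (3 * δ)) := by field_simp; ring
    rw [e]
    refine mul_lt_mul_of_pos_left ?_ (by positivity)
    have := norm_one_I'
    have h0 : (0 : ℝ) ≤ dist x (zc δ v) := dist_nonneg
    nlinarith
  obtain ⟨z, hz, hzx⟩ := (mem_Psi_img hI).1 (h h1)
  rw [← rp_inj hℓ hN hδ hzx]
  exact hz

/-- The point `w` in the rotated plane. -/
noncomputable def wr (δ ℓ : ℝ) (N : ℕ) (v₀ : ℤ × ℤ) (w : ℂ) : ℂ :=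
  δ * pt v₀ + ((N * δ / ℓ : ℝ) : ℂ) * w

theorem rp_eq_iff (hℓ : 0 < ℓ) (hN : 0 < N) (hδ : 0 < δ) {z : ℂ} :
    rp δ ℓ N v₀ z = w ↔ (1 + I) * z = wr δ ℓ N v₀ w := by
  have hN' : (0 : ℝ) < N := by exact_mod_cast hN
  have e : ((ℓ / (N * δ) : ℝ) : ℂ) * ((N * δ / ℓ : ℝ) : ℂ) = 1 := by
    rw [← Complex.ofReal_mul]
    have : ℓ / (N * δ) * (N * δ / ℓ) = 1 := by field_simp
    rw [this, Complex.ofReal_one]
  unfold rp wr
  constructor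
  · intro h
    rw [← h, ← mul_assoc, mul_comm ((N * δ / ℓ : ℝ) : ℂ), e]
    ring
  · intro h
    rw [h, add_sub_cancel_left, ← mul_assoc, e, one_mul]

theorem dist_wr (hℓ : 0 < ℓ) (hN : 0 < N) (hδ : 0 < δ) (z : ℂ) :
    dist (rp δ ℓ N v₀ z) w = ℓ / (N * δ) * dist ((1 + I) * z) (wr δ ℓ N v₀ w) := by
  have hN' : (0 : ℝ) < N := by exact_mod_cast hN
  have e : ((ℓ / (N * δ) : ℝ) : ℂ) * ((N * δ / ℓ : ℝ) : ℂ) = 1 := by
    rw [← Complex.ofReal_mul]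
    have : ℓ / (N * δ) * (N * δ / ℓ) = 1 := by field_simp
    rw [this, Complex.ofReal_one]
  rw [dist_eq_norm, dist_eq_norm]
  have e2 : rp δ ℓ N v₀ z - w = ((ℓ / (N * δ) : ℝ) : ℂ) * ((1 + I) * z - wr δ ℓ N v₀ w) := by
    unfold rp wr
    linear_combination w * e
  rw [e2, norm_mul, Complex.norm_real, Real.norm_of_nonneg (by positivity)]

theorem csq_wr (hℓ : 0 < ℓ) (hN : 0 < N) (hδ : 0 < δ) {v : ℤ × ℤ}
    (h1 : ℓ / N * (v.1 - v₀.1) ≤ w.re) (h2 : w.re ≤ ℓ / N * (v.1 - v₀.1 + 1))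
    (h3 : ℓ / N * (v.2 - v₀.2) ≤ w.im) (h4 : w.im ≤ ℓ / N * (v.2 - v₀.2 + 1)) :
    wr δ ℓ N v₀ w ∈ csq δ v := by
  have hN' : (0 : ℝ) < N := by exact_mod_cast hN
  have hr : 0 < N * δ / ℓ := by positivity
  have e : N * δ / ℓ * (ℓ / N) = δ := by field_simp
  have er : (wr δ ℓ N v₀ w).re = δ * v₀.1 + N * δ / ℓ * w.re := by
    simp [wr, pt]
  have ei : (wr δ ℓ N v₀ w).im = δ * v₀.2 + N * δ / ℓ * w.im := by
    simp [wr, pt]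
  have k1 := mul_le_mul_of_nonneg_left h1 hr.le
  have k2 := mul_le_mul_of_nonneg_left h2 hr.le
  have k3 := mul_le_mul_of_nonneg_left h3 hr.le
  have k4 := mul_le_mul_of_nonneg_left h4 hr.le
  rw [← mul_assoc, e] at k1 k2 k3 k4
  refine ⟨?_, ?_, ?_, ?_⟩
  · rw [er]; linarith
  · rw [er]; linarith
  · rw [ei]; linarith
  · rw [ei]; linarith

/-! ### Deep squares -/

theorem dist_fc {v : ℤ × ℤ}
    (h1 : ℓ / N * (v.1 - v₀.1) ≤ w.re) (h2 : w.re ≤ ℓ / N * (v.1 - v₀.1 + 1))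
    (h3 : ℓ / N * (v.2 - v₀.2) ≤ w.im) (h4 : w.im ≤ ℓ / N * (v.2 - v₀.2 + 1)) :
    dist (fc ℓ N v₀ v) w ≤ ℓ / N := by
  rw [dist_eq_norm]
  refine (Complex.norm_le_abs_re_add_abs_im _).trans ?_
  have a1 : |(fc ℓ N v₀ v - w).re| ≤ ℓ / N / 2 := by
    rw [Complex.sub_re, abs_le]
    simp only [fc]
    constructor <;> linarith
  have a2 : |(fc ℓ N v₀ v - w).im| ≤ ℓ / N / 2 := by
    rw [Complex.sub_im, abs_le]
    simp only [fc]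
    constructor <;> linarith
  linarith

/-- The leg before the end: deep squares. -/
theorem _root_.Vale.Agent.P167.CL.CutM.deep_leg (M : CutM ℓ N ψ X κ d ϱ τ₀ c w) (hN : 16 ≤ N) {K : ℕ}
    (h1 : ℓ / N * (((c.leg N v₀ u).lv K).1 - v₀.1) ≤ w.re)
    (h2 : w.re ≤ ℓ / N * (((c.leg N v₀ u).lv K).1 - v₀.1 + 1))
    (h3 : ℓ / N * (((c.leg N v₀ u).lv K).2 - v₀.2) ≤ w.im)
    (h4 : w.im ≤ ℓ / N * (((c.leg N v₀ u).lv K).2 - v₀.2 + 1))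
    (hK : (K : ℝ) * (ℓ / N) ≤ 3 / 8 * d) {i j : ℕ} (hij : i + j = K) (hj : 16 ≤ j) :
    ball (fc ℓ N v₀ ((c.leg N v₀ u).lv i)) (6 * (ℓ / N)) ⊆ ψ '' HH := by
  have hℓ := M.cut.hℓ
  have hN' : (0 : ℝ) < N := by exact_mod_cast (by omega : 0 < N)
  have hh : 0 < ℓ / N := by positivity
  have hd : 0 < d := by linarith [M.cut.sizes.2.2.1]
  have hjR : (16 : ℝ) ≤ j := by exact_mod_cast hj
  have hjK : (j : ℝ) ≤ K := by exact_mod_cast (by omega : j ≤ K)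
  have hD := dist_fc h1 h2 h3 h4
  rw [← hij, fc_lv] at hD
  refine Subset.trans ?_ (M.cut.clr (j * (ℓ / N)) (by positivity) ?_)
  · intro x hx
    rw [mem_ball] at hx ⊢
    have e : dist (fc ℓ N v₀ ((c.leg N v₀ u).lv i)) (w - ((j * (ℓ / N) : ℝ) : ℂ) * c.dv) =
        dist (fc ℓ N v₀ ((c.leg N v₀ u).lv i) + ((j * (ℓ / N) : ℝ) : ℂ) * c.dv) w := by
      rw [dist_eq_norm, dist_eq_norm]
      congr 1
      ring
    have h5 := dist_triangle x (fc ℓ N v₀ ((c.leg N v₀ u).lv i))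
      (w - ((j * (ℓ / N) : ℝ) : ℂ) * c.dv)
    rw [e] at h5
    nlinarith
  · have : (j : ℝ) * (ℓ / N) ≤ K * (ℓ / N) := mul_le_mul_of_nonneg_right hjK hh.le
    linarith

/-- The point on the leg at distance `d / 4` of `w`. -/
theorem _root_.Vale.Agent.P167.CL.CutM.pos_h (M : CutM ℓ N ψ X κ d ϱ τ₀ c w) (ho : c.hor = true) :
    |(w - ((d / 4 : ℝ) : ℂ) * c.dv).re| ≤ 2 * (ℓ / N) ∧
      (w - ((d / 4 : ℝ) : ℂ) * c.dv).im = w.im := by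
  obtain ⟨q1, q2⟩ := M.cut.posh ho
  have hμ : 2 * ℓ / (N : ℝ) = 2 * (ℓ / N) := by ring
  rw [hμ, abs_le] at q2
  have er : (w - ((d / 4 : ℝ) : ℂ) * c.dv).re = w.re - d / 4 * c.sg := by
    simp [CutP.dv, ho]
  have ei : (w - ((d / 4 : ℝ) : ℂ) * c.dv).im = w.im := by
    simp [CutP.dv, ho]
  refine ⟨?_, ei⟩
  rw [er, abs_le]
  rcases hp : c.pos with _ | _
  · have hsg : (c.sg : ℝ) = -1 := by simp [CutP.sg, hp]
    rw [hsg] at q2 ⊢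
    constructor <;> linarith
  · have hsg : (c.sg : ℝ) = 1 := by simp [CutP.sg, hp]
    rw [hsg] at q2 ⊢
    constructor <;> linarith

theorem _root_.Vale.Agent.P167.CL.CutM.pos_v (M : CutM ℓ N ψ X κ d ϱ τ₀ c w) (ho : c.hor = false) :
    |(w - ((d / 4 : ℝ) : ℂ) * c.dv).im| ≤ 2 * (ℓ / N) ∧
      (w - ((d / 4 : ℝ) : ℂ) * c.dv).re = w.re := by
  obtain ⟨q1, q2⟩ := M.cut.posv ho
  have hμ : 2 * ℓ / (N : ℝ) = 2 * (ℓ / N) := by ring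
  rw [hμ, abs_le] at q2
  have er : (w - ((d / 4 : ℝ) : ℂ) * c.dv).im = w.im - d / 4 * c.sg := by
    simp [CutP.dv, ho]
  have ei : (w - ((d / 4 : ℝ) : ℂ) * c.dv).re = w.re := by
    simp [CutP.dv, ho]
  refine ⟨?_, ei⟩
  rw [er, abs_le]
  rcases hp : c.pos with _ | _
  · have hsg : (c.sg : ℝ) = -1 := by simp [CutP.sg, hp]
    rw [hsg] at q2 ⊢
    constructor <;> linarith
  · have hsg : (c.sg : ℝ) = 1 := by simp [CutP.sg, hp]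
    rw [hsg] at q2 ⊢
    constructor <;> linarith

/-- Centres of the squares of the first part. -/
theorem fc_stub {Q : ℕ} (hQ : 4 ≤ Q) {h : ℝ} (hh : h = ℓ / (4 * Q : ℕ)) (hh0 : 0 < h)
    (hu : u ∈ Uset) {v : ℤ × ℤ} (h1 : (v₀ + u).1 ≤ v.1) (h2 : v.1 ≤ (c.leg (4 * Q) v₀ u).base.1)
    (h3 : (v₀ + u).2 - ((4 * Q : ℕ) : ℤ) / 2 ≤ v.2) (h4 : v.2 ≤ (v₀ + u).2 - 1) :
    0 ≤ (fc ℓ (4 * Q) v₀ v).re ∧ (fc ℓ (4 * Q) v₀ v).im ≤ 0 ∧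
      -(ℓ / 2) ≤ (fc ℓ (4 * Q) v₀ v).im ∧
      (c.hor = true → (fc ℓ (4 * Q) v₀ v).re ≤ 2 * h) ∧
      (c.hor = false → (fc ℓ (4 * Q) v₀ v).re ≤ ℓ * (2 * c.m) + ℓ / 2 + h) := by
  have hu2 : u.2 = 0 ∧ (u.1 = 0 ∨ u.1 = 1) := by
    rcases hu with rfl | rfl <;> simp
  have hb1 : (v₀ + u).1 = v₀.1 + u.1 := rfl
  have hb2 : (v₀ + u).2 = v₀.2 + u.2 := rfl
  have hH : ((4 * Q : ℕ) : ℤ) / 2 = 2 * Q := by push_cast; omega
  have hNh : h * (4 * Q) = ℓ := by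
    rw [hh]; push_cast; field_simp
  have hu1 : (0 : ℝ) ≤ u.1 ∧ (u.1 : ℝ) ≤ 1 := by
    rcases hu2.2 with h | h <;> rw [h] <;> norm_num
  rw [hH, hb2, hu2.1] at h3
  rw [hb2, hu2.1] at h4
  rw [hb1] at h1
  have h3' : -(2 * (Q : ℝ)) ≤ v.2 - v₀.2 := by
    have : -(2 * (Q : ℤ)) ≤ v.2 - v₀.2 := by omega
    exact_mod_cast this
  have h4' : (v.2 : ℝ) - v₀.2 ≤ -1 := by
    have : v.2 - v₀.2 ≤ -1 := by omega
    exact_mod_cast this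
  have h1' : (0 : ℝ) ≤ v.1 - v₀.1 := by
    have : 0 ≤ v.1 - v₀.1 := by omega
    exact_mod_cast this
  have m1 := mul_nonneg hh0.le h1'
  have m2 := mul_le_mul_of_nonneg_left h3' hh0.le
  have m3 := mul_le_mul_of_nonneg_left h4' hh0.le
  have f1 : (fc ℓ (4 * Q) v₀ v).re = h * (v.1 - v₀.1) + h / 2 := by
    simp only [fc]; rw [← hh]; ring
  have f2 : (fc ℓ (4 * Q) v₀ v).im = h * (v.2 - v₀.2) + h / 2 := by
    simp only [fc]; rw [← hh]; ring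
  rw [f1, f2]
  refine ⟨by linarith, by linarith, by linarith, ?_, ?_⟩
  · intro ho
    have e : (c.leg (4 * Q) v₀ u).base.1 = (v₀ + u).1 := by
      simp [LegP.base, CutP.leg, ho]
    rw [e, hb1] at h2
    have h2' : (v.1 : ℝ) - v₀.1 ≤ 1 := by
      have : v.1 - v₀.1 ≤ 1 := by omega
      exact_mod_cast this
    have m4 := mul_le_mul_of_nonneg_left h2' hh0.le
    linarith
  · intro ho
    have e : (c.leg (4 * Q) v₀ u).base.1 = v₀.1 + 2 * c.m * (4 * Q : ℕ) + ((4 * Q : ℕ) : ℤ) / 2 := by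
      simp [LegP.base, CutP.leg, ho]
    rw [e, hH] at h2
    have h2' : (v.1 : ℝ) - v₀.1 ≤ 2 * c.m * (4 * Q) + 2 * Q := by
      have h5 : (v.1 : ℝ) ≤ v₀.1 + 2 * c.m * (4 * Q) + 2 * Q := by exact_mod_cast h2
      linarith
    have m4 := mul_le_mul_of_nonneg_left h2' hh0.le
    have e2 : h * (2 * c.m * (4 * Q) + 2 * Q) = ℓ * (2 * c.m) + ℓ / 2 := by
      rw [← hNh]; ring
    linarith

/-- The first part of the path: deep squares. -/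
theorem _root_.Vale.Agent.P167.CL.CutM.deep_stub (M : CutM ℓ N ψ X κ d ϱ τ₀ c w) (hN : 16 ≤ N) (hN2 : 4 ∣ N)
    (hu : u ∈ Uset) {v : ℤ × ℤ} (h1 : (v₀ + u).1 ≤ v.1) (h2 : v.1 ≤ (c.leg N v₀ u).base.1)
    (h3 : (v₀ + u).2 - (N : ℤ) / 2 ≤ v.2) (h4 : v.2 ≤ (v₀ + u).2 - 1) :
    ball (fc ℓ N v₀ v) (6 * (ℓ / N)) ⊆ ψ '' HH := by
  obtain ⟨k1, k2, k3, k4, k5, k6⟩ := M.cut.sizes
  obtain ⟨Q, rfl⟩ := hN2
  have hQ : 4 ≤ Q := by omega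
  have hQ' : (4 : ℝ) ≤ Q := by exact_mod_cast hQ
  obtain ⟨h, hh⟩ : ∃ h : ℝ, h = ℓ / (4 * Q : ℕ) := ⟨_, rfl⟩
  have hNh : h * (4 * Q) = ℓ := by
    rw [hh]; push_cast; field_simp
  have hh0 : 0 < h := by rw [hh]; positivity
  have h16 : 16 * h ≤ ℓ := by nlinarith
  have hm : (0 : ℝ) ≤ 2 * c.m := by
    have := M.cut.hm
    have := M.cut.hq
    exact_mod_cast (by omega : (0 : ℤ) ≤ 2 * c.m)
  have hm0 : 0 ≤ ℓ * (2 * c.m) := by positivity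
  obtain ⟨i1, i2, i3, i4, i5⟩ := fc_stub hQ hh hh0 hu h1 h2 h3 h4
  have key : |(fc ℓ (4 * Q) v₀ v).re - (w - ((d / 4 : ℝ) : ℂ) * c.dv).re| ≤
      ℓ * (2 * c.m) + ℓ ∧ |(fc ℓ (4 * Q) v₀ v).im - (w - ((d / 4 : ℝ) : ℂ) * c.dv).im| ≤ ℓ := by
    rcases ho : c.hor with _ | _
    · obtain ⟨e1, e2⟩ := M.pos_v ho
      obtain ⟨r1, r2⟩ := M.col ho
      have i5 := i5 ho
      rw [← hh, abs_le] at e1
      rw [← hh] at r2
      rw [e2, abs_le, abs_le]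
      refine ⟨⟨by linarith, by linarith⟩, ⟨by linarith, by linarith⟩⟩
    · obtain ⟨e1, e2⟩ := M.pos_h ho
      obtain ⟨r1, r2⟩ := M.row ho
      have i4 := i4 ho
      rw [← hh, abs_le] at e1
      rw [← hh] at r2
      rw [e2, abs_le, abs_le]
      refine ⟨⟨by linarith, by linarith⟩, ⟨by linarith, by linarith⟩⟩
  refine Subset.trans ?_ (M.cut.clr (d / 4) (by linarith) (by linarith))
  intro x hx
  rw [mem_ball, ← hh] at hx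
  rw [mem_ball]
  have h5 := dist_triangle x (fc ℓ (4 * Q) v₀ v) (w - ((d / 4 : ℝ) : ℂ) * c.dv)
  have h6 : dist (fc ℓ (4 * Q) v₀ v) (w - ((d / 4 : ℝ) : ℂ) * c.dv) ≤ ℓ * (2 * c.m) + ℓ + ℓ := by
    rw [dist_eq_norm]
    refine (Complex.norm_le_abs_re_add_abs_im _).trans ?_
    rw [Complex.sub_re, Complex.sub_im]
    linarith [key.1, key.2]
  linarith

end Vale.Agent.P167.CL.CutL
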