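import Vale.Agent.P167.CL.CutDefs

/-!
# P167, block CUT: the access path
-/

set_option autoImplicit false
set_option linter.unusedVariables false

open MeasureTheory Filter Topology Set Metric Complex

namespace Vale.Agent.P167.CL

open Vale.Agent.P153.R2
open Vale.Agent.P153.R2.R1 (IsU)
open Vale.Agent.P153.R2.L1 (HH)
open Vale.Agent.P153.R2.DET (Uni HC)
open Vale.Agent.P153.R2.Final (dom circ toC IsUniformizer)
open Vale.Agent.P164 (loewnerDomain)
open Vale.Agent.P167.SLE (bq)
open Vale.Agent.P167.E6 Vale.Agent.P167.E2 Vale.Agent.P167.H411 Vale.Agent.P167.H450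

theorem HH_sub_HC : (HH : Set ℂ) ⊆ HC := fun z (hz : 0 < z.im) => hz.le

/-- **Uniform openness** on compact subsets of the half-plane. -/
theorem open_unif {ψ : ℂ → ℂ} (hc : ContinuousOn ψ HH) (hi : InjOn ψ HH) {K : Set ℂ}
    (hK : IsCompact K) {s : ℝ} (hs : 0 < s) (hKs : ∀ u ∈ K, closedBall u s ⊆ HH) :
    ∃ c > 0, ∃ e > 0, ∀ φ : ℂ → ℂ, DifferentiableOn ℂ φ HH → InjOn φ HH →
      (∀ z ∈ HH, dist (φ z) (ψ z) < e) → ∀ u ∈ K, ball (φ u) c ⊆ φ '' closedBall u s := by
  -- the minimal distance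
  obtain ⟨m, hm, hmin⟩ : ∃ m > 0, ∀ u ∈ K, ∀ v, dist v u = s → m ≤ dist (ψ v) (ψ u) := by
    set C : Set (ℂ × ℂ) := {q | q.1 ∈ K ∧ dist q.2 q.1 = s} with hC
    have hCc : IsCompact C := by
      have h1 : IsCompact (K ×ˢ cthickening s K) := hK.prod hK.cthickening
      refine h1.of_isClosed_subset ?_ ?_
      · refine IsClosed.inter (hK.isClosed.preimage continuous_fst) ?_
        exact isClosed_eq (continuous_snd.dist continuous_fst) continuous_const
      · rintro ⟨u, v⟩ ⟨h2, h3⟩
        exact ⟨h2, mem_cthickening_of_dist_le v u s K h2 h3.le⟩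
    have hmem : ∀ q ∈ C, q.1 ∈ HH ∧ q.2 ∈ HH := by
      rintro ⟨u, v⟩ ⟨h2, h3⟩
      exact ⟨hKs u h2 (mem_closedBall_self hs.le), hKs u h2 h3.le⟩
    rcases C.eq_empty_or_nonempty with h0 | hne
    · refine ⟨1, one_pos, fun u hu v hv => ?_⟩
      exfalso
      have : (u, v) ∈ C := ⟨hu, hv⟩
      rw [h0] at this
      exact this
    · have hcont : ContinuousOn (fun q : ℂ × ℂ => dist (ψ q.2) (ψ q.1)) C := by
        have c1 : ContinuousOn (fun q : ℂ × ℂ => ψ q.2) C :=
          hc.comp continuousOn_snd fun q hq => (hmem q hq).2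
        have c2 : ContinuousOn (fun q : ℂ × ℂ => ψ q.1) C :=
          hc.comp continuousOn_fst fun q hq => (hmem q hq).1
        simp_rw [dist_eq_norm]
        exact (c1.sub c2).norm
      obtain ⟨q, hq, hq'⟩ := hCc.exists_isMinOn hne hcont
      refine ⟨dist (ψ q.2) (ψ q.1), ?_, fun u hu v hv => hq' (show (u, v) ∈ C from ⟨hu, hv⟩)⟩
      refine dist_pos.2 ?_
      intro h
      have h4 := hi (hmem q hq).2 (hmem q hq).1 h
      have h5 := hq.2
      rw [h4, dist_self] at h5
      exact hs.ne h5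
  refine ⟨m / 2 / 2, by positivity, m / 4, by positivity, fun φ hφ hφi hclose u hu => ?_⟩
  have hu' : u ∈ HH := hKs u hu (mem_closedBall_self hs.le)
  have hd : DiffContOnCl ℂ φ (ball u s) :=
    DifferentiableOn.diffContOnCl (hφ.mono (closure_ball_subset_closedBall.trans (hKs u hu)))
  refine hd.ball_subset_image_closedBall hs (fun v hv => ?_) ?_
  · have hv' : v ∈ HH := hKs u hu (sphere_subset_closedBall hv)
    have h1 := hmin u hu v hv
    have h2 := hclose v hv'
    have h3 := hclose u hu'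
    rw [← dist_eq_norm]
    have h4 : dist (ψ v) (ψ u) ≤ dist (φ v) (ψ v) + dist (φ v) (φ u) + dist (φ u) (ψ u) := by
      have a1 := dist_triangle (ψ v) (φ v) (ψ u)
      have a2 := dist_triangle (φ v) (φ u) (ψ u)
      rw [dist_comm (ψ v) (φ v)] at a1
      linarith
    linarith
  · have h1 : ∀ᶠ z in 𝓝[≠] u, φ z ≠ φ u := by
      have hopen : IsOpen HH := isOpen_lt continuous_const Complex.continuous_im
      filter_upwards [mem_nhdsWithin_of_mem_nhds (hopen.mem_nhds hu'), self_mem_nhdsWithin]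
        with z hz hz2 he
      exact hz2 (hφi hz hu' he)
    exact h1.frequently.filter_mono nhdsWithin_le_nhds

variable {Φ : (ℝ × ℝ) ≃ₜ (ℝ × ℝ)} {ψ : ℂ → ℂ} {δ : ℕ → ℝ} {N k : ℕ → ℕ}
  {p : ∀ n, ZMod (N n) → ℤ × ℤ} {S : ℕ → Finset (ℤ × ℤ)} {ψn : ℕ → ℂ → ℂ}

/-- Points whose image is far from the boundary are far from the real line. -/
theorem im_low (H : Set6 Φ ψ δ N k p S ψn) (M : ℝ) {r : ℝ} (hr : 0 < r) :
    ∃ η > 0, ∀ᶠ n in atTop, ∀ z : ℂ, 0 < z.im → ‖z‖ ≤ M → ball (ψn n z) r ⊆ Om (δ n) (S n) →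
      η ≤ z.im := by
  have hU : Uni ψ (bq Φ) := SLE.uni_of_uniformizer R1.i_uinj H.unif
  have hK : IsCompact (HC ∩ closedBall (0 : ℂ) M) := by
    rw [inter_comm]
    exact (isCompact_closedBall 0 M).inter_right (isClosed_le continuous_const Complex.continuous_im)
  have huc := hK.uniformContinuousOn_of_continuous (hU.cont.mono inter_subset_left)
  rw [Metric.uniformContinuousOn_iff] at huc
  obtain ⟨η, hη, h⟩ := huc (r / 3) (by positivity)
  refine ⟨η, hη, ?_⟩
  filter_upwards [H.conv (r / 3) (by positivity), good_ev H.appr] with n hn hk z hz hzM hb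
  by_contra hlt
  rw [not_le] at hlt
  have hre : ((z.re : ℂ)).im = 0 := Complex.ofReal_im _
  have h1 : (z.re : ℂ) ∈ HC := by
    change 0 ≤ ((z.re : ℂ)).im
    rw [hre]
  have h2 : ‖(z.re : ℂ)‖ ≤ M := by
    rw [Complex.norm_real]
    exact (Complex.abs_re_le_norm z).trans hzM
  have h3 : dist z (z.re : ℂ) < η := by
    rw [dist_eq_norm]
    have e : z - (z.re : ℂ) = z.im * I := by
      apply Complex.ext <;> simp
    rw [e, norm_mul, Complex.norm_I, mul_one, Complex.norm_real, Real.norm_of_nonneg hz.le]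
    exact hlt
  have h4 := h z ⟨hz.le, by simpa using hzM⟩ (z.re : ℂ) ⟨h1, by simpa using h2⟩ h3
  have h5 := hn z hz.le
  have h6 := hn (z.re : ℂ) h1
  have h7 : ψn n (z.re : ℂ) ∈ ball (ψn n z) r := by
    rw [mem_ball]
    have a1 := dist_triangle (ψn n (z.re : ℂ)) (ψ (z.re : ℂ)) (ψn n z)
    have a2 := dist_triangle (ψ (z.re : ℂ)) (ψ z) (ψn n z)
    rw [dist_comm (ψ (z.re : ℂ)) (ψ z), dist_comm (ψ z) (ψn n z)] at a2
    linarith
  have h8 := hb h7
  rw [← (H.isU n hk).img] at h8
  obtain ⟨v, hv, he⟩ := h8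
  have hv' : 0 < v.im := hv
  have h9 := (H.uni n hk).inj (show v ∈ HC from hv'.le) h1 he
  rw [h9, hre] at hv'
  exact lt_irrefl _ hv'

/-- **The access path.** -/
theorem s_path : S_path := by
  intro Φ ψ δ N k p S ψn H T R X Y r hT hR hX hRX hTX hY hRY hTY hr
  have hU : Uni ψ (bq Φ) := SLE.uni_of_uniformizer R1.i_uinj H.unif
  obtain ⟨η, hη, hη'⟩ := im_low H (2 * X) hr
  set η' : ℝ := min η Y with hη'd
  have hη0 : 0 < η' := lt_min hη hY
  set s : ℝ := min (η' / 2) (min (X / 8) (Y / 8)) with hs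
  have hs0 : 0 < s := by positivity
  have hs1 : s ≤ η' / 2 := min_le_left _ _
  have hs2 : s ≤ X / 8 := (min_le_right _ _).trans (min_le_left _ _)
  have hs3 : s ≤ Y / 8 := (min_le_right _ _).trans (min_le_right _ _)
  set M : ℝ := 4 * X + 4 * Y with hM
  set K : Set ℂ := {u | η' ≤ u.im} ∩ closedBall 0 M with hK
  have hKc : IsCompact K := by
    rw [hK, inter_comm]
    exact (isCompact_closedBall 0 M).inter_right (isClosed_le continuous_const Complex.continuous_im)
  have hball : ∀ u : ℂ, η' ≤ u.im → ∀ v ∈ closedBall u s, η' / 2 ≤ v.im := by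
    intro u hu v hv
    rw [mem_closedBall, dist_eq_norm] at hv
    have h1 := (Complex.abs_im_le_norm (v - u)).trans hv
    rw [Complex.sub_im, abs_le] at h1
    linarith [h1.1]
  obtain ⟨c, hc, e, he, hopen⟩ := open_unif (hU.cont.mono HH_sub_HC) (hU.inj.mono HH_sub_HC) hKc hs0
    fun u hu v hv => show 0 < v.im by linarith [hball u hu.1 v hv]
  refine ⟨c, hc, ?_⟩
  filter_upwards [hη', H.conv e he, good_ev H.appr] with n h1 h2 h3 W t hD z hz hzX hzb
  have hUn := H.uni n h3
  have hIn := H.isU n h3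
  rw [dist_eq_norm] at hzX
  have hzre : X - X / 4 ≤ z.re := by
    have := (Complex.abs_re_le_norm (z - X)).trans hzX
    rw [Complex.sub_re, Complex.ofReal_re, abs_le] at this
    linarith [this.1]
  have hzn : ‖z‖ ≤ 5 / 4 * X := by
    have a1 := norm_add_le (z - X) (X : ℂ)
    rw [sub_add_cancel, Complex.norm_real, Real.norm_of_nonneg hX.le] at a1
    linarith
  have hzim : z.im ≤ 5 / 4 * X := (le_abs_self _).trans ((Complex.abs_im_le_norm z).trans hzn)
  have hz0 := h1 z hz (by linarith) hzb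
  have hη1 : η' ≤ z.im := (min_le_left _ _).trans hz0
  have hη2 : η' ≤ Y := min_le_right _ _
  set A : ℂ := z + (X + Y : ℝ) * I with hA
  set B : ℂ := (z.im + (X + Y) : ℝ) * I with hB
  set E : ℂ := (Y : ℂ) * I with hE
  have hAim : A.im = z.im + (X + Y) := by simp [hA]
  have hAre : A.re = z.re := by simp [hA]
  have hBim : B.im = z.im + (X + Y) := by simp [hB]
  have hBre : B.re = 0 := by simp [hB]
  have hEim : E.im = Y := by simp [hE]
  have hEre : E.re = 0 := by simp [hE]
  set Γ : Set ℂ := segment ℝ z A ∪ segment ℝ A B ∪ segment ℝ B E with hΓ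
  have hΓc : IsPreconnected Γ := by
    refine IsPreconnected.union B (Or.inr (right_mem_segment ℝ A B)) (left_mem_segment ℝ B E) ?_
      (convex_segment B E).isPreconnected
    exact IsPreconnected.union A (right_mem_segment ℝ z A) (left_mem_segment ℝ A B)
      (convex_segment z A).isPreconnected (convex_segment A B).isPreconnected
  -- norms
  have hnA : ‖A‖ ≤ M := by
    refine (norm_add_le _ _).trans ?_
    rw [norm_mul, Complex.norm_I, mul_one, Complex.norm_real, Real.norm_of_nonneg (by linarith)]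
    linarith
  have hnB : ‖B‖ ≤ M := by
    rw [hB, norm_mul, Complex.norm_I, mul_one, Complex.norm_real, Real.norm_of_nonneg (by linarith)]
    linarith
  have hnE : ‖E‖ ≤ M := by
    rw [hE, norm_mul, Complex.norm_I, mul_one, Complex.norm_real, Real.norm_of_nonneg hY.le]
    linarith
  have hnz : ‖z‖ ≤ M := by linarith
  have hcb : Convex ℝ (closedBall (0 : ℂ) M) := convex_closedBall 0 M
  have hmemM : ∀ u ∈ Γ, u ∈ closedBall (0 : ℂ) M := by
    have i1 : z ∈ closedBall (0 : ℂ) M := by simpa using hnz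
    have i2 : A ∈ closedBall (0 : ℂ) M := by simpa using hnA
    have i3 : B ∈ closedBall (0 : ℂ) M := by simpa using hnB
    have i4 : E ∈ closedBall (0 : ℂ) M := by simpa using hnE
    rintro u ((hu | hu) | hu)
    · exact hcb.segment_subset i1 i2 hu
    · exact hcb.segment_subset i2 i3 hu
    · exact hcb.segment_subset i3 i4 hu
  have hkey : ∀ u ∈ Γ, η' ≤ u.im ∧ (3 / 4 * X ≤ ‖u‖ ∨ Y ≤ ‖u‖) := by
    rintro u ((hu | hu) | hu)
    · obtain ⟨a, b, ha, hb, hab, rfl⟩ := hu
      have e1 : (a • z + b • A).re = z.re := by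
        simp only [Complex.add_re, Complex.real_smul, Complex.re_ofReal_mul, hAre]
        rw [← add_mul, hab, one_mul]
      have e2 : (a • z + b • A).im = z.im + b * (X + Y) := by
        simp only [Complex.add_im, Complex.real_smul, Complex.im_ofReal_mul, hAim]
        have : a = 1 - b := by linarith
        rw [this]; ring
      refine ⟨?_, Or.inl ?_⟩
      · rw [e2]
        have : 0 ≤ b * (X + Y) := by positivity
        linarith
      · have := (le_abs_self _).trans (Complex.abs_re_le_norm (a • z + b • A))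
        rw [e1] at this
        linarith
    · obtain ⟨a, b, ha, hb, hab, rfl⟩ := hu
      have e2 : (a • A + b • B).im = z.im + (X + Y) := by
        simp only [Complex.add_im, Complex.real_smul, Complex.im_ofReal_mul, hAim, hBim]
        rw [← add_mul, hab, one_mul]
      have h4 := (le_abs_self _).trans (Complex.abs_im_le_norm (a • A + b • B))
      rw [e2] at h4 ⊢
      exact ⟨by linarith, Or.inr (by linarith)⟩
    · obtain ⟨a, b, ha, hb, hab, rfl⟩ := hu
      have e2 : (a • B + b • E).im = a * (z.im + X) + Y := by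
        simp only [Complex.add_im, Complex.real_smul, Complex.im_ofReal_mul, hBim, hEim]
        have : b = 1 - a := by linarith
        rw [this]; ring
      have h5 : 0 ≤ a * (z.im + X) := by positivity
      have h4 := (le_abs_self _).trans (Complex.abs_im_le_norm (a • B + b • E))
      rw [e2] at h4 ⊢
      exact ⟨by linarith, Or.inr (by linarith)⟩
  have hΓHC : Γ ⊆ HC := fun u hu => show 0 ≤ u.im by linarith [(hkey u hu).1]
  refine ⟨ψn n '' Γ, hΓc.image _ (hUn.cont.mono hΓHC),
    mem_image_of_mem _ (Or.inr (right_mem_segment ℝ B E)),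
    mem_image_of_mem _ (Or.inl (Or.inl (left_mem_segment ℝ z A))), ?_⟩
  rintro _ ⟨u, hu, rfl⟩
  obtain ⟨k1, k2⟩ := hkey u hu
  refine (hopen (ψn n) hIn.diff hIn.inj (fun v hv => h2 v (HH_sub_HC hv)) u ⟨k1, hmemM u hu⟩).trans
    (image_mono fun v hv => ?_)
  have hvim := hball u k1 v hv
  have hvn : ‖u‖ - s ≤ ‖v‖ := by
    rw [mem_closedBall, dist_eq_norm] at hv
    have := norm_sub_norm_le u v
    rw [norm_sub_rev] at this
    linarith
  refine hD.dom (by linarith) ?_ ?_
  · rcases k2 with k2 | k2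
    · linarith
    · linarith
  · rcases k2 with k2 | k2
    · have h6 : X / 2 ≤ ‖v‖ := by linarith
      nlinarith
    · have h6 : Y / 2 ≤ ‖v‖ := by linarith
      nlinarith

end Vale.Agent.P167.CL
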