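import Vale.Agent.P167.CL.CutDefs

/-!
# P167, block CUT: `S_sep` and `S_pick`

* `sep_lim`, `uc_lim`: separation and uniform continuity of one embedding of the closed half-plane.
* `sep`: the statement `S_sep` for the uniformizers of the lattice domains.
* `pick_dir`: one of the four axis directions makes an angle of at most 45 degrees with a vector.
* `pick`: the statement `S_pick`; `w` is the nearest point of the complement to the image of
  `X + i y`.
-/

set_option autoImplicit false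

open MeasureTheory Filter Topology Set Metric Complex Bornology

namespace Vale.Agent.P167.CL

open Vale.Agent.P153.R2
open Vale.Agent.P153.R2.DET (Uni HC)
open Vale.Agent.P153.R2.L1 (HH)
open Vale.Agent.P167.SLE (bq)
open Vale.Agent.P167.E6 Vale.Agent.P167.E2 Vale.Agent.P167.H411 Vale.Agent.P167.H756

theorem isClosed_HC : IsClosed HC := isClosed_le continuous_const Complex.continuous_im

/-- Separation: points with close images are close. -/
theorem sep_lim {ψ : ℂ → ℂ} {b : ℂ} (hU : Uni ψ b) (M : ℝ) {κ : ℝ} (hκ : 0 < κ) :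
    ∃ η : ℝ, 0 < η ∧ ∀ z z' : ℂ, 0 ≤ z.im → 0 ≤ z'.im → ‖z‖ ≤ M →
      dist (ψ z) (ψ z') ≤ η → dist z z' ≤ κ := by
  have hK : IsCompact (HC ∩ closedBall (0 : ℂ) M) :=
    (isCompact_closedBall _ _).inter_left isClosed_HC
  have hc : IsCompact (ψ '' (HC ∩ closedBall (0 : ℂ) M)) :=
    hK.image_of_continuousOn (hU.cont.mono inter_subset_left)
  have hb : b ∈ (ψ '' (HC ∩ closedBall (0 : ℂ) M))ᶜ := by
    rintro ⟨z, hz, h⟩
    exact hU.ne z hz.1 h
  obtain ⟨ρ, hρ, hρ'⟩ := Metric.isOpen_iff.1 hc.isClosed.isOpen_compl b hb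
  have h1 : ∀ z ∈ HC ∩ closedBall (0 : ℂ) M, ρ ≤ dist (ψ z) b := by
    intro z hz
    by_contra hlt
    exact hρ' (mem_ball.2 (not_le.1 hlt)) (mem_image_of_mem _ hz)
  have h2 := Metric.tendsto_nhds.1 hU.inf (ρ / 2) (by positivity)
  rw [eventually_inf_principal] at h2
  obtain ⟨M', -, hM'⟩ := (Metric.hasBasis_cobounded_compl_closedBall (0 : ℂ)).eventually_iff.1 h2
  have hK' : IsCompact (HC ∩ closedBall (0 : ℂ) M') :=
    (isCompact_closedBall _ _).inter_left isClosed_HC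
  set C : Set (ℂ × ℂ) := ((HC ∩ closedBall (0 : ℂ) M) ×ˢ (HC ∩ closedBall (0 : ℂ) M')) ∩
    {q | κ ≤ dist q.1 q.2} with hC
  have hCc : IsCompact C := (hK.prod hK').inter_right
    (isClosed_le continuous_const (continuous_fst.dist continuous_snd))
  have hcont : ContinuousOn (fun q : ℂ × ℂ => dist (ψ q.1) (ψ q.2)) C := by
    have a1 : ContinuousOn (fun q : ℂ × ℂ => ψ q.1) C :=
      hU.cont.comp continuous_fst.continuousOn fun q hq => hq.1.1.1
    have a2 : ContinuousOn (fun q : ℂ × ℂ => ψ q.2) C :=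
      hU.cont.comp continuous_snd.continuousOn fun q hq => hq.1.2.1
    exact continuous_dist.comp_continuousOn (a1.prodMk a2)
  obtain ⟨e, he, he'⟩ : ∃ e : ℝ, 0 < e ∧ ∀ q ∈ C, e ≤ dist (ψ q.1) (ψ q.2) := by
    rcases C.eq_empty_or_nonempty with h | h
    · exact ⟨1, one_pos, fun q hq => by rw [h] at hq; exact hq.elim⟩
    · obtain ⟨q, hq, hmin⟩ := hCc.exists_isMinOn h hcont
      refine ⟨dist (ψ q.1) (ψ q.2), ?_, fun q' hq' => hmin hq'⟩
      rw [dist_pos]
      intro heq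
      have h3 := hU.inj hq.1.1.1 hq.1.2.1 heq
      have h4 : κ ≤ dist q.1 q.2 := hq.2
      rw [h3, dist_self] at h4
      linarith
  refine ⟨min (e / 2) (ρ / 4), by positivity, ?_⟩
  intro z z' hz hz' hzM hd
  by_contra hlt
  rw [not_le] at hlt
  have hzK : z ∈ HC ∩ closedBall (0 : ℂ) M := ⟨hz, mem_closedBall_zero_iff.2 hzM⟩
  by_cases h5 : z' ∈ closedBall (0 : ℂ) M'
  · have h6 := he' (z, z') ⟨⟨hzK, hz', h5⟩, hlt.le⟩
    have h7 := hd.trans (min_le_left _ _)
    simp only at h6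
    linarith
  · have h6 : dist (ψ z') b < ρ / 2 := hM' h5 hz'
    have h7 := h1 z hzK
    have h8 := dist_triangle (ψ z) (ψ z') b
    have h9 := hd.trans (min_le_right _ _)
    linarith

/-- Uniform continuity. -/
theorem uc_lim {ψ : ℂ → ℂ} {b : ℂ} (hU : Uni ψ b) (M : ℝ) {κ : ℝ} (hκ : 0 < κ) :
    ∃ η : ℝ, 0 < η ∧ ∀ z z' : ℂ, 0 ≤ z.im → 0 ≤ z'.im → ‖z‖ ≤ M →
      dist z z' ≤ η → dist (ψ z) (ψ z') ≤ κ := by
  have hK : IsCompact (HC ∩ closedBall (0 : ℂ) (M + 1)) :=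
    (isCompact_closedBall _ _).inter_left isClosed_HC
  have hu := hK.uniformContinuousOn_of_continuous (hU.cont.mono inter_subset_left)
  obtain ⟨η, hη, h⟩ := Metric.uniformContinuousOn_iff.1 hu κ hκ
  refine ⟨min (η / 2) 1, by positivity, ?_⟩
  intro z z' hz hz' hzM hd
  refine (h z ⟨hz, mem_closedBall_zero_iff.2 (by linarith)⟩ z' ⟨hz', ?_⟩ ?_).le
  · rw [mem_closedBall_zero_iff]
    have h1 := hd.trans (min_le_right _ _)
    rw [dist_comm, dist_eq_norm] at h1
    have h2 := norm_sub_norm_le z' z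
    linarith
  · have := hd.trans (min_le_left _ _)
    linarith

/-- **[Sep]** -/
theorem sep : S_sep := by
  intro Φ ψ δ N k p S ψn H M κ hκ
  have hU : Uni ψ (bq Φ) := SLE.uni_of_uniformizer R1.i_uinj H.unif
  constructor
  · obtain ⟨η, hη, h⟩ := sep_lim hU M hκ
    refine ⟨η / 2, by positivity, ?_⟩
    filter_upwards [H.conv (η / 4) (by positivity)] with n hn z z' hz hz' hM hd
    refine h z z' hz hz' hM ?_
    have h1 := hn z hz
    have h2 := hn z' hz'
    have h3 := dist_triangle4 (ψ z) (ψn n z) (ψn n z') (ψ z')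
    rw [dist_comm (ψ z) (ψn n z)] at h3
    linarith
  · obtain ⟨η, hη, h⟩ := uc_lim hU M (κ := κ / 2) (by positivity)
    refine ⟨η, hη, ?_⟩
    filter_upwards [H.conv (κ / 4) (by positivity)] with n hn z z' hz hz' hM hd
    have h0 := h z z' hz hz' hM hd
    have h1 := hn z hz
    have h2 := hn z' hz'
    have h3 := dist_triangle4 (ψn n z) (ψ z) (ψ z') (ψn n z')
    rw [dist_comm (ψ z') (ψn n z')] at h3
    linarith

/-! ### The direction -/

theorem normSq_eq (z : ℂ) : ‖z‖ ^ 2 = z.re ^ 2 + z.im ^ 2 := by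
  rw [Complex.sq_norm, Complex.normSq_apply]
  ring

/-- One of the axis directions makes an angle of at most 45 degrees with the vector `v`. -/
theorem pick_dir (v : ℂ) : ∃ hor pos : Bool, ∀ τ : ℝ, 0 < τ → τ ≤ ‖v‖ / 2 →
    ‖v - (τ : ℂ) * (CutP.mk hor pos 0 0 0).dv‖ ≤ ‖v‖ - τ / 2 := by
  have key : ∀ (m τ : ℝ), 0 < τ → τ ≤ ‖v‖ / 2 → 0 ≤ m → ‖v‖ ^ 2 ≤ 2 * m ^ 2 →
      ‖v‖ ^ 2 - 2 * τ * m + τ ^ 2 ≤ (‖v‖ - τ / 2) ^ 2 := by
    intro m τ hτ hτ' hm h
    have h1 : 11 / 16 * ‖v‖ ≤ m := by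
      by_contra hlt
      rw [not_le] at hlt
      have : m ^ 2 < (11 / 16 * ‖v‖) ^ 2 := by gcongr
      nlinarith [norm_nonneg v]
    nlinarith
  have fin : ∀ (τ : ℝ) (u : ℂ), 0 < τ → τ ≤ ‖v‖ / 2 → ‖u‖ ^ 2 ≤ (‖v‖ - τ / 2) ^ 2 →
      ‖u‖ ≤ ‖v‖ - τ / 2 := by
    intro τ u hτ hτ' h
    refine le_of_sq_le_sq h ?_
    have := norm_nonneg v
    linarith
  have hv := normSq_eq v
  rcases le_total (v.im ^ 2) (v.re ^ 2) with h1 | h1
  · rcases le_total 0 v.re with h2 | h2
    · refine ⟨true, true, fun τ hτ hτ' => fin τ _ hτ hτ' ?_⟩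
      refine le_trans (le_of_eq ?_) (key v.re τ hτ hτ' h2 (by linarith))
      rw [normSq_eq, hv]
      simp [CutP.dv, CutP.sg]
      ring
    · refine ⟨true, false, fun τ hτ hτ' => fin τ _ hτ hτ' ?_⟩
      refine le_trans (le_of_eq ?_) (key (-v.re) τ hτ hτ' (by linarith) (by
        rw [neg_sq]; linarith))
      rw [normSq_eq, hv]
      simp [CutP.dv, CutP.sg]
      ring
  · rcases le_total 0 v.im with h2 | h2
    · refine ⟨false, true, fun τ hτ hτ' => fin τ _ hτ hτ' ?_⟩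
      refine le_trans (le_of_eq ?_) (key v.im τ hτ hτ' h2 (by linarith))
      rw [normSq_eq, hv]
      simp [CutP.dv, CutP.sg]
      ring
    · refine ⟨false, false, fun τ hτ hτ' => fin τ _ hτ hτ' ?_⟩
      refine le_trans (le_of_eq ?_) (key (-v.im) τ hτ hτ' (by linarith) (by
        rw [neg_sq]; linarith))
      rw [normSq_eq, hv]
      simp [CutP.dv, CutP.sg]
      ring

/-! ### The rotated plane -/

theorem isOpen_OmP (δ : ℝ) (S : Finset (ℤ × ℤ)) : IsOpen (Om δ S) := by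
  have h : Om δ S = ⋃ w ∈ region δ S,
      ({z : ℂ | |z.re - w.re| < 3 / 8 * δ} ∩ {z : ℂ | |z.im - w.im| < 3 / 8 * δ}) := by
    ext z
    simp only [mem_iUnion, Om, Set.mem_ofPred_eq, mem_inter_iff, exists_prop]
  rw [h]
  refine isOpen_biUnion fun w _ => (isOpen_lt ?_ continuous_const).inter
    (isOpen_lt ?_ continuous_const)
  · fun_prop
  · fun_prop

theorem one_I_ne : (1 + I : ℂ) ≠ 0 := by
  intro h
  have := congrArg Complex.re h
  simp at this

theorem norm_one_I : 1 ≤ ‖(1 + I : ℂ)‖ ∧ ‖(1 + I : ℂ)‖ ≤ 2 := by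
  have h : ‖(1 + I : ℂ)‖ ^ 2 = 2 := by
    rw [normSq_eq]
    simp
    norm_num
  have h0 := norm_nonneg (1 + I : ℂ)
  constructor <;> nlinarith

theorem dist_rot (z z' : ℂ) : dist ((1 + I) * z) ((1 + I) * z') = ‖(1 + I : ℂ)‖ * dist z z' := by
  rw [dist_eq_norm, dist_eq_norm, ← mul_sub, norm_mul]

/-- **[Pick]** -/
theorem pick : S_pick := by
  intro Φ ψ δ N k p S ψn H X κ hX hκ
  have hU : Uni ψ (bq Φ) := SLE.uni_of_uniformizer R1.i_uinj H.unif
  obtain ⟨c1, c2⟩ := norm_one_I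
  obtain ⟨⟨η, hη, hsep⟩, -⟩ := sep Φ ψ δ N k p S ψn H (X + 1) (κ / 2) (by positivity)
  obtain ⟨-, ⟨η', hη', huc⟩⟩ := sep Φ ψ δ N k p S ψn H (X + 1) (η / 18) (by positivity)
  set y : ℝ := min (min η' (κ / 2)) 1 with hy
  have hy0 : 0 < y := by positivity
  have hy1 : y ≤ 1 := min_le_right _ _
  have hyη : y ≤ η' := (min_le_left _ _).trans (min_le_left _ _)
  have hyκ : y ≤ κ / 2 := (min_le_left _ _).trans (min_le_right _ _)
  -- the inner ball
  obtain ⟨M, hM⟩ := uni_bdd hU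
  have hshift : ∀ z ∈ HH, (X : ℂ) + z ∈ HH := fun z (hz : 0 < z.im) => by
    change 0 < ((X : ℂ) + z).im
    simpa using hz
  have hHC : (HH : Set ℂ) ⊆ HC := fun z (hz : 0 < z.im) => hz.le
  have hinj : InjOn (fun z : ℂ => (X : ℂ) + z) HH := fun z _ w _ h => add_left_cancel h
  have hdiffs : DifferentiableOn ℂ (fun z : ℂ => (X : ℂ) + z) HH := by fun_prop
  obtain ⟨Rd, hRd, cd, hcd, e, he, hnear⟩ := hconf_near (ψ := fun z => ψ ((X : ℂ) + z))
    (H.unif.1.comp hdiffs hshift) (H.unif.2.1.comp hinj hshift)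
    (M := M) (fun z hz => hM _ (hHC (hshift z hz))) hy0
  refine ⟨cd, hcd, ?_⟩
  filter_upwards [hsep, huc, H.conv e he, good_ev H.appr] with n hsep huc hconv hgood
  have hUn := H.uni n hgood
  have hIU := H.isU n hgood
  have hconf := hnear (fun z => ψn n ((X : ℂ) + z)) (hIU.diff.comp hdiffs hshift)
    ((hUn.inj.mono hHC).comp hinj hshift) (fun z hz => hconv _ (hHC (hshift z hz)))
  set zy : ℂ := (X : ℂ) + (y : ℂ) * I with hzy
  have hzim : zy.im = y := by simp [hzy]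
  have hzHH : zy ∈ HH := by
    change 0 < zy.im
    rw [hzim]
    exact hy0
  have hzX : dist zy X = y := by
    rw [dist_eq_norm, hzy, add_sub_cancel_left, norm_mul, Complex.norm_I, mul_one,
      Complex.norm_real, Real.norm_of_nonneg hy0.le]
  have hznorm : ‖zy‖ ≤ X + 1 := by
    rw [hzy]
    refine (norm_add_le _ _).trans ?_
    rw [norm_mul, Complex.norm_I, mul_one, Complex.norm_real, Complex.norm_real,
      Real.norm_of_nonneg hX.le, Real.norm_of_nonneg hy0.le]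
    linarith
  have hball : ball (ψn n zy) cd ⊆ Om (δ n) (S n) := by
    intro u hu
    obtain ⟨z, hz, hzu⟩ := hconf.sub hu
    rw [← hIU.img]
    exact ⟨(X : ℂ) + z, hshift z hz, hzu⟩
  -- the rotated domain
  set D : Set ℂ := {u | ∃ z ∈ Om (δ n) (S n), (1 + I) * z = u} with hD
  have hDopen : IsOpen D := by
    have h1 : D = (fun u : ℂ => u / (1 + I)) ⁻¹' Om (δ n) (S n) := by
      ext u
      constructor
      · rintro ⟨z, hz, rfl⟩
        change (1 + I) * z / (1 + I) ∈ Om (δ n) (S n)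
        rwa [mul_div_cancel_left₀ _ one_I_ne]
      · intro hu
        exact ⟨u / (1 + I), hu, mul_div_cancel₀ _ one_I_ne⟩
    rw [h1]
    exact (isOpen_OmP _ _).preimage (by fun_prop)
  have hXn : (1 + I) * ψn n X ∈ Dᶜ := by
    rintro ⟨z, hz, hzX⟩
    have h1 := mul_left_cancel₀ one_I_ne hzX
    rw [← hIU.img] at hz
    obtain ⟨z', hz', rfl⟩ := hz
    have h2 := hUn.inj (hHC hz') (show (X : ℂ) ∈ HC from by simp [HC]) h1
    have h3 : (0 : ℝ) < z'.im := hz'
    rw [h2] at h3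
    simp at h3
  set u1 : ℂ := (1 + I) * ψn n zy with hu1
  have hne : (Dᶜ : Set ℂ).Nonempty := ⟨_, hXn⟩
  obtain ⟨w, hw, hwd⟩ := hDopen.isClosed_compl.exists_infDist_eq_dist hne u1
  have hin : ∀ u, dist u u1 < dist u1 w → u ∈ D := by
    intro u hu
    by_contra hun
    have h1 := Metric.infDist_le_dist_of_mem (x := u1) (show u ∈ Dᶜ from hun)
    rw [hwd, dist_comm u1 u] at h1
    linarith
  have hd1 : cd ≤ dist u1 w := by
    rw [← hwd]
    refine (Metric.le_infDist hne).2 fun u hu => ?_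
    by_contra hlt
    rw [not_le] at hlt
    apply hu
    refine ⟨u / (1 + I), hball ?_, mul_div_cancel₀ _ one_I_ne⟩
    rw [mem_ball]
    have h1 := dist_rot (u / (1 + I)) (ψn n zy)
    rw [mul_div_cancel₀ _ one_I_ne, ← hu1, dist_comm] at h1
    have h2 : (0 : ℝ) ≤ dist (u / (1 + I)) (ψn n zy) := dist_nonneg
    nlinarith
  have hd2 : dist u1 w ≤ η / 9 := by
    rw [← hwd]
    refine (Metric.infDist_le_dist_of_mem hXn).trans ?_
    rw [hu1, dist_rot]
    have h1 := huc zy X (by rw [hzim]; exact hy0.le) (by simp) hznorm (by rw [hzX]; exact hyη)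
    have h2 : (0 : ℝ) ≤ dist (ψn n zy) (ψn n X) := dist_nonneg
    nlinarith
  obtain ⟨hor, pos, hdir⟩ := pick_dir (w - u1)
  have hnorm : ‖w - u1‖ = dist u1 w := by rw [dist_comm, dist_eq_norm]
  rw [hnorm] at hdir
  refine ⟨w, hor, pos, ?_, ?_, ?_⟩
  · intro z hz hzw
    exact hw ⟨z, hz, hzw⟩
  · intro τ hτ hτ' u hu
    apply hin
    have h1 := hdir τ hτ (by linarith)
    rw [mem_ball] at hu
    have h2 := dist_triangle u (w - (τ : ℂ) * (CutP.mk hor pos 0 0 0).dv) u1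
    rw [dist_eq_norm (w - (τ : ℂ) * (CutP.mk hor pos 0 0 0).dv) u1] at h2
    have h3 : w - (τ : ℂ) * (CutP.mk hor pos 0 0 0).dv - u1 =
        w - u1 - (τ : ℂ) * (CutP.mk hor pos 0 0 0).dv := by ring
    rw [h3] at h2
    linarith
  · intro z hz hzw
    have h1 := dist_triangle ((1 + I) * ψn n z) w u1
    rw [dist_comm w u1] at h1
    rw [hu1, dist_rot, ← hu1] at h1
    have h2 : (0 : ℝ) ≤ dist (ψn n z) (ψn n zy) := dist_nonneg
    have h3 : dist (ψn n zy) (ψn n z) ≤ η := by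
      rw [dist_comm]
      nlinarith
    have h4 := hsep zy z (by rw [hzim]; exact hy0.le) hz hznorm h3
    have h5 := dist_triangle z zy X
    rw [hzX, dist_comm z zy] at h5
    linarith

end Vale.Agent.P167.CL
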