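import Vale.Agent.P167.CL.CutNDefs
import Vale.Agent.P167.CL.Pick
import Vale.Agent.P167.CL.Path

/-!
# P167, block CUT: existence of the cut, continuum part

* `PickD.cutM` : `CutM` from the data of `S_pick`, for a given position;
* `PickD.cutN` : `CutN` (all slit domains) from the data of `S_pick` and `S_path`;
* `cutM` : `S_cutM`;
* `cutN` : `S_cutN`.
-/

set_option autoImplicit false

open MeasureTheory Filter Topology Set Metric Complex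

namespace Vale.Agent.P167.CL.MP

open Vale.Agent.P167.CL
open Vale.Agent.P153.R2
open Vale.Agent.P153.R2.L1 (HH)
open Vale.Agent.P164 (loewnerDomain)
open Vale.Agent.P167.E6 Vale.Agent.P167.E2 Vale.Agent.P167.H411
open Vale.Agent.P167.H756

theorem lw_im {W : ℝ → ℝ} {t : ℝ} (ht : 0 ≤ t) {z : ℂ} (hz : z ∈ loewnerDomain W t) : 0 < z.im := by
  obtain ⟨g, h0, hg⟩ := hz
  have h1 := (hg 0 ⟨le_rfl, ht⟩).1
  rwa [h0] at h1

theorem sg_mk (hor pos : Bool) (m q e : ℤ) :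
    (CutP.mk hor pos m q e).sg = (CutP.mk hor pos 0 0 0).sg := rfl

theorem dv_mk (hor pos : Bool) (m q e : ℤ) :
    (CutP.mk hor pos m q e).dv = (CutP.mk hor pos 0 0 0).dv := rfl

theorem norm_dv (c : CutP) : ‖c.dv‖ = 1 := by
  have hs : c.sg = 1 ∨ c.sg = -1 := by
    unfold CutP.sg
    split_ifs
    · exact Or.inl rfl
    · exact Or.inr rfl
  unfold CutP.dv
  rcases hs with h | h <;> rw [h] <;> split_ifs <;> simp

/-- The data of `S_pick` for one domain. -/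
structure PickD (X κ d : ℝ) (ψ : ℂ → ℂ) (Ω : Set ℂ) (hor pos : Bool) (w₁ : ℂ) : Prop where
  img : ψ '' HH = Ω
  out : ∀ z ∈ Ω, (1 + I) * z ≠ w₁
  clr : ∀ τ : ℝ, 0 < τ → τ ≤ d / 2 →
    ∀ u ∈ ball (w₁ - (τ : ℂ) * (CutP.mk hor pos 0 0 0).dv) (τ / 2), ∃ z ∈ Ω, (1 + I) * z = u
  near : ∀ z : ℂ, 0 ≤ z.im → dist ((1 + I) * ψ z) w₁ ≤ 8 * d → dist z X ≤ κ

/-- The data of `S_path` for one domain. -/
def PathD (T R X Y r c₀ : ℝ) (ψ : ℂ → ℂ) (Ω : Set ℂ) : Prop :=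
  ∀ (W : ℝ → ℝ) (t : ℝ), Drv T R W t →
    ∀ z : ℂ, 0 < z.im → dist z X ≤ X / 4 → ball (ψ z) r ⊆ Ω →
      ∃ C : Set ℂ, IsPreconnected C ∧ ψ (Y * I) ∈ C ∧ ψ z ∈ C ∧
        ∀ u ∈ C, ball u c₀ ⊆ ψ '' loewnerDomain W t

section

variable {T R X Y κ d r c₀ : ℝ} {ψ : ℂ → ℂ} {Ω : Set ℂ} {hor pos : Bool} {w₁ : ℂ}

/-- The affine image. -/
noncomputable def aff (a : ℝ) (β u : ℂ) : ℂ := (a : ℂ) * (u - β)

theorem dist_aff {a : ℝ} (ha : 0 < a) (β u v : ℂ) : dist (aff a β u) (aff a β v) = a * dist u v := by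
  rw [dist_eq_norm, dist_eq_norm]
  have e : aff a β u - aff a β v = (a : ℂ) * (u - v) := by unfold aff; ring
  rw [e, norm_mul, Complex.norm_real, Real.norm_of_nonneg ha.le]

theorem aff_surj {a : ℝ} (ha : 0 < a) (β v : ℂ) : ∃ u, aff a β u = v := by
  have : (a : ℂ) ≠ 0 := by exact_mod_cast ha.ne'
  exact ⟨v / a + β, by unfold aff; field_simp; ring⟩

/-- far from the hull -/
theorem dom_near (hX : 0 < X) (hRX : 16 * R ≤ X)
    (hTX : 1024 * T ≤ X ^ 2) {W : ℝ → ℝ} {t : ℝ} (hW : Drv T R W t) {z : ℂ} (hz : 0 < z.im)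
    (hzX : dist z X ≤ X / 4) : z ∈ loewnerDomain W t := by
  have h1 : X / 2 ≤ ‖z‖ := by
    have h2 := norm_sub_norm_le (X : ℂ) z
    rw [Complex.norm_real, Real.norm_of_nonneg hX.le, norm_sub_rev, ← dist_eq_norm] at h2
    linarith
  refine hW.dom hz (by linarith) ?_
  nlinarith

variable (P : PickD X κ d ψ Ω hor pos w₁)
include P

/-- the points of the cone -/
theorem PickD.cone {a : ℝ} (ha : 1 ≤ a) (β : ℂ)
    {τ : ℝ} (h0 : 0 < τ) (h1 : τ ≤ d / 2) {u : ℂ}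
    (hu : u ∈ ball (aff a β w₁ - (τ : ℂ) * (CutP.mk hor pos 0 0 0).dv) (τ / 2)) :
    ∃ z ∈ HH, aff a β ((1 + I) * ψ z) = u ∧ dist z X ≤ κ := by
  have ha0 : 0 < a := by linarith
  have haC : (a : ℂ) ≠ 0 := by exact_mod_cast ha0.ne'
  obtain ⟨u', rfl⟩ := aff_surj ha0 β u
  set dv := (CutP.mk hor pos 0 0 0).dv with hdv
  have e1 : aff a β w₁ - (τ : ℂ) * dv = aff a β (w₁ - ((τ / a : ℝ) : ℂ) * dv) := by
    unfold aff
    push_cast
    field_simp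
    ring
  rw [e1, mem_ball, dist_aff ha0] at hu
  have hτa : τ / a ≤ d / 2 := (div_le_self h0.le ha).trans h1
  have h2 : dist u' (w₁ - ((τ / a : ℝ) : ℂ) * dv) < τ / a / 2 := by
    rw [div_div, mul_comm a 2, ← div_div, lt_div_iff₀ ha0]
    linarith
  obtain ⟨v, hv, hvu⟩ := P.clr (τ / a) (by positivity) hτa u' (mem_ball.2 h2)
  rw [← P.img] at hv
  obtain ⟨z, hz, rfl⟩ := hv
  refine ⟨z, hz, by rw [hvu], P.near z (le_of_lt hz) ?_⟩
  rw [hvu]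
  have h3 : dist (w₁ - ((τ / a : ℝ) : ℂ) * dv) w₁ = τ / a := by
    rw [dist_eq_norm, sub_sub_cancel_left, norm_neg, norm_mul, norm_dv, mul_one, Complex.norm_real,
      Real.norm_of_nonneg (by positivity)]
  have h4 := dist_triangle u' (w₁ - ((τ / a : ℝ) : ℂ) * dv) w₁
  linarith

/-- **`CutM` for a given position.** -/
theorem PickD.cutM {a : ℝ} (ha : 1 ≤ a) (β : ℂ) {κ' ℓ ϱ τ₀ : ℝ} {N : ℕ} {m q e : ℤ}
    (hκ' : κ ≤ κ')
    (hcc : ∀ D : Set ℂ, aff a β w₁ ∉ D →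
      (∀ τ : ℝ, 0 < τ → τ ≤ d / 2 →
        ball (aff a β w₁ - (τ : ℂ) * (CutP.mk hor pos m q e).dv) (τ / 2) ⊆ D) →
      CutC ℓ ϱ (2 * ℓ / N) d τ₀ (CutP.mk hor pos m q e) D (aff a β w₁))
    (hrow : hor = true → -(ℓ / 2) ≤ (aff a β w₁).im ∧ (aff a β w₁).im ≤ -(ℓ / 2) + ℓ / N)
    (hcol : hor = false → ℓ * (2 * m + 1 / 2) ≤ (aff a β w₁).re ∧
      (aff a β w₁).re ≤ ℓ * (2 * m + 1 / 2) + ℓ / N) :
    CutM ℓ N (fun z => aff a β ((1 + I) * ψ z)) X κ' d ϱ τ₀ (CutP.mk hor pos m q e)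
      (aff a β w₁) where
  cut := by
    refine hcc _ ?_ ?_
    · rintro ⟨z, hz, h⟩
      have haC : (a : ℂ) ≠ 0 := by exact_mod_cast (by linarith : 0 < a).ne'
      simp only [aff] at h
      have h1 := sub_left_inj.1 (mul_left_cancel₀ haC h)
      refine P.out (ψ z) ?_ h1
      rw [← P.img]
      exact ⟨z, hz, rfl⟩
    · intro τ h0 h1 u hu
      obtain ⟨z, hz, h2, h3⟩ := P.cone ha β h0 h1 hu
      exact ⟨z, hz, h2⟩
  nearX z hz h := by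
    refine (P.near z hz ?_).trans hκ'
    rw [dist_aff (by linarith)] at h
    have := dist_nonneg (x := (1 + I) * ψ z) (y := w₁)
    nlinarith
  row := hrow
  col := hcol

/-- **`CutN` for a given position.** -/
theorem PickD.cutN (hpath : PathD T R X Y r c₀ ψ Ω) (hX : 0 < X) (hRX : 16 * R ≤ X)
    (hTX : 1024 * T ≤ X ^ 2) (hd : 0 < d) (hκ : κ ≤ X / 4) (hr : 32 * r ≤ d)
    {a : ℝ} (ha : 1 ≤ a) (ha2 : a ≤ 2) (β : ℂ) {κ' ℓ ϱ μ τ₀ : ℝ} {m q e : ℤ} (hκ' : κ ≤ κ')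
    (hcc : ∀ D : Set ℂ, aff a β w₁ ∉ D →
      (∀ τ : ℝ, 0 < τ → τ ≤ d / 2 →
        ball (aff a β w₁ - (τ : ℂ) * (CutP.mk hor pos m q e).dv) (τ / 2) ⊆ D) →
      CutC ℓ ϱ μ d τ₀ (CutP.mk hor pos m q e) D (aff a β w₁)) :
    CutN T R X Y κ' d c₀ ℓ ϱ μ τ₀ (fun z => aff a β ((1 + I) * ψ z)) (CutP.mk hor pos m q e)
      (aff a β w₁) where
  cc W t hW := by
    refine hcc _ ?_ ?_
    · rintro ⟨z, hz, h⟩
      have haC : (a : ℂ) ≠ 0 := by exact_mod_cast (by linarith : 0 < a).ne'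
      simp only [aff] at h
      have h1 := sub_left_inj.1 (mul_left_cancel₀ haC h)
      refine P.out (ψ z) ?_ h1
      rw [← P.img]
      exact ⟨z, lw_im hW.nn hz, rfl⟩
    · intro τ h0 h1 u hu
      obtain ⟨z, hz, h2, h3⟩ := P.cone ha β h0 h1 hu
      exact ⟨z, dom_near hX hRX hTX hW hz (h3.trans hκ), h2⟩
  near z hz h := by
    refine (P.near z hz ?_).trans hκ'
    rw [dist_aff (by linarith)] at h
    have := dist_nonneg (x := (1 + I) * ψ z) (y := w₁)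
    nlinarith
  acc W t hW := by
    obtain ⟨z, hz, h2, h3⟩ := P.cone ha β (τ := d / 4) (by linarith) (by linarith)
      (mem_ball_self (by linarith))
    have ha0 : 0 < a := by linarith
    have haC : (a : ℂ) ≠ 0 := by exact_mod_cast ha0.ne'
    obtain ⟨n1, n2⟩ := norm_one_I
    have hball : ball (ψ z) r ⊆ Ω := by
      intro v hv
      rw [mem_ball] at hv
      have h4 : aff a β ((1 + I) * v) ∈
          ball (aff a β w₁ - ((d / 4 : ℝ) : ℂ) * (CutP.mk hor pos 0 0 0).dv) (d / 4 / 2) := by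
        rw [mem_ball, ← h2, dist_aff ha0, dist_rot]
        have h5 : ‖(1 + I : ℂ)‖ * dist v (ψ z) ≤ 2 * dist v (ψ z) := by gcongr
        have h6 : 0 ≤ ‖(1 + I : ℂ)‖ * dist v (ψ z) := by positivity
        have h7 : a * (‖(1 + I : ℂ)‖ * dist v (ψ z)) ≤ 2 * (2 * dist v (ψ z)) := by
          calc a * (‖(1 + I : ℂ)‖ * dist v (ψ z)) ≤ 2 * (‖(1 + I : ℂ)‖ * dist v (ψ z)) := by gcongr
            _ ≤ 2 * (2 * dist v (ψ z)) := by gcongr
        linarith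
      obtain ⟨z', hz', h5, -⟩ := P.cone ha β (τ := d / 4) (by linarith) (by linarith) h4
      simp only [aff] at h5
      have h6 := sub_left_inj.1 (mul_left_cancel₀ haC h5)
      have h7 := mul_left_cancel₀ one_I_ne h6
      rw [← P.img, ← h7]
      exact ⟨z', hz', rfl⟩
    obtain ⟨C, hC1, hC2, hC3, hC4⟩ := hpath W t hW z hz (h3.trans hκ) hball
    refine ⟨(fun u => aff a β ((1 + I) * u)) '' C, hC1.image _ ?_, ⟨_, hC2, rfl⟩,
      ⟨_, hC3, h2⟩, ?_⟩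
    · unfold aff
      fun_prop
    · rintro _ ⟨u, hu, rfl⟩ v hv
      obtain ⟨v', rfl⟩ := aff_surj ha0 β v
      have hv' : v' = (1 + I) * (v' / (1 + I)) := by
        rw [mul_div_cancel₀ _ one_I_ne]
      rw [hv'] at hv ⊢
      rw [mem_ball, dist_aff ha0, dist_rot] at hv
      have h5 : dist (v' / (1 + I)) u < c₀ := by
        have h6 : 0 ≤ dist (v' / (1 + I)) u := dist_nonneg
        have h7 : dist (v' / (1 + I)) u ≤ a * (‖(1 + I : ℂ)‖ * dist (v' / (1 + I)) u) := by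
          calc dist (v' / (1 + I)) u ≤ ‖(1 + I : ℂ)‖ * dist (v' / (1 + I)) u :=
                le_mul_of_one_le_left h6 n1
            _ ≤ _ := le_mul_of_one_le_left (by positivity) ha
        linarith
      obtain ⟨z', hz', h8⟩ := hC4 u hu (mem_ball.2 h5)
      exact ⟨z', hz', by rw [← h8]⟩

end

/-! ### The position -/

theorem ex_int {ℓ : ℝ} (hℓ : 0 < ℓ) (A : ℝ) : ∃ e : ℤ, ℓ * e ≤ A ∧ A < ℓ * (e + 1) := by
  refine ⟨⌊A / ℓ⌋, ?_, ?_⟩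
  · have := Int.floor_le (A / ℓ)
    rw [le_div_iff₀ hℓ] at this
    linarith
  · have := Int.lt_floor_add_one (A / ℓ)
    rw [div_lt_iff₀ hℓ] at this
    linarith

/-- The foot of the position. -/
noncomputable def vpos (hor pos : Bool) (d δ a : ℝ) (K m : ℤ) (w₁ : ℂ) : ℤ × ℤ :=
  if hor then (⌊(w₁.re - (CutP.mk hor pos 0 0 0).sg * (d / (4 * a))) / δ⌋, ⌊w₁.im / δ⌋ + 2 * K)
  else (⌊w₁.re / δ⌋ - 8 * m * K - 2 * K,
    ⌊(w₁.im - (CutP.mk hor pos 0 0 0).sg * (d / (4 * a))) / δ⌋)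

theorem aff_pt_re (a δ : ℝ) (v : ℤ × ℤ) (w₁ : ℂ) :
    (aff a ((δ : ℂ) * pt v) w₁).re = a * (w₁.re - δ * v.1) := by
  simp [aff, pt]

theorem aff_pt_im (a δ : ℝ) (v : ℤ × ℤ) (w₁ : ℂ) :
    (aff a ((δ : ℂ) * pt v) w₁).im = a * (w₁.im - δ * v.2) := by
  simp [aff, pt]

theorem floor_b {δ : ℝ} (hδ : 0 < δ) (x : ℝ) : 0 ≤ x - δ * ⌊x / δ⌋ ∧ x - δ * ⌊x / δ⌋ < δ := by
  have h1 := Int.floor_le (x / δ)
  have h2 := Int.lt_floor_add_one (x / δ)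
  rw [le_div_iff₀ hδ] at h1
  rw [div_lt_iff₀ hδ] at h2
  constructor <;> linarith

theorem sg_mk_or (hor pos : Bool) :
    ((CutP.mk hor pos 0 0 0).sg : ℝ) = 1 ∨ ((CutP.mk hor pos 0 0 0).sg : ℝ) = -1 := by
  cases pos
  · right; simp [CutP.sg]
  · left; simp [CutP.sg]

theorem row_of {pos : Bool} {d δ a ℓ : ℝ} {K m : ℤ} {w₁ : ℂ} (hδ : 0 < δ) (ha : 0 < a)
    (hℓ : 4 * K * (a * δ) = ℓ) :
    -(ℓ / 2) ≤ (aff a ((δ : ℂ) * pt (vpos true pos d δ a K m w₁)) w₁).im ∧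
    (aff a ((δ : ℂ) * pt (vpos true pos d δ a K m w₁)) w₁).im ≤ -(ℓ / 2) + a * δ := by
  rw [aff_pt_im]
  simp only [vpos, if_true]
  obtain ⟨h1, h2⟩ := floor_b hδ w₁.im
  have e : a * (w₁.im - δ * ((⌊w₁.im / δ⌋ + 2 * K : ℤ) : ℝ)) =
      -(ℓ / 2) + a * (w₁.im - δ * ⌊w₁.im / δ⌋) := by
    rw [← hℓ]; push_cast; ring
  rw [e]
  have h3 : 0 ≤ a * (w₁.im - δ * ⌊w₁.im / δ⌋) := by positivity
  have h4 : a * (w₁.im - δ * ⌊w₁.im / δ⌋) ≤ a * δ := by gcongr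
  constructor <;> linarith

theorem col_of {pos : Bool} {d δ a ℓ : ℝ} {K m : ℤ} {w₁ : ℂ} (hδ : 0 < δ) (ha : 0 < a)
    (hℓ : 4 * K * (a * δ) = ℓ) :
    ℓ * (2 * m + 1 / 2) ≤ (aff a ((δ : ℂ) * pt (vpos false pos d δ a K m w₁)) w₁).re ∧
    (aff a ((δ : ℂ) * pt (vpos false pos d δ a K m w₁)) w₁).re ≤
      ℓ * (2 * m + 1 / 2) + a * δ := by
  rw [aff_pt_re]
  simp only [vpos, Bool.false_eq_true, if_false]
  obtain ⟨h1, h2⟩ := floor_b hδ w₁.re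
  have e : a * (w₁.re - δ * ((⌊w₁.re / δ⌋ - 8 * m * K - 2 * K : ℤ) : ℝ)) =
      ℓ * (2 * m + 1 / 2) + a * (w₁.re - δ * ⌊w₁.re / δ⌋) := by
    rw [← hℓ]; push_cast; ring
  rw [e]
  have h3 : 0 ≤ a * (w₁.re - δ * ⌊w₁.re / δ⌋) := by positivity
  have h4 : a * (w₁.re - δ * ⌊w₁.re / δ⌋) ≤ a * δ := by gcongr
  constructor <;> linarith

theorem posh_of {pos : Bool} {d δ a ℓ : ℝ} {K m : ℤ} {w₁ : ℂ} (hδ : 0 < δ) (ha : 0 < a)
    (hℓ : 4 * K * (a * δ) = ℓ) :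
    |(aff a ((δ : ℂ) * pt (vpos true pos d δ a K m w₁)) w₁).im + ℓ / 2| ≤ a * δ ∧
    |(CutP.mk true pos 0 0 0).sg * (aff a ((δ : ℂ) * pt (vpos true pos d δ a K m w₁)) w₁).re - d / 4|
      ≤ a * δ := by
  rw [aff_pt_re, aff_pt_im]
  simp only [vpos, if_true]
  constructor
  · obtain ⟨h1, h2⟩ := floor_b hδ w₁.im
    have e : a * (w₁.im - δ * ((⌊w₁.im / δ⌋ + 2 * K : ℤ) : ℝ)) + ℓ / 2 =
        a * (w₁.im - δ * ⌊w₁.im / δ⌋) := by
      rw [← hℓ]; push_cast; ring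
    rw [e, abs_of_nonneg (by positivity)]
    gcongr
  · obtain ⟨h1, h2⟩ := floor_b hδ (w₁.re - (CutP.mk true pos 0 0 0).sg * (d / (4 * a)))
    set f : ℤ := ⌊(w₁.re - (CutP.mk true pos 0 0 0).sg * (d / (4 * a))) / δ⌋ with hf
    have ea : a * (d / (4 * a)) = d / 4 := by field_simp
    rcases sg_mk_or true pos with h | h
    · rw [h] at h1 h2 ⊢
      have e : 1 * (a * (w₁.re - δ * (f : ℝ))) - d / 4 =
          a * (w₁.re - 1 * (d / (4 * a)) - δ * f) := by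
        rw [← ea]; ring
      rw [e, abs_of_nonneg (by positivity)]
      gcongr
    · rw [h] at h1 h2 ⊢
      have e : -1 * (a * (w₁.re - δ * (f : ℝ))) - d / 4 =
          -(a * (w₁.re - -1 * (d / (4 * a)) - δ * f)) := by
        rw [← ea]; ring
      rw [e, abs_neg, abs_of_nonneg (by positivity)]
      gcongr

theorem posv_of {pos : Bool} {d δ a ℓ : ℝ} {K m : ℤ} {w₁ : ℂ} (hδ : 0 < δ) (ha : 0 < a)
    (hℓ : 4 * K * (a * δ) = ℓ) :
    |(aff a ((δ : ℂ) * pt (vpos false pos d δ a K m w₁)) w₁).re - ℓ * (2 * m + 1 / 2)| ≤ a * δ ∧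
    |(CutP.mk false pos 0 0 0).sg * (aff a ((δ : ℂ) * pt (vpos false pos d δ a K m w₁)) w₁).im -
      d / 4| ≤ a * δ := by
  rw [aff_pt_re, aff_pt_im]
  simp only [vpos, Bool.false_eq_true, if_false]
  constructor
  · obtain ⟨h1, h2⟩ := floor_b hδ w₁.re
    have e : a * (w₁.re - δ * ((⌊w₁.re / δ⌋ - 8 * m * K - 2 * K : ℤ) : ℝ)) -
        ℓ * (2 * m + 1 / 2) = a * (w₁.re - δ * ⌊w₁.re / δ⌋) := by
      rw [← hℓ]; push_cast; ring
    rw [e, abs_of_nonneg (by positivity)]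
    gcongr
  · obtain ⟨h1, h2⟩ := floor_b hδ (w₁.im - (CutP.mk false pos 0 0 0).sg * (d / (4 * a)))
    set f : ℤ := ⌊(w₁.im - (CutP.mk false pos 0 0 0).sg * (d / (4 * a))) / δ⌋ with hf
    have ea : a * (d / (4 * a)) = d / 4 := by field_simp
    rcases sg_mk_or false pos with h | h
    · rw [h] at h1 h2 ⊢
      have e : 1 * (a * (w₁.im - δ * (f : ℝ))) - d / 4 =
          a * (w₁.im - 1 * (d / (4 * a)) - δ * f) := by
        rw [← ea]; ring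
      rw [e, abs_of_nonneg (by positivity)]
      gcongr
    · rw [h] at h1 h2 ⊢
      have e : -1 * (a * (w₁.im - δ * (f : ℝ))) - d / 4 =
          -(a * (w₁.im - -1 * (d / (4 * a)) - δ * f)) := by
        rw [← ea]; ring
      rw [e, abs_neg, abs_of_nonneg (by positivity)]
      gcongr

/-- The index of the last brick. -/
theorem ex_e (hor pos : Bool) {ℓ : ℝ} (hℓ : 0 < ℓ) (x y : ℝ) : ∃ e : ℤ,
    (hor = true → ℓ * (2 * e + 1) ≤ x ∧ x < ℓ * (2 * e + 3)) ∧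
    (hor = false → pos = true → ℓ * (e + 1) ≤ y ∧ y < ℓ * (e + 2)) ∧
    (hor = false → pos = false → ℓ * e ≤ y ∧ y < ℓ * (e + 1)) := by
  cases hor
  · cases pos
    · obtain ⟨e, h1, h2⟩ := ex_int hℓ y
      exact ⟨e, by simp, by simp, fun _ _ => ⟨h1, h2⟩⟩
    · obtain ⟨e, h1, h2⟩ := ex_int hℓ (y - ℓ)
      exact ⟨e, by simp, fun _ _ => ⟨by linarith, by linarith⟩, by simp⟩
  · obtain ⟨e, h1, h2⟩ := ex_int (ℓ := 2 * ℓ) (by linarith) (x - ℓ)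
    exact ⟨e, fun _ => ⟨by linarith, by linarith⟩, by simp, by simp⟩

/-- The scale. -/
theorem scale_of {δ ℓ : ℝ} (hδ : 0 < δ) (h : 64 * δ ≤ ℓ) :
    15 ≤ ⌊ℓ / (4 * δ)⌋₊ ∧ 1 ≤ ℓ / (((4 * ⌊ℓ / (4 * δ)⌋₊ : ℕ) : ℝ) * δ) ∧
    ℓ / (((4 * ⌊ℓ / (4 * δ)⌋₊ : ℕ) : ℝ) * δ) ≤ 2 ∧
    4 * (⌊ℓ / (4 * δ)⌋₊ : ℝ) * (ℓ / (((4 * ⌊ℓ / (4 * δ)⌋₊ : ℕ) : ℝ) * δ) * δ) = ℓ := by
  have h0 : 0 ≤ ℓ / (4 * δ) := by
    have : 0 < ℓ := by linarith
    positivity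
  have h1 := Nat.floor_le h0
  have h2 := Nat.lt_floor_add_one (ℓ / (4 * δ))
  have h3 : 15 ≤ ⌊ℓ / (4 * δ)⌋₊ := by
    apply Nat.le_floor
    rw [le_div_iff₀ (by positivity)]
    push_cast
    linarith
  set K := ⌊ℓ / (4 * δ)⌋₊ with hK
  have hKr : (15 : ℝ) ≤ K := by exact_mod_cast h3
  rw [le_div_iff₀ (by positivity)] at h1
  rw [div_lt_iff₀ (by positivity)] at h2
  have hKd : 0 < (K : ℝ) * δ := by positivity
  refine ⟨h3, ?_, ?_, ?_⟩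
  · rw [le_div_iff₀ (by positivity)]
    push_cast
    linarith
  · rw [div_le_iff₀ (by positivity)]
    push_cast
    nlinarith
  · push_cast
    field_simp

/-- The conditions at the chosen position. -/
theorem cutC_of {hor pos : Bool} {d δ a ℓ ϱ μ τ₀ : ℝ} {K : ℕ} {w₁ : ℂ} {m q e : ℤ} {D : Set ℂ}
    (hδ : 0 < δ) (ha : 0 < a) (hKa : 4 * ((K : ℤ) : ℝ) * (a * δ) = ℓ) (hℓ : 0 < ℓ) (hϱ : 0 < ϱ)
    (hμ : a * δ ≤ μ) (hμℓ : 8 * μ ≤ ℓ) (hτ : 4 * ϱ + 20 * ℓ ≤ τ₀) (hdτ : 32 * (τ₀ + ϱ + ℓ) ≤ d)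
    (hq : 32 ≤ q) (hqd : 64 * (ℓ * ((q : ℝ) + 8)) ≤ d) (hm1 : q + 3 ≤ 2 * m) (hm2 : 2 * m ≤ q + 4)
    (he1 : hor = true → ℓ * (2 * (e : ℝ) + 1) ≤ (CutP.mk hor pos 0 0 0).sg *
        (aff a ((δ : ℂ) * pt (vpos hor pos d δ a K m w₁)) w₁).re - τ₀ - ϱ ∧
      (CutP.mk hor pos 0 0 0).sg * (aff a ((δ : ℂ) * pt (vpos hor pos d δ a K m w₁)) w₁).re -
        τ₀ - ϱ < ℓ * (2 * e + 3))
    (he2 : hor = false → pos = true → ℓ * ((e : ℝ) + 1) ≤ (CutP.mk hor pos 0 0 0).sg *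
        (aff a ((δ : ℂ) * pt (vpos hor pos d δ a K m w₁)) w₁).im - τ₀ - ϱ ∧
      (CutP.mk hor pos 0 0 0).sg * (aff a ((δ : ℂ) * pt (vpos hor pos d δ a K m w₁)) w₁).im -
        τ₀ - ϱ < ℓ * (e + 2))
    (he3 : hor = false → pos = false → ℓ * (e : ℝ) ≤ (CutP.mk hor pos 0 0 0).sg *
        (aff a ((δ : ℂ) * pt (vpos hor pos d δ a K m w₁)) w₁).im - τ₀ - ϱ ∧
      (CutP.mk hor pos 0 0 0).sg * (aff a ((δ : ℂ) * pt (vpos hor pos d δ a K m w₁)) w₁).im -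
        τ₀ - ϱ < ℓ * (e + 1))
    (hout : aff a ((δ : ℂ) * pt (vpos hor pos d δ a K m w₁)) w₁ ∉ D)
    (hclr : ∀ τ : ℝ, 0 < τ → τ ≤ d / 2 →
        ball (aff a ((δ : ℂ) * pt (vpos hor pos d δ a K m w₁)) w₁ -
          (τ : ℂ) * (CutP.mk hor pos m q e).dv) (τ / 2) ⊆ D) :
    CutC ℓ ϱ μ d τ₀ (CutP.mk hor pos m q e) D
      (aff a ((δ : ℂ) * pt (vpos hor pos d δ a K m w₁)) w₁) := by
  have hm2r : (2 * (m : ℝ)) ≤ q + 4 := by exact_mod_cast hm2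
  refine ⟨hℓ, hϱ, (mul_pos ha hδ).le.trans hμ, hμℓ, hτ, hdτ, hq, ?_, hm1, ?_, ?_, ?_, ?_, ?_, ?_,
    hout, hclr⟩
  · refine le_trans ?_ hqd
    gcongr
    norm_num
  · refine le_trans ?_ hqd
    have : ℓ * (2 * (m : ℝ) + 3) ≤ ℓ * (q + 8) :=
      mul_le_mul_of_nonneg_left (by linarith) hℓ.le
    simp only
    linarith
  · intro h
    simp only at h
    subst h
    obtain ⟨h1, h2⟩ := posh_of (pos := pos) (d := d) (m := m) (w₁ := w₁) hδ ha hKa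
    exact ⟨h1.trans hμ, h2.trans hμ⟩
  · intro h
    simp only at h
    subst h
    obtain ⟨h1, h2⟩ := posv_of (pos := pos) (d := d) (m := m) (w₁ := w₁) hδ ha hKa
    exact ⟨h1.trans hμ, h2.trans hμ⟩
  · intro h
    exact he1 h
  · intro h1 h2
    have h3 := he2 h1 h2
    simp only at h1 h2
    subst h1 h2
    have : ((CutP.mk false true 0 0 0).sg : ℝ) = 1 := by simp [CutP.sg]
    rw [this] at h3
    constructor
    · linarith [h3.1]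
    · linarith [h3.2]
  · intro h1 h2
    have h3 := he3 h1 h2
    simp only at h1 h2
    subst h1 h2
    have : ((CutP.mk false false 0 0 0).sg : ℝ) = -1 := by simp [CutP.sg]
    rw [this] at h3
    constructor
    · linarith [h3.1]
    · linarith [h3.2]

end Vale.Agent.P167.CL.MP

namespace Vale.Agent.P167.CL

open Vale.Agent.P153.R2
open Vale.Agent.P153.R2.L1 (HH)
open Vale.Agent.P164 (loewnerDomain)
open Vale.Agent.P167.E6 Vale.Agent.P167.E2 Vale.Agent.P167.H411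
open Vale.Agent.P167.H756
open Vale.Agent.P167.CL.MP

/-- **[CutM]** -/
theorem cutM : S_cutM := by
  intro Φ ψ δ N k p S ψn H X κ hX hκ
  obtain ⟨d₁, hd₁, hpick⟩ := pick Φ ψ δ N k p S ψn H X κ hX hκ
  set d : ℝ := min d₁ κ with hd
  have hd0 : 0 < d := by positivity
  have hdd : d ≤ d₁ := min_le_left _ _
  refine ⟨d, hd0, min_le_right _ _, ?_⟩
  intro τ₀ ϱ ℓ q hϱ hℓ hτ hdτ hq hqd
  have hδ0 : ∀ n, 0 < δ n := fun n => (H.appr.1 n).1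
  have hδ : ∀ᶠ n in atTop, 64 * δ n ≤ ℓ := by
    have h1 : Tendsto (fun n => 64 * δ n) atTop (𝓝 (64 * 0)) := H.appr.2.1.const_mul 64
    rw [mul_zero] at h1
    exact (h1.eventually (gt_mem_nhds hℓ)).mono fun n hn => le_of_lt hn
  filter_upwards [hpick, hδ, good_ev H.appr] with n hpick hδn hgood
  obtain ⟨w₁, hor, pos, hout, hclr, hnear⟩ := hpick
  obtain ⟨hK, ha1, ha2, hKa⟩ := scale_of (hδ0 n) hδn
  set K := ⌊ℓ / (4 * δ n)⌋₊ with hKdef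
  set a : ℝ := ℓ / (((4 * K : ℕ) : ℝ) * δ n) with ha
  have ha0 : 0 < a := by linarith
  have hKr : (15 : ℝ) ≤ K := by exact_mod_cast hK
  have hKa' : 4 * ((K : ℤ) : ℝ) * (a * δ n) = ℓ := by
    rw [← hKa]
    push_cast
    ring
  have hNa : ℓ / ((4 * K : ℕ) : ℝ) = a * δ n := by
    rw [div_eq_iff (by positivity), ← hKa]
    push_cast
    ring
  have haδ0 : 0 < a * δ n := mul_pos ha0 (hδ0 n)
  have hD : PickD X κ d (ψn n) (Om (δ n) (S n)) hor pos w₁ :=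
    { img := (H.isU n hgood).img
      out := hout
      clr := fun τ h0 h1 => hclr τ h0 (h1.trans (by linarith))
      near := fun z hz h => hnear z hz (h.trans (by linarith)) }
  set m : ℤ := (q + 4) / 2 with hm
  have hm1 : q + 3 ≤ 2 * m := by omega
  have hm2 : 2 * m ≤ q + 4 := by omega
  obtain ⟨e, he1, he2, he3⟩ := ex_e hor pos hℓ
    ((CutP.mk hor pos 0 0 0).sg *
      (aff a ((δ n : ℂ) * pt (vpos hor pos d (δ n) a K m w₁)) w₁).re - τ₀ - ϱ)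
    ((CutP.mk hor pos 0 0 0).sg *
      (aff a ((δ n : ℂ) * pt (vpos hor pos d (δ n) a K m w₁)) w₁).im - τ₀ - ϱ)
  have h2N : 2 * ℓ / ((4 * K : ℕ) : ℝ) = 2 * (a * δ n) := by
    rw [← hNa]; ring
  refine ⟨vpos hor pos d (δ n) a K m w₁, CutP.mk hor pos m q e,
    aff a ((δ n : ℂ) * pt (vpos hor pos d (δ n) a K m w₁)) w₁, rfl, ?_⟩
  have hPsi : Psi (δ n) ℓ (4 * K) (vpos hor pos d (δ n) a K m w₁) (ψn n) =
      fun z => aff a ((δ n : ℂ) * pt (vpos hor pos d (δ n) a K m w₁)) ((1 + I) * ψn n z) := by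
    funext z
    rfl
  rw [hPsi]
  refine hD.cutM ha1 _ le_rfl ?_ ?_ ?_
  · intro D h1 h2
    rw [h2N]
    exact cutC_of (hδ0 n) ha0 hKa' hℓ hϱ (by linarith) (by nlinarith) hτ hdτ hq hqd hm1 hm2 he1 he2
      he3 h1 h2
  · intro h
    subst h
    rw [hNa]
    exact row_of (hδ0 n) ha0 hKa'
  · intro h
    subst h
    rw [hNa]
    exact col_of (hδ0 n) ha0 hKa'

/-- **[CutN]** -/
theorem cutN : S_cutN := by
  intro Φ ψ δ N k p S ψn H T R X Y κ hT hR hX hRX hTX hY hRY hTY hκ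
  obtain ⟨d₁, hd₁, hpick⟩ := pick Φ ψ δ N k p S ψn H X (min κ (X / 4)) hX (by positivity)
  set d : ℝ := min d₁ κ with hd
  have hd0 : 0 < d := by positivity
  have hdd : d ≤ d₁ := min_le_left _ _
  obtain ⟨c₀, hc₀, hpath⟩ := s_path Φ ψ δ N k p S ψn H T R X Y (d / 32) hT hR hX (by linarith)
    (by nlinarith) hY hRY hTY (by positivity)
  refine ⟨d, c₀, hd0, min_le_right _ _, hc₀, ?_⟩
  intro τ₀ ϱ ℓ q hϱ hℓ hτ hdτ hq hqd
  have hδ0 : ∀ n, 0 < δ n := fun n => (H.appr.1 n).1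
  have hδ : ∀ᶠ n in atTop, 64 * δ n ≤ ℓ := by
    have h1 : Tendsto (fun n => 64 * δ n) atTop (𝓝 (64 * 0)) := H.appr.2.1.const_mul 64
    rw [mul_zero] at h1
    exact (h1.eventually (gt_mem_nhds hℓ)).mono fun n hn => le_of_lt hn
  filter_upwards [hpick, hpath, hδ, good_ev H.appr] with n hpick hpath hδn hgood
  obtain ⟨w₁, hor, pos, hout, hclr, hnear⟩ := hpick
  obtain ⟨hK, ha1, ha2, hKa⟩ := scale_of (hδ0 n) hδn
  set K := ⌊ℓ / (4 * δ n)⌋₊ with hKdef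
  set a : ℝ := ℓ / (((4 * K : ℕ) : ℝ) * δ n) with ha
  have ha0 : 0 < a := by linarith
  have hKr : (15 : ℝ) ≤ K := by exact_mod_cast hK
  have hKa' : 4 * ((K : ℤ) : ℝ) * (a * δ n) = ℓ := by
    rw [← hKa]
    push_cast
    ring
  have haδ0 : 0 < a * δ n := mul_pos ha0 (hδ0 n)
  have hD : PickD X (min κ (X / 4)) d (ψn n) (Om (δ n) (S n)) hor pos w₁ :=
    { img := (H.isU n hgood).img
      out := hout
      clr := fun τ h0 h1 => hclr τ h0 (h1.trans (by linarith))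
      near := fun z hz h => hnear z hz (h.trans (by linarith)) }
  set m : ℤ := (q + 4) / 2 with hm
  have hm1 : q + 3 ≤ 2 * m := by omega
  have hm2 : 2 * m ≤ q + 4 := by omega
  obtain ⟨e, he1, he2, he3⟩ := ex_e hor pos hℓ
    ((CutP.mk hor pos 0 0 0).sg *
      (aff a ((δ n : ℂ) * pt (vpos hor pos d (δ n) a K m w₁)) w₁).re - τ₀ - ϱ)
    ((CutP.mk hor pos 0 0 0).sg *
      (aff a ((δ n : ℂ) * pt (vpos hor pos d (δ n) a K m w₁)) w₁).im - τ₀ - ϱ)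
  refine ⟨vpos hor pos d (δ n) a K m w₁, CutP.mk hor pos m q e,
    aff a ((δ n : ℂ) * pt (vpos hor pos d (δ n) a K m w₁)) w₁, a * δ n, rfl, ?_⟩
  have hPsi : Psi (δ n) ℓ (4 * K) (vpos hor pos d (δ n) a K m w₁) (ψn n) =
      fun z => aff a ((δ n : ℂ) * pt (vpos hor pos d (δ n) a K m w₁)) ((1 + I) * ψn n z) := by
    funext z
    rfl
  rw [hPsi]
  refine hD.cutN hpath hX hRX hTX hd0 (min_le_right _ _) (by linarith) ha1 ha2 _
    (min_le_left _ _) ?_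
  intro D h1 h2
  exact cutC_of (hδ0 n) ha0 hKa' hℓ hϱ le_rfl (by nlinarith) hτ hdτ hq hqd hm1 hm2 he1 he2 he3 h1 h2

end Vale.Agent.P167.CL
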