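import Vale.Agent.P167.CL.Sh3
import Vale.Agent.P167.CL.Enl
import Vale.Agent.P167.H531.Hcmp

/-!
# P167, block CLOSE [SH]: marks of the polygons, and the arc from the base point to the tip

* `exists_mk` : the marked polygon `Mk` from the flatness at three vertices;
* `arc_agree` : two polygons with a common vertex coincide as long as they do not touch a face which is
  enclosed by only one of them;
* `qE` : the enlarged polygon, started at the base site, moved by `v₀`; `qE_poly`, `qE_encl`;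
* `larc_iff` : the arc `larc` of the shape of the inner polygon is the arc `arcM` of the outer one.
-/

set_option autoImplicit false

open Set Topology Metric Filter Bornology

namespace Vale.Agent.P167.CL

open Vale.Agent.P167.E6

/-! ### The marks -/

theorem dist_ne {S : Finset (ℤ × ℤ)} {m : ℕ} {p : ZMod m → ℤ × ℤ} (hp : IsPolygon p)
    (hS : Encloses p S) {v : ℤ × ℤ} (hF : BR.Flt S v 1) :
    ∃ i, p i = v ∧ p (i + 1) = v + (1, 0) := by
  have h1 : face v 0 ∈ S := by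
    refine (hF _ ?_ ?_ ?_ ?_).2 ?_ <;> simp [face]
  have h2 : face v ((0 : Fin 4) - 1) ∉ S := by
    intro hc
    have : face v ((0 : Fin 4) - 1) = v + (0, -1) := rfl
    rw [this] at hc
    have := (hF (v + (0, -1)) (by simp) (by simp) (by simp) (by simp)).1 hc
    simp at this
  exact (hS v 0).2 ⟨h1, h2⟩

/-- **The marked polygon.** -/
theorem exists_mk {ρ ℓ : ℝ} (hρ : 0 < ρ) (hℓ : 0 < ℓ) {m : ℕ} {p : ZMod m → ℤ × ℤ}
    {S : Finset (ℤ × ℤ)} (hp : IsPolygon p) (hS : Encloses p S) {vp va : ℤ × ℤ}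
    (hFp : BR.Flt S vp 1) (hFa : BR.Flt S va 1) (hF : BR.Flt S (0, 0) ⌈2 * ρ / ℓ⌉)
    (far_a : ⌈2 * ρ / ℓ⌉ ≤ |va.1| ∨ ⌈2 * ρ / ℓ⌉ ≤ |va.2|)
    (far_p : ⌈2 * ρ / ℓ⌉ + 1 ≤ |vp.1| ∨ ⌈2 * ρ / ℓ⌉ ≤ |vp.2|) (h0 : va ≠ vp)
    (h1 : va ≠ vp + (1, 0)) :
    ∃ ip ia ib, Mk ρ ℓ p S ip ia ib ∧ p ip = vp ∧ p ia = va := by
  have hr := Mk.rpos hρ hℓ
  obtain ⟨ip, hip, hip1⟩ := dist_ne hp hS hFp
  obtain ⟨ia, hia, -⟩ := dist_ne hp hS hFa
  have hF1 : BR.Flt S (0, 0) 1 := fun v g1 g2 g3 g4 =>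
    hF v (by simp only at g1 ⊢; omega) (by simp only at g2 ⊢; omega) (by simp only at g3 ⊢; omega)
      (by simp only at g4 ⊢; omega)
  obtain ⟨ib, hib, -⟩ := dist_ne hp hS hF1
  refine ⟨ip, ia, ib, ⟨hp, hS, by rw [hip1, hip], hib, by rw [hia]; exact hFa, hF,
    by rw [hia]; exact far_a, by rw [hip]; exact far_p, ?_, ?_⟩, hip, hia⟩
  · rintro rfl
    exact h0 (hia.symm.trans hip)
  · rintro rfl
    exact h1 (hia.symm.trans hip1)

/-! ### Agreement of the arcs -/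

theorem arc_agree {m m' : ℕ} {p : ZMod m → ℤ × ℤ} {p' : ZMod m' → ℤ × ℤ} {S S' : Finset (ℤ × ℤ)}
    (hp : IsPolygon p) (hS : Encloses p S) (hp' : IsPolygon p') (hS' : Encloses p' S')
    (h0 : p 0 = p' 0) {k : ℕ}
    (hf : ∀ i : ℕ, i < k → ∀ r : Fin 4, face (p i) r ∈ S ↔ face (p i) r ∈ S') :
    ∀ i : ℕ, i ≤ k → p i = p' i := by
  intro i
  induction i with
  | zero =>
    intro _
    simpa using h0
  | succ i ih =>
    intro hi
    have h1 := ih (by omega)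
    obtain ⟨r, hr⟩ := hp.2.2 (i : ZMod m)
    obtain ⟨h2, h3⟩ := (hS (p i) r).1 ⟨_, rfl, hr⟩
    rw [hf i (by omega)] at h2 h3
    obtain ⟨j, hj1, hj2⟩ := (hS' (p i) r).2 ⟨h2, h3⟩
    rw [h1] at hj1
    have hj := hp'.2.1 hj1
    rw [hj] at hj2
    push_cast
    rw [hr, hj2]

/-- The index of the second mark is smaller than the length of the second polygon. -/
theorem agree_lt {m m' : ℕ} {p : ZMod m → ℤ × ℤ} {p' : ZMod m' → ℤ × ℤ} (hp : IsPolygon p)
    (hp' : IsPolygon p') {k : ℕ} (hk : k < m) (h : ∀ i : ℕ, i ≤ k → p i = p' i) : k < m' := by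
  by_contra hlt
  push Not at hlt
  have h1 := h m' hlt
  have h2 := h 0 (Nat.zero_le _)
  rw [ZMod.natCast_self] at h1
  rw [Nat.cast_zero, Nat.cast_zero] at h2
  rw [← h2] at h1
  have h3 : ((m' : ℕ) : ZMod m) = 0 := hp.2.1 h1
  rw [ZMod.natCast_eq_zero_iff] at h3
  have h4 := hp'.1
  have := Nat.le_of_dvd (by omega) h3
  omega

/-! ### Translations -/

theorem isPolygon_add {m : ℕ} {p : ZMod m → ℤ × ℤ} (hp : IsPolygon p) (v : ℤ × ℤ) :
    IsPolygon (fun i => p i + v) := by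
  refine ⟨hp.1, fun i j h => hp.2.1 (add_right_cancel h), fun i => ?_⟩
  obtain ⟨r, hr⟩ := hp.2.2 i
  refine ⟨r, ?_⟩
  show p (i + 1) + v = p i + v + dir r
  rw [hr]; ring

theorem face_add (v w : ℤ × ℤ) (r : Fin 4) : face (v + w) r = face v r + w := by
  unfold face; ring

theorem encloses_add {m : ℕ} {p : ZMod m → ℤ × ℤ} {S : Finset (ℤ × ℤ)} (hS : Encloses p S)
    (w : ℤ × ℤ) : Encloses (fun i => p i + w) (S.image (· + w)) := by
  intro v r
  have e : ∀ r : Fin 4, face v r ∈ S.image (· + w) ↔ face (v - w) r ∈ S := by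
    intro r
    rw [Finset.mem_image]
    constructor
    · rintro ⟨f, hf, h⟩
      have h2 : face v r = face (v - w) r + w := by rw [← face_add, sub_add_cancel]
      rw [h2] at h
      rw [← add_right_cancel h]
      exact hf
    · intro h
      exact ⟨_, h, by rw [← face_add, sub_add_cancel]⟩
  rw [e, e, ← hS (v - w) r]
  constructor
  · rintro ⟨i, h1, h2⟩
    exact ⟨i, eq_sub_of_add_eq h1, by rw [← sub_eq_iff_eq_add.2 h2.symm]; ring⟩
  · rintro ⟨i, h1, h2⟩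
    refine ⟨i, ?_, ?_⟩
    · show p i + w = v
      rw [h1]; ring
    · show p (i + 1) + w = v + dir r
      rw [h2]; ring

/-! ### The enlarged polygon -/

section qE

variable {m : ℕ} (p : ZMod m → ℤ × ℤ) (ip : ZMod m) (N : ℕ) (v₀ : ℤ × ℤ)

/-- The `N`-fold enlargement of the polygon `p`, started at the base site (the midpoint of the side
from `p ip` to `p (ip + 1)`), moved by `v₀`. -/
def qE (x : ZMod (N * m)) : ℤ × ℤ := re (fun i => p (i + ip)) N (N / 2) x + v₀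

/-- The squares of the enlargement. -/
noncomputable def sE (S : Finset (ℤ × ℤ)) (N : ℕ) (v₀ : ℤ × ℤ) : Finset (ℤ × ℤ) :=
  (CA.enl S N).image (· + v₀)

variable {p ip N v₀}

theorem qE_nat (hN : 0 < N) (t : ℕ) : qE p ip N v₀ (t : ZMod (N * m)) =
    pe (fun i => p (i + ip)) N (t + N / 2) + v₀ := by
  rw [qE, re_nat hN]

theorem qE_poly (hp : IsPolygon p) (hN : 0 < N) : IsPolygon (qE p ip N v₀) :=
  isPolygon_add (re_poly (isPolygon_shift hp ip) hN (N / 2)) v₀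

theorem qE_encl {S : Finset (ℤ × ℤ)} (hp : IsPolygon p) (hS : Encloses p S) (hN : 0 < N) :
    Encloses (qE p ip N v₀) (sE S N v₀) :=
  encloses_add (re_encl (isPolygon_shift hp ip) (encloses_shift hS ip) hN (N / 2)) v₀

/-- The squares of the shape. -/
theorem sq_mkShp {S : Finset (ℤ × ℤ)} {ia ib : ZMod m} (hN : 0 < N) :
    sq N v₀ (mkShp p S ip ia ib) = sE S N v₀ := sq_eq hN v₀

end qE

/-- **The arc from the base site to the tip.** `p` is the polygon of the shape, `p'` another polygon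
which coincides with it on the arc. -/
theorem larc_iff {m m' : ℕ} {p : ZMod m → ℤ × ℤ} {p' : ZMod m' → ℤ × ℤ} {S : Finset (ℤ × ℤ)}
    {ip ia ib : ZMod m} {ip' : ZMod m'} {N : ℕ} (hN : 0 < N) {v₀ : ℤ × ℤ}
    (hk : 0 < (ia - ip).val)
    (h : ∀ i : ℕ, i ≤ (ia - ip).val → p (i + ip) = p' (i + ip')) (z : ℤ × ℤ) :
    z ∈ larc N v₀ (mkShp p S ip ia ib) ↔
      ∃ i : ℕ, i ≤ N * (ia - ip).val - N / 2 ∧ qE p' ip' N v₀ (i : ZMod (N * m')) = z := by
  have hNk : N / 2 ≤ N * (ia - ip).val :=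
    (Nat.div_le_self _ _).trans (Nat.le_mul_of_pos_right _ hk)
  -- the enlarged polygons coincide
  have key : ∀ t : ℕ, t ≤ N * (ia - ip).val →
      pe (fun i => p (i + ip)) N t = pe (fun i => p' (i + ip')) N t := by
    intro t ht
    rcases ht.eq_or_lt with rfl | hlt
    · rw [pe_mul hN, pe_mul hN]
      show (N : ℤ) • p (((ia - ip).val : ZMod m) + ip) =
        (N : ℤ) • p' (((ia - ip).val : ZMod m') + ip')
      rw [h _ le_rfl]
    · have h1 : t / N < (ia - ip).val := Nat.div_lt_of_lt_mul hlt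
      have h2 := h (t / N) h1.le
      have h3 := h (t / N + 1) h1
      rw [Nat.cast_succ, Nat.cast_succ] at h3
      show (N : ℤ) • p (((t / N : ℕ) : ZMod m) + ip) + ((t % N : ℕ) : ℤ) •
          (p (((t / N : ℕ) : ZMod m) + 1 + ip) - p (((t / N : ℕ) : ZMod m) + ip)) =
        (N : ℤ) • p' (((t / N : ℕ) : ZMod m') + ip') + ((t % N : ℕ) : ℤ) •
          (p' (((t / N : ℕ) : ZMod m') + 1 + ip') - p' (((t / N : ℕ) : ZMod m') + ip'))
      rw [h2, h3]
  have hen : ∀ x : ℕ, en N v₀ (mkShp p S ip ia ib) (x : ZMod (N * m)) =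
      pe (fun i => p (i + ip)) N x + v₀ := fun x =>
    en_eq (P := mkShp p S ip ia ib) hN v₀ x
  constructor
  · rintro ⟨x, h1, h2, rfl⟩
    refine ⟨x - N / 2, ?_, ?_⟩
    · exact Nat.sub_le_sub_right h2 _
    · rw [qE_nat hN, Nat.sub_add_cancel h1, ← key x h2]
      exact (hen x).symm
  · rintro ⟨i, hi, rfl⟩
    have hi' : i + N / 2 ≤ N * (ia - ip).val := by omega
    refine ⟨i + N / 2, Nat.le_add_left _ _, hi', ?_⟩
    rw [qE_nat hN, ← key _ hi']
    exact hen _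

/-- The form for 531's comparison. -/
theorem larc_arcM {m m' : ℕ} {p : ZMod m → ℤ × ℤ} {p' : ZMod m' → ℤ × ℤ} {S : Finset (ℤ × ℤ)}
    {ip ia ib : ZMod m} {ip' : ZMod m'} {N : ℕ} (hN : 0 < N) {v₀ : ℤ × ℤ}
    (hk : 0 < (ia - ip).val)
    (h : ∀ i : ℕ, i ≤ (ia - ip).val → p (i + ip) = p' (i + ip')) (z : ℤ × ℤ)
    (hz : (z.1 + z.2) % 2 = 0) :
    z ∈ larc N v₀ (mkShp p S ip ia ib) ↔
      z ∈ H531.arcM (qE p' ip' N v₀) 0 0 (N * (ia - ip).val - N / 2) := by
  rw [larc_iff hN hk h]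
  constructor
  · rintro ⟨i, hi, rfl⟩
    exact ⟨i, Nat.zero_le _, hi, rfl, hz⟩
  · rintro ⟨i, -, hi, rfl, -⟩
    exact ⟨i, hi, rfl⟩

end Vale.Agent.P167.CL
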