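import Vale.Agent.P167.CL.Geo1
import Vale.Agent.P167.CL.Sh4
import Vale.Agent.P167.H446.NotchA
import Vale.Agent.P167.H756.Exn
import Vale.Agent.P167.H756.PDs2

/-!
# P167, block CLOSE [ASM]: the stages

`Psi` : the uniformizer in the plane of the faces (rotation by `1 + i`, the vertex `v₀` at `0`, the
faces have the side `ℓ`). `Stg` : the data of one stage (one outcome, one step): the notches, the cut
`B` (which contains the end `g` and the bricks `KB`), the polygon `pE` with the cut (removed set `g`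
only) and the polygon `pP` (removed set `B`). `Stg.Ok` : their properties. The marks are
`H756.xi false = -1` (tip) and `H756.xi true = 1` (target).
-/

set_option autoImplicit false

open MeasureTheory Filter Topology Set Metric
open scoped NNReal ENNReal

namespace Vale.Agent.P167.CL

open Vale.Agent.P153.R2.R1 (mb)
open Vale.Agent.P153.R2.L1 (HH)
open Vale.Agent.P164 (loewnerDomain Zf)
open Vale.Agent.P167.E6 Vale.Agent.P167.E2 Vale.Agent.P167.H411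
open Vale.Agent.P167.H756
open Vale.Agent.P167.H446.Cut (Sys D1 E1)
open Vale.Agent.P167.H450 (sqr reg GF Cmp Bricky obk br)

/-- The uniformizer in the plane of the faces. -/
noncomputable def Psi (δ ℓ : ℝ) (N : ℕ) (v₀ : ℤ × ℤ) (ψ : ℂ → ℂ) (z : ℂ) : ℂ :=
  ((ℓ / (N * δ) : ℝ) : ℂ) * ((1 + Complex.I) * ψ z - δ * pt v₀)

/-- The data of one stage. -/
structure Stg where
  ψ : ℂ → ℂ
  W : ℝ → ℝ
  t : ℝ
  Y : ℝ
  ℓ : ℝ
  ρm : ℝ
  ε : ℝ
  η : ℝ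
  x : Bool → ℝ
  k : Bool → ℤ
  q : Bool → ℝ
  K : Bool → Set ℂ
  C : Bool → Set ℂ
  g : Set ℂ
  B : Set ℂ
  KB : Finset (ℤ × ℤ)
  F₀ : ℤ × ℤ
  mE : ℕ
  pE : ZMod mE → ℤ × ℤ
  SE : Finset (ℤ × ℤ)
  mP : ℕ
  pP : ZMod mP → ℤ × ℤ
  SP : Finset (ℤ × ℤ)

namespace Stg

variable (s : Stg)

/-- The map of the disc. -/
noncomputable def F : ℂ → ℂ := FD s.ψ s.W s.t

/-- The domain. -/
def D : Set ℂ := s.F '' ball 0 1

/-- The base point of the disc. -/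
noncomputable def w₀ : ℂ := mb 1 Complex.I (Zf s.W (s.Y * Complex.I) s.t)

/-- The good faces for `pE`. -/
def GE : Set (ℤ × ℤ) :=
  GF s.ℓ s.ρm (D1 (s.D \ s.g) s.K) (E1 s.ℓ (s.D \ s.g) s.x s.k s.q s.K)

/-- The good faces for `pP`. -/
def GP : Set (ℤ × ℤ) :=
  GF s.ℓ s.ρm (D1 (s.D \ s.B) s.K) (E1 s.ℓ (s.D \ s.g) s.x s.k s.q s.K)

/-- The properties of a stage (constants `T R Rd cd` of the class). -/
structure Ok (T R Rd cd : ℝ) : Prop where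
  conf : HConf Rd cd s.Y s.ψ
  drv : Drv T R s.W s.t
  hρm : 0 < s.ρm
  mesh : 2 * (s.ρm + 4 * s.ℓ) ≤ s.η
  gB : s.g ⊆ s.B
  regB : reg s.ℓ (s.KB : Set (ℤ × ℤ)) ⊆ s.B
  brk : Bricky (s.KB : Set (ℤ × ℤ))
  KG : (s.KB : Set (ℤ × ℤ)) ⊆ s.GE
  offB : ∀ F ∈ s.GE, F ∉ s.KB → Disjoint (obk s.ℓ (br F)) s.B
  sysE : Sys s.F s.w₀ xi s.ε s.η s.ℓ s.x s.k s.q s.K s.C s.g (s.D \ s.g)
  sysP : Sys s.F s.w₀ xi s.ε s.η s.ℓ s.x s.k s.q s.K s.C s.B (s.D \ s.g)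
  base : s.F s.w₀ ∈ sqr s.ℓ s.F₀
  setE : (s.SE : Set (ℤ × ℤ)) = Cmp s.GE s.F₀
  setP : (s.SP : Set (ℤ × ℤ)) = Cmp s.GP s.F₀
  polyE : IsPolygon s.pE
  enclE : Encloses s.pE s.SE
  polyP : IsPolygon s.pP
  enclP : Encloses s.pP s.SP

end Stg

end Vale.Agent.P167.CL
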