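import Vale.Agent.P167.CL.CutDefs
import Vale.Agent.P167.CL.GeoDefs

/-!
# P167, block CUT: the cut of one lattice domain, continuum part (statement)

`CutN` : the data of the cut in the plane of the faces (`ψ` = `Psi ..`), for all Loewner chains of the
class. `S_cutN` : existence for all large `n`.
-/

set_option autoImplicit false

open MeasureTheory Filter Topology Set Metric

namespace Vale.Agent.P167.CL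

open Vale.Agent.P164 (loewnerDomain)
open Vale.Agent.P167.E6 Vale.Agent.P167.E2 Vale.Agent.P167.H411
open Vale.Agent.P167.H756

/-- The cut in the plane of the faces. -/
structure CutN (T R X Y κ d c₀ ℓ ϱ μ τ₀ : ℝ) (ψ : ℂ → ℂ) (c : CutP) (w : ℂ) : Prop where
  cc : ∀ (W : ℝ → ℝ) (t : ℝ), Drv T R W t → CutC ℓ ϱ μ d τ₀ c (ψ '' loewnerDomain W t) w
  near : ∀ z : ℂ, 0 ≤ z.im → dist (ψ z) w ≤ 8 * d → dist z X ≤ κ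
  acc : ∀ (W : ℝ → ℝ) (t : ℝ), Drv T R W t → ∃ C : Set ℂ, IsPreconnected C ∧
    ψ (Y * Complex.I) ∈ C ∧ w - ((d / 4 : ℝ) : ℂ) * c.dv ∈ C ∧
    ∀ u ∈ C, ball u c₀ ⊆ ψ '' loewnerDomain W t

/-- **[CutN]** Existence of the cut for all large `n`. -/
def S_cutN : Prop := ∀ (Φ : (ℝ × ℝ) ≃ₜ (ℝ × ℝ)) (ψ : ℂ → ℂ)
  (δ : ℕ → ℝ) (N k : ℕ → ℕ) (p : ∀ n, ZMod (N n) → ℤ × ℤ) (S : ℕ → Finset (ℤ × ℤ))
  (ψn : ℕ → ℂ → ℂ), Set6 Φ ψ δ N k p S ψn → ∀ T R X Y κ : ℝ, 0 ≤ T → 0 ≤ R → 0 < X → 16 * R ≤ X →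
    1024 * T ≤ X ^ 2 → 0 < Y → 8 * R ≤ Y → 64 * T ≤ Y ^ 2 → 0 < κ →
    ∃ d c₀ : ℝ, 0 < d ∧ d ≤ κ ∧ 0 < c₀ ∧ ∀ (τ₀ ϱ ℓ : ℝ) (q : ℤ), 0 < ϱ → 0 < ℓ →
      4 * ϱ + 20 * ℓ ≤ τ₀ → 32 * (τ₀ + ϱ + ℓ) ≤ d → 32 ≤ q → 64 * (ℓ * (q + 8)) ≤ d →
      ∀ᶠ n in atTop, ∃ (v₀ : ℤ × ℤ) (c : CutP) (w : ℂ) (μ : ℝ), c.q = q ∧
        CutN T R X Y κ d c₀ ℓ ϱ μ τ₀
          (Psi (δ n) ℓ (4 * ⌊ℓ / (4 * δ n)⌋₊) v₀ (ψn n)) c w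

end Vale.Agent.P167.CL
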