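import Vale.Agent.P167.CL.CutI
import Vale.Agent.P167.CL.CutN

/-!
# P167, block CUT: the cut of one lattice domain

`CutM`: the cut at time `0`, in the plane of the faces (`Psi`). `CutLat`: with the lattice part;
everything is independent of the outcome and of the step. Plane of the faces (`Psi`): `b' = 0`,
the square `v` of the lattice is the square of side `ℓ / N` with the lower left corner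
`(ℓ / N) (v - v₀)`. The open path for `u` is `(c.leg N v₀ u).O (L u)`.
-/

set_option autoImplicit false

open MeasureTheory Filter Topology Set Metric

namespace Vale.Agent.P167.CL

open Vale.Agent.P153.R2.L1 (HH)
open Vale.Agent.P167.H531 Vale.Agent.P167.H558
open Vale.Agent.P167.E6 Vale.Agent.P167.E2 Vale.Agent.P167.H411

/-- The position of the open path for the base site `v₀ + u`. -/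
def CutP.leg (c : CutP) (N : ℕ) (v₀ u : ℤ × ℤ) : LegP where
  hor := c.hor
  pos := c.pos
  b := v₀ + u
  H := (N : ℤ) / 2
  X := v₀.1 + 2 * c.m * N + (N : ℤ) / 2

/-- The two shifts. -/
def Uset : Set (ℤ × ℤ) := {u | u = (0, 0) ∨ u = (1, 0)}

/-- The centre of the square `v` in the plane of the faces. -/
noncomputable def fc (ℓ : ℝ) (N : ℕ) (v₀ v : ℤ × ℤ) : ℂ :=
  ⟨ℓ / N * (v.1 - v₀.1 + 1 / 2), ℓ / N * (v.2 - v₀.2 + 1 / 2)⟩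

/-- **The cut at time `0`.** -/
structure CutM (ℓ : ℝ) (N : ℕ) (ψ : ℂ → ℂ) (X κ d ϱ τ₀ : ℝ) (c : CutP) (w : ℂ) : Prop where
  /-- the geometry at time `0` -/
  cut : CutC ℓ ϱ (2 * ℓ / N) d τ₀ c (ψ '' HH) w
  /-- everything at distance at most `8 d` of `w` is near `X` -/
  nearX : ∀ z : ℂ, 0 ≤ z.im → dist (ψ z) w ≤ 8 * d → dist z X ≤ κ
  /-- the point `w` is in the row / the column of the leg -/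
  row : c.hor = true → -(ℓ / 2) ≤ w.im ∧ w.im ≤ -(ℓ / 2) + ℓ / N
  col : c.hor = false → ℓ * (2 * c.m + 1 / 2) ≤ w.re ∧ w.re ≤ ℓ * (2 * c.m + 1 / 2) + ℓ / N

/-- **The cut of one lattice domain.** -/
structure CutLat {n : ℕ} (p : ZMod n → ℤ × ℤ) (k : ℕ) (S : Finset (ℤ × ℤ)) (δ ℓ : ℝ) (N : ℕ)
    (ψ : ℂ → ℂ) (X κ d ϱ τ₀ : ℝ) (v₀ : ℤ × ℤ) (c : CutP) (w : ℂ) (jf L E : ℤ × ℤ → ℕ) : Prop
    extends CutM ℓ N (Psi δ ℓ N v₀ ψ) X κ d ϱ τ₀ c w where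
  hN : 16 ≤ N
  hN2 : 4 ∣ N
  hδ : 0 < δ
  /-- deep squares -/
  deep : ∀ v : ℤ × ℤ, ball (fc ℓ N v₀ v) (6 * (ℓ / N)) ⊆ Psi δ ℓ N v₀ ψ '' HH →
    v ∈ H192.dq p k S ∧ ∀ m, ¬ Crn v (H192.ro (p m))
  /-- the open path is in the domain, its last square has the corner `p (jf u)`, all other squares
  have no corner on the polygon -/
  jf_lt : ∀ u ∈ Uset, jf u < k
  inD : ∀ u ∈ Uset, ∀ v ∈ (c.leg N v₀ u).O (L u), v ∈ H192.dq p k S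
  noC : ∀ u ∈ Uset, ∀ v ∈ (c.leg N v₀ u).O (L u), v ≠ (c.leg N v₀ u).lv (L u) →
    ∀ m, ¬ Crn v (H192.ro (p m))
  last : ∀ u ∈ Uset, Crn ((c.leg N v₀ u).lv (L u)) (H192.ro (p (jf u)))
  /-- the last square is at `w` -/
  endw : ∀ u ∈ Uset, dist (fc ℓ N v₀ ((c.leg N v₀ u).lv (L u))) w ≤ 64 * (ℓ / N)
  /-- the exit index `E u`: the squares `O (E u)` are those in the bricks of the cut -/
  hE : ∀ u ∈ Uset, (E u : ℤ) + 1 = match c.hor, c.pos with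
    | true, true => (2 * c.e + 1) * N
    | true, false => (2 * c.e + 1) * N + 1
    | false, true => (c.e + 1) * N + (N : ℤ) / 2
    | false, false => c.e * N - (N : ℤ) / 2 + 1
  hEL : ∀ u ∈ Uset, E u < L u

/-- The squares of the bricks of the cut, for the base site `b`. -/
def kfs (c : CutP) (N : ℕ) (b : ℤ × ℤ) : Set (ℤ × ℤ) :=
  {v | ((v.1 - b.1) / (N : ℤ), (v.2 - b.2) / (N : ℤ)) ∈ c.KF}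

/-- **[Wir]** Wired vertices are near boundary points with a negative parameter. -/
def S_wir : Prop := ∀ (Φ : (ℝ × ℝ) ≃ₜ (ℝ × ℝ)) (ψ : ℂ → ℂ)
  (δ : ℕ → ℝ) (N k : ℕ → ℕ) (p : ∀ n, ZMod (N n) → ℤ × ℤ) (S : ℕ → Finset (ℤ × ℤ))
  (ψn : ℕ → ℂ → ℂ), Set6 Φ ψ δ N k p S ψn → ∀ᶠ n in atTop, ∀ i : ℕ, k n ≤ i → i < N n →
    ∃ x : ℝ, x ≤ 0 ∧ dist (ψn n x) ((δ n : ℂ) * pt (p n i)) ≤ δ n

/-- **[CutM]** Existence of the cut at time `0`. -/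
def S_cutM : Prop := ∀ (Φ : (ℝ × ℝ) ≃ₜ (ℝ × ℝ)) (ψ : ℂ → ℂ)
  (δ : ℕ → ℝ) (N k : ℕ → ℕ) (p : ∀ n, ZMod (N n) → ℤ × ℤ) (S : ℕ → Finset (ℤ × ℤ))
  (ψn : ℕ → ℂ → ℂ), Set6 Φ ψ δ N k p S ψn → ∀ X κ : ℝ, 0 < X → 0 < κ →
    ∃ d : ℝ, 0 < d ∧ d ≤ κ ∧ ∀ (τ₀ ϱ ℓ : ℝ) (q : ℤ), 0 < ϱ → 0 < ℓ →
      4 * ϱ + 20 * ℓ ≤ τ₀ → 32 * (τ₀ + ϱ + ℓ) ≤ d → 32 ≤ q → 64 * (ℓ * (q + 8)) ≤ d →
      ∀ᶠ n in atTop, ∃ (v₀ : ℤ × ℤ) (c : CutP) (w : ℂ), c.q = q ∧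
        CutM ℓ (4 * ⌊ℓ / (4 * δ n)⌋₊) (Psi (δ n) ℓ (4 * ⌊ℓ / (4 * δ n)⌋₊) v₀ (ψn n))
          X κ d ϱ τ₀ c w

/-- **[Lat]** The lattice part, for every cut. -/
def S_lat : Prop := ∀ (Φ : (ℝ × ℝ) ≃ₜ (ℝ × ℝ)) (ψ : ℂ → ℂ)
  (δ : ℕ → ℝ) (N k : ℕ → ℕ) (p : ∀ n, ZMod (N n) → ℤ × ℤ) (S : ℕ → Finset (ℤ × ℤ))
  (ψn : ℕ → ℂ → ℂ), Set6 Φ ψ δ N k p S ψn → ∀ X κ d τ₀ ϱ ℓ : ℝ, κ < X → 0 < ℓ → 0 < ϱ →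
      ∀ᶠ n in atTop, ∀ (v₀ : ℤ × ℤ) (c : CutP) (w : ℂ),
        CutM ℓ (4 * ⌊ℓ / (4 * δ n)⌋₊) (Psi (δ n) ℓ (4 * ⌊ℓ / (4 * δ n)⌋₊) v₀ (ψn n))
          X κ d ϱ τ₀ c w →
        ∃ jf L E : ℤ × ℤ → ℕ,
          CutLat (p n) (k n) (S n) (δ n) ℓ (4 * ⌊ℓ / (4 * δ n)⌋₊) (ψn n) X κ d ϱ τ₀ v₀ c w jf L E

/-- **[CutT]** From time `0` to all slit domains. -/
def S_cutT : Prop := ∀ (Φ : (ℝ × ℝ) ≃ₜ (ℝ × ℝ)) (ψ : ℂ → ℂ)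
  (δ : ℕ → ℝ) (N k : ℕ → ℕ) (p : ∀ n, ZMod (N n) → ℤ × ℤ) (S : ℕ → Finset (ℤ × ℤ))
  (ψn : ℕ → ℂ → ℂ), Set6 Φ ψ δ N k p S ψn → ∀ T R X Y κ d : ℝ, 0 ≤ T → 0 ≤ R → 0 < X →
    16 * R ≤ X → 1024 * T ≤ X ^ 2 → 0 < Y → 8 * R ≤ Y → 64 * T ≤ Y ^ 2 → 0 < κ → 8 * κ ≤ X →
    0 < d → ∃ c₀ : ℝ, 0 < c₀ ∧ ∀ τ₀ ϱ ℓ : ℝ, 0 < ℓ →
      ∀ᶠ n in atTop, ∀ (v₀ : ℤ × ℤ) (c : CutP) (w : ℂ),
        CutM ℓ (4 * ⌊ℓ / (4 * δ n)⌋₊) (Psi (δ n) ℓ (4 * ⌊ℓ / (4 * δ n)⌋₊) v₀ (ψn n))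
          X κ d ϱ τ₀ c w →
        CutN T R X Y κ d c₀ ℓ ϱ (2 * ℓ / (4 * ⌊ℓ / (4 * δ n)⌋₊ : ℕ)) τ₀
          (Psi (δ n) ℓ (4 * ⌊ℓ / (4 * δ n)⌋₊) v₀ (ψn n)) c w

end Vale.Agent.P167.CL
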