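import Vale.Agent.P167.CL.CutDefs

/-!
# P167, block CUT: the open path and the frozen squares, lattice side

`LegP`: base `b` of the zone, depth `H` of the first part, column `X` of a vertical leg. `O L`: the
open squares: down from `b`, along the row, along the leg up to the index `L`. `Kc`: the frozen
squares.
-/

set_option autoImplicit false

open MeasureTheory Filter Topology Set Metric

namespace Vale.Agent.P167.CL

open Vale.Agent.P167.H531 Vale.Agent.P167.H558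
open Vale.Agent.P167.E6 Vale.Agent.P167.E2 Vale.Agent.P167.H411

theorem SConn.union' {G H : Set (ℤ × ℤ)} (hG : SConn G) (hH : SConn H) {v : ℤ × ℤ} (hv : v ∈ G)
    (hw : v ∈ H) : SConn (G ∪ H) := by
  have mG : ∀ {x y : ℤ × ℤ}, Relation.ReflTransGen (fun a b => SAdj a b ∧ b ∈ G) x y →
      Relation.ReflTransGen (fun a b => SAdj a b ∧ b ∈ G ∪ H) x y := fun h =>
    Relation.ReflTransGen.mono (fun a b h => ⟨h.1, Or.inl h.2⟩) _ _ h
  have mH : ∀ {x y : ℤ × ℤ}, Relation.ReflTransGen (fun a b => SAdj a b ∧ b ∈ H) x y →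
      Relation.ReflTransGen (fun a b => SAdj a b ∧ b ∈ G ∪ H) x y := fun h =>
    Relation.ReflTransGen.mono (fun a b h => ⟨h.1, Or.inr h.2⟩) _ _ h
  rintro x (hx | hx) y (hy | hy)
  · exact mG (hG x hx y hy)
  · exact (mG (hG x hx v hv)).trans (mH (hH v hw y hy))
  · exact (mH (hH x hx v hw)).trans (mG (hG v hv y hy))
  · exact mH (hH x hx y hy)

/-- The unit vector of the leg. -/
def usv (hor pos : Bool) : ℤ × ℤ :=
  match hor, pos with
  | true, true => (1, 0)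
  | true, false => (-1, 0)
  | false, true => (0, 1)
  | false, false => (0, -1)

theorem usv_cases (hor pos : Bool) :
    usv hor pos = (1, 0) ∨ usv hor pos = (-1, 0) ∨ usv hor pos = (0, 1) ∨ usv hor pos = (0, -1) := by
  cases hor <;> cases pos <;> simp [usv]

/-- The position of the open path. -/
structure LegP where
  hor : Bool
  pos : Bool
  b : ℤ × ℤ
  H : ℤ
  X : ℤ

namespace LegP

variable (g : LegP)

/-- The direction. -/
def s : ℤ × ℤ := usv g.hor g.pos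

/-- The first square of the leg. -/
def base : ℤ × ℤ := (if g.hor then g.b.1 else g.X, g.b.2 - g.H)

/-- The squares of the leg. -/
def lv (i : ℕ) : ℤ × ℤ := g.base + i • g.s

/-- The open squares. -/
noncomputable def O (L : ℕ) : Finset (ℤ × ℤ) :=
  (Finset.Icc g.b.1 g.b.1 ×ˢ Finset.Icc (g.b.2 - g.H) (g.b.2 - 1)) ∪
    (Finset.Icc g.b.1 g.base.1 ×ˢ Finset.Icc (g.b.2 - g.H) (g.b.2 - g.H)) ∪
    (Finset.range (L + 1)).image g.lv

/-- Basic conditions. -/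
structure Ok : Prop where
  hH : 2 ≤ g.H
  hX : g.hor = false → g.b.1 + 5 ≤ g.X

variable {g}

theorem lv_1 (i : ℕ) : (g.lv i).1 = g.base.1 + i * g.s.1 := by simp [lv]

theorem lv_2 (i : ℕ) : (g.lv i).2 = g.base.2 + i * g.s.2 := by simp [lv]

/-- The four cases. -/
theorem lv_cases (i : ℕ) :
    (g.hor = true ∧ g.pos = true ∧ g.s = (1, 0) ∧ g.lv i = (g.b.1 + i, g.b.2 - g.H)) ∨
    (g.hor = true ∧ g.pos = false ∧ g.s = (-1, 0) ∧ g.lv i = (g.b.1 - i, g.b.2 - g.H)) ∨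
    (g.hor = false ∧ g.pos = true ∧ g.s = (0, 1) ∧ g.lv i = (g.X, g.b.2 - g.H + i)) ∨
    (g.hor = false ∧ g.pos = false ∧ g.s = (0, -1) ∧ g.lv i = (g.X, g.b.2 - g.H - i)) := by
  obtain ⟨hor, pos, b, H, X⟩ := g
  cases hor <;> cases pos <;> simp [lv, base, s, usv, Prod.ext_iff] <;> ring_nf

theorem lv_add (i j : ℕ) : g.lv (i + j) = g.lv i + j • g.s := by
  simp only [lv, add_smul]; rw [add_assoc]

theorem lv_adj (i : ℕ) : SAdj (g.lv i) (g.lv (i + 1)) := by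
  have e1 := g.lv_1 i
  have e2 := g.lv_2 i
  have e3 := g.lv_1 (i + 1)
  have e4 := g.lv_2 (i + 1)
  push_cast at e3 e4
  rcases g.lv_cases 0 with ⟨-, -, h, -⟩ | ⟨-, -, h, -⟩ | ⟨-, -, h, -⟩ | ⟨-, -, h, -⟩ <;>
  · have h1 : g.s.1 = _ := congrArg Prod.fst h
    have h2 : g.s.2 = _ := congrArg Prod.snd h
    rw [h1] at e1 e3
    rw [h2] at e2 e4
    simp only at e1 e2 e3 e4
    unfold SAdj
    omega

theorem mem_O {L : ℕ} {v : ℤ × ℤ} : v ∈ g.O L ↔
    (v.1 = g.b.1 ∧ g.b.2 - g.H ≤ v.2 ∧ v.2 ≤ g.b.2 - 1) ∨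
    (g.b.1 ≤ v.1 ∧ v.1 ≤ g.base.1 ∧ v.2 = g.b.2 - g.H) ∨ ∃ i ≤ L, g.lv i = v := by
  unfold O
  simp only [Finset.mem_union, Finset.mem_product, Finset.mem_Icc, Finset.mem_image,
    Finset.mem_range]
  constructor
  · rintro ((h | h) | ⟨i, hi, h⟩)
    · left; omega
    · right; left; omega
    · right; right; exact ⟨i, by omega, h⟩
  · rintro (h | h | ⟨i, hi, h⟩)
    · left; left; omega
    · left; right; omega
    · right; exact ⟨i, by omega, h⟩

theorem lv_mem {L i : ℕ} (h : i ≤ L) : g.lv i ∈ g.O L := mem_O.2 (Or.inr (Or.inr ⟨i, h, rfl⟩))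

theorem O_mono {L L' : ℕ} (h : L ≤ L') : g.O L ⊆ g.O L' := by
  intro v hv
  rw [mem_O] at hv ⊢
  rcases hv with hv | hv | ⟨i, hi, hv⟩
  · exact Or.inl hv
  · exact Or.inr (Or.inl hv)
  · exact Or.inr (Or.inr ⟨i, by omega, hv⟩)

theorem base_le (hg : g.Ok) : g.b.1 ≤ g.base.1 := by
  unfold base
  have := hg.hX
  rcases hh : g.hor with _ | _
  · have := this hh
    simp only [Bool.false_eq_true, if_false]
    omega
  · simp

theorem sconn_O (hg : g.Ok) (L : ℕ) : SConn (↑(g.O L) : Set (ℤ × ℤ)) := by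
  have e : (↑(g.O L) : Set (ℤ × ℤ)) =
      (↑(Finset.Icc g.b.1 g.b.1 ×ˢ Finset.Icc (g.b.2 - g.H) (g.b.2 - 1)) ∪
        ↑(Finset.Icc g.b.1 g.base.1 ×ˢ Finset.Icc (g.b.2 - g.H) (g.b.2 - g.H))) ∪
        {v | ∃ i < L + 1, g.lv i = v} := by
    ext v
    unfold O
    simp only [Finset.coe_union, Finset.coe_image, mem_union, mem_image, Finset.coe_range, mem_Iio,
      mem_ofPred_eq]
  have hH := hg.hH
  rw [e]
  refine SConn.union' (v := g.base) ?_ (sconn_chain fun i _ => lv_adj i) ?_ ?_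
  · refine SConn.union' (v := (g.b.1, g.b.2 - g.H)) (sconn_rect _ _ _ _) (sconn_rect _ _ _ _) ?_ ?_
    · simp only [Finset.coe_product, Finset.coe_Icc, mem_prod, mem_Icc]
      omega
    · have := base_le hg
      simp only [Finset.coe_product, Finset.coe_Icc, mem_prod, mem_Icc]
      omega
  · right
    have := base_le hg
    have e2 : g.base.2 = g.b.2 - g.H := rfl
    simp only [Finset.coe_product, Finset.coe_Icc, mem_prod, mem_Icc]
    omega
  · exact ⟨0, by omega, by simp [lv]⟩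

theorem sconn_OB (hg : g.Ok) (L : ℕ) {r : ℤ} (hr : 0 < r) :
    SConn (↑(g.O L) ∪ ↑(BR.hbox g.b r) : Set (ℤ × ℤ)) := by
  have hH := hg.hH
  refine SConn.union (sconn_O hg L) (sconn_hbox g.b r) (v := (g.b.1, g.b.2 - 1)) (w := g.b) ?_ ?_ ?_
  · rw [Finset.mem_coe, mem_O]
    exact Or.inl ⟨rfl, by show g.b.2 - g.H ≤ g.b.2 - 1; omega, le_rfl⟩
  · rw [Finset.mem_coe, BR.hbox, Finset.mem_product, Finset.mem_Icc, Finset.mem_Icc]
    omega
  · exact Or.inl ⟨rfl, Or.inr (by simp only; omega)⟩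

/-- Squares above the line which touch the path near `b` touch its first square. -/
theorem near_zone (hg : g.Ok) {L : ℕ} {v i u : ℤ × ℤ} (hv : v ∈ g.O L) (hu : Crn v u)
    (hi : Crn i u) (h2 : g.b.2 ≤ i.2) {r : ℤ} (h1 : i.1 ≤ g.b.1 + r)
    (hX : g.hor = false → g.b.1 + r + 3 ≤ g.X) :
    u.2 = g.b.2 ∧ i.2 = g.b.2 ∧ (u.1 = g.b.1 ∨ u.1 = g.b.1 + 1) := by
  have hH := hg.hH
  rw [mem_O] at hv
  unfold Crn at hu hi
  rcases hv with hv | hv | ⟨j, hj, hv⟩
  · omega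
  · omega
  · rcases g.lv_cases j with ⟨-, -, -, h⟩ | ⟨-, -, -, h⟩ | ⟨hh, -, -, h⟩ | ⟨hh, -, -, h⟩
    · rw [h] at hv
      have e1 : v.1 = g.b.1 + j := by rw [← hv]
      have e2 : v.2 = g.b.2 - g.H := by rw [← hv]
      omega
    · rw [h] at hv
      have e1 : v.1 = g.b.1 - j := by rw [← hv]
      have e2 : v.2 = g.b.2 - g.H := by rw [← hv]
      omega
    · rw [h] at hv
      have e1 : v.1 = g.X := by rw [← hv]
      have := hX hh
      omega
    · rw [h] at hv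
      have e1 : v.1 = g.X := by rw [← hv]
      have := hX hh
      omega

end LegP

/-! ### The frozen squares -/

/-- The squares around the even corners of the squares of `O`. -/
noncomputable def nbh (O : Finset (ℤ × ℤ)) : Finset (ℤ × ℤ) :=
  ((BR.sites O).filter fun u => (u.1 + u.2) % 2 = 0).biUnion fun u =>
    Finset.Icc (u.1 - 1) u.1 ×ˢ Finset.Icc (u.2 - 1) u.2

theorem mem_nbh {O : Finset (ℤ × ℤ)} {i : ℤ × ℤ} :
    i ∈ nbh O ↔ ∃ v ∈ O, ∃ u : ℤ × ℤ, (u.1 + u.2) % 2 = 0 ∧ Crn v u ∧ Crn i u := by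
  unfold nbh
  simp only [Finset.mem_biUnion, Finset.mem_filter, Finset.mem_product, Finset.mem_Icc]
  constructor
  · rintro ⟨u, ⟨h1, h2⟩, h3⟩
    obtain ⟨v, hv, h⟩ := mem_sites.1 h1
    exact ⟨v, hv, u, h2, h, by unfold Crn; omega⟩
  · rintro ⟨v, hv, u, h0, h1, h2⟩
    exact ⟨u, ⟨mem_sites.2 ⟨v, hv, h1⟩, h0⟩, by unfold Crn at h2; omega⟩

theorem subset_nbh (O : Finset (ℤ × ℤ)) : O ⊆ nbh O := by
  intro v hv
  rw [mem_nbh]
  by_cases h : (v.1 + v.2) % 2 = 0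
  · exact ⟨v, hv, v, h, by unfold Crn; omega, by unfold Crn; omega⟩
  · exact ⟨v, hv, (v.1 + 1, v.2), by simp only; omega, by unfold Crn; simp, by unfold Crn; simp⟩

/-- The frozen squares: the squares `Kb` and the neighbours of the open path, without the squares
above `b`. -/
noncomputable def frz (g : LegP) (L : ℕ) (Kb : Finset (ℤ × ℤ)) : Finset (ℤ × ℤ) :=
  (Kb ∪ nbh (g.O L)).filter fun i => ¬ (i.2 = g.b.2 ∧ g.b.1 - 2 ≤ i.1 ∧ i.1 ≤ g.b.1 + 2)

open Classical in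
/-- The frozen configuration. -/
noncomputable def kap (g : LegP) (L : ℕ) : Cfg := fun v => decide (v ∈ g.O L)

theorem mem_frz {g : LegP} {L : ℕ} {Kb : Finset (ℤ × ℤ)} {i : ℤ × ℤ} : i ∈ frz g L Kb ↔
    (i ∈ Kb ∨ i ∈ nbh (g.O L)) ∧ ¬ (i.2 = g.b.2 ∧ g.b.1 - 2 ≤ i.1 ∧ i.1 ≤ g.b.1 + 2) := by
  unfold frz
  rw [Finset.mem_filter, Finset.mem_union]

theorem O_subset_frz {g : LegP} (hg : g.Ok) {L : ℕ} {Kb : Finset (ℤ × ℤ)} : g.O L ⊆ frz g L Kb := by
  intro v hv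
  rw [mem_frz]
  refine ⟨Or.inr (subset_nbh _ hv), ?_⟩
  have hH := hg.hH
  rw [LegP.mem_O] at hv
  rcases hv with hv | hv | ⟨j, hj, hv⟩
  · omega
  · omega
  · rcases g.lv_cases j with ⟨-, -, -, h⟩ | ⟨-, -, -, h⟩ | ⟨hh, -, -, h⟩ | ⟨hh, -, -, h⟩
    · rw [h] at hv
      have e2 : v.2 = g.b.2 - g.H := by rw [← hv]
      omega
    · rw [h] at hv
      have e2 : v.2 = g.b.2 - g.H := by rw [← hv]
      omega
    · rw [h] at hv
      have e1 : v.1 = g.X := by rw [← hv]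
      have := hg.hX hh
      omega
    · rw [h] at hv
      have e1 : v.1 = g.X := by rw [← hv]
      have := hg.hX hh
      omega

/-- The frozen squares are off the zone. -/
theorem frz_disj {g : LegP} (hg : g.Ok) {L : ℕ} {Kb : Finset (ℤ × ℤ)} {r : ℤ}
    (hKb : Disjoint Kb (BR.hbox g.b r)) (hX : g.hor = false → g.b.1 + r + 3 ≤ g.X) :
    Disjoint (frz g L Kb) (BR.hbox g.b r) := by
  rw [Finset.disjoint_left]
  intro i hi hiB
  rw [mem_frz] at hi
  obtain ⟨h1 | h1, h2⟩ := hi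
  · exact Finset.disjoint_left.1 hKb h1 hiB
  · obtain ⟨v, hv, u, -, hvu, hiu⟩ := mem_nbh.1 h1
    rw [BR.hbox, Finset.mem_product, Finset.mem_Icc, Finset.mem_Icc] at hiB
    obtain ⟨a1, a2, a3⟩ := LegP.near_zone hg hv hvu hiu hiB.2.1 (r := r) (by omega) hX
    unfold Crn at hiu
    omega

/-- **`CutOk`** for a domain `D` which contains exactly the squares `O E` of the open path. -/
theorem cutOk_leg {g : LegP} (hg : g.Ok) {L E : ℕ} (hEL : E ≤ L) {D Kb : Finset (ℤ × ℤ)} {r : ℤ}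
    (hr : 0 < r) (hOD : g.O E ⊆ D) (hOD' : ∀ v ∈ g.O L, v ∈ D → v ∈ g.O E)
    (hB : BR.hbox g.b r ⊆ D) (hKb : Disjoint Kb (BR.hbox g.b r))
    (hX : g.hor = false → g.b.1 + r + 3 ≤ g.X) {x : ℤ × ℤ} (hx0 : (x.1 + x.2) % 2 = 0)
    (hx : ∃ v ∈ g.O E, Crn v x) {T : Set (ℤ × ℤ)} (hT : ∀ t ∈ T, ∀ v ∈ g.O E, ¬ Crn v t) :
    CutOk D (frz g L Kb) (BR.hbox g.b r) (kap g L) x T := by
  classical
  refine cutOk_of (O := g.O E) ?_ hOD ((LegP.O_mono hEL).trans (O_subset_frz hg)) hB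
    (LegP.sconn_OB hg E hr) hx0 hx ?_ ?_ (frz_disj hg hKb hX)
  · intro v hv _
    unfold kap
    rw [decide_eq_true_iff]
    exact ⟨fun h => hOD' v h hv, fun h => LegP.O_mono hEL h⟩
  · intro v hv i hi hK hiB u h0 hu hiu
    rw [mem_frz, not_and, not_not] at hK
    have h3 := hK (Or.inr (mem_nbh.2 ⟨v, LegP.O_mono hEL hv, u, h0, hu, hiu⟩))
    have hX' : g.hor = false → g.b.1 + 2 + 3 ≤ g.X := fun h => by
      have := hg.hX h
      omega
    obtain ⟨a1, a2, a3⟩ := LegP.near_zone hg hv hu hiu h3.1.ge (r := 2) (by omega) hX'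
    rw [mem_sites]
    refine ⟨g.b, ?_, ?_⟩
    · rw [BR.hbox, Finset.mem_product, Finset.mem_Icc, Finset.mem_Icc]
      omega
    · unfold Crn
      omega
  · intro t ht v hv h
    exact absurd h (hT t ht v hv)

end Vale.Agent.P167.CL
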