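import Vale.Agent.P167.CL.GeoDefs

/-!
# P167, block CLOSE [ASM]: the bricks of one stage

For `s.Ok`:
* `mem_GP` : a face is good for `pP` iff it is good for `pE` and not in `KB`;
* `SP_sub` : `SP ⊆ SE \ KB`;
* `island` : a face of `SE \ KB` which has a common vertex with a face of `SP` is in `SP`;
* `island_sq` : the same for the squares of the enlargements;
* `flatE`, `flatP` : both polygons are flat at the notches;
* `marginE` : the closed region of `pE` is at distance at least `ρm` from the complement of `D`.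
-/

set_option autoImplicit false

open MeasureTheory Filter Topology Set Metric
open scoped NNReal ENNReal

namespace Vale.Agent.P167.CL

open Vale.Agent.P153.R2.R1 (mb)
open Vale.Agent.P153.R2.L1 (HH)
open Vale.Agent.P164 (loewnerDomain Zf)
open Vale.Agent.P167.E6 Vale.Agent.P167.E2 Vale.Agent.P167.H411
open Vale.Agent.P167.H756
open Vale.Agent.P167.H446.Cut
open Vale.Agent.P167.H450

/-! ### Bricks at a vertex -/

/-- Two faces with a common vertex. -/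
def VAdj (F G : ℤ × ℤ) : Prop := |F.1 - G.1| ≤ 1 ∧ |F.2 - G.2| ≤ 1

theorem VAdj.symm {F G : ℤ × ℤ} (h : VAdj F G) : VAdj G F := by
  obtain ⟨h1, h2⟩ := h
  exact ⟨by rw [abs_sub_comm]; exact h1, by rw [abs_sub_comm]; exact h2⟩

/-- Two faces of a union of bricks with a common vertex are in the same component. -/
theorem cmp_of_vadj {A : Set (ℤ × ℤ)} (hA : Bricky A) {F G F₀ : ℤ × ℤ} (hF : F ∈ A)
    (hGc : G ∈ Cmp A F₀) (hG : G ∈ A) (h : VAdj F G) : F ∈ Cmp A F₀ := by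
  obtain ⟨a, b⟩ := F
  obtain ⟨c, d⟩ := G
  obtain ⟨h1, h2⟩ := h
  simp only at h1 h2
  rw [abs_le] at h1 h2
  -- a step
  have step : ∀ {F G : ℤ × ℤ}, G ∈ Cmp A F₀ → F ∈ A →
      ((F.1 = G.1 ∧ (F.2 = G.2 + 1 ∨ F.2 = G.2 - 1)) ∨
        (F.2 = G.2 ∧ (F.1 = G.1 + 1 ∨ F.1 = G.1 - 1))) → F ∈ Cmp A F₀ := by
    intro F G hG hF h
    refine cmp_adj hG hF ?_
    rcases h with ⟨h1, h2 | h2⟩ | ⟨h1, h2 | h2⟩
    · exact ⟨1, Prod.ext (by simp [dir, h1]) (by simp [dir, h2])⟩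
    · exact ⟨3, Prod.ext (by simp [dir, h1]) (by simp [dir, h2]; ring)⟩
    · exact ⟨0, Prod.ext (by simp [dir, h2]) (by simp [dir, h1])⟩
    · exact ⟨2, Prod.ext (by simp [dir, h2]; ring) (by simp [dir, h1])⟩
  by_cases e2 : b = d
  · subst e2
    by_cases e1 : a = c
    · subst e1; exact hGc
    · exact step hGc hF (Or.inr ⟨rfl, by simp only; omega⟩)
  · by_cases e1 : a = c
    · subst e1
      exact step hGc hF (Or.inl ⟨rfl, by simp only; omega⟩)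
    · -- diagonal: `(a, b)` and `(c, d)`, the two faces of one of the rows are in one brick
      rcases Int.emod_two_eq_zero_or_one (min a c + b) with hp | hp
      · -- the row `b`
        have hbr : br (a, b) = br (c, b) := by
          simp only [br, Prod.mk.injEq, and_true]
          omega
        have hm : (c, b) ∈ A := (hA _ _ hbr).1 hF
        have h3 : (c, b) ∈ Cmp A F₀ := step hGc hm (Or.inl ⟨rfl, by simp only; omega⟩)
        exact step h3 hF (Or.inr ⟨rfl, by simp only; omega⟩)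
      · have hbr : br (c, d) = br (a, d) := by
          simp only [br, Prod.mk.injEq, and_true]
          omega
        have hm : (a, d) ∈ A := (hA _ _ hbr).1 hG
        have h3 : (a, d) ∈ Cmp A F₀ := step hGc hm (Or.inr ⟨rfl, by simp only; omega⟩)
        exact step h3 hF (Or.inl ⟨rfl, by simp only; omega⟩)

/-- A square which meets an open brick is one of its two squares. -/
theorem br_of_meet {ℓ : ℝ} (hℓ : 0 < ℓ) {b G : ℤ × ℤ} {z : ℂ} (hz : z ∈ obk ℓ b)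
    (hG : z ∈ sqr ℓ G) : br G = b := by
  obtain ⟨h1, h2, h3, h4⟩ := hz
  obtain ⟨g1, g2, g3, g4⟩ := hG
  have c1 : G.2 = b.2 := by
    have e1 : ℓ * (G.2 : ℝ) < ℓ * (b.2 + 1) := by linarith
    have e2 : ℓ * (b.2 : ℝ) < ℓ * (G.2 + 1) := by linarith
    have e1' := lt_of_mul_lt_mul_left e1 hℓ.le
    have e2' := lt_of_mul_lt_mul_left e2 hℓ.le
    have f1 : G.2 < b.2 + 1 := by exact_mod_cast e1'
    have f2 : b.2 < G.2 + 1 := by exact_mod_cast e2'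
    omega
  have e1 : ℓ * (G.1 : ℝ) < ℓ * (2 * b.1 - b.2 + 2) := by linarith
  have e2 : ℓ * (2 * b.1 - b.2 : ℝ) < ℓ * (G.1 + 1) := by linarith
  have e1' := lt_of_mul_lt_mul_left e1 hℓ.le
  have e2' := lt_of_mul_lt_mul_left e2 hℓ.le
  have f1 : G.1 < 2 * b.1 - b.2 + 2 := by exact_mod_cast e1'
  have f2 : 2 * b.1 - b.2 < G.1 + 1 := by exact_mod_cast e2'
  refine br_eq_iff.2 ⟨?_, c1⟩
  omega

theorem cmp_mono {A A' : Set (ℤ × ℤ)} (h : A ⊆ A') (F₀ : ℤ × ℤ) : Cmp A F₀ ⊆ Cmp A' F₀ := by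
  intro F hF
  exact Relation.ReflTransGen.mono (fun a b h' => ⟨h h'.1, h'.2⟩) _ _ hF

namespace Stg

variable {s : Stg} {T R Rd cd : ℝ}

theorem Ok.hℓ (H : s.Ok T R Rd cd) : 0 < s.ℓ := H.sysE.hℓ

theorem E1_sub (H : s.Ok T R Rd cd) : E1 s.ℓ (s.D \ s.g) s.x s.k s.q s.K ⊆ s.D := by
  rintro z (hz | hz)
  · exact hz.1.1
  · obtain ⟨j, h1, h2, h3⟩ := mem_iUnion.1 hz
    exact (H.sysE.ntc j).loD ⟨h1.le, h2.le, h3⟩

/-- The goodness for `pP`. -/
theorem mem_GP (H : s.Ok T R Rd cd) {F : ℤ × ℤ} :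
    F ∈ s.GP ↔ F ∈ s.GE ∧ F ∉ s.KB := by
  have hℓ := H.hℓ
  constructor
  · rintro ⟨h1, h2⟩
    refine ⟨⟨h1, fun z hz => ?_⟩, fun hF => ?_⟩
    · obtain ⟨⟨h3, h4⟩, h5⟩ := h2 hz
      exact ⟨⟨h3, fun h => h4 (H.gB h)⟩, h5⟩
    · obtain ⟨⟨h3, h4⟩, h5⟩ := h2 (center_mem hℓ F)
      refine h4 (H.regB ⟨F, Finset.mem_coe.2 hF, ?_, ?_, ?_, ?_⟩)
      · exact mul_le_mul_of_nonneg_left (by linarith) hℓ.le
      · exact mul_le_mul_of_nonneg_left (by linarith) hℓ.le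
      · exact mul_le_mul_of_nonneg_left (by linarith) hℓ.le
      · exact mul_le_mul_of_nonneg_left (by linarith) hℓ.le
  · rintro ⟨⟨h1, h2⟩, hF⟩
    refine ⟨h1, fun z hz => ?_⟩
    obtain ⟨⟨h3, h4⟩, h5⟩ := h2 hz
    exact ⟨⟨h3, fun h => disjoint_left.1 (H.offB F ⟨h1, h2⟩ hF) hz h⟩, h5⟩

theorem goodE (H : s.Ok T R Rd cd) : s.F₀ ∈ s.GE := by
  have h1 := H.mesh
  have h2 := H.hℓ
  have h3 := H.hρm
  exact H.sysE.good H.hρm (by linarith) H.base

theorem goodP (H : s.Ok T R Rd cd) : s.F₀ ∈ s.GP := by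
  have h1 := H.mesh
  have h2 := H.hℓ
  have h3 := H.hρm
  exact H.sysP.good H.hρm (by linarith) H.base

theorem memE (H : s.Ok T R Rd cd) {F : ℤ × ℤ} : F ∈ s.SE ↔ F ∈ Cmp s.GE s.F₀ := by
  rw [← Finset.mem_coe, H.setE]

theorem memP (H : s.Ok T R Rd cd) {F : ℤ × ℤ} : F ∈ s.SP ↔ F ∈ Cmp s.GP s.F₀ := by
  rw [← Finset.mem_coe, H.setP]

theorem SE_good (H : s.Ok T R Rd cd) {F : ℤ × ℤ} (h : F ∈ s.SE) : F ∈ s.GE :=
  cmp_subset (goodE H) ((memE H).1 h)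

theorem SP_good (H : s.Ok T R Rd cd) {F : ℤ × ℤ} (h : F ∈ s.SP) : F ∈ s.GP :=
  cmp_subset (goodP H) ((memP H).1 h)

/-- `SP ⊆ SE \ KB`. -/
theorem SP_sub (H : s.Ok T R Rd cd) : s.SP ⊆ s.SE \ s.KB := by
  intro F hF
  rw [Finset.mem_sdiff]
  refine ⟨(memE H).2 (cmp_mono (fun G hG => ((mem_GP H).1 hG).1) _ ((memP H).1 hF)), ?_⟩
  exact ((mem_GP H).1 (SP_good H hF)).2

theorem brickyE (H : s.Ok T R Rd cd) : Bricky (s.SE : Set (ℤ × ℤ)) := by
  rw [H.setE]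
  exact bricky_cmp (goodE H) (bricky_gf _ _ _ _)

theorem brickyP (H : s.Ok T R Rd cd) : Bricky (s.SP : Set (ℤ × ℤ)) := by
  rw [H.setP]
  exact bricky_cmp (goodP H) (bricky_gf _ _ _ _)

/-- **Islands.** -/
theorem island (H : s.Ok T R Rd cd) {F G : ℤ × ℤ}
    (hF : F ∈ s.SE) (hFK : F ∉ s.KB) (hG : G ∈ s.SP) (h : VAdj F G) : F ∈ s.SP := by
  rw [memP H]
  exact cmp_of_vadj (bricky_gf _ _ _ _) ((mem_GP H).2 ⟨SE_good H hF, hFK⟩) ((memP H).1 hG)
    (SP_good H hG) h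

/-- The closed region of `pE` is far from the complement of the domain. -/
theorem marginE (H : s.Ok T R Rd cd) {z : ℂ} (hz : z ∈ reg s.ℓ (s.SE : Set (ℤ × ℤ))) :
    ball z s.ρm ⊆ s.D := by
  obtain ⟨F, hF, hzF⟩ := hz
  exact ((SE_good H (Finset.mem_coe.1 hF)).1 z (sqr_subset_bk H.hℓ hzF)).trans (E1_sub H)

theorem marginP (H : s.Ok T R Rd cd) {z : ℂ} (hz : z ∈ reg s.ℓ (s.SP : Set (ℤ × ℤ))) :
    ball z s.ρm ⊆ s.D := by
  obtain ⟨F, hF, hzF⟩ := hz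
  exact ((SP_good H (Finset.mem_coe.1 hF)).1 z (sqr_subset_bk H.hℓ hzF)).trans (E1_sub H)

/-- The vertex at the notch `j`. -/
noncomputable def vn (s : Stg) (j : Bool) : ℤ × ℤ := (⌊s.x j / s.ℓ⌋, s.k j)

theorem vn_near (H : s.Ok T R Rd cd) (j : Bool) : |s.ℓ * (s.vn j).1 - s.x j| ≤ s.ℓ := by
  have hℓ := H.hℓ
  have h1 := Int.floor_le (s.x j / s.ℓ)
  have h2 := Int.lt_floor_add_one (s.x j / s.ℓ)
  rw [le_div_iff₀ hℓ] at h1
  rw [div_lt_iff₀ hℓ] at h2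
  show |s.ℓ * (⌊s.x j / s.ℓ⌋ : ℝ) - s.x j| ≤ s.ℓ
  rw [abs_le]
  constructor <;> nlinarith

/-- Flatness at the notches. -/
theorem flatE (H : s.Ok T R Rd cd) (j : Bool) {r : ℤ} (hr : s.ℓ * r + s.ρm + 4 * s.ℓ ≤ s.q j) :
    BR.Flt s.SE (s.vn j) r := by
  intro v h1 h2 h3 h4
  exact H.sysE.flat H.hρm H.mesh H.base H.setE j (vn_near H j) hr v h1 h2.le h3 h4.le

theorem flatP (H : s.Ok T R Rd cd) (j : Bool) {r : ℤ} (hr : s.ℓ * r + s.ρm + 4 * s.ℓ ≤ s.q j) :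
    BR.Flt s.SP (s.vn j) r := by
  intro v h1 h2 h3 h4
  exact H.sysP.flat H.hρm H.mesh H.base H.setP j (vn_near H j) hr v h1 h2.le h3 h4.le

theorem flat_one (H : s.Ok T R Rd cd) (j : Bool) : s.ℓ * (1 : ℤ) + s.ρm + 4 * s.ℓ ≤ s.q j := by
  have h1 := (H.sysE.ntc j).q_ge
  have h2 := H.mesh
  have h3 := H.hρm
  have h4 := H.hℓ
  push_cast
  linarith

end Stg

/-! ### The enlargements -/

/-- The face of a square. -/
def fce (N : ℕ) (v : ℤ × ℤ) (i : ℤ × ℤ) : ℤ × ℤ := ((i.1 - v.1) / N, (i.2 - v.2) / N)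

theorem mem_sE {S : Finset (ℤ × ℤ)} {N : ℕ} (hN : 0 < N) {v i : ℤ × ℤ} :
    i ∈ sE S N v ↔ fce N v i ∈ S := by
  unfold sE fce
  rw [Finset.mem_image]
  constructor
  · rintro ⟨a, ha, rfl⟩
    rw [mem_enl_iff hN] at ha
    simpa using ha
  · intro h
    refine ⟨i - v, ?_, by simp⟩
    rw [mem_enl_iff hN]
    exact h

theorem ediv_near {N a b : ℤ} (hN : 0 < N) (h : |a - b| ≤ 1) : |a / N - b / N| ≤ 1 := by
  rw [abs_le] at h ⊢
  have h1 := Int.mul_ediv_add_emod a N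
  have h2 := Int.emod_nonneg a hN.ne'
  have h3 := Int.emod_lt_of_pos a hN
  have h4 := Int.mul_ediv_add_emod b N
  have h5 := Int.emod_nonneg b hN.ne'
  have h6 := Int.emod_lt_of_pos b hN
  constructor
  · by_contra hcon
    push Not at hcon
    have : a / N + 2 ≤ b / N := by omega
    nlinarith
  · by_contra hcon
    push Not at hcon
    have : b / N + 2 ≤ a / N := by omega
    nlinarith

/-- Squares with a common corner are in faces with a common vertex. -/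
theorem vadj_of_crn {N : ℕ} (hN : 0 < N) {v i j u : ℤ × ℤ} (hi : Crn i u) (hj : Crn j u) :
    VAdj (fce N v i) (fce N v j) := by
  unfold Crn at hi hj
  have hN' : (0 : ℤ) < N := by exact_mod_cast hN
  constructor
  · refine ediv_near hN' ?_
    rw [abs_le]
    omega
  · refine ediv_near hN' ?_
    rw [abs_le]
    omega

/-- **Islands, for the squares.** -/
theorem Stg.island_sq {s : Stg} {T R Rd cd : ℝ} (H : s.Ok T R Rd cd)
    {N : ℕ} (hN : 0 < N) {v : ℤ × ℤ} {Kc : Finset (ℤ × ℤ)}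
    (hKc : sE s.KB N v ⊆ Kc) :
    ∀ i ∈ sE s.SE N v \ Kc, i ∉ sE s.SP N v → ∀ w ∈ sE s.SP N v, ∀ u, Crn i u → ¬ Crn w u := by
  intro i hi hiP w hw u hiu hwu
  rw [Finset.mem_sdiff] at hi
  rw [mem_sE hN] at hiP hw
  have h1 : fce N v i ∈ s.SE := (mem_sE hN).1 hi.1
  have h2 : fce N v i ∉ s.KB := fun h => hi.2 (hKc ((mem_sE hN).2 h))
  exact hiP (Stg.island H h1 h2 hw (vadj_of_crn hN hiu hwu))

end Vale.Agent.P167.CL
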