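import Vale.Agent.P167.CL.CutQ

/-!
# P167, block CUT: the faces near the leg beyond the exit meet the segment of the cut
-/

set_option autoImplicit false

open MeasureTheory Filter Topology Set Metric

namespace Vale.Agent.P167.CL

open Vale.Agent.P153.R2.L1 (HH)
open Vale.Agent.P167.H531 Vale.Agent.P167.H558
open Vale.Agent.P167.E6 Vale.Agent.P167.E2 Vale.Agent.P167.H411 Vale.Agent.P167.H450

theorem obk_of {ℓ : ℝ} (hℓ : 0 < ℓ) {F : ℤ × ℤ} {y : ℂ} (h1 : ℓ * F.1 < y.re)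
    (h2 : y.re < ℓ * (F.1 + 1)) (h3 : ℓ * F.2 < y.im) (h4 : y.im < ℓ * (F.2 + 1)) :
    y ∈ obk ℓ (br F) := by
  obtain ⟨h5, h6⟩ := (br_eq_iff (F := F) (b := br F)).1 rfl
  have h6' : (F.2 : ℝ) = (br F).2 := by exact_mod_cast h6
  rw [h6'] at h3 h4
  refine ⟨?_, ?_, h3, h4⟩
  · rcases h5 with h | h
    · have h' : (F.1 : ℝ) = 2 * (br F).1 - (br F).2 := by exact_mod_cast h
      rw [← h']; exact h1
    · have h' : (F.1 : ℝ) = 2 * (br F).1 - (br F).2 + 1 := by exact_mod_cast h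
      nlinarith
  · rcases h5 with h | h
    · have h' : (F.1 : ℝ) = 2 * (br F).1 - (br F).2 := by exact_mod_cast h
      nlinarith
    · have h' : (F.1 : ℝ) = 2 * (br F).1 - (br F).2 + 1 := by exact_mod_cast h
      nlinarith

theorem mem_lam {ℓ d τ : ℝ} {c : CutP} {w : ℂ} (h0 : 0 ≤ τ) (h1 : τ ≤ d / 4 - ℓ) :
    w - (τ : ℂ) * c.dv ∈ lam ℓ d c w := by
  unfold lam
  obtain ⟨D, hD⟩ : ∃ D, D = d / 4 - ℓ := ⟨_, rfl⟩
  rw [← hD] at h1 ⊢
  rcases eq_or_lt_of_le (h0.trans h1) with h | h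
  · have : τ = 0 := by linarith
    rw [this]
    have e : w - ((0 : ℝ) : ℂ) * c.dv = w := by simp
    rw [e]
    exact right_mem_segment ℝ _ _
  · rw [segment_eq_image']
    refine ⟨1 - τ / D, ⟨?_, ?_⟩, ?_⟩
    · rw [sub_nonneg, div_le_one h]; exact h1
    · rw [sub_le_self_iff]; positivity
    · have e : (D : ℂ) ≠ 0 := by
        rw [Complex.ofReal_ne_zero]; exact h.ne'
      simp only [Complex.real_smul]
      push_cast
      field_simp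
      ring

/-- The face of a square: coordinates. -/
theorem fce_coord {ℓ : ℝ} {N : ℕ} (hℓ : 0 < ℓ) (hN : 0 < N) {x : ℤ} :
    ℓ * ((x / (N : ℤ) : ℤ) : ℝ) < ℓ / N * (x + 1 / 2) ∧
      ℓ / N * (x + 1 / 2) < ℓ * (((x / (N : ℤ) : ℤ) : ℝ) + 1) := by
  have hN' : (0 : ℝ) < N := by exact_mod_cast hN
  have hNz : (0 : ℤ) < N := by exact_mod_cast hN
  have h1 := Int.mul_ediv_add_emod x N
  have h2 := Int.emod_nonneg x hNz.ne'
  have h3 := Int.emod_lt_of_pos x hNz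
  have h4 : (N : ℤ) * (x / N) ≤ x := by omega
  have h5 : x + 1 ≤ (N : ℤ) * (x / N) + N := by omega
  have h4' : (N : ℝ) * ((x / (N : ℤ) : ℤ) : ℝ) ≤ x := by exact_mod_cast h4
  have h5' : (x : ℝ) + 1 ≤ (N : ℝ) * ((x / (N : ℤ) : ℤ) : ℝ) + N := by exact_mod_cast h5
  rw [div_mul_eq_mul_div, lt_div_iff₀ hN', div_lt_iff₀ hN']
  constructor <;> nlinarith

variable {n k : ℕ} {p : ZMod n → ℤ × ℤ} {S : Finset (ℤ × ℤ)} {δ ℓ : ℝ} {N : ℕ}
    {ψ : ℂ → ℂ} {X κ d ϱ τ₀ : ℝ} {v₀ : ℤ × ℤ} {c : CutP} {w : ℂ} {jf L E : ℤ × ℤ → ℕ}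

theorem CutLat.face_tau_pp (C : CutLat p k S δ ℓ N ψ X κ d ϱ τ₀ v₀ c w jf L E) {u : ℤ × ℤ}
    (ho : c.hor = true) (hp : c.pos = true) (hu : u ∈ Uset) {j : ℕ} (hj : E u < j) (hjL : j ≤ L u) {i : ℤ × ℤ}
    (h1 : |i.1 - ((c.leg N v₀ u).lv j).1| ≤ 2) (h2 : |i.2 - ((c.leg N v₀ u).lv j).2| ≤ 2) :
    ∃ τ : ℝ, -(68 * (ℓ / N)) ≤ τ ∧ τ ≤ d / 4 - ℓ ∧
      w - (τ : ℂ) * c.dv ∈ obk ℓ (br (fce N (v₀ + u) i)) := by
  obtain ⟨k1, k2, k3, k4, k5, k6⟩ : 0 < ℓ ∧ 0 < ϱ ∧ 2240 * ℓ ≤ d ∧ 32 * (τ₀ + ϱ) + 32 * ℓ ≤ d ∧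
      20 * ℓ + 4 * ϱ ≤ τ₀ ∧ 64 * ℓ * (2 * c.m) + 192 * ℓ ≤ d := by
    have h1 := C.cut.hℓ
    have h2 := C.cut.hϱ
    have h3 := C.cut.hd
    have h4 := C.cut.hqd
    have h5 : (32 : ℝ) ≤ c.q := by exact_mod_cast C.cut.hq
    have h6 := C.cut.hτ
    have h7 := C.cut.hmd
    refine ⟨h1, h2, by nlinarith, by linarith, by linarith, by linarith⟩
  have hu2 : u.2 = 0 ∧ (u.1 = 0 ∨ u.1 = 1) := by
    rcases hu with rfl | rfl <;> simp
  have hb1 : (v₀ + u).1 = v₀.1 + u.1 := rfl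
  have hb2 : (v₀ + u).2 = v₀.2 + u.2 := rfl
  have hu1 : (0 : ℝ) ≤ u.1 ∧ (u.1 : ℝ) ≤ 1 := by
    rcases hu2.2 with h | h <;> rw [h] <;> norm_num
  have hend := C.endw u hu
  have hE := C.hE u hu
  have hN := C.hN
  obtain ⟨Q, rfl⟩ := C.hN2
  have hQ : 4 ≤ Q := by omega
  have hQ' : (4 : ℝ) ≤ Q := by exact_mod_cast hQ
  have hH : ((4 * Q : ℕ) : ℤ) / 2 = 2 * Q := by push_cast; omega
  obtain ⟨h, hh⟩ : ∃ h : ℝ, h = ℓ / (4 * Q : ℕ) := ⟨_, rfl⟩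
  have hNh : h * (4 * Q) = ℓ := by
    rw [hh]; push_cast; field_simp
  have hh0 : 0 < h := by rw [hh]; positivity
  have h16 : 16 * h ≤ ℓ := by nlinarith
  rw [hH] at hE
  rw [abs_le] at h1 h2
  have hNz : (0 : ℤ) < (4 * Q : ℕ) := by push_cast; omega
  rw [dist_eq_norm] at hend
  have hre := (Complex.abs_re_le_norm _).trans hend
  have him := (Complex.abs_im_le_norm _).trans hend
  rw [Complex.sub_re, abs_le] at hre
  rw [Complex.sub_im, abs_le] at him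
  simp only [fc] at hre him
  rw [← hh] at hre him ⊢
  obtain ⟨e1, e2⟩ := leg_pp (N := 4 * Q) (v₀ := v₀) (u := u) ho hp
  have hsg : (c.sg : ℝ) = 1 := by simp [CutP.sg, hp]
  rw [ho, hp] at hE
  simp only at hE
  rw [(e2 j).1] at h1
  rw [(e2 j).2, hH] at h2
  rw [(e2 (L u)).1, hb1] at hre
  obtain ⟨g1, g2⟩ := C.cut.eh ho
  rw [hsg] at g1 g2
  obtain ⟨r1, r2⟩ := C.row ho
  rw [← hh] at r2
  have hE' : (E u : ℝ) + 1 = (2 * c.e + 1) * (4 * Q) := by exact_mod_cast hE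
  obtain ⟨f1, f2⟩ := fce_coord (x := i.1 - (v₀ + u).1) k1 (show 0 < 4 * Q by omega)
  rw [← hh] at f1 f2
  have hF2 : (i.2 - (v₀ + u).2) / ((4 * Q : ℕ) : ℤ) = -1 :=
    le_antisymm ((dv_le hNz).2 (by push_cast; linarith)) ((le_dv hNz).2 (by push_cast; linarith))
  have x1 : (E u : ℤ) + 1 - 2 ≤ i.1 - (v₀ + u).1 := by omega
  have x2 : i.1 - (v₀ + u).1 ≤ (L u : ℤ) + 2 := by omega
  have x1' : (E u : ℝ) + 1 - 2 ≤ ((i.1 - (v₀ + u).1 : ℤ) : ℝ) := by exact_mod_cast x1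
  have x2' : ((i.1 - (v₀ + u).1 : ℤ) : ℝ) ≤ (L u : ℝ) + 2 := by exact_mod_cast x2
  have m1 := mul_le_mul_of_nonneg_left x1' hh0.le
  have m2 := mul_le_mul_of_nonneg_left x2' hh0.le
  have m3 : h * ((E u : ℝ) + 1) = (2 * c.e + 1) * ℓ := by rw [hE', ← hNh]; ring
  have hu1h := mul_le_mul_of_nonneg_left hu1.2 hh0.le
  have hu0h := mul_nonneg hh0.le hu1.1
  push_cast at f1 f2 m1 m2 hre ⊢
  refine ⟨w.re - h * ((i.1 : ℝ) - (v₀ + u).1 + 1 / 2), by linarith, by linarith, ?_⟩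
  refine obk_of k1 ?_ ?_ ?_ ?_
  · simp only [fce, CutP.dv, ho, if_true, Complex.sub_re, Complex.mul_re, Complex.intCast_re,
      Complex.intCast_im, Complex.ofReal_re, Complex.ofReal_im, hsg]
    push_cast
    linarith
  · simp only [fce, CutP.dv, ho, if_true, Complex.sub_re, Complex.mul_re, Complex.intCast_re,
      Complex.intCast_im, Complex.ofReal_re, Complex.ofReal_im, hsg]
    push_cast
    linarith
  · simp only [fce, CutP.dv, ho, if_true, Complex.sub_im, Complex.mul_im, Complex.intCast_re,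
      Complex.intCast_im, Complex.ofReal_re, Complex.ofReal_im, hsg, hF2]
    push_cast
    linarith
  · simp only [fce, CutP.dv, ho, if_true, Complex.sub_im, Complex.mul_im, Complex.intCast_re,
      Complex.intCast_im, Complex.ofReal_re, Complex.ofReal_im, hsg, hF2]
    push_cast
    linarith

theorem CutLat.face_tau_pn (C : CutLat p k S δ ℓ N ψ X κ d ϱ τ₀ v₀ c w jf L E) {u : ℤ × ℤ}
    (ho : c.hor = true) (hp : c.pos = false) (hu : u ∈ Uset) {j : ℕ} (hj : E u < j) (hjL : j ≤ L u) {i : ℤ × ℤ}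
    (h1 : |i.1 - ((c.leg N v₀ u).lv j).1| ≤ 2) (h2 : |i.2 - ((c.leg N v₀ u).lv j).2| ≤ 2) :
    ∃ τ : ℝ, -(68 * (ℓ / N)) ≤ τ ∧ τ ≤ d / 4 - ℓ ∧
      w - (τ : ℂ) * c.dv ∈ obk ℓ (br (fce N (v₀ + u) i)) := by
  obtain ⟨k1, k2, k3, k4, k5, k6⟩ : 0 < ℓ ∧ 0 < ϱ ∧ 2240 * ℓ ≤ d ∧ 32 * (τ₀ + ϱ) + 32 * ℓ ≤ d ∧
      20 * ℓ + 4 * ϱ ≤ τ₀ ∧ 64 * ℓ * (2 * c.m) + 192 * ℓ ≤ d := by
    have h1 := C.cut.hℓ
    have h2 := C.cut.hϱ
    have h3 := C.cut.hd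
    have h4 := C.cut.hqd
    have h5 : (32 : ℝ) ≤ c.q := by exact_mod_cast C.cut.hq
    have h6 := C.cut.hτ
    have h7 := C.cut.hmd
    refine ⟨h1, h2, by nlinarith, by linarith, by linarith, by linarith⟩
  have hu2 : u.2 = 0 ∧ (u.1 = 0 ∨ u.1 = 1) := by
    rcases hu with rfl | rfl <;> simp
  have hb1 : (v₀ + u).1 = v₀.1 + u.1 := rfl
  have hb2 : (v₀ + u).2 = v₀.2 + u.2 := rfl
  have hu1 : (0 : ℝ) ≤ u.1 ∧ (u.1 : ℝ) ≤ 1 := by
    rcases hu2.2 with h | h <;> rw [h] <;> norm_num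
  have hend := C.endw u hu
  have hE := C.hE u hu
  have hN := C.hN
  obtain ⟨Q, rfl⟩ := C.hN2
  have hQ : 4 ≤ Q := by omega
  have hQ' : (4 : ℝ) ≤ Q := by exact_mod_cast hQ
  have hH : ((4 * Q : ℕ) : ℤ) / 2 = 2 * Q := by push_cast; omega
  obtain ⟨h, hh⟩ : ∃ h : ℝ, h = ℓ / (4 * Q : ℕ) := ⟨_, rfl⟩
  have hNh : h * (4 * Q) = ℓ := by
    rw [hh]; push_cast; field_simp
  have hh0 : 0 < h := by rw [hh]; positivity
  have h16 : 16 * h ≤ ℓ := by nlinarith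
  rw [hH] at hE
  rw [abs_le] at h1 h2
  have hNz : (0 : ℤ) < (4 * Q : ℕ) := by push_cast; omega
  rw [dist_eq_norm] at hend
  have hre := (Complex.abs_re_le_norm _).trans hend
  have him := (Complex.abs_im_le_norm _).trans hend
  rw [Complex.sub_re, abs_le] at hre
  rw [Complex.sub_im, abs_le] at him
  simp only [fc] at hre him
  rw [← hh] at hre him ⊢
  obtain ⟨e1, e2⟩ := leg_pn (N := 4 * Q) (v₀ := v₀) (u := u) ho hp
  have hsg : (c.sg : ℝ) = -1 := by simp [CutP.sg, hp]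
  rw [ho, hp] at hE
  simp only at hE
  rw [(e2 j).1] at h1
  rw [(e2 j).2, hH] at h2
  rw [(e2 (L u)).1, hb1] at hre
  obtain ⟨g1, g2⟩ := C.cut.eh ho
  rw [hsg] at g1 g2
  obtain ⟨r1, r2⟩ := C.row ho
  rw [← hh] at r2
  have hE' : (E u : ℝ) + 1 = (2 * c.e + 1) * (4 * Q) + 1 := by exact_mod_cast hE
  obtain ⟨f1, f2⟩ := fce_coord (x := i.1 - (v₀ + u).1) k1 (show 0 < 4 * Q by omega)
  rw [← hh] at f1 f2
  have hF2 : (i.2 - (v₀ + u).2) / ((4 * Q : ℕ) : ℤ) = -1 :=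
    le_antisymm ((dv_le hNz).2 (by push_cast; linarith)) ((le_dv hNz).2 (by push_cast; linarith))
  have x1 : i.1 - (v₀ + u).1 ≤ -((E u : ℤ) + 1) + 2 := by omega
  have x2 : -(L u : ℤ) - 2 ≤ i.1 - (v₀ + u).1 := by omega
  have x1' : ((i.1 - (v₀ + u).1 : ℤ) : ℝ) ≤ -((E u : ℝ) + 1) + 2 := by exact_mod_cast x1
  have x2' : -(L u : ℝ) - 2 ≤ ((i.1 - (v₀ + u).1 : ℤ) : ℝ) := by exact_mod_cast x2
  have m1 := mul_le_mul_of_nonneg_left x1' hh0.le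
  have m2 := mul_le_mul_of_nonneg_left x2' hh0.le
  have m3 : h * ((E u : ℝ) + 1) = (2 * c.e + 1) * ℓ + h := by rw [hE', ← hNh]; ring
  have hu1h := mul_le_mul_of_nonneg_left hu1.2 hh0.le
  have hu0h := mul_nonneg hh0.le hu1.1
  push_cast at f1 f2 m1 m2 hre ⊢
  refine ⟨h * ((i.1 : ℝ) - (v₀ + u).1 + 1 / 2) - w.re, by linarith, by linarith, ?_⟩
  refine obk_of k1 ?_ ?_ ?_ ?_
  · simp only [fce, CutP.dv, ho, if_true, Complex.sub_re, Complex.mul_re, Complex.intCast_re,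
      Complex.intCast_im, Complex.ofReal_re, Complex.ofReal_im, hsg]
    push_cast
    linarith
  · simp only [fce, CutP.dv, ho, if_true, Complex.sub_re, Complex.mul_re, Complex.intCast_re,
      Complex.intCast_im, Complex.ofReal_re, Complex.ofReal_im, hsg]
    push_cast
    linarith
  · simp only [fce, CutP.dv, ho, if_true, Complex.sub_im, Complex.mul_im, Complex.intCast_re,
      Complex.intCast_im, Complex.ofReal_re, Complex.ofReal_im, hsg, hF2]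
    push_cast
    linarith
  · simp only [fce, CutP.dv, ho, if_true, Complex.sub_im, Complex.mul_im, Complex.intCast_re,
      Complex.intCast_im, Complex.ofReal_re, Complex.ofReal_im, hsg, hF2]
    push_cast
    linarith

theorem CutLat.face_tau_np (C : CutLat p k S δ ℓ N ψ X κ d ϱ τ₀ v₀ c w jf L E) {u : ℤ × ℤ}
    (ho : c.hor = false) (hp : c.pos = true) (hu : u ∈ Uset) {j : ℕ} (hj : E u < j) (hjL : j ≤ L u) {i : ℤ × ℤ}
    (h1 : |i.1 - ((c.leg N v₀ u).lv j).1| ≤ 2) (h2 : |i.2 - ((c.leg N v₀ u).lv j).2| ≤ 2) :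
    ∃ τ : ℝ, -(68 * (ℓ / N)) ≤ τ ∧ τ ≤ d / 4 - ℓ ∧
      w - (τ : ℂ) * c.dv ∈ obk ℓ (br (fce N (v₀ + u) i)) := by
  obtain ⟨k1, k2, k3, k4, k5, k6⟩ : 0 < ℓ ∧ 0 < ϱ ∧ 2240 * ℓ ≤ d ∧ 32 * (τ₀ + ϱ) + 32 * ℓ ≤ d ∧
      20 * ℓ + 4 * ϱ ≤ τ₀ ∧ 64 * ℓ * (2 * c.m) + 192 * ℓ ≤ d := by
    have h1 := C.cut.hℓ
    have h2 := C.cut.hϱ
    have h3 := C.cut.hd
    have h4 := C.cut.hqd
    have h5 : (32 : ℝ) ≤ c.q := by exact_mod_cast C.cut.hq
    have h6 := C.cut.hτ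
    have h7 := C.cut.hmd
    refine ⟨h1, h2, by nlinarith, by linarith, by linarith, by linarith⟩
  have hu2 : u.2 = 0 ∧ (u.1 = 0 ∨ u.1 = 1) := by
    rcases hu with rfl | rfl <;> simp
  have hb1 : (v₀ + u).1 = v₀.1 + u.1 := rfl
  have hb2 : (v₀ + u).2 = v₀.2 + u.2 := rfl
  have hu1 : (0 : ℝ) ≤ u.1 ∧ (u.1 : ℝ) ≤ 1 := by
    rcases hu2.2 with h | h <;> rw [h] <;> norm_num
  have hend := C.endw u hu
  have hE := C.hE u hu
  have hN := C.hN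
  obtain ⟨Q, rfl⟩ := C.hN2
  have hQ : 4 ≤ Q := by omega
  have hQ' : (4 : ℝ) ≤ Q := by exact_mod_cast hQ
  have hH : ((4 * Q : ℕ) : ℤ) / 2 = 2 * Q := by push_cast; omega
  obtain ⟨h, hh⟩ : ∃ h : ℝ, h = ℓ / (4 * Q : ℕ) := ⟨_, rfl⟩
  have hNh : h * (4 * Q) = ℓ := by
    rw [hh]; push_cast; field_simp
  have hh0 : 0 < h := by rw [hh]; positivity
  have h16 : 16 * h ≤ ℓ := by nlinarith
  rw [hH] at hE
  rw [abs_le] at h1 h2
  have hNz : (0 : ℤ) < (4 * Q : ℕ) := by push_cast; omega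
  rw [dist_eq_norm] at hend
  have hre := (Complex.abs_re_le_norm _).trans hend
  have him := (Complex.abs_im_le_norm _).trans hend
  rw [Complex.sub_re, abs_le] at hre
  rw [Complex.sub_im, abs_le] at him
  simp only [fc] at hre him
  rw [← hh] at hre him ⊢
  obtain ⟨e1, e2⟩ := leg_np (N := 4 * Q) (v₀ := v₀) (u := u) ho hp
  have hsg : (c.sg : ℝ) = 1 := by simp [CutP.sg, hp]
  rw [ho, hp] at hE
  simp only at hE
  rw [(e2 j).1, hH] at h1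
  rw [(e2 j).2, hH] at h2
  rw [(e2 (L u)).2, hH, hb2, hu2.1] at him
  obtain ⟨g1, g2⟩ := C.cut.evp ho hp
  obtain ⟨r1, r2⟩ := C.col ho
  rw [← hh] at r2
  have hE' : (E u : ℝ) + 1 = (c.e + 1) * (4 * Q) + 2 * Q := by exact_mod_cast hE
  obtain ⟨f1, f2⟩ := fce_coord (x := i.2 - (v₀ + u).2) k1 (show 0 < 4 * Q by omega)
  rw [← hh] at f1 f2
  have hF1 : (i.1 - (v₀ + u).1) / ((4 * Q : ℕ) : ℤ) = 2 * c.m := by
    rw [hb1]
    push_cast at h1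
    refine le_antisymm ((dv_le hNz).2 ?_) ((le_dv hNz).2 ?_)
    · push_cast; rcases hu2.2 with h | h <;> linarith
    · push_cast; rcases hu2.2 with h | h <;> linarith
  have x1 : (E u : ℤ) + 1 - 2 - 2 * Q ≤ i.2 - (v₀ + u).2 := by omega
  have x2 : i.2 - (v₀ + u).2 ≤ (L u : ℤ) + 2 - 2 * Q := by omega
  have x1' : (E u : ℝ) + 1 - 2 - 2 * Q ≤ ((i.2 - (v₀ + u).2 : ℤ) : ℝ) := by exact_mod_cast x1
  have x2' : ((i.2 - (v₀ + u).2 : ℤ) : ℝ) ≤ (L u : ℝ) + 2 - 2 * Q := by exact_mod_cast x2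
  have m1 := mul_le_mul_of_nonneg_left x1' hh0.le
  have m2 := mul_le_mul_of_nonneg_left x2' hh0.le
  have m3 : h * ((E u : ℝ) + 1) = (c.e + 1) * ℓ + h * (2 * Q) := by rw [hE', ← hNh]; ring
  have m4 : h * (2 * (Q : ℝ)) = ℓ / 2 := by rw [← hNh]; ring
  have hb2' : ((v₀ + u).2 : ℝ) = v₀.2 := by rw [hb2, hu2.1]; push_cast; ring
  push_cast at f1 f2 m1 m2 him ⊢
  rw [hb2'] at f1 f2 m1 m2
  refine ⟨w.im - h * ((i.2 : ℝ) - v₀.2 + 1 / 2), by linarith, by linarith, ?_⟩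
  refine obk_of k1 ?_ ?_ ?_ ?_
  · simp only [fce, CutP.dv, ho, Bool.false_eq_true, if_false, Complex.sub_re, Complex.mul_re,
      Complex.mul_im, Complex.intCast_re, Complex.I_re, Complex.I_im,
      Complex.intCast_im, Complex.ofReal_re, Complex.ofReal_im, hsg, hF1]
    push_cast
    linarith
  · simp only [fce, CutP.dv, ho, Bool.false_eq_true, if_false, Complex.sub_re, Complex.mul_re,
      Complex.mul_im, Complex.intCast_re, Complex.I_re, Complex.I_im,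
      Complex.intCast_im, Complex.ofReal_re, Complex.ofReal_im, hsg, hF1]
    push_cast
    linarith
  · simp only [fce, CutP.dv, ho, Bool.false_eq_true, if_false, Complex.sub_im, Complex.mul_re,
      Complex.mul_im, Complex.intCast_re, Complex.I_re, Complex.I_im,
      Complex.intCast_im, Complex.ofReal_re, Complex.ofReal_im, hsg]
    push_cast
    linarith
  · simp only [fce, CutP.dv, ho, Bool.false_eq_true, if_false, Complex.sub_im, Complex.mul_re,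
      Complex.mul_im, Complex.intCast_re, Complex.I_re, Complex.I_im,
      Complex.intCast_im, Complex.ofReal_re, Complex.ofReal_im, hsg]
    push_cast
    linarith

theorem CutLat.face_tau_nn (C : CutLat p k S δ ℓ N ψ X κ d ϱ τ₀ v₀ c w jf L E) {u : ℤ × ℤ}
    (ho : c.hor = false) (hp : c.pos = false) (hu : u ∈ Uset) {j : ℕ} (hj : E u < j) (hjL : j ≤ L u) {i : ℤ × ℤ}
    (h1 : |i.1 - ((c.leg N v₀ u).lv j).1| ≤ 2) (h2 : |i.2 - ((c.leg N v₀ u).lv j).2| ≤ 2) :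
    ∃ τ : ℝ, -(68 * (ℓ / N)) ≤ τ ∧ τ ≤ d / 4 - ℓ ∧
      w - (τ : ℂ) * c.dv ∈ obk ℓ (br (fce N (v₀ + u) i)) := by
  obtain ⟨k1, k2, k3, k4, k5, k6⟩ : 0 < ℓ ∧ 0 < ϱ ∧ 2240 * ℓ ≤ d ∧ 32 * (τ₀ + ϱ) + 32 * ℓ ≤ d ∧
      20 * ℓ + 4 * ϱ ≤ τ₀ ∧ 64 * ℓ * (2 * c.m) + 192 * ℓ ≤ d := by
    have h1 := C.cut.hℓ
    have h2 := C.cut.hϱ
    have h3 := C.cut.hd
    have h4 := C.cut.hqd
    have h5 : (32 : ℝ) ≤ c.q := by exact_mod_cast C.cut.hq
    have h6 := C.cut.hτ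
    have h7 := C.cut.hmd
    refine ⟨h1, h2, by nlinarith, by linarith, by linarith, by linarith⟩
  have hu2 : u.2 = 0 ∧ (u.1 = 0 ∨ u.1 = 1) := by
    rcases hu with rfl | rfl <;> simp
  have hb1 : (v₀ + u).1 = v₀.1 + u.1 := rfl
  have hb2 : (v₀ + u).2 = v₀.2 + u.2 := rfl
  have hu1 : (0 : ℝ) ≤ u.1 ∧ (u.1 : ℝ) ≤ 1 := by
    rcases hu2.2 with h | h <;> rw [h] <;> norm_num
  have hend := C.endw u hu
  have hE := C.hE u hu
  have hN := C.hN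
  obtain ⟨Q, rfl⟩ := C.hN2
  have hQ : 4 ≤ Q := by omega
  have hQ' : (4 : ℝ) ≤ Q := by exact_mod_cast hQ
  have hH : ((4 * Q : ℕ) : ℤ) / 2 = 2 * Q := by push_cast; omega
  obtain ⟨h, hh⟩ : ∃ h : ℝ, h = ℓ / (4 * Q : ℕ) := ⟨_, rfl⟩
  have hNh : h * (4 * Q) = ℓ := by
    rw [hh]; push_cast; field_simp
  have hh0 : 0 < h := by rw [hh]; positivity
  have h16 : 16 * h ≤ ℓ := by nlinarith
  rw [hH] at hE
  rw [abs_le] at h1 h2
  have hNz : (0 : ℤ) < (4 * Q : ℕ) := by push_cast; omega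
  rw [dist_eq_norm] at hend
  have hre := (Complex.abs_re_le_norm _).trans hend
  have him := (Complex.abs_im_le_norm _).trans hend
  rw [Complex.sub_re, abs_le] at hre
  rw [Complex.sub_im, abs_le] at him
  simp only [fc] at hre him
  rw [← hh] at hre him ⊢
  obtain ⟨e1, e2⟩ := leg_nn (N := 4 * Q) (v₀ := v₀) (u := u) ho hp
  have hsg : (c.sg : ℝ) = -1 := by simp [CutP.sg, hp]
  rw [ho, hp] at hE
  simp only at hE
  rw [(e2 j).1, hH] at h1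
  rw [(e2 j).2, hH] at h2
  rw [(e2 (L u)).2, hH, hb2, hu2.1] at him
  obtain ⟨g1, g2⟩ := C.cut.evn ho hp
  obtain ⟨r1, r2⟩ := C.col ho
  rw [← hh] at r2
  have hE' : (E u : ℝ) + 1 = c.e * (4 * Q) - 2 * Q + 1 := by exact_mod_cast hE
  obtain ⟨f1, f2⟩ := fce_coord (x := i.2 - (v₀ + u).2) k1 (show 0 < 4 * Q by omega)
  rw [← hh] at f1 f2
  have hF1 : (i.1 - (v₀ + u).1) / ((4 * Q : ℕ) : ℤ) = 2 * c.m := by
    rw [hb1]
    push_cast at h1
    refine le_antisymm ((dv_le hNz).2 ?_) ((le_dv hNz).2 ?_)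
    · push_cast; rcases hu2.2 with h | h <;> linarith
    · push_cast; rcases hu2.2 with h | h <;> linarith
  have x1 : i.2 - (v₀ + u).2 ≤ -((E u : ℤ) + 1) + 2 - 2 * Q := by omega
  have x2 : -(L u : ℤ) - 2 - 2 * Q ≤ i.2 - (v₀ + u).2 := by omega
  have x1' : ((i.2 - (v₀ + u).2 : ℤ) : ℝ) ≤ -((E u : ℝ) + 1) + 2 - 2 * Q := by exact_mod_cast x1
  have x2' : -(L u : ℝ) - 2 - 2 * Q ≤ ((i.2 - (v₀ + u).2 : ℤ) : ℝ) := by exact_mod_cast x2
  have m1 := mul_le_mul_of_nonneg_left x1' hh0.le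
  have m2 := mul_le_mul_of_nonneg_left x2' hh0.le
  have m3 : h * ((E u : ℝ) + 1) = c.e * ℓ - h * (2 * Q) + h := by rw [hE', ← hNh]; ring
  have m4 : h * (2 * (Q : ℝ)) = ℓ / 2 := by rw [← hNh]; ring
  have hb2' : ((v₀ + u).2 : ℝ) = v₀.2 := by rw [hb2, hu2.1]; push_cast; ring
  push_cast at f1 f2 m1 m2 him ⊢
  rw [hb2'] at f1 f2 m1 m2
  refine ⟨h * ((i.2 : ℝ) - v₀.2 + 1 / 2) - w.im, by linarith, by linarith, ?_⟩
  refine obk_of k1 ?_ ?_ ?_ ?_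
  · simp only [fce, CutP.dv, ho, Bool.false_eq_true, if_false, Complex.sub_re, Complex.mul_re,
      Complex.mul_im, Complex.intCast_re, Complex.I_re, Complex.I_im,
      Complex.intCast_im, Complex.ofReal_re, Complex.ofReal_im, hsg, hF1]
    push_cast
    linarith
  · simp only [fce, CutP.dv, ho, Bool.false_eq_true, if_false, Complex.sub_re, Complex.mul_re,
      Complex.mul_im, Complex.intCast_re, Complex.I_re, Complex.I_im,
      Complex.intCast_im, Complex.ofReal_re, Complex.ofReal_im, hsg, hF1]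
    push_cast
    linarith
  · simp only [fce, CutP.dv, ho, Bool.false_eq_true, if_false, Complex.sub_im, Complex.mul_re,
      Complex.mul_im, Complex.intCast_re, Complex.I_re, Complex.I_im,
      Complex.intCast_im, Complex.ofReal_re, Complex.ofReal_im, hsg]
    push_cast
    linarith
  · simp only [fce, CutP.dv, ho, Bool.false_eq_true, if_false, Complex.sub_im, Complex.mul_re,
      Complex.mul_im, Complex.intCast_re, Complex.I_re, Complex.I_im,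
      Complex.intCast_im, Complex.ofReal_re, Complex.ofReal_im, hsg]
    push_cast
    linarith

/-- The point of the line of the segment in the face of a square near the leg beyond the exit. -/
theorem CutLat.face_tau (C : CutLat p k S δ ℓ N ψ X κ d ϱ τ₀ v₀ c w jf L E) {u : ℤ × ℤ}
    (hu : u ∈ Uset) {j : ℕ} (hj : E u < j) (hjL : j ≤ L u) {i : ℤ × ℤ}
    (h1 : |i.1 - ((c.leg N v₀ u).lv j).1| ≤ 2) (h2 : |i.2 - ((c.leg N v₀ u).lv j).2| ≤ 2) :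
    ∃ τ : ℝ, -(68 * (ℓ / N)) ≤ τ ∧ τ ≤ d / 4 - ℓ ∧
      w - (τ : ℂ) * c.dv ∈ obk ℓ (br (fce N (v₀ + u) i)) := by
  rcases ho : c.hor with _ | _ <;> rcases hp : c.pos with _ | _
  · exact C.face_tau_nn ho hp hu hj hjL h1 h2
  · exact C.face_tau_np ho hp hu hj hjL h1 h2
  · exact C.face_tau_pn ho hp hu hj hjL h1 h2
  · exact C.face_tau_pp ho hp hu hj hjL h1 h2

end Vale.Agent.P167.CL
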