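import Vale.Agent.P167.CL.Geo9

/-!
# P167, block CLOSE [ASM]: the bricks of the cut are faces of `pE`
-/

set_option autoImplicit false

open MeasureTheory Filter Topology Set Metric
open scoped NNReal ENNReal

namespace Vale.Agent.P167.CL

open Vale.Agent.P164 (loewnerDomain Zf)
open Vale.Agent.P167.E6 Vale.Agent.P167.E2 Vale.Agent.P167.H411
open Vale.Agent.P167.H756
open Vale.Agent.P167.H446.Cut
open Vale.Agent.P167.H450

/-- The faces of the cut are in the component of the box above the line. -/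
theorem lf_cmp {c : CutP} {A : Set (ℤ × ℤ)} {F₀ : ℤ × ℤ} (hq : 0 < c.q) (hm : 0 ≤ 2 * c.m) (hlf : c.lf ⊆ A)
    (h0 : ∀ x : ℤ, -c.q ≤ x → x < c.q → (x, 0) ∈ Cmp A F₀) (h0' : ∀ x : ℤ, -c.q ≤ x → x < c.q →
      (x, 0) ∈ A) {G : ℤ × ℤ} (hG : G ∈ c.lf) : G ∈ Cmp A F₀ := by
  -- the box
  have hbox : ∀ x y : ℤ, -c.q ≤ y → y < 0 → -c.q ≤ x → x < c.q → (x, y) ∈ Cmp A F₀ := by
    intro x y h1 h2 h3 h4
    refine Relation.ReflTransGen.trans (h0 x h3 h4) (col_conn fun a ha1 ha2 => ?_)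
    rcases eq_or_ne a 0 with rfl | hne
    · exact h0' x h3 h4
    · exact hlf (Or.inl ⟨by simp only; omega, by simp only; omega, h3, h4⟩)
  have h00 : ((0 : ℤ), (-1 : ℤ)) ∈ Cmp A F₀ := hbox 0 (-1) (by omega) (by omega) (by omega) hq
  obtain ⟨a, b⟩ := G
  rcases hG with ⟨h1, h2, h3, h4⟩ | ⟨hh, h2, h3, h4⟩ | ⟨hh, h2, h3, h4⟩ | ⟨hh, hp, h2, h3, h4⟩ |
    ⟨hh, hp, h2, h3, h4⟩
  · exact hbox a b h1 h2 h3 h4
  · simp only at h2 h3 h4
    subst h2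
    refine Relation.ReflTransGen.trans h00 (row_conn fun x hx1 hx2 => hlf (Or.inr (Or.inl ?_)))
    refine ⟨hh, rfl, ?_, ?_⟩
    · simp only
      unfold CutP.sg at h3 h4 ⊢
      split_ifs at h3 h4 ⊢ <;> omega
    · simp only
      unfold CutP.sg at h3 h4 ⊢
      split_ifs at h3 h4 ⊢ <;> omega
  · simp only at h2 h3 h4
    subst h2
    refine Relation.ReflTransGen.trans h00 (row_conn fun x hx1 hx2 => hlf (Or.inr (Or.inr (Or.inl ?_))))
    exact ⟨hh, rfl, by simp only; omega, by simp only; omega⟩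
  · simp only at h2 h3 h4
    subst h2
    have h1 : Relation.ReflTransGen (Adj A) ((0 : ℤ), (-1 : ℤ)) (2 * c.m, -1) :=
      row_conn fun x hx1 hx2 => hlf (Or.inr (Or.inr (Or.inl
        ⟨hh, rfl, by simp only; omega, by simp only; omega⟩)))
    refine Relation.ReflTransGen.trans h00 (h1.trans (col_conn fun y hy1 hy2 => hlf ?_))
    exact Or.inr (Or.inr (Or.inr (Or.inl
      ⟨hh, hp, rfl, by simp only; omega, by simp only; omega⟩)))
  · simp only at h2 h3 h4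
    subst h2
    have h1 : Relation.ReflTransGen (Adj A) ((0 : ℤ), (-1 : ℤ)) (2 * c.m, -1) :=
      row_conn fun x hx1 hx2 => hlf (Or.inr (Or.inr (Or.inl
        ⟨hh, rfl, by simp only; omega, by simp only; omega⟩)))
    refine Relation.ReflTransGen.trans h00 (h1.trans (col_conn fun y hy1 hy2 => hlf ?_))
    exact Or.inr (Or.inr (Or.inr (Or.inr
      ⟨hh, hp, rfl, by simp only; omega, by simp only; omega⟩)))

/-- **The bricks of the cut are faces of `pE`.** -/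
theorem StgOf.KB_SE {s : Stg} {T R X Y Rd cd κ μ d τ₀ ρ εn ℓ ϱ : ℝ} {ψ : ℂ → ℂ} {c : CutP} {w : ℂ}
    {F₀ : ℤ × ℤ} {W : ℝ → ℝ} {t : ℝ} {ip ia ib : ZMod s.mP}
    (H : StgOf s T R X Y Rd cd κ μ d τ₀ ρ εn ℓ ϱ ψ c w F₀ W t ip ia ib) : s.KB ⊆ s.SE := by
  have hs := H.ok
  have hq : 0 < c.q := by have := H.cut.cc.hq; omega
  have hm : 0 ≤ 2 * c.m := by have := H.cut.cc.hm; omega
  have hsub : ∀ F ∈ s.SP, F ∈ s.SE := fun F hF => (Finset.mem_sdiff.1 (Stg.SP_sub hs hF)).1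
  have hKG : c.KF ⊆ s.GE := by rw [← H.cut.hKB]; exact hs.KG
  intro F hF
  rw [Stg.memE hs]
  have hFK : F ∈ c.KF := by rw [← H.cut.hKB]; exact Finset.mem_coe.2 hF
  obtain ⟨G, hG, hb⟩ := hFK
  have hGc := lf_cmp (A := s.GE) (F₀ := s.F₀) hq hm (fun F hF => hKG ⟨F, hF, rfl⟩)
    (fun x h1 h2 => (Stg.memE hs).1 (hsub _ (H.box (x, 0) le_rfl hq h1 h2)))
    (fun x h1 h2 => Stg.SE_good hs (hsub _ (H.box (x, 0) le_rfl hq h1 h2))) hG
  refine cmp_of_vadj (bricky_gf _ _ _ _) (hKG ⟨G, hG, hb⟩) hGc (hKG ⟨G, hG, rfl⟩) ?_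
  obtain ⟨h1, h2⟩ := (br_eq_iff (F := F) (b := br G)).1 hb
  obtain ⟨h3, h4⟩ := (br_eq_iff (F := G) (b := br G)).1 rfl
  constructor
  · rw [abs_le]; omega
  · rw [abs_le]; omega

/-- The other faces of `pE` do not meet the cut. -/
theorem StgOf.off_cut {s : Stg} {T R X Y Rd cd κ μ d τ₀ ρ εn ℓ ϱ : ℝ} {ψ : ℂ → ℂ} {c : CutP}
    {w : ℂ} {F₀ : ℤ × ℤ} {W : ℝ → ℝ} {t : ℝ} {ip ia ib : ZMod s.mP}
    (H : StgOf s T R X Y Rd cd κ μ d τ₀ ρ εn ℓ ϱ ψ c w F₀ W t ip ia ib) {F : ℤ × ℤ}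
    (hF : F ∈ s.SE) (hn : (obk ℓ (br F) ∩ cutSet ℓ d c w).Nonempty) : F ∈ c.KF := by
  by_contra hK
  have h1 : F ∉ s.KB := fun h => hK (by rw [← H.cut.hKB]; exact Finset.mem_coe.2 h)
  have h2 := H.ok.offB F (Stg.SE_good H.ok hF) h1
  rw [H.cut.hB, H.eℓ] at h2
  obtain ⟨z, hz, hz'⟩ := hn
  exact disjoint_left.1 h2 hz hz'

end Vale.Agent.P167.CL
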