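import Vale.Agent.P167.CL.CutR
import Vale.Agent.P167.CL.Geo10

/-!
# P167, block CUT: the inner polygon of a stage near the leg
-/

set_option autoImplicit false

open MeasureTheory Filter Topology Set Metric

namespace Vale.Agent.P167.CL

open Vale.Agent.P153.R2.L1 (HH)
open Vale.Agent.P167.H531 Vale.Agent.P167.H558
open Vale.Agent.P167.E6 Vale.Agent.P167.E2 Vale.Agent.P167.H411 Vale.Agent.P167.H450
open Vale.Agent.P167.H446.Cut

variable {n k : ℕ} {p : ZMod n → ℤ × ℤ} {S : Finset (ℤ × ℤ)} {δ ℓ : ℝ} {N : ℕ}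
    {ψ : ℂ → ℂ} {X κ d ϱ τ₀ : ℝ} {v₀ : ℤ × ℤ} {c : CutP} {w : ℂ} {jf L E : ℤ × ℤ → ℕ}

/-- **The inner polygon of a stage near the leg.** -/
theorem StgOf.legPE {s : Stg} {T R Y Rd cd μ ρ εn : ℝ} {ψ' : ℂ → ℂ}
    {F₀ : ℤ × ℤ} {W : ℝ → ℝ} {t : ℝ} {ip ia ib : ZMod s.mP}
    (H : StgOf s T R X Y Rd cd κ μ d τ₀ ρ εn ℓ ϱ ψ' c w F₀ W t ip ia ib)
    (C : CutLat p k S δ ℓ N ψ X κ d ϱ τ₀ v₀ c w jf L E) (hN : 80 * ℓ ≤ N * ϱ) {u : ℤ × ℤ}
    (hu : u ∈ Uset) : LegPE (c.leg N v₀ u) (E u) (L u) (sE s.SE N (v₀ + u)) := by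
  have hN16 := C.hN
  have hN' : (0 : ℝ) < N := by exact_mod_cast (by omega : 0 < N)
  have hq := C.cut.hq
  refine legPE_of_faces C.cut.ok C.hN C.hN2 hu (C.hE u hu) (C.hEL u hu) ?_ ?_ ?_
  · rw [← H.cut.hKB]
    exact Finset.coe_subset.2 H.KB_SE
  · intro F h1 h2 h3
    exact (Finset.mem_sdiff.1 (Stg.SP_sub H.ok
      (H.box F (by omega) (by omega) (by omega) (by omega)))).1
  · intro j hj hjL i h1 h2 hF
    obtain ⟨τ, t1, t2, t3⟩ := C.face_tau hu hj hjL h1 h2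
    rcases le_or_gt 0 τ with h0 | h0
    · exact H.off_cut hF ⟨_, t3, Or.inr (mem_lam h0 t2)⟩
    · exfalso
      have hG := Stg.SE_good H.ok hF
      have hw : w ∈ s.D := by
        refine Stg.E1_sub H.ok (hG.1 (w - (τ : ℂ) * c.dv) ?_
          (show w ∈ ball (w - (τ : ℂ) * c.dv) s.ρm from ?_))
        · rw [H.eℓ]
          exact obk_subset_bk t3
        · rw [mem_ball, dist_eq_norm, sub_sub_cancel, norm_mul, norm_dv, mul_one,
            Complex.norm_real, Real.norm_eq_abs, abs_of_neg h0, H.eρ]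
          have h4 : 68 * (ℓ / N) < ϱ := by
            rw [← mul_div_assoc, div_lt_iff₀ hN']
            have := C.cut.hℓ
            nlinarith
          linarith
      exact H.cut.cc.out hw

end Vale.Agent.P167.CL
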