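import Vale.Agent.P167.CL.CutNDefs
import Vale.Agent.P167.CL.Path

/-!
# P167, block CUT: the cut for all Loewner chains of the class

`cutT : S_cutT` : from the cut at time `0` to all slit domains.
-/

set_option autoImplicit false

open MeasureTheory Filter Topology Set Metric

namespace Vale.Agent.P167.CL

open Vale.Agent.P153.R2.L1 (HH mem_HH)
open Vale.Agent.P164 (loewnerDomain)
open Vale.Agent.P167.E6 Vale.Agent.P167.E2 Vale.Agent.P167.H411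
open Vale.Agent.P167.H756

/-- The geometric hypotheses for a smaller domain which is the same near `w`. -/
theorem CutC.sub {ℓ ϱ μ d τ₀ : ℝ} {c : CutP} {D D' : Set ℂ} {w : ℂ} (H : CutC ℓ ϱ μ d τ₀ c D w)
    (hD : D' ⊆ D) (h : D ∩ ball w (8 * d) ⊆ D') : CutC ℓ ϱ μ d τ₀ c D' w :=
  { H with
    out := fun hw => H.out (hD hw)
    clr := by
      intro τ h0 h1 z hz
      refine h ⟨H.clr τ h0 h1 hz, ?_⟩
      have hdv : ‖c.dv‖ = 1 := by
        unfold CutP.dv CutP.sg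
        rcases c.hor <;> rcases c.pos <;> simp
      rw [mem_ball, dist_eq_norm] at hz ⊢
      have e : z - w = (z - (w - (τ : ℂ) * c.dv)) - (τ : ℂ) * c.dv := by ring
      rw [e]
      calc ‖(z - (w - (τ : ℂ) * c.dv)) - (τ : ℂ) * c.dv‖
          ≤ ‖z - (w - (τ : ℂ) * c.dv)‖ + ‖(τ : ℂ) * c.dv‖ := norm_sub_le _ _
        _ = ‖z - (w - (τ : ℂ) * c.dv)‖ + τ := by
            rw [norm_mul, hdv, mul_one, Complex.norm_real, Real.norm_of_nonneg h0.le]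
        _ < 8 * d := by linarith }

/-- Points near `X` survive. -/
theorem dom_near {T R X : ℝ} {W : ℝ → ℝ} {t : ℝ} (H : Drv T R W t) (hX0 : 0 < X)
    (hX : 8 * R ≤ X) (hX2 : 64 * T ≤ X ^ 2) {z : ℂ} (hz0 : 0 < z.im) (hz : dist z X ≤ X / 2) :
    z ∈ loewnerDomain W t := by
  have e : ‖(X : ℂ)‖ = X := by rw [Complex.norm_real, Real.norm_of_nonneg hX0.le]
  rw [dist_eq_norm] at hz
  have h1 : ‖(X : ℂ)‖ ≤ ‖z‖ + ‖z - X‖ := by
    have e2 : (X : ℂ) = z - (z - X) := by ring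
    calc ‖(X : ℂ)‖ = ‖z - (z - X)‖ := by rw [← e2]
      _ ≤ _ := norm_sub_le _ _
  rw [e] at h1
  have h2 : X / 2 ≤ ‖z‖ := by linarith
  have h3 : (X / 2) ^ 2 ≤ ‖z‖ ^ 2 := by gcongr
  rw [div_pow] at h3
  exact H.dom hz0 (by linarith) (by linarith)

/-- `cc`. -/
theorem cc_of {ℓ : ℝ} {N : ℕ} {ψ : ℂ → ℂ} {T R X κ d ϱ τ₀ : ℝ} {c : CutP} {w : ℂ}
    (C : CutM ℓ N ψ X κ d ϱ τ₀ c w) (hX0 : 0 < X) (hX : 8 * R ≤ X)
    (hX2 : 64 * T ≤ X ^ 2) (hκ : κ ≤ X / 2) {W : ℝ → ℝ} {t : ℝ} (H : Drv T R W t) :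
    CutC ℓ ϱ (2 * ℓ / N) d τ₀ c (ψ '' loewnerDomain W t) w := by
  refine C.cut.sub (image_mono fun z hz => ?_) ?_
  · exact Vale.Agent.P164.im_pos_of_dom H.nn hz
  · rintro _ ⟨⟨z, hz, rfl⟩, hzw⟩
    rw [mem_ball] at hzw
    have hz0 : 0 < z.im := hz
    exact mem_image_of_mem _ (dom_near H hX0 hX hX2 hz0 ((C.nearX z hz0.le hzw.le).trans hκ))

/-- The scale. -/
theorem scale_ge {δ ℓ : ℝ} {N : ℕ} (hδ : 0 < δ) (hN : 0 < N) (h : (N : ℝ) * δ ≤ ℓ) :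
    1 ≤ ℓ / (N * δ) := by
  have : (0 : ℝ) < N := by exact_mod_cast hN
  rw [le_div_iff₀ (by positivity)]
  linarith

/-- Balls and the map to the plane of the faces. -/
theorem ball_psi {δ ℓ : ℝ} {N : ℕ} {v₀ : ℤ × ℤ} (h1 : 1 ≤ ℓ / (N * δ)) {u : ℂ} {r : ℝ} {D : Set ℂ}
    (h : ball u r ⊆ D) :
    ball (((ℓ / (N * δ) : ℝ) : ℂ) * ((1 + Complex.I) * u - δ * pt v₀)) r ⊆
      (fun u => ((ℓ / (N * δ) : ℝ) : ℂ) * ((1 + Complex.I) * u - δ * pt v₀)) '' D := by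
  set s : ℝ := ℓ / (N * δ) with hs
  have hs0 : (s : ℂ) ≠ 0 := by
    have : (0 : ℝ) < s := by linarith
    exact_mod_cast this.ne'
  have hI : (1 + Complex.I : ℂ) ≠ 0 := by
    intro h
    have := congrArg Complex.re h
    simp at this
  have hIn : 1 ≤ ‖(1 + Complex.I : ℂ)‖ := by
    have := Complex.abs_re_le_norm (1 + Complex.I)
    simpa using this
  intro z hz
  refine ⟨(z / s + δ * pt v₀) / (1 + Complex.I), h ?_, ?_⟩
  · rw [mem_ball, dist_eq_norm] at hz ⊢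
    have e : z - (s : ℂ) * ((1 + Complex.I) * u - δ * pt v₀) =
        s * (1 + Complex.I) * ((z / s + δ * pt v₀) / (1 + Complex.I) - u) := by
      field_simp
      ring
    rw [e, norm_mul, norm_mul, Complex.norm_real, Real.norm_of_nonneg (by linarith)] at hz
    have h2 : (1 : ℝ) ≤ s * ‖(1 + Complex.I : ℂ)‖ := by nlinarith
    have h3 := mul_le_mul_of_nonneg_right h2
      (norm_nonneg ((z / s + δ * pt v₀) / (1 + Complex.I) - u))
    rw [one_mul] at h3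
    linarith
  · show (s : ℂ) * ((1 + Complex.I) * ((z / s + δ * pt v₀) / (1 + Complex.I)) - δ * pt v₀) = z
    field_simp
    ring

/-- Back from the plane of the faces. -/
theorem ball_back {δ ℓ : ℝ} {N : ℕ} {v₀ : ℤ × ℤ} (h1 : 1 ≤ ℓ / (N * δ)) (h2 : ℓ / (N * δ) ≤ 2)
    {u : ℂ} {r : ℝ} {D : Set ℂ}
    (h : ball (((ℓ / (N * δ) : ℝ) : ℂ) * ((1 + Complex.I) * u - δ * pt v₀)) (4 * r) ⊆
      (fun u => ((ℓ / (N * δ) : ℝ) : ℂ) * ((1 + Complex.I) * u - δ * pt v₀)) '' D) :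
    ball u r ⊆ D := by
  set s : ℝ := ℓ / (N * δ) with hs
  have hs0 : (s : ℂ) ≠ 0 := by
    have : (0 : ℝ) < s := by linarith
    exact_mod_cast this.ne'
  have hI : (1 + Complex.I : ℂ) ≠ 0 := by
    intro h
    have := congrArg Complex.re h
    simp at this
  have hIn : ‖(1 + Complex.I : ℂ)‖ ≤ 2 := by
    calc ‖(1 + Complex.I : ℂ)‖ ≤ ‖(1 : ℂ)‖ + ‖Complex.I‖ := norm_add_le _ _
      _ = 2 := by rw [norm_one, Complex.norm_I]; norm_num
  intro z hz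
  obtain ⟨z', hz', he⟩ := h (show (s : ℂ) * ((1 + Complex.I) * z - δ * pt v₀) ∈ _ by
    rw [mem_ball, dist_eq_norm] at hz ⊢
    have e : (s : ℂ) * ((1 + Complex.I) * z - δ * pt v₀) -
        (s : ℂ) * ((1 + Complex.I) * u - δ * pt v₀) = s * (1 + Complex.I) * (z - u) := by ring
    rw [e, norm_mul, norm_mul, Complex.norm_real, Real.norm_of_nonneg (by linarith)]
    have h3 : s * ‖(1 + Complex.I : ℂ)‖ ≤ 4 := by
      have := norm_nonneg (1 + Complex.I : ℂ)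
      nlinarith
    have h4 : 0 ≤ ‖z - u‖ := norm_nonneg _
    have h5 : s * ‖(1 + Complex.I : ℂ)‖ * ‖z - u‖ ≤ 4 * ‖z - u‖ :=
      mul_le_mul_of_nonneg_right h3 h4
    linarith)
  have h6 : z' = z := by
    have h7 : (s : ℂ) * (1 + Complex.I) * (z' - z) = 0 := by
      have : (s : ℂ) * ((1 + Complex.I) * z' - δ * pt v₀) =
        (s : ℂ) * ((1 + Complex.I) * z - δ * pt v₀) := he
      linear_combination this
    rcases mul_eq_zero.1 h7 with h8 | h8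
    · exact absurd h8 (mul_ne_zero hs0 hI)
    · exact sub_eq_zero.1 h8
  rwa [← h6]

/-- **[CutT]** From time `0` to all slit domains. -/
theorem cutT : S_cutT := by
  intro Φ ψ δ N k p S ψn H T R X Y κ d hT hR hX0 hX hX2 hY0 hY hY2 hκ0 hκ hd
  obtain ⟨c₀, hc₀, hpath⟩ := s_path Φ ψ δ N k p S ψn H T R X Y (d / 32) hT hR hX0 (by linarith)
    (by linarith) hY0 hY hY2 (by positivity)
  refine ⟨c₀, hc₀, fun τ₀ ϱ ℓ hℓ => ?_⟩
  have hδ0 : ∀ᶠ n in atTop, δ n ≤ ℓ / 8 :=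
    (H.appr.2.1.eventually (gt_mem_nhds (show 0 < ℓ / 8 by positivity))).mono fun n h => le_of_lt h
  filter_upwards [hpath, hδ0, good_ev H.appr] with n hp hδn hkn v₀ c w C
  have hδ : 0 < δ n := (H.appr.1 n).1
  have hfl1 : 1 ≤ ⌊ℓ / (4 * δ n)⌋₊ := by
    rw [Nat.one_le_floor_iff, le_div_iff₀ (by positivity)]
    linarith
  set N' : ℕ := 4 * ⌊ℓ / (4 * δ n)⌋₊ with hN'
  have hNc : (N' : ℝ) = 4 * (⌊ℓ / (4 * δ n)⌋₊ : ℝ) := by rw [hN']; push_cast; ring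
  have hx0 : 0 ≤ ℓ / (4 * δ n) := by positivity
  have hx : ℓ / (4 * δ n) * (4 * δ n) = ℓ := by field_simp
  have hfl := Nat.floor_le hx0
  have hfu := Nat.lt_floor_add_one (ℓ / (4 * δ n))
  have hN1 : (N' : ℝ) * δ n ≤ ℓ := by
    rw [hNc]
    calc 4 * (⌊ℓ / (4 * δ n)⌋₊ : ℝ) * δ n = (⌊ℓ / (4 * δ n)⌋₊ : ℝ) * (4 * δ n) := by ring
      _ ≤ ℓ / (4 * δ n) * (4 * δ n) := by gcongr
      _ = ℓ := hx
  have hN2 : ℓ / 2 ≤ (N' : ℝ) * δ n := by
    have h1 : (ℓ / (4 * δ n) - 1) * (4 * δ n) ≤ (⌊ℓ / (4 * δ n)⌋₊ : ℝ) * (4 * δ n) := by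
      gcongr
      linarith
    rw [sub_mul, hx, one_mul] at h1
    rw [hNc]
    linarith
  have hNpos : (0 : ℝ) < N' * δ n := by
    have : (0 : ℝ) < N' := by exact_mod_cast (by omega : 0 < N')
    positivity
  have hs1 : 1 ≤ ℓ / (N' * δ n) := by rw [le_div_iff₀ hNpos]; linarith
  have hs2 : ℓ / (N' * δ n) ≤ 2 := by rw [div_le_iff₀ hNpos]; linarith
  have hX64 : 64 * T ≤ X ^ 2 := by linarith
  refine ⟨fun W t hW => cc_of C hX0 (by linarith) hX64 (by linarith) hW, C.nearX, fun W t hW => ?_⟩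
  have hclr := C.cut.clr (d / 4) (by positivity) (by linarith)
  obtain ⟨z, hz, hzw⟩ := hclr (mem_ball_self (by positivity))
  have hz0 : 0 < z.im := hz
  have hdv : ‖c.dv‖ = 1 := by
    unfold CutP.dv CutP.sg
    rcases c.hor <;> rcases c.pos <;> simp
  have hzX : dist z X ≤ κ := by
    refine C.nearX z hz0.le ?_
    rw [hzw, dist_eq_norm]
    have e : w - ((d / 4 : ℝ) : ℂ) * c.dv - w = -(((d / 4 : ℝ) : ℂ) * c.dv) := by ring
    rw [e, norm_neg, norm_mul, hdv, mul_one, Complex.norm_real, Real.norm_of_nonneg (by positivity)]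
    linarith
  have himg : ψn n '' HH = Om (δ n) (S n) := (H.isU n hkn).img
  have hcomp : ∀ D : Set ℂ, Psi (δ n) ℓ N' v₀ (ψn n) '' D =
      (fun u => ((ℓ / (N' * δ n) : ℝ) : ℂ) * ((1 + Complex.I) * u - δ n * pt v₀)) '' (ψn n '' D) :=
    fun D => by rw [image_image]; rfl
  have hball : ball (ψn n z) (d / 32) ⊆ Om (δ n) (S n) := by
    rw [← himg]
    refine ball_back (v₀ := v₀) hs1 hs2 ?_
    rw [← hcomp]
    have e1 : ((ℓ / (N' * δ n) : ℝ) : ℂ) * ((1 + Complex.I) * ψn n z - δ n * pt v₀) =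
        w - ((d / 4 : ℝ) : ℂ) * c.dv := hzw
    rw [e1]
    refine (ball_subset_ball ?_).trans hclr
    linarith
  obtain ⟨C₁, hC1, hC2, hC3, hC4⟩ := hp W t hW z hz0 (hzX.trans (by linarith)) hball
  refine ⟨(fun u => ((ℓ / (N' * δ n) : ℝ) : ℂ) * ((1 + Complex.I) * u - δ n * pt v₀)) '' C₁,
    hC1.image _ (by fun_prop), mem_image_of_mem _ hC2, ⟨_, hC3, hzw⟩, ?_⟩
  rintro _ ⟨u, hu, rfl⟩
  rw [hcomp]
  exact ball_psi hs1 (hC4 u hu)

end Vale.Agent.P167.CL
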