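import Vale.Agent.P167.CL.CutNDefs
import Vale.Agent.P167.CL.Geo2

/-!
# P167, block CLOSE [D], first part: the inner polygon near the cut (arithmetic of the faces)

`SEh`: the faces `SE` contain the bricks of the cut, their other bricks do not meet the segment
`lam`, and they keep the distance `ϱ` from `w`. Then `LegPE`.
-/

set_option autoImplicit false

open MeasureTheory Filter Topology Set Metric

namespace Vale.Agent.P167.CL

open Vale.Agent.P153.R2.L1 (HH)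
open Vale.Agent.P167.H531 Vale.Agent.P167.H558
open Vale.Agent.P167.E6 Vale.Agent.P167.E2 Vale.Agent.P167.H411 Vale.Agent.P167.H450

/-! ### Division -/

theorem le_dvD {a N x : ℤ} (hN : 0 < N) (h : a * N ≤ x) : a ≤ x / N := Int.le_ediv_of_mul_le hN h

theorem dv_ltD {a N x : ℤ} (hN : 0 < N) (h : x < a * N) : x / N < a := Int.ediv_lt_of_lt_mul hN h

theorem dv_leD {N x : ℤ} (hN : 0 < N) : x / N * N ≤ x := Int.ediv_mul_le x hN.ne'

theorem lt_dvD {N x : ℤ} (hN : 0 < N) : x < (x / N + 1) * N := Int.lt_ediv_add_one_mul_self x hN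

/-! ### The faces of the cut -/

theorem kf_of {c : CutP} {F : ℤ × ℤ} (h : F ∈ c.lf) : F ∈ c.KF := ⟨F, h, rfl⟩

/-- The size of `e`. -/
theorem CutC.e_ge {ℓ ϱ μ d τ₀ : ℝ} {c : CutP} {D : Set ℂ} {w : ℂ} (h : CutC ℓ ϱ μ d τ₀ c D w) :
    c.q + 3 ≤ c.e := by
  have h1 := h.hℓ
  have h2 := h.hqd
  have h3 := h.hd
  have h4 := h.hμℓ
  have h5 := h.hϱ
  have h6 := h.hτ
  have h7 := h.hq
  have h8 : (32 : ℝ) ≤ c.q := by exact_mod_cast h7
  have key : ∀ x : ℝ, d / 4 - μ ≤ x → x - τ₀ - ϱ < ℓ * (2 * c.e + 3) → c.q + 3 ≤ c.e := by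
    intro x hx hx2
    have a1 : ℓ * (14 * (c.q + 3) - 1) < ℓ * (2 * c.e + 3) := by nlinarith
    have a2 := lt_of_mul_lt_mul_left a1 h1.le
    have a3 : ((14 * (c.q + 3) - 1 : ℤ) : ℝ) < ((2 * c.e + 3 : ℤ) : ℝ) := by push_cast; exact a2
    have a4 : 14 * (c.q + 3) - 1 < 2 * c.e + 3 := by exact_mod_cast a3
    omega
  have key' : ∀ x : ℝ, d / 4 - μ ≤ x → x - τ₀ - ϱ < ℓ * (c.e + 2) → c.q + 3 ≤ c.e := by
    intro x hx hx2
    have a1 : ℓ * (14 * (c.q + 3) - 1) < ℓ * (c.e + 2) := by nlinarith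
    have a2 := lt_of_mul_lt_mul_left a1 h1.le
    have a3 : ((14 * (c.q + 3) - 1 : ℤ) : ℝ) < ((c.e + 2 : ℤ) : ℝ) := by push_cast; exact a2
    have a4 : 14 * (c.q + 3) - 1 < c.e + 2 := by exact_mod_cast a3
    omega
  rcases hh : c.hor with _ | _
  · rcases hp : c.pos with _ | _
    · have b1 := (h.posv hh).2
      have b2 := (h.evn hh hp).2
      have e : c.sg = -1 := by simp [CutP.sg, hp]
      rw [e] at b1
      push_cast at b1
      have b3 := (abs_le.1 b1).1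
      exact key' (-w.im) (by linarith) (by nlinarith)
    · have b1 := (h.posv hh).2
      have b2 := (h.evp hh hp).2
      have e : c.sg = 1 := by simp [CutP.sg, hp]
      rw [e] at b1
      push_cast at b1
      have b3 := (abs_le.1 b1).1
      exact key' w.im (by linarith) b2
  · have b1 := (h.posh hh).2
    have b2 := (h.eh hh).2
    exact key _ (by linarith [(abs_le.1 b1).1]) b2

/-- The faces of the cut in the row `-1`, horizontal positive leg. -/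
theorem kf_hp {c : CutP} (hh : c.hor = true) (hp : c.pos = true) (hq : 32 ≤ c.q) {x : ℤ}
    (h1 : -1 ≤ x) (h2 : x ≤ 2 * c.e) : (x, (-1 : ℤ)) ∈ c.KF := by
  have e : c.sg = 1 := by simp [CutP.sg, hp]
  by_cases h : 0 ≤ x
  · exact kf_of (Or.inr (Or.inl ⟨hh, rfl, by rw [e, one_mul]; exact h, by rw [e, one_mul]; exact h2⟩))
  · exact kf_of (Or.inl ⟨by show -c.q ≤ (-1 : ℤ); omega, by norm_num,
      by show -c.q ≤ x; omega, by show x < c.q; omega⟩)

/-- Horizontal negative leg. -/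
theorem kf_hn {c : CutP} (hh : c.hor = true) (hp : c.pos = false) (hq : 32 ≤ c.q)
    (he : c.q + 3 ≤ c.e) {x : ℤ} (h1 : -(2 * c.e + 1) ≤ x) (h2 : x ≤ 1) : (x, (-1 : ℤ)) ∈ c.KF := by
  have e : c.sg = -1 := by simp [CutP.sg, hp]
  by_cases h : 0 ≤ x
  · exact kf_of (Or.inl ⟨by show -c.q ≤ (-1 : ℤ); omega, by norm_num,
      by show -c.q ≤ x; omega, by show x < c.q; omega⟩)
  · by_cases h3 : -(2 * c.e) ≤ x
    · exact kf_of (Or.inr (Or.inl ⟨hh, rfl, by rw [e]; show 0 ≤ -1 * x; omega,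
        by rw [e]; show -1 * x ≤ 2 * c.e; omega⟩))
    · have hx : x = -(2 * c.e + 1) := by omega
      refine ⟨(-(2 * c.e), -1), Or.inr (Or.inl ⟨hh, rfl, ?_, ?_⟩), ?_⟩
      · rw [e]; show 0 ≤ -1 * -(2 * c.e); omega
      · rw [e]; show -1 * -(2 * c.e) ≤ 2 * c.e; omega
      · rw [hx]
        unfold br
        simp only [Prod.mk.injEq, and_true]
        omega

/-- Vertical leg, the row. -/
theorem kf_vr {c : CutP} (hh : c.hor = false) (hq : 32 ≤ c.q) {x : ℤ} (h1 : -1 ≤ x)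
    (h2 : x ≤ 2 * c.m) : (x, (-1 : ℤ)) ∈ c.KF := by
  by_cases h : 0 ≤ x
  · exact kf_of (Or.inr (Or.inr (Or.inl ⟨hh, rfl, h, h2⟩)))
  · exact kf_of (Or.inl ⟨by show -c.q ≤ (-1 : ℤ); omega, by norm_num,
      by show -c.q ≤ x; omega, by show x < c.q; omega⟩)

theorem kf_vp {c : CutP} (hh : c.hor = false) (hp : c.pos = true) {y : ℤ}
    (h1 : -1 ≤ y) (h2 : y ≤ c.e) : (2 * c.m, y) ∈ c.KF :=
  kf_of (Or.inr (Or.inr (Or.inr (Or.inl ⟨hh, hp, rfl, h1, h2⟩))))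

theorem kf_vn {c : CutP} (hh : c.hor = false) (hp : c.pos = false) {y : ℤ}
    (h1 : -c.e ≤ y) (h2 : y ≤ -1) : (2 * c.m, y) ∈ c.KF :=
  kf_of (Or.inr (Or.inr (Or.inr (Or.inr ⟨hh, hp, rfl, h1, h2⟩))))

theorem not_kf_hp {c : CutP} (hh : c.hor = true) (hp : c.pos = true)
    (he : c.q + 3 ≤ c.e) {x : ℤ} (h : 2 * c.e + 1 ≤ x) : (x, (-1 : ℤ)) ∉ c.KF := by
  have e : c.sg = 1 := by simp [CutP.sg, hp]
  rintro ⟨G, hG, hb⟩
  unfold br at hb
  simp only [Prod.mk.injEq] at hb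
  rcases hG with hG | hG | hG | hG | hG
  · omega
  · rw [e] at hG; omega
  · rw [hh] at hG; exact absurd hG.1 (by simp)
  · rw [hh] at hG; exact absurd hG.1 (by simp)
  · rw [hh] at hG; exact absurd hG.1 (by simp)

theorem not_kf_hn {c : CutP} (hh : c.hor = true) (hp : c.pos = false)
    (he : c.q + 3 ≤ c.e) {x : ℤ} (h : x ≤ -(2 * c.e + 2)) : (x, (-1 : ℤ)) ∉ c.KF := by
  have e : c.sg = -1 := by simp [CutP.sg, hp]
  rintro ⟨G, hG, hb⟩
  unfold br at hb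
  simp only [Prod.mk.injEq] at hb
  rcases hG with hG | hG | hG | hG | hG
  · omega
  · rw [e] at hG; omega
  · rw [hh] at hG; exact absurd hG.1 (by simp)
  · rw [hh] at hG; exact absurd hG.1 (by simp)
  · rw [hh] at hG; exact absurd hG.1 (by simp)

theorem not_kf_vp {c : CutP} (hh : c.hor = false) (hp : c.pos = true) (hq : 32 ≤ c.q)
    (he : c.q + 3 ≤ c.e) {y : ℤ} (h : c.e + 1 ≤ y) : (2 * c.m, y) ∉ c.KF := by
  rintro ⟨G, hG, hb⟩
  unfold br at hb
  simp only [Prod.mk.injEq] at hb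
  rcases hG with hG | hG | hG | hG | hG
  · omega
  · rw [hh] at hG; exact absurd hG.1 (by simp)
  · omega
  · omega
  · rw [hp] at hG; exact absurd hG.2.1 (by simp)

theorem not_kf_vn {c : CutP} (hh : c.hor = false) (hp : c.pos = false) (hq : 32 ≤ c.q)
    (he : c.q + 3 ≤ c.e) {y : ℤ} (h : y ≤ -(c.e + 1)) :
    (2 * c.m, y) ∉ c.KF := by
  rintro ⟨G, hG, hb⟩
  unfold br at hb
  simp only [Prod.mk.injEq] at hb
  rcases hG with hG | hG | hG | hG | hG
  · omega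
  · rw [hh] at hG; exact absurd hG.1 (by simp)
  · omega
  · rw [hp] at hG; exact absurd hG.2.1 (by simp)
  · omega

/-- The faces of the cut above the line: only the vertical leg. -/
theorem kf_up {c : CutP} {F : ℤ × ℤ} (h0 : 0 ≤ F.2) (hF : F ∈ c.KF) :
    c.hor = false ∧ 2 * c.m - 1 ≤ F.1 := by
  obtain ⟨G, hG, hb⟩ := hF
  unfold br at hb
  simp only [Prod.mk.injEq] at hb
  rcases hG with hG | hG | hG | hG | hG
  · omega
  · omega
  · omega
  · exact ⟨hG.1, by omega⟩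
  · omega

/-! ### The faces which meet the segment -/

theorem osq_obk {ℓ : ℝ} (hℓ : 0 < ℓ) {F : ℤ × ℤ} {z : ℂ} (h1 : ℓ * F.1 < z.re)
    (h2 : z.re < ℓ * (F.1 + 1)) (h3 : ℓ * F.2 < z.im) (h4 : z.im < ℓ * (F.2 + 1)) :
    z ∈ obk ℓ (br F) := by
  obtain ⟨hb, hb2⟩ := br_eq_iff.1 (rfl : br F = br F)
  have e2 : (F.2 : ℝ) = (br F).2 := by exact_mod_cast hb2
  have key : ℓ * (2 * (br F).1 - (br F).2 : ℝ) ≤ ℓ * F.1 ∧
      ℓ * (F.1 + 1) ≤ ℓ * (2 * (br F).1 - (br F).2 + 2 : ℝ) := by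
    rcases hb with h | h
    · have : (F.1 : ℝ) = 2 * (br F).1 - (br F).2 := by exact_mod_cast h
      rw [this]
      exact ⟨le_rfl, mul_le_mul_of_nonneg_left (by linarith) hℓ.le⟩
    · have : (F.1 : ℝ) = 2 * (br F).1 - (br F).2 + 1 := by exact_mod_cast h
      rw [this]
      exact ⟨mul_le_mul_of_nonneg_left (by linarith) hℓ.le,
        mul_le_mul_of_nonneg_left (by linarith) hℓ.le⟩
  refine ⟨lt_of_le_of_lt key.1 h1, lt_of_lt_of_le h2 key.2, ?_, ?_⟩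
  · rw [← e2]; exact h3
  · rw [← e2]; exact h4

theorem lam_mem {ℓ d : ℝ} {c : CutP} {w : ℂ} {τ : ℝ} (h0 : 0 ≤ τ) (h1 : τ ≤ d / 4 - ℓ)
    (h2 : 0 < d / 4 - ℓ) : w - (τ : ℂ) * c.dv ∈ lam ℓ d c w := by
  refine ⟨τ / (d / 4 - ℓ), 1 - τ / (d / 4 - ℓ), by positivity, ?_, by ring, ?_⟩
  · rw [sub_nonneg, div_le_one h2]; exact h1
  · have e : (τ / (d / 4 - ℓ)) * (d / 4 - ℓ) = τ := div_mul_cancel₀ _ h2.ne'
    have e' : ((τ / (d / 4 - ℓ) : ℝ) : ℂ) * ((d / 4 - ℓ : ℝ) : ℂ) = (τ : ℂ) := by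
      rw [← Complex.ofReal_mul, e]
    rw [Complex.real_smul, Complex.real_smul]
    push_cast at e' ⊢
    linear_combination (-c.dv) * e'

/-- The one dimensional choice. -/
theorem exists_tau {ℓ μ d W : ℝ} {x : ℤ} (hℓ : 0 < ℓ) (hμ : 8 * μ ≤ ℓ) (hx : 3 ≤ x)
    (hW : W ≤ d / 4 + μ) (h : ℓ * x < W) :
    ∃ τ : ℝ, 0 ≤ τ ∧ τ ≤ d / 4 - ℓ ∧ ℓ * x < W - τ ∧ W - τ < ℓ * (x + 1) := by
  have hx' : (3 : ℝ) ≤ x := by exact_mod_cast hx
  have h3 : 3 * ℓ ≤ ℓ * x := by nlinarith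
  refine ⟨W - min (ℓ * (x + 1 / 2)) ((ℓ * x + W) / 2), ?_, ?_, ?_, ?_⟩
  · have := min_le_right (ℓ * ((x : ℝ) + 1 / 2)) ((ℓ * x + W) / 2)
    linarith
  · have : ℓ * x ≤ min (ℓ * (x + 1 / 2)) ((ℓ * x + W) / 2) :=
      le_min (by nlinarith) (by linarith)
    linarith
  · rw [sub_sub_cancel]
    exact lt_min (by nlinarith) (by linarith)
  · rw [sub_sub_cancel]
    exact lt_of_le_of_lt (min_le_left _ _) (by nlinarith)

/-- What is used of the faces of the inner polygon. -/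
structure SEh (ℓ ϱ d : ℝ) (c : CutP) (w : ℂ) (SE : Finset (ℤ × ℤ)) : Prop where
  kf : c.KF ⊆ SE
  off : ∀ F ∈ SE, F ∉ c.KF → Disjoint (obk ℓ (br F)) (lam ℓ d c w)
  far : ∀ F ∈ SE, ∀ z ∈ sqr ℓ F, ϱ ≤ dist z w
  up : ∀ x : ℤ, -1 ≤ x → x ≤ 0 → (x, (0 : ℤ)) ∈ SE

theorem dist_re {z w : ℂ} (h : z.im = w.im) : dist z w = |z.re - w.re| := by
  rw [Complex.dist_eq, ← Complex.abs_re_eq_norm.2 (by simp [h]), Complex.sub_re]

theorem dist_im {z w : ℂ} (h : z.re = w.re) : dist z w = |z.im - w.im| := by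
  rw [Complex.dist_eq, ← Complex.abs_im_eq_norm.2 (by simp [h]), Complex.sub_im]

section exit

variable {ℓ ϱ μ d τ₀ : ℝ} {c : CutP} {D : Set ℂ} {w : ℂ} {SE : Finset (ℤ × ℤ)}

theorem CutC.μd (C : CutC ℓ ϱ μ d τ₀ c D w) : 0 < d / 4 - ℓ := by
  have h1 := C.hd
  have h2 := C.hℓ
  have h3 := C.hϱ
  have h4 := C.hτ
  linarith

/-- The faces beyond the exit, horizontal positive leg. -/
theorem SEh.out_hp (h : SEh ℓ ϱ d c w SE) (C : CutC ℓ ϱ μ d τ₀ c D w)
    (hh : c.hor = true) (hp : c.pos = true) {x : ℤ} (hx : 2 * c.e + 1 ≤ x)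
    (hw : ℓ * x < w.re + ϱ) : (x, (-1 : ℤ)) ∉ SE := by
  have hℓ := C.hℓ
  have hμ := C.hμℓ
  have he := C.e_ge
  have hq := C.hq
  have hsg : c.sg = 1 := by simp [CutP.sg, hp]
  have hdv : c.dv = 1 := by simp [CutP.dv, hh, hsg]
  obtain ⟨p1, p2⟩ := C.posh hh
  rw [hsg] at p2
  push_cast at p2
  rw [abs_le] at p1 p2
  intro hF
  by_cases hlt : ℓ * x < w.re
  · obtain ⟨τ, t1, t2, t3, t4⟩ := exists_tau (d := d) hℓ hμ (by omega : 3 ≤ x) (by linarith) hlt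
    have h1 := h.off _ hF (not_kf_hp hh hp he hx)
    refine disjoint_left.1 h1 (osq_obk hℓ (z := w - (τ : ℂ) * c.dv) ?_ ?_ ?_ ?_) (lam_mem t1 t2 C.μd)
    · rw [hdv]; simpa using t3
    · rw [hdv]; simpa using t4
    · rw [hdv]; simp; linarith
    · rw [hdv]; simp; linarith
  · push Not at hlt
    have h1 := h.far _ hF ⟨ℓ * x, w.im⟩ ⟨le_rfl, by simp only; nlinarith, by
      simp only; push_cast; linarith, by simp only; push_cast; linarith⟩
    rw [dist_re (z := ⟨ℓ * x, w.im⟩) (w := w) rfl, abs_of_nonneg (by simp only; linarith)] at h1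
    simp only at h1
    linarith

/-- The faces beyond the exit, horizontal negative leg. -/
theorem SEh.out_hn (h : SEh ℓ ϱ d c w SE) (C : CutC ℓ ϱ μ d τ₀ c D w)
    (hh : c.hor = true) (hp : c.pos = false) {x : ℤ} (hx : x ≤ -(2 * c.e + 2))
    (hw : w.re - ϱ < ℓ * (x + 1)) : (x, (-1 : ℤ)) ∉ SE := by
  have hℓ := C.hℓ
  have hμ := C.hμℓ
  have he := C.e_ge
  have hq := C.hq
  have hsg : c.sg = -1 := by simp [CutP.sg, hp]
  have hdv : c.dv = -1 := by simp [CutP.dv, hh, hsg]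
  obtain ⟨p1, p2⟩ := C.posh hh
  rw [hsg] at p2
  push_cast at p2
  rw [abs_le] at p1 p2
  intro hF
  by_cases hlt : w.re < ℓ * (x + 1)
  · obtain ⟨τ, t1, t2, t3, t4⟩ := exists_tau (d := d) (W := -w.re) (x := -(x + 1)) hℓ hμ
      (by omega) (by linarith) (by push_cast; linarith)
    push_cast at t3 t4
    have h1 := h.off _ hF (not_kf_hn hh hp he hx)
    refine disjoint_left.1 h1 (osq_obk hℓ (z := w - (τ : ℂ) * c.dv) ?_ ?_ ?_ ?_) (lam_mem t1 t2 C.μd)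
    · rw [hdv]; simp; linarith
    · rw [hdv]; simp; linarith
    · rw [hdv]; simp; linarith
    · rw [hdv]; simp; linarith
  · push Not at hlt
    have h1 := h.far _ hF ⟨ℓ * (x + 1), w.im⟩ ⟨by simp only; nlinarith, le_rfl, by
      simp only; push_cast; linarith, by simp only; push_cast; linarith⟩
    rw [dist_re (z := ⟨ℓ * (x + 1), w.im⟩) (w := w) rfl,
      abs_of_nonpos (by simp only; linarith)] at h1
    simp only at h1
    linarith

/-- The faces beyond the exit, vertical positive leg. -/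
theorem SEh.out_vp (h : SEh ℓ ϱ d c w SE) (C : CutC ℓ ϱ μ d τ₀ c D w)
    (hh : c.hor = false) (hp : c.pos = true) {y : ℤ} (hy : c.e + 1 ≤ y)
    (hw : ℓ * y < w.im + ϱ) : (2 * c.m, y) ∉ SE := by
  have hℓ := C.hℓ
  have hμ := C.hμℓ
  have he := C.e_ge
  have hq := C.hq
  have hsg : c.sg = 1 := by simp [CutP.sg, hp]
  have hdv : c.dv = Complex.I := by simp [CutP.dv, hh, hsg]
  obtain ⟨p1, p2⟩ := C.posv hh
  rw [hsg] at p2
  push_cast at p2
  rw [abs_le] at p1 p2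
  intro hF
  by_cases hlt : ℓ * y < w.im
  · obtain ⟨τ, t1, t2, t3, t4⟩ := exists_tau (d := d) hℓ hμ (by omega : 3 ≤ y) (by linarith) hlt
    have h1 := h.off _ hF (not_kf_vp hh hp hq he hy)
    refine disjoint_left.1 h1 (osq_obk hℓ (z := w - (τ : ℂ) * c.dv) ?_ ?_ ?_ ?_) (lam_mem t1 t2 C.μd)
    · rw [hdv]; simp; linarith
    · rw [hdv]; simp; linarith
    · rw [hdv]; simpa using t3
    · rw [hdv]; simpa using t4
  · push Not at hlt
    have h1 := h.far _ hF ⟨w.re, ℓ * y⟩ ⟨by simp only; push_cast; linarith, by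
      simp only; push_cast; linarith, le_rfl, by simp only; nlinarith⟩
    rw [dist_im (z := ⟨w.re, ℓ * y⟩) (w := w) rfl, abs_of_nonneg (by simp only; linarith)] at h1
    simp only at h1
    linarith

/-- The faces beyond the exit, vertical negative leg. -/
theorem SEh.out_vn (h : SEh ℓ ϱ d c w SE) (C : CutC ℓ ϱ μ d τ₀ c D w)
    (hh : c.hor = false) (hp : c.pos = false) {y : ℤ} (hy : y ≤ -(c.e + 1))
    (hw : w.im - ϱ < ℓ * (y + 1)) : (2 * c.m, y) ∉ SE := by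
  have hℓ := C.hℓ
  have hμ := C.hμℓ
  have he := C.e_ge
  have hq := C.hq
  have hsg : c.sg = -1 := by simp [CutP.sg, hp]
  have hdv : c.dv = -Complex.I := by simp [CutP.dv, hh, hsg]
  obtain ⟨p1, p2⟩ := C.posv hh
  rw [hsg] at p2
  push_cast at p2
  rw [abs_le] at p1 p2
  intro hF
  by_cases hlt : w.im < ℓ * (y + 1)
  · obtain ⟨τ, t1, t2, t3, t4⟩ := exists_tau (d := d) (W := -w.im) (x := -(y + 1)) hℓ hμ
      (by omega) (by linarith) (by push_cast; linarith)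
    push_cast at t3 t4
    have h1 := h.off _ hF (not_kf_vn hh hp hq he hy)
    refine disjoint_left.1 h1 (osq_obk hℓ (z := w - (τ : ℂ) * c.dv) ?_ ?_ ?_ ?_) (lam_mem t1 t2 C.μd)
    · rw [hdv]; simp; linarith
    · rw [hdv]; simp; linarith
    · rw [hdv]; simp; linarith
    · rw [hdv]; simp; linarith
  · push Not at hlt
    have h1 := h.far _ hF ⟨w.re, ℓ * (y + 1)⟩ ⟨by simp only; push_cast; linarith, by
      simp only; push_cast; linarith, by simp only; nlinarith, le_rfl⟩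
    rw [dist_im (z := ⟨w.re, ℓ * (y + 1)⟩) (w := w) rfl,
      abs_of_nonpos (by simp only; linarith)] at h1
    simp only at h1
    linarith

end exit

end Vale.Agent.P167.CL
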