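import Vale.Agent.P167.CL.Geo5

/-!
# P167, block CLOSE [ASM]: comparison (ii)

* `StgOf` : the facts on the stage of a cut;
* `exists_stgOf` : existence;
* `part_two` : comparison (ii) for all Loewner chains of the class.
-/

set_option autoImplicit false

open MeasureTheory Filter Topology Set Metric
open scoped NNReal ENNReal

namespace Vale.Agent.P167.CL

open Vale.Agent.P153.R2.L1 (HH)
open Vale.Agent.P164 (loewnerDomain Zf)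
open Vale.Agent.P167.E6 Vale.Agent.P167.E2 Vale.Agent.P167.H411
open Vale.Agent.P167.H756
open Vale.Agent.P167.H446.Cut
open Vale.Agent.P167.H450

/-- The stage `s` of the Loewner chain `W`, `t` for the cut `c`, `w`. -/
structure StgOf (s : Stg) (T R X Y Rd cd κ μ d τ₀ ρ εn ℓ ϱ : ℝ) (ψ : ℂ → ℂ) (c : CutP) (w : ℂ)
    (F₀ : ℤ × ℤ) (W : ℝ → ℝ) (t : ℝ) (ip ia ib : ZMod s.mP) : Prop where
  ok : s.Ok T R Rd cd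
  eψ : s.ψ = ψ
  eW : s.W = W
  et : s.t = t
  eY : s.Y = Y
  eℓ : s.ℓ = ℓ
  eρ : s.ρm = ϱ
  eε : s.ε = εn
  eF : s.F₀ = F₀
  cut : CutS s X κ μ d τ₀ c w
  hMk : Mk ρ ℓ s.pP s.SP ip ia ib
  hp : s.pP ip = s.vn true
  ha : s.pP ia = s.vn false
  box : ∀ F : ℤ × ℤ, 0 ≤ F.2 → F.2 < c.q → -c.q ≤ F.1 → F.1 < c.q → F ∈ s.SP

theorem dist_cutSet {ℓ ϱ μ d τ₀ : ℝ} {c : CutP} {D : Set ℂ} {w : ℂ}
    (C : CutC ℓ ϱ μ d τ₀ c D w) {u z : ℂ} (hu : u ∈ cutSet ℓ d c w) (hz : z ∈ cutSet ℓ d c w) :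
    dist u z ≤ d := by
  have h1 := (cutG1 _ _ _ _ _ _ _ _ C).2.1
  have h2 := dist_triangle_right u z w
  have h3 := h1 u hu
  have h4 := h1 z hz
  have h5 := C.d_pos
  linarith

/-- **The stage of a cut**, with the access. -/
theorem exists_stgOf {T R X Y Rd cd : ℝ} (hRd : 0 < Rd) (hcd : 0 < cd) (hc : Cst T R X Y) :
    ∃ κ₀ > 0, ∀ c₀ ρ : ℝ, 0 < c₀ → 0 < ρ → ∃ ε₀ > 0, ∀ εn : ℝ, 0 < εn → εn ≤ ε₀ →
      ∃ η > 0, ∀ (κ d ℓ ϱ μ τ₀ : ℝ) (ψ : ℂ → ℂ) (c : CutP) (w : ℂ), κ ≤ κ₀ → 0 < ℓ → 0 < ϱ →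
      2 * (ϱ + 4 * ℓ) ≤ η → 2 * ρ ≤ ℓ * c.q → HConf Rd cd Y ψ →
      CutN T R X Y κ d c₀ ℓ ϱ μ τ₀ ψ c w → ∀ F₀ : ℤ × ℤ, ψ (Y * Complex.I) ∈ sqr ℓ F₀ →
      ∀ (W : ℝ → ℝ) (t : ℝ), Drv T R W t → IsPreconnected (ψ '' loewnerDomain W t)ᶜ →
      ∃ (s : Stg) (ip ia ib : ZMod s.mP),
        StgOf s T R X Y Rd cd κ μ d τ₀ ρ εn ℓ ϱ ψ c w F₀ W t ip ia ib ∧
        ∃ C₁ : Set ℂ, IsPreconnected C₁ ∧ ψ (Y * Complex.I) ∈ C₁ ∧ (ρ : ℂ) * Complex.I ∈ C₁ ∧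
          ∀ z ∈ C₁, ball z (min (c₀ / 2) (2 * ρ) / 32) ⊆ D6 ℓ s.SP := by
  obtain ⟨κ₀, hκ₀, ε₀, hε₀, H⟩ := exists_stg hRd hcd hc
  have hX0 := hc.hX0
  refine ⟨min κ₀ (X / 2), by positivity, fun c₀ ρ hc₀ hρ => ?_⟩
  refine ⟨min ε₀ (min (1 / 2) (min (X / 16) (min (1 / (3 * X + 1)) (c₀ / 2)))), by positivity,
    fun εn hεn hεn' => ?_⟩
  have a1 : εn ≤ ε₀ := hεn'.trans (min_le_left _ _)
  have a2 : εn ≤ 1 / 2 := hεn'.trans ((min_le_right _ _).trans (min_le_left _ _))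
  have a3 : εn ≤ X / 16 :=
    hεn'.trans ((min_le_right _ _).trans ((min_le_right _ _).trans (min_le_left _ _)))
  have a4 : εn ≤ 1 / (3 * X + 1) :=
    hεn'.trans ((min_le_right _ _).trans ((min_le_right _ _).trans ((min_le_right _ _).trans
      (min_le_left _ _))))
  have a5 : εn ≤ c₀ / 2 :=
    hεn'.trans ((min_le_right _ _).trans ((min_le_right _ _).trans ((min_le_right _ _).trans
      (min_le_right _ _))))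
  obtain ⟨η, hη, H⟩ := H εn hεn a1
  refine ⟨min η (min (c₀ / 8) (min (c₀ / 2) (2 * ρ) / 32)), by positivity, ?_⟩
  intro κ d ℓ ϱ μ τ₀ ψ c w hκ hℓ hϱ hmesh hq hψ C F₀ hF₀ W t hD hpc
  have b1 : 2 * (ϱ + 4 * ℓ) ≤ η := hmesh.trans (min_le_left _ _)
  have b2 : 2 * (ϱ + 4 * ℓ) ≤ c₀ / 8 := hmesh.trans ((min_le_right _ _).trans (min_le_left _ _))
  have b3 : 2 * (ϱ + 4 * ℓ) ≤ min (c₀ / 2) (2 * ρ) / 32 :=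
    hmesh.trans ((min_le_right _ _).trans (min_le_right _ _))
  obtain ⟨s, hs, e1, e2, e3, e4, e5, e6, e7, e8, e9, e10, e11⟩ := H κ d c₀ ℓ ϱ μ τ₀ ψ c w
    (hκ.trans (min_le_left _ _)) hℓ hϱ b1 hψ C F₀ hF₀ W t hD hpc
  have hDs : s.D = ψ '' loewnerDomain W t := by rw [hs.D_eq, e1, e2, e3]
  have hCS : CutS s X κ μ d τ₀ c w := by
    refine ⟨?_, e9, by rw [e10, e5], e11, ?_, hκ.trans (min_le_right _ _)⟩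
    · rw [e5, e6, hDs]
      exact C.cc W t hD
    · intro z hz hd
      rw [e1] at hd
      rw [← dist_eq_norm]
      exact C.near z hz.le hd
  have hSm : SmE s.ε X := by
    rw [e7]
    exact ⟨hεn, by linarith, a3, a4⟩
  obtain ⟨C₀, hC0, hC1, hC2, hC3⟩ := C.acc W t hD
  have hc' : Cst T R X s.Y := by rw [e4]; exact hc
  obtain ⟨⟨z, hz, z1, z2, z3⟩, C₁, k1, k2, k3, k4⟩ := Stg.access cutG1 cutG2 hs hc' hSm hCS hρ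
    (by rw [e7]; exact a5) (by rw [e5]; linarith) (by rw [e5, e6]; linarith)
    (by rw [e5]; exact hq) hC0 (by rw [e1, e4]; exact hC1) hC2 (by rw [hDs]; exact hC3)
  have hceil : ⌈2 * ρ / s.ℓ⌉ ≤ c.q := by
    rw [Int.ceil_le, e5, div_le_iff₀ hℓ]
    linarith
  obtain ⟨ip, ia, ib, hMk, hip, hia⟩ := Stg.exists_Mk cutG1 hs hc' hSm (by rw [e7]; exact a2) hCS
    hz z1 z2 z3 hρ hceil
  refine ⟨s, ip, ia, ib, ⟨hs, e1, e2, e3, e4, e5, e6, e7, e8, hCS, ?_, hip, hia, ?_⟩, C₁, k1, ?_,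
    k3, ?_⟩
  · rw [← e5]
    exact hMk
  · exact fun F f1 f2 f3 f4 => Stg.box_SP cutG1 hs hc' hSm hCS hz z1 z2 z3 f1 f2 f3 f4
  · rw [e1, e4] at k2
    exact k2
  · rw [← e5]
    exact k4

/-- The mark `b'`. -/
theorem StgOf.mark {s : Stg} {T R X Y Rd cd κ μ d τ₀ ρ εn ℓ ϱ : ℝ} {ψ : ℂ → ℂ} {c : CutP} {w : ℂ}
    {F₀ : ℤ × ℤ} {W : ℝ → ℝ} {t : ℝ} {ip ia ib : ZMod s.mP}
    (H : StgOf s T R X Y Rd cd κ μ d τ₀ ρ εn ℓ ϱ ψ c w F₀ W t ip ia ib) {h : ℝ} (hκ : κ < h) :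
    (0 : ℂ) ∈ closure (D6 ℓ s.SP ∩ ψ '' {z | z ∈ HH ∧ ‖z - X‖ < h}) := by
  have hs := H.ok
  have hℓ := hs.hℓ
  rw [H.eℓ] at hℓ
  have hd := H.cut.cc.d_pos
  have hq : (32 : ℝ) ≤ c.q := by exact_mod_cast H.cut.cc.hq
  have hℓq : 0 < ℓ * c.q := by positivity
  rw [Metric.mem_closure_iff]
  intro e he
  set y : ℝ := min (e / 2) (min (ℓ * c.q / 2) d) with hy
  have hy0 : 0 < y := by positivity
  have hy1 : y ≤ e / 2 := min_le_left _ _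
  have hy2 : y ≤ ℓ * c.q / 2 := (min_le_right _ _).trans (min_le_left _ _)
  have hy3 : y ≤ d := (min_le_right _ _).trans (min_le_right _ _)
  have hD6 : (y : ℂ) * Complex.I ∈ D6 ℓ s.SP := by
    refine Stg.box_D6 hℓ H.box ?_ ?_ ?_
    · simpa using hℓq
    · simpa using hy0
    · have : ((y : ℂ) * Complex.I).im = y := by simp
      rw [this]; linarith
  have hny : ‖(y : ℂ) * Complex.I‖ = y := by
    rw [norm_mul, Complex.norm_I, mul_one, Complex.norm_real, Real.norm_of_nonneg hy0.le]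
  refine ⟨(y : ℂ) * Complex.I, ⟨hD6, ?_⟩, ?_⟩
  · have h1 : (y : ℂ) * Complex.I ∈ s.D := Stg.D6P_sub hs (by rw [H.eℓ]; exact hD6)
    obtain ⟨z, -, hz0, hz⟩ := hs.exists_pt h1
    refine ⟨z, ⟨hz0, lt_of_le_of_lt (H.cut.near z hz0 ?_) hκ⟩, by rw [← H.eψ]; exact hz⟩
    rw [hz]
    have h2 := H.cut.cc.w_le
    have h3 := dist_le_norm_add_norm ((y : ℂ) * Complex.I) w
    rw [hny] at h3
    linarith
  · rw [dist_eq_norm, zero_sub, norm_neg, hny]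
    linarith

/-- The structure `PD` of the polygon `pP`. -/
theorem StgOf.pd {T R Y h : ℝ} (hT : 0 ≤ T) (hR : 0 ≤ R) (hY0 : 0 < Y) (hY : 8 * R ≤ Y)
    (hY2 : 64 * T ≤ Y ^ 2) (hh : 0 < h) :
    ∃ ε₀ > 0, ∀ (s : Stg) (X Rd cd κ μ d τ₀ ρ εn ℓ ϱ : ℝ) (ψ : ℂ → ℂ) (c : CutP) (w : ℂ)
      (F₀ : ℤ × ℤ) (W : ℝ → ℝ) (t : ℝ) (ip ia ib : ZMod s.mP),
      StgOf s T R X Y Rd cd κ μ d τ₀ ρ εn ℓ ϱ ψ c w F₀ W t ip ia ib → 0 < εn → εn ≤ ε₀ →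
      ϱ + 3 * ℓ ≤ h / 2 → d ≤ h / 2 →
      PD h ψ W t Y (D6 ℓ s.SP) (ℓ * pt (s.pP ia)) (ℓ * (pt (s.pP ip) + 1 / 2)) := by
  obtain ⟨ε₀, hε₀, H⟩ := SG.pdP (T := T) (R := R) (Y := Y) hT hR hY0 hY hY2 hh
  refine ⟨ε₀, hε₀, ?_⟩
  intro s X Rd cd κ μ d τ₀ ρ εn ℓ ϱ ψ c w F₀ W t ip ia ib S hε0 hε hρ hd
  have hs := S.ok
  have hC := S.cut
  have hcc := hC.cc
  have hfin : c.KF.Finite := by rw [← hC.hKB]; exact s.KB.finite_toSet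
  have hw := gg_sub hcc (w_mem_gg τ₀ c w)
  have hcon := (cutG1 _ _ _ _ _ _ _ _ hcc).1
  have h1 := H s Rd cd hs S.eY (by rw [S.eε]; exact hε0) (by rw [S.eε]; exact hε)
    (by rw [S.eρ, S.eℓ]; exact hρ)
    (by
      rw [hC.hB]
      exact ⟨w, hw, fun y hy => joinedIn_cutSet hs.hℓ hfin hcon hw hy⟩)
    ⟨w, by rw [hC.hB]; exact hw, hcc.out⟩
    (by
      rw [hC.hB]
      exact fun u hu z hz => (dist_cutSet hcc hu hz).trans hd)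
  have h2 : PD h s.ψ s.W s.t s.Y (D6 s.ℓ s.SP) (s.ℓ * pt (s.pP ia))
      (s.ℓ * (pt (s.pP ip) + 1 / 2)) := by
    rw [S.hp, S.ha]
    exact h1
  rw [S.eψ, S.eW, S.et, S.eY, S.eℓ] at h2
  exact h2

/-- **Comparison (ii).** -/
theorem part_two {T R X Y Rd cd ε : ℝ} (hRd : 0 < Rd) (hcd : 0 < cd) (hc : Cst T R X Y)
    (hε : 0 < ε) :
    ∃ κ₀ > 0, ∀ c₀ ρ : ℝ, 0 < c₀ → 0 < ρ → ∃ M > 0, ∃ ε₀ > 0, ∀ εn : ℝ, 0 < εn → εn ≤ ε₀ →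
      ∃ η > 0, ∀ (κ d ℓ ϱ μ τ₀ : ℝ) (ψ : ℂ → ℂ) (c : CutP) (w : ℂ), κ ≤ κ₀ → d ≤ κ → 0 < ℓ →
      0 < ϱ → 2 * (ϱ + 4 * ℓ) ≤ η → 2 * ρ ≤ ℓ * c.q → HConf Rd cd Y ψ →
      CutN T R X Y κ d c₀ ℓ ϱ μ τ₀ ψ c w → IsPreconnected (ψ '' loewnerDomain (fun _ => 0) 0)ᶜ →
      ∃ (F₀ : ℤ × ℤ) (g₀ : ℝ), M⁻¹ ≤ g₀ ∧ g₀ ≤ M ∧
        ∀ (W : ℝ → ℝ) (t : ℝ), Drv T R W t → IsPreconnected (ψ '' loewnerDomain W t)ᶜ →
        ∃ (s : Stg) (ip ia ib : ZMod s.mP),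
          StgOf s T R X Y Rd cd κ μ d τ₀ ρ εn ℓ ϱ ψ c w F₀ W t ip ia ib ∧
          (mkShp s.pP s.SP ip ia ib).Ok ⌈2 * ρ / ℓ⌉ ∧
          (∃ g, IsG (mkShp s.pP s.SP ip ia ib) ℓ g ∧ M⁻¹ ≤ g ∧ g ≤ M) ∧
          ∀ g, IsG (mkShp s.pP s.SP ip ia ib) ℓ g →
            |(g / g₀) ^ (1 / 3 : ℝ) - obsF W X t| ≤ ε := by
  have hX8 : 8 * R ≤ X := by have := hc.hR; have := hc.hX; linarith
  have hX256 : 256 * T ≤ X ^ 2 := by have := hc.hT; have := hc.hX2; linarith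
  obtain ⟨h, hh, HS⟩ := exists_shape (T := T) (R := R) (Y := Y) hc.hT hc.hR hRd hcd hc.hX0 hX8
    hX256 hc.hY0 hc.hY hc.hY2 hε
  obtain ⟨κ₀, hκ₀, HE⟩ := exists_stgOf hRd hcd hc
  obtain ⟨ε₁, hε₁, HP⟩ := StgOf.pd (T := T) (R := R) (Y := Y) hc.hT hc.hR hc.hY0 hc.hY hc.hY2 hh
  obtain ⟨ε₂, hε₂, r₀, hr₀, HI⟩ := SG.incl (T := T) (R := R) (X := X) (Y := Y) hc.hT hc.hR hRd hcd
    hc.hX0 hc.hX hc.hX2 hc.hY0 hc.hY hc.hY2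
  refine ⟨min κ₀ (h / 2), by positivity, fun c₀ ρ hc₀ hρ => ?_⟩
  obtain ⟨M, hM, HS⟩ := HS ρ hρ (min (c₀ / 2) (2 * ρ) / 32) (by positivity)
  obtain ⟨ε₀, hε₀, HE⟩ := HE c₀ ρ hc₀ hρ
  refine ⟨M, hM, min ε₀ (min ε₁ ε₂), by positivity, fun εn hεn hεn' => ?_⟩
  have a0 : εn ≤ ε₀ := hεn'.trans (min_le_left _ _)
  have a1 : εn ≤ ε₁ := hεn'.trans ((min_le_right _ _).trans (min_le_left _ _))
  have a2 : εn ≤ ε₂ := hεn'.trans ((min_le_right _ _).trans (min_le_right _ _))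
  obtain ⟨η, hη, HE⟩ := HE εn hεn a0
  refine ⟨min η (min h r₀), by positivity, ?_⟩
  intro κ d ℓ ϱ μ τ₀ ψ c w hκ hdκ hℓ hϱ hmesh hq hψ C hpc0
  have b0 : 2 * (ϱ + 4 * ℓ) ≤ η := hmesh.trans (min_le_left _ _)
  have b1 : 2 * (ϱ + 4 * ℓ) ≤ h := hmesh.trans ((min_le_right _ _).trans (min_le_left _ _))
  have b2 : 2 * (ϱ + 4 * ℓ) ≤ r₀ := hmesh.trans ((min_le_right _ _).trans (min_le_right _ _))
  have k1 : κ ≤ κ₀ := hκ.trans (min_le_left _ _)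
  have k2 : κ ≤ h / 2 := hκ.trans (min_le_right _ _)
  obtain ⟨F₀, hF₀⟩ := exists_sqr hℓ (ψ (Y * Complex.I))
  have hD0 : Drv T R (fun _ => 0) 0 :=
    ⟨continuous_const, le_rfl, hc.hT, fun s hs => by simpa using hc.hR⟩
  obtain ⟨s₀, ip, ia, ib, S₀, C₀, c1, c2, c3, c4⟩ := HE κ d ℓ ϱ μ τ₀ ψ c w k1 hℓ hϱ b0 hq hψ C F₀
    hF₀ (fun _ => 0) 0 hD0 hpc0
  have hEP : ∀ {s : Stg} {W : ℝ → ℝ} {t : ℝ} {ip ia ib : ZMod s.mP},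
      StgOf s T R X Y Rd cd κ μ d τ₀ ρ εn ℓ ϱ ψ c w F₀ W t ip ia ib →
      ∀ C : Set ℂ, IsPreconnected C → C ⊆ SG.EP s → (C ∩ D6 ℓ s.SP).Nonempty → C ⊆ D6 ℓ s.SP := by
    intro s W t ip ia ib S C hC1 hC2 hC3
    rw [← S.eℓ] at hC3 ⊢
    exact SG.comp S.ok (by rw [S.eY]; exact hc.hY0) (by rw [S.eY]; exact hc.hY)
      (by rw [S.eY]; exact hc.hY2) C hC1 hC2 hC3
  have hIN : ∀ {s s' : Stg} {W : ℝ → ℝ} {t : ℝ} {ip ia ib : ZMod s.mP} {W' : ℝ → ℝ} {t' : ℝ}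
      {ip' ia' ib' : ZMod s'.mP},
      StgOf s T R X Y Rd cd κ μ d τ₀ ρ εn ℓ ϱ ψ c w F₀ W t ip ia ib →
      StgOf s' T R X Y Rd cd κ μ d τ₀ ρ εn ℓ ϱ ψ c w F₀ W' t' ip' ia' ib' →
      ∀ z ∈ ball (X : ℂ) (X / 2), 0 < z.im → ψ z ∈ D6 ℓ s.SP → ψ z ∈ SG.EP s' := by
    intro s s' W t ip ia ib W' t' ip' ia' ib' S S' z hz hz0 hzD
    have := HI s s' S.ok S'.ok S.eY (S'.eψ.trans S.eψ.symm) (S'.eY.trans S.eY.symm)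
      (S'.eℓ.trans S.eℓ.symm) (S'.eρ.trans S.eρ.symm) (S'.eε.trans S.eε.symm)
      (S'.cut.hg.trans S.cut.hg.symm)
      (by rw [S'.cut.hB, S.cut.hB, S'.eℓ, S.eℓ]) (S'.eF.trans S.eF.symm)
      (by rw [S.eε]; exact hεn) (by rw [S.eε]; exact a2) (by rw [S.eρ, S.eℓ]; linarith) z hz hz0
      (by rw [S.eψ, S.eℓ]; exact hzD)
    rw [S.eψ] at this
    exact this
  obtain ⟨g₀, g1, g2, HS⟩ := HS ℓ hℓ ψ hψ s₀.pP s₀.SP ip ia ib C₀ (SG.EP s₀) S₀.hMk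
    (HP s₀ X Rd cd κ μ d τ₀ ρ εn ℓ ϱ ψ c w F₀ _ _ ip ia ib S₀ hεn a1 (by linarith) (by linarith))
    (S₀.mark (by linarith)) c1 c2 c3 c4 (hEP S₀)
  refine ⟨F₀, g₀, g1, g2, ?_⟩
  intro W t hD hpc
  obtain ⟨s, jp, ja, jb, S, C₁, d1, d2, d3, d4⟩ := HE κ d ℓ ϱ μ τ₀ ψ c w k1 hℓ hϱ b0 hq hψ C F₀
    hF₀ W t hD hpc
  exact ⟨s, jp, ja, jb, S, HS W t hD s.pP s.SP jp ja jb C₁ (SG.EP s) S.hMk
    (HP s X Rd cd κ μ d τ₀ ρ εn ℓ ϱ ψ c w F₀ W t jp ja jb S hεn a1 (by linarith) (by linarith))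
    (S.mark (by linarith)) d1 d2 d3 d4 (hEP S) (hIN S₀ S) (hIN S S₀)⟩

end Vale.Agent.P167.CL
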