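import Vale.Agent.P167.CL.DQ1
import Vale.Agent.P167.CL.Geo6

/-!
# P167, block CLOSE [D], second part: `LegPE`

`legPE_ofD`: the inner polygon near the open path.
-/

set_option autoImplicit false

open MeasureTheory Filter Topology Set Metric

namespace Vale.Agent.P167.CL

open Vale.Agent.P153.R2.L1 (HH)
open Vale.Agent.P167.H531 Vale.Agent.P167.H558
open Vale.Agent.P167.E6 Vale.Agent.P167.E2 Vale.Agent.P167.H411 Vale.Agent.P167.H450

theorem dvD_eq {N a x : ℤ} (hN : 0 < N) (h1 : a * N ≤ x) (h2 : x < (a + 1) * N) : x / N = a := by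
  have h3 := le_dvD hN h1
  have h4 := dv_ltD hN h2
  omega

section leg

variable {c : CutP} {N : ℕ} {v₀ u : ℤ × ℤ}

theorem leg_b1 : (c.leg N v₀ u).b.1 = v₀.1 + u.1 := rfl

theorem leg_b2 : (c.leg N v₀ u).b.2 = v₀.2 + u.2 := rfl

theorem leg_b : (c.leg N v₀ u).b = v₀ + u := rfl

theorem leg_hp (hh : c.hor = true) (hp : c.pos = true) (j : ℕ) : (c.leg N v₀ u).s = (1, 0) ∧
    (c.leg N v₀ u).lv j = (v₀.1 + u.1 + j, v₀.2 + u.2 - (N : ℤ) / 2) := by
  unfold LegP.lv LegP.base LegP.s CutP.leg usv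
  simp [hh, hp]

theorem leg_hn (hh : c.hor = true) (hp : c.pos = false) (j : ℕ) : (c.leg N v₀ u).s = (-1, 0) ∧
    (c.leg N v₀ u).lv j = (v₀.1 + u.1 - j, v₀.2 + u.2 - (N : ℤ) / 2) := by
  unfold LegP.lv LegP.base LegP.s CutP.leg usv
  simp [hh, hp]
  ring

theorem leg_vp (hh : c.hor = false) (hp : c.pos = true) (j : ℕ) : (c.leg N v₀ u).s = (0, 1) ∧
    (c.leg N v₀ u).lv j = (v₀.1 + 2 * c.m * N + (N : ℤ) / 2, v₀.2 + u.2 - (N : ℤ) / 2 + j) := by
  unfold LegP.lv LegP.base LegP.s CutP.leg usv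
  simp [hh, hp]

theorem leg_vn (hh : c.hor = false) (hp : c.pos = false) (j : ℕ) : (c.leg N v₀ u).s = (0, -1) ∧
    (c.leg N v₀ u).lv j = (v₀.1 + 2 * c.m * N + (N : ℤ) / 2, v₀.2 + u.2 - (N : ℤ) / 2 - j) := by
  unfold LegP.lv LegP.base LegP.s CutP.leg usv
  simp [hh, hp]
  ring

theorem uset_1 (hu : u ∈ Uset) : 0 ≤ u.1 ∧ u.1 ≤ 1 ∧ u.2 = 0 := by
  rcases hu with rfl | rfl <;> simp

theorem base_hor (hh : c.hor = true) : (c.leg N v₀ u).base.1 = v₀.1 + u.1 := by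
  unfold LegP.base CutP.leg
  simp [hh]

theorem base_ver (hh : c.hor = false) :
    (c.leg N v₀ u).base.1 = v₀.1 + 2 * c.m * N + (N : ℤ) / 2 := by
  unfold LegP.base CutP.leg
  simp [hh]

/-- The exit index. -/
def EI (c : CutP) (N : ℕ) : ℤ := match c.hor, c.pos with
    | true, true => (2 * c.e + 1) * N
    | true, false => (2 * c.e + 1) * N + 1
    | false, true => (c.e + 1) * N + (N : ℤ) / 2
    | false, false => c.e * N - (N : ℤ) / 2 + 1

theorem ei_hp (hh : c.hor = true) (hp : c.pos = true) : EI c N = (2 * c.e + 1) * N := by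
  unfold EI; rw [hh, hp]

theorem ei_hn (hh : c.hor = true) (hp : c.pos = false) : EI c N = (2 * c.e + 1) * N + 1 := by
  unfold EI; rw [hh, hp]

theorem ei_vp (hh : c.hor = false) (hp : c.pos = true) :
    EI c N = (c.e + 1) * N + (N : ℤ) / 2 := by
  unfold EI; rw [hh, hp]

theorem ei_vn (hh : c.hor = false) (hp : c.pos = false) :
    EI c N = c.e * N - (N : ℤ) / 2 + 1 := by
  unfold EI; rw [hh, hp]

/-- The box below the line. -/
theorem kf_box {x : ℤ} (hq : 32 ≤ c.q) (h1 : -1 ≤ x) (h2 : x ≤ 0) : (x, (-1 : ℤ)) ∈ c.KF :=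
  kf_of (Or.inl ⟨by show -c.q ≤ (-1 : ℤ); omega, by norm_num,
      by show -c.q ≤ x; omega, by show x < c.q; omega⟩)

/-- The squares around the squares of the open path up to the exit. -/
theorem near_O (hN : 16 ≤ N) (hu : u ∈ Uset) (hq : 32 ≤ c.q)
    (he : c.q + 3 ≤ c.e) {E : ℕ} (hE : (E : ℤ) + 1 = EI c N) {v i : ℤ × ℤ}
    (hv : v ∈ (c.leg N v₀ u).O E) (h1 : |i.1 - v.1| ≤ 1) (h2 : |i.2 - v.2| ≤ 1) :
    fce N (v₀ + u) i ∈ c.KF ∨ (i.2 = v₀.2 + u.2 ∧ |i.1 - (v₀.1 + u.1)| ≤ 1) ∨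
      (v = (c.leg N v₀ u).lv E ∧
        0 ≤ alon (c.leg N v₀ u).s ((c.leg N v₀ u).lv (E + 1)) i) := by
  have hN' : (0 : ℤ) < N := by exact_mod_cast (by omega : 0 < N)
  have hN16 : (16 : ℤ) ≤ N := by exact_mod_cast hN
  obtain ⟨u1, u2, u3⟩ := uset_1 hu
  rw [abs_le] at h1 h2
  rw [LegP.mem_O, leg_b1, leg_b2] at hv
  have hH : (c.leg N v₀ u).H = (N : ℤ) / 2 := rfl
  rw [hH] at hv
  -- the row `-1`
  have hrow : -(N : ℤ) ≤ i.2 - (v₀.2 + u.2) → i.2 - (v₀.2 + u.2) < 0 →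
      (i.2 - (v₀ + u).2) / (N : ℤ) = -1 := fun a b => dvD_eq hN' (by
        show -1 * (N : ℤ) ≤ i.2 - (v₀.2 + u.2); omega) (by
        show i.2 - (v₀.2 + u.2) < (-1 + 1) * (N : ℤ); omega)
  rcases hv with ⟨w1, w2, w3⟩ | ⟨w1, w2, w3⟩ | ⟨j, hj, rfl⟩
  · by_cases hi : i.2 = v₀.2 + u.2
    · exact Or.inr (Or.inl ⟨hi, by rw [abs_le]; omega⟩)
    · left
      unfold fce
      rw [hrow (by omega) (by omega)]
      exact kf_box hq (le_dvD hN' (by show -1 * (N : ℤ) ≤ i.1 - (v₀.1 + u.1); omega)) (by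
        have := dv_ltD (a := 1) (x := i.1 - (v₀ + u).1) hN' (by
          show i.1 - (v₀.1 + u.1) < 1 * (N : ℤ); omega)
        omega)
  · left
    unfold fce
    rw [hrow (by omega) (by omega)]
    rcases hh : c.hor with _ | _
    · rw [base_ver hh] at w2
      refine kf_vr hh hq (le_dvD hN' (by show -1 * (N : ℤ) ≤ i.1 - (v₀.1 + u.1); omega)) ?_
      have := dv_ltD (a := 2 * c.m + 1) (x := i.1 - (v₀ + u).1) hN' (by
          show i.1 - (v₀.1 + u.1) < (2 * c.m + 1) * (N : ℤ)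
          have e : (2 * c.m + 1) * (N : ℤ) = 2 * c.m * N + N := by ring
          rw [e]; omega)
      omega
    · rw [base_hor hh] at w2
      exact kf_box hq (le_dvD hN' (by show -1 * (N : ℤ) ≤ i.1 - (v₀.1 + u.1); omega)) (by
        have := dv_ltD (a := 1) (x := i.1 - (v₀ + u).1) hN' (by
          show i.1 - (v₀.1 + u.1) < 1 * (N : ℤ); omega)
        omega)
  · rcases hh : c.hor with _ | _ <;> rcases hp : c.pos with _ | _
    · obtain ⟨hs, hlv⟩ := leg_vn (N := N) (v₀ := v₀) (u := u) hh hp j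
      have hlE := (leg_vn (N := N) (v₀ := v₀) (u := u) hh hp (E + 1)).2
      rw [ei_vn hh hp] at hE
      rw [hlv] at h1 h2
      simp only at h1 h2
      have hcol : (i.1 - (v₀ + u).1) / (N : ℤ) = 2 * c.m := by
        refine dvD_eq hN' ?_ ?_
        · show 2 * c.m * N ≤ i.1 - (v₀.1 + u.1); omega
        · show i.1 - (v₀.1 + u.1) < (2 * c.m + 1) * N
          have e : (2 * c.m + 1) * (N : ℤ) = 2 * c.m * N + N := by ring
          rw [e]; omega
      by_cases hlt : -c.e * N ≤ i.2 - (v₀.2 + u.2)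
      · left
        unfold fce
        rw [hcol]
        refine kf_vn hh hp (le_dvD hN' hlt) ?_
        have := dv_ltD (a := 0) (x := i.2 - (v₀ + u).2) hN' (by
          show i.2 - (v₀.2 + u.2) < 0 * (N : ℤ); omega)
        omega
      · right; right
        have e : -c.e * (N : ℤ) = -(c.e * N) := by ring
        rw [e] at hlt
        have hjE : j = E := by omega
        refine ⟨by rw [hjE], ?_⟩
        rw [hs, hlE]
        unfold alon
        push_cast
        omega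
    · obtain ⟨hs, hlv⟩ := leg_vp (N := N) (v₀ := v₀) (u := u) hh hp j
      have hlE := (leg_vp (N := N) (v₀ := v₀) (u := u) hh hp (E + 1)).2
      rw [ei_vp hh hp] at hE
      rw [hlv] at h1 h2
      simp only at h1 h2
      have hcol : (i.1 - (v₀ + u).1) / (N : ℤ) = 2 * c.m := by
        refine dvD_eq hN' ?_ ?_
        · show 2 * c.m * N ≤ i.1 - (v₀.1 + u.1); omega
        · show i.1 - (v₀.1 + u.1) < (2 * c.m + 1) * N
          have e : (2 * c.m + 1) * (N : ℤ) = 2 * c.m * N + N := by ring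
          rw [e]; omega
      by_cases hlt : i.2 - (v₀.2 + u.2) < (c.e + 1) * N
      · left
        unfold fce
        rw [hcol]
        refine kf_vp hh hp (le_dvD hN' ?_) ?_
        · show -1 * (N : ℤ) ≤ i.2 - (v₀.2 + u.2); omega
        · have := dv_ltD (a := c.e + 1) (x := i.2 - (v₀ + u).2) hN' hlt
          omega
      · right; right
        have hjE : j = E := by omega
        refine ⟨by rw [hjE], ?_⟩
        rw [hs, hlE]
        unfold alon
        push_cast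
        omega
    · obtain ⟨hs, hlv⟩ := leg_hn (N := N) (v₀ := v₀) (u := u) hh hp j
      have hlE := (leg_hn (N := N) (v₀ := v₀) (u := u) hh hp (E + 1)).2
      rw [ei_hn hh hp] at hE
      rw [hlv] at h1 h2
      simp only at h1 h2
      by_cases hlt : -(2 * c.e + 1) * N ≤ i.1 - (v₀.1 + u.1)
      · left
        unfold fce
        rw [hrow (by omega) (by omega)]
        refine kf_hn hh hp hq he (le_dvD hN' hlt) ?_
        have := dv_ltD (a := 2) (x := i.1 - (v₀ + u).1) hN' (by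
          show i.1 - (v₀.1 + u.1) < 2 * (N : ℤ); omega)
        omega
      · right; right
        have e : -(2 * c.e + 1) * (N : ℤ) = -((2 * c.e + 1) * N) := by ring
        rw [e] at hlt
        have hjE : j = E := by omega
        refine ⟨by rw [hjE], ?_⟩
        rw [hs, hlE]
        unfold alon
        push_cast
        omega
    · obtain ⟨hs, hlv⟩ := leg_hp (N := N) (v₀ := v₀) (u := u) hh hp j
      have hlE := (leg_hp (N := N) (v₀ := v₀) (u := u) hh hp (E + 1)).2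
      rw [ei_hp hh hp] at hE
      rw [hlv] at h1 h2
      simp only at h1 h2
      by_cases hlt : i.1 - (v₀.1 + u.1) < (2 * c.e + 1) * N
      · left
        unfold fce
        rw [hrow (by omega) (by omega)]
        refine kf_hp hh hp hq (le_dvD hN' ?_) ?_
        · show -1 * (N : ℤ) ≤ i.1 - (v₀.1 + u.1); omega
        · have := dv_ltD (a := 2 * c.e + 1) (x := i.1 - (v₀ + u).1) hN' hlt
          omega
      · right; right
        have hjE : j = E := by omega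
        refine ⟨by rw [hjE], ?_⟩
        rw [hs, hlE]
        unfold alon
        push_cast
        omega

/-- The squares around the leg beyond the exit. -/
theorem beyond {ℓ ϱ μ d τ₀ : ℝ} {D : Set ℂ} {w : ℂ} {SE : Finset (ℤ × ℤ)}
    (C : CutC ℓ ϱ μ d τ₀ c D w) (h : SEh ℓ ϱ d c w SE) (hϱ : 80 * (ℓ / N) ≤ ϱ) (hN : 16 ≤ N)
    (hu : u ∈ Uset) {E L : ℕ} (hE : (E : ℤ) + 1 = EI c N)
    (hw : dist (fc ℓ N v₀ ((c.leg N v₀ u).lv L)) w ≤ 64 * (ℓ / N)) {j : ℕ} (hj : E < j)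
    (hjL : j ≤ L) {i : ℤ × ℤ} (h1 : |i.1 - ((c.leg N v₀ u).lv j).1| ≤ 2)
    (h2 : |i.2 - ((c.leg N v₀ u).lv j).2| ≤ 2) :
    (fce N (v₀ + u) i ∈ SE → alon (c.leg N v₀ u).s ((c.leg N v₀ u).lv (E + 1)) i < 0) ∧
    (alon (c.leg N v₀ u).s ((c.leg N v₀ u).lv (E + 1)) i < 0 → fce N (v₀ + u) i ∈ c.KF) := by
  have hN' : (0 : ℤ) < N := by exact_mod_cast (by omega : 0 < N)
  have hN16 : (16 : ℤ) ≤ N := by exact_mod_cast hN
  have hNr : (16 : ℝ) ≤ N := by exact_mod_cast hN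
  have hℓ := C.hℓ
  have hq := C.hq
  have he := C.e_ge
  obtain ⟨u1, u2, u3⟩ := uset_1 hu
  have u1' : (0 : ℝ) ≤ u.1 := by exact_mod_cast u1
  have u2' : (u.1 : ℝ) ≤ 1 := by exact_mod_cast u2
  have u3' : (u.2 : ℝ) = 0 := by exact_mod_cast u3
  set δ' : ℝ := ℓ / N with hδ'
  have hδ0 : 0 < δ' := by positivity
  have hδN : δ' * N = ℓ := div_mul_cancel₀ _ (by positivity)
  have hδ16 : 16 * δ' ≤ ℓ := by rw [← hδN]; nlinarith
  rw [Complex.dist_eq] at hw
  have hre := (Complex.abs_re_le_norm _).trans hw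
  have him := (Complex.abs_im_le_norm _).trans hw
  rw [Complex.sub_re] at hre
  rw [Complex.sub_im] at him
  unfold fc at hre him
  simp only at hre him
  rw [abs_le] at h1 h2 hre him
  -- the row `-1`
  have hrow : -(N : ℤ) ≤ i.2 - (v₀.2 + u.2) → i.2 - (v₀.2 + u.2) < 0 →
      (i.2 - (v₀ + u).2) / (N : ℤ) = -1 := fun a b => dvD_eq hN' (by
        show -1 * (N : ℤ) ≤ i.2 - (v₀.2 + u.2); omega) (by
        show i.2 - (v₀.2 + u.2) < (-1 + 1) * (N : ℤ); omega)
  -- the product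
  have hup : ∀ {x a : ℤ}, x * N ≤ a → ℓ * x ≤ δ' * a := by
    intro x a hx
    have : ((x * N : ℤ) : ℝ) ≤ a := by exact_mod_cast hx
    push_cast at this
    rw [← hδN]
    nlinarith
  have hlo : ∀ {x a : ℤ}, a ≤ x * N → δ' * a ≤ ℓ * x := by
    intro x a hx
    have : (a : ℝ) ≤ ((x * N : ℤ) : ℝ) := by exact_mod_cast hx
    push_cast at this
    rw [← hδN]
    nlinarith
  rcases hh : c.hor with _ | _ <;> rcases hp : c.pos with _ | _
  · obtain ⟨hs, hlv⟩ := leg_vn (N := N) (v₀ := v₀) (u := u) hh hp j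
    have hlE := (leg_vn (N := N) (v₀ := v₀) (u := u) hh hp (E + 1)).2
    have hlL := (leg_vn (N := N) (v₀ := v₀) (u := u) hh hp L).2
    rw [ei_vn hh hp] at hE
    rw [hlv] at h1 h2
    rw [hlL] at him
    simp only at h1 h2 him
    have hcol : (i.1 - (v₀ + u).1) / (N : ℤ) = 2 * c.m := by
      refine dvD_eq hN' ?_ ?_
      · show 2 * c.m * N ≤ i.1 - (v₀.1 + u.1); omega
      · show i.1 - (v₀.1 + u.1) < (2 * c.m + 1) * N
        have e : (2 * c.m + 1) * (N : ℤ) = 2 * c.m * N + N := by ring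
        rw [e]; omega
    rw [hs, hlE]
    unfold alon fce
    rw [hcol]
    push_cast
    have e1 : -c.e * (N : ℤ) = -(c.e * N) := by ring
    constructor
    · intro hF
      by_contra hcon
      have hlt : i.2 - (v₀.2 + u.2) < -c.e * N := by rw [e1]; omega
      have h3 : (i.2 - (v₀ + u).2) / (N : ℤ) < -c.e := dv_ltD hN' hlt
      refine h.out_vn C hh hp (by omega) ?_ hF
      have h4 := lt_dvD (x := i.2 - (v₀ + u).2) hN'
      have h5 := hlo h4.le
      have h6 : i.2 - (v₀ + u).2 = i.2 - (v₀.2 + u.2) := rfl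
      have h7 : -(L : ℤ) - (N : ℤ) / 2 - 2 ≤ i.2 - (v₀ + u).2 := by rw [h6]; omega
      have h8 : (((-(L : ℤ) - (N : ℤ) / 2 - 2 : ℤ)) : ℝ) ≤ ((i.2 - (v₀ + u).2 : ℤ) : ℝ) := by
        exact_mod_cast h7
      have h9 := mul_le_mul_of_nonneg_left h8 hδ0.le
      push_cast at h5 h9 him ⊢
      rw [u3'] at him
      nlinarith
    · intro hlt
      refine (kf_vn hh hp (le_dvD hN' ?_) ?_)
      · show -c.e * (N : ℤ) ≤ i.2 - (v₀.2 + u.2)
        rw [e1]; omega
      · have := dv_ltD (a := 0) (x := i.2 - (v₀ + u).2) hN' (by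
          show i.2 - (v₀.2 + u.2) < 0 * (N : ℤ); omega)
        omega
  · obtain ⟨hs, hlv⟩ := leg_vp (N := N) (v₀ := v₀) (u := u) hh hp j
    have hlE := (leg_vp (N := N) (v₀ := v₀) (u := u) hh hp (E + 1)).2
    have hlL := (leg_vp (N := N) (v₀ := v₀) (u := u) hh hp L).2
    rw [ei_vp hh hp] at hE
    rw [hlv] at h1 h2
    rw [hlL] at him
    simp only at h1 h2 him
    have hcol : (i.1 - (v₀ + u).1) / (N : ℤ) = 2 * c.m := by
      refine dvD_eq hN' ?_ ?_
      · show 2 * c.m * N ≤ i.1 - (v₀.1 + u.1); omega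
      · show i.1 - (v₀.1 + u.1) < (2 * c.m + 1) * N
        have e : (2 * c.m + 1) * (N : ℤ) = 2 * c.m * N + N := by ring
        rw [e]; omega
    rw [hs, hlE]
    unfold alon fce
    rw [hcol]
    push_cast
    constructor
    · intro hF
      by_contra hcon
      have hlt : (c.e + 1) * N ≤ i.2 - (v₀.2 + u.2) := by omega
      have h3 : c.e + 1 ≤ (i.2 - (v₀ + u).2) / (N : ℤ) := le_dvD hN' hlt
      refine h.out_vp C hh hp h3 ?_ hF
      have h5 := hup (dv_leD (x := i.2 - (v₀ + u).2) hN')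
      have h6 : i.2 - (v₀ + u).2 = i.2 - (v₀.2 + u.2) := rfl
      have h7 : i.2 - (v₀ + u).2 ≤ (L : ℤ) - (N : ℤ) / 2 + 2 := by rw [h6]; omega
      have h8 : ((i.2 - (v₀ + u).2 : ℤ) : ℝ) ≤ (((L : ℤ) - (N : ℤ) / 2 + 2 : ℤ) : ℝ) := by
        exact_mod_cast h7
      have h9 := mul_le_mul_of_nonneg_left h8 hδ0.le
      push_cast at h5 h9 him ⊢
      rw [u3'] at him
      nlinarith
    · intro hlt
      refine (kf_vp hh hp (le_dvD hN' ?_) ?_)
      · show -1 * (N : ℤ) ≤ i.2 - (v₀.2 + u.2); omega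
      · have := dv_ltD (a := c.e + 1) (x := i.2 - (v₀ + u).2) hN' (by
          show i.2 - (v₀.2 + u.2) < (c.e + 1) * (N : ℤ); omega)
        omega
  · obtain ⟨hs, hlv⟩ := leg_hn (N := N) (v₀ := v₀) (u := u) hh hp j
    have hlE := (leg_hn (N := N) (v₀ := v₀) (u := u) hh hp (E + 1)).2
    have hlL := (leg_hn (N := N) (v₀ := v₀) (u := u) hh hp L).2
    rw [ei_hn hh hp] at hE
    rw [hlv] at h1 h2
    rw [hlL] at hre
    simp only at h1 h2 hre
    rw [hs, hlE]
    unfold alon fce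
    rw [hrow (by omega) (by omega)]
    push_cast
    have e1 : -(2 * c.e + 1) * (N : ℤ) = -((2 * c.e + 1) * N) := by ring
    constructor
    · intro hF
      by_contra hcon
      have hlt : i.1 - (v₀.1 + u.1) < -(2 * c.e + 1) * N := by rw [e1]; omega
      have h3 : (i.1 - (v₀ + u).1) / (N : ℤ) < -(2 * c.e + 1) := dv_ltD hN' hlt
      refine h.out_hn C hh hp (by omega) ?_ hF
      have h4 := lt_dvD (x := i.1 - (v₀ + u).1) hN'
      have h5 := hlo h4.le
      have h6 : i.1 - (v₀ + u).1 = i.1 - (v₀.1 + u.1) := rfl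
      have h7 : -(L : ℤ) - 2 ≤ i.1 - (v₀ + u).1 := by rw [h6]; omega
      have h8 : (((-(L : ℤ) - 2 : ℤ)) : ℝ) ≤ ((i.1 - (v₀ + u).1 : ℤ) : ℝ) := by
        exact_mod_cast h7
      have h9 := mul_le_mul_of_nonneg_left h8 hδ0.le
      push_cast at h5 h9 hre ⊢
      nlinarith
    · intro hlt
      refine (kf_hn hh hp hq he (le_dvD hN' ?_) ?_)
      · show -(2 * c.e + 1) * (N : ℤ) ≤ i.1 - (v₀.1 + u.1)
        rw [e1]; omega
      · have := dv_ltD (a := 2) (x := i.1 - (v₀ + u).1) hN' (by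
          show i.1 - (v₀.1 + u.1) < 2 * (N : ℤ); omega)
        omega
  · obtain ⟨hs, hlv⟩ := leg_hp (N := N) (v₀ := v₀) (u := u) hh hp j
    have hlE := (leg_hp (N := N) (v₀ := v₀) (u := u) hh hp (E + 1)).2
    have hlL := (leg_hp (N := N) (v₀ := v₀) (u := u) hh hp L).2
    rw [ei_hp hh hp] at hE
    rw [hlv] at h1 h2
    rw [hlL] at hre
    simp only at h1 h2 hre
    rw [hs, hlE]
    unfold alon fce
    rw [hrow (by omega) (by omega)]
    push_cast
    constructor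
    · intro hF
      by_contra hcon
      have hlt : (2 * c.e + 1) * N ≤ i.1 - (v₀.1 + u.1) := by omega
      have h3 : 2 * c.e + 1 ≤ (i.1 - (v₀ + u).1) / (N : ℤ) := le_dvD hN' hlt
      refine h.out_hp C hh hp h3 ?_ hF
      have h5 := hup (dv_leD (x := i.1 - (v₀ + u).1) hN')
      have h6 : i.1 - (v₀ + u).1 = i.1 - (v₀.1 + u.1) := rfl
      have h7 : i.1 - (v₀ + u).1 ≤ (L : ℤ) + 2 := by rw [h6]; omega
      have h8 : ((i.1 - (v₀ + u).1 : ℤ) : ℝ) ≤ (((L : ℤ) + 2 : ℤ) : ℝ) := by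
        exact_mod_cast h7
      have h9 := mul_le_mul_of_nonneg_left h8 hδ0.le
      push_cast at h5 h9 hre ⊢
      nlinarith
    · intro hlt
      refine (kf_hp hh hp hq (le_dvD hN' ?_) ?_)
      · show -1 * (N : ℤ) ≤ i.1 - (v₀.1 + u.1); omega
      · have := dv_ltD (a := 2 * c.e + 1) (x := i.1 - (v₀ + u).1) hN' (by
          show i.1 - (v₀.1 + u.1) < (2 * c.e + 1) * (N : ℤ); omega)
        omega

/-- **The inner polygon near the leg.** -/
theorem legPE_ofD {ℓ ϱ μ d τ₀ : ℝ} {D : Set ℂ} {w : ℂ} {SE : Finset (ℤ × ℤ)}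
    (C : CutC ℓ ϱ μ d τ₀ c D w) (h : SEh ℓ ϱ d c w SE) (hϱ : 80 * (ℓ / N) ≤ ϱ) (hN : 16 ≤ N)
    (hu : u ∈ Uset) {E L : ℕ} (hE : (E : ℤ) + 1 = EI c N)
    (hw : dist (fc ℓ N v₀ ((c.leg N v₀ u).lv L)) w ≤ 64 * (ℓ / N)) (hEL : E < L) :
    LegPE (c.leg N v₀ u) E L (sE SE N (v₀ + u)) := by
  have hN0 : 0 < N := by omega
  have hN' : (0 : ℤ) < N := by exact_mod_cast hN0
  have hin : ∀ v ∈ (c.leg N v₀ u).O E, ∀ i : ℤ × ℤ, |i.1 - v.1| ≤ 1 → |i.2 - v.2| ≤ 1 →
      i ∉ sE SE N (v₀ + u) → v = (c.leg N v₀ u).lv E ∧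
        0 ≤ alon (c.leg N v₀ u).s ((c.leg N v₀ u).lv (E + 1)) i := by
    intro v hv i h1 h2 hi
    rw [mem_sE hN0] at hi
    rcases near_O hN hu C.hq C.e_ge hE hv h1 h2 with h3 | ⟨h3, h4⟩ | h3
    · exact absurd (h.kf h3) hi
    · refine absurd ?_ hi
      unfold fce
      have e2 : (i.2 - (v₀ + u).2) / (N : ℤ) = 0 := by
        show (i.2 - (v₀.2 + u.2)) / (N : ℤ) = 0
        rw [h3, sub_self, Int.zero_ediv]
      rw [abs_le] at h4
      rw [e2]
      refine h.up _ (le_dvD hN' ?_) ?_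
      · show -1 * (N : ℤ) ≤ i.1 - (v₀.1 + u.1); omega
      · have := dv_ltD (a := 1) (x := i.1 - (v₀ + u).1) hN' (by
          show i.1 - (v₀.1 + u.1) < 1 * (N : ℤ); omega)
        omega
    · exact h3
  refine ⟨hEL, ?_, ?_, ?_⟩
  · intro v hv
    by_contra hcon
    obtain ⟨h1, h2⟩ := hin v hv v (by simp) (by simp) hcon
    rw [h1, alon_lv] at h2
    push_cast at h2
    omega
  · rintro v hv i ⟨o, h1, h2⟩ hi
    obtain ⟨a, b⟩ := dist_of_crn h1 h2
    exact hin v hv i a b hi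
  · intro j hj hjL i h1 h2
    rw [mem_sE hN0]
    have hb := beyond C h hϱ hN hu hE hw hj hjL h1 h2
    exact ⟨hb.1, fun h3 => h.kf (hb.2 h3)⟩

end leg

end Vale.Agent.P167.CL
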