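import Vale.Agent.P167.CL.DQ2

/-!
# P167, block CLOSE [D], third part: the stage and the lattice part of the cut

`SLat`: the data. `seh`, `PE_deep`, `legPE`, `P_frz`.
-/

set_option autoImplicit false

open MeasureTheory Filter Topology Set Metric

namespace Vale.Agent.P167.CL

open Vale.Agent.P153.R2.L1 (HH)
open Vale.Agent.P164 (loewnerDomain Zf)
open Vale.Agent.P167.H531 Vale.Agent.P167.H558
open Vale.Agent.P167.E6 Vale.Agent.P167.E2 Vale.Agent.P167.H411 Vale.Agent.P167.H450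

open Classical in
/-- The faces of the bricks of the cut. -/
noncomputable def KFn (c : CutP) : Finset (ℤ × ℤ) := if h : c.KF.Finite then h.toFinset else ∅

theorem mem_KFn {c : CutP} (hf : c.KF.Finite) {F : ℤ × ℤ} : F ∈ KFn c ↔ F ∈ c.KF := by
  unfold KFn
  rw [dif_pos hf, Set.Finite.mem_toFinset]

/-- The data: one stage and the lattice part of its cut. -/
structure SLat {n : ℕ} (p : ZMod n → ℤ × ℤ) (k : ℕ) (S : Finset (ℤ × ℤ)) (δ : ℝ) (N : ℕ)
    (ψ : ℂ → ℂ) (T R Rd cd X κ μ d τ₀ : ℝ) (v₀ : ℤ × ℤ) (c : CutP) (w : ℂ)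
    (jf L E : ℤ × ℤ → ℕ) (s : Stg) : Prop where
  lat : CutLat p k S δ s.ℓ N ψ X κ d s.ρm τ₀ v₀ c w jf L E
  ok : s.Ok T R Rd cd
  cut : CutS s X κ μ d τ₀ c w
  eψ : s.ψ = Psi δ s.ℓ N v₀ ψ
  box : ∀ F : ℤ × ℤ, 0 ≤ F.2 → F.2 < c.q → -c.q ≤ F.1 → F.1 < c.q → F ∈ s.SP
  hϱ : 80 * (s.ℓ / N) ≤ s.ρm

section

variable {n : ℕ} {p : ZMod n → ℤ × ℤ} {k : ℕ} {S : Finset (ℤ × ℤ)} {δ : ℝ} {N : ℕ}
    {ψ : ℂ → ℂ} {T R Rd cd X κ μ d τ₀ : ℝ} {v₀ : ℤ × ℤ} {c : CutP} {w : ℂ}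
    {jf L E : ℤ × ℤ → ℕ} {s : Stg}

/-- The faces of the inner polygon are closed under common vertices. -/
theorem se_vadj {T R Rd cd : ℝ} (H : s.Ok T R Rd cd) {F G : ℤ × ℤ} (hF : F ∈ s.GE)
    (hG : G ∈ s.SE) (h : VAdj F G) : F ∈ s.SE := by
  rw [Stg.memE H]
  exact cmp_of_vadj (bricky_gf _ _ _ _) hF ((Stg.memE H).1 hG) (Stg.SE_good H hG) h

theorem se_chain {T R Rd cd : ℝ} (H : s.Ok T R Rd cd) (f : ℕ → ℤ × ℤ) (h0 : f 0 ∈ s.SE) (K : ℕ)
    (hf : ∀ i ≤ K, f i ∈ s.GE) (ha : ∀ i < K, VAdj (f (i + 1)) (f i)) : f K ∈ s.SE := by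
  induction K with
  | zero => exact h0
  | succ K ih =>
    exact se_vadj H (hf _ le_rfl) (ih (fun i hi => hf i (by omega)) fun i hi => ha i (by omega))
      (ha K (by omega))

/-- **The faces of the cut are faces of the inner polygon.** -/
theorem kf_sub_SE {T R Rd cd μ : ℝ} (H : s.Ok T R Rd cd) (C : CutS s X κ μ d τ₀ c w)
    (hbox : ∀ F : ℤ × ℤ, 0 ≤ F.2 → F.2 < c.q → -c.q ≤ F.1 → F.1 < c.q → F ∈ s.SP) :
    c.KF ⊆ s.SE := by
  have hq := C.cc.hq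
  have hm := C.cc.hm
  have he := C.cc.e_ge
  have hG : ∀ F ∈ c.lf, F ∈ s.GE := fun F hF => H.KG (by rw [C.hKB]; exact kf_of hF)
  have hSP : ∀ F : ℤ × ℤ, 0 ≤ F.2 → F.2 < c.q → -c.q ≤ F.1 → F.1 < c.q → F ∈ s.SE :=
    fun F a b c' e => (Finset.mem_sdiff.1 (Stg.SP_sub H (hbox F a b c' e))).1
  -- the box
  have h1 : ∀ F : ℤ × ℤ, -c.q ≤ F.2 → F.2 < 0 → -c.q ≤ F.1 → F.1 < c.q → F ∈ s.SE := by
    rintro ⟨x, y⟩ a1 a2 a3 a4
    simp only at a1 a2 a3 a4
    have h := se_chain H (fun i => (x, -1 - (i : ℤ))) (se_vadj H (G := (x, 0))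
      (hG _ (Or.inl ⟨by simp only; push_cast; omega, by simp, a3, a4⟩))
      (hSP (x, 0) le_rfl (by show (0 : ℤ) < c.q; omega) a3 a4)
      ⟨by simp, by simp⟩) (-1 - y).toNat
      (fun i hi => hG _ (Or.inl ⟨by simp only; omega, by simp only; omega, a3, a4⟩))
      (fun i _ => ⟨by simp, by simp only; push_cast; rw [abs_le]; omega⟩)
    have e : ((-1 - y).toNat : ℤ) = -1 - y := Int.toNat_of_nonneg (by omega)
    simp only [e] at h
    have e2 : -1 - (-1 - y) = y := by ring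
    rwa [e2] at h
  have h00 : ((0 : ℤ), (-1 : ℤ)) ∈ s.SE := h1 _ (by simp only; omega) (by simp) (by simp only; omega)
    (by simp only; omega)
  have hlf : ∀ F ∈ c.lf, F ∈ s.SE := by
    rintro ⟨x, y⟩ hF
    have hF' := hF
    simp only [CutP.lf, mem_ofPred_eq] at hF
    rcases hF with hF | hF | hF | hF | hF
    · exact h1 _ hF.1 hF.2.1 hF.2.2.1 hF.2.2.2
    · obtain ⟨hh, rfl, a1, a2⟩ := hF
      rcases hp : c.pos with _ | _
      · have e : c.sg = -1 := by simp [CutP.sg, hp]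
        rw [e] at a1 a2
        have h := se_chain H (fun i => (-(i : ℤ), -1)) (by simpa using h00) (-x).toNat
          (fun i hi => hG _ (Or.inr (Or.inl ⟨hh, rfl, by rw [e]; simp only; omega, by
            rw [e]; simp only; omega⟩)))
          (fun i _ => ⟨by simp only; push_cast; rw [abs_le]; omega, by simp⟩)
        have e1 : ((-x).toNat : ℤ) = -x := Int.toNat_of_nonneg (by omega)
        simp only [e1, neg_neg] at h
        exact h
      · have e : c.sg = 1 := by simp [CutP.sg, hp]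
        rw [e] at a1 a2
        have h := se_chain H (fun i => ((i : ℤ), -1)) (by simpa using h00) x.toNat
          (fun i hi => hG _ (Or.inr (Or.inl ⟨hh, rfl, by rw [e]; simp only; omega, by
            rw [e]; simp only; omega⟩)))
          (fun i _ => ⟨by simp only; push_cast; rw [abs_le]; omega, by simp⟩)
        have e1 : (x.toNat : ℤ) = x := Int.toNat_of_nonneg (by omega)
        simp only [e1] at h
        exact h
    · obtain ⟨hh, rfl, a1, a2⟩ := hF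
      have h := se_chain H (fun i => ((i : ℤ), -1)) (by simpa using h00) x.toNat
        (fun i hi => hG _ (Or.inr (Or.inr (Or.inl ⟨hh, rfl, by simp only; omega, by
          simp only; omega⟩))))
        (fun i _ => ⟨by simp only; push_cast; rw [abs_le]; omega, by simp⟩)
      have e1 : (x.toNat : ℤ) = x := Int.toNat_of_nonneg (by omega)
      simp only [e1] at h
      exact h
    · obtain ⟨hh, hp, rfl, a1, a2⟩ := hF
      have h3 := se_chain H (fun i => ((i : ℤ), -1)) (by simpa using h00) (2 * c.m).toNat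
        (fun i hi => hG _ (Or.inr (Or.inr (Or.inl ⟨hh, rfl, by simp only; omega, by
          simp only; omega⟩))))
        (fun i _ => ⟨by simp only; push_cast; rw [abs_le]; omega, by simp⟩)
      have e1 : ((2 * c.m).toNat : ℤ) = 2 * c.m := Int.toNat_of_nonneg (by omega)
      simp only [e1] at h3
      have h := se_chain H (fun i => (2 * c.m, (i : ℤ) - 1)) (by simpa using h3) (y + 1).toNat
        (fun i hi => hG _ (Or.inr (Or.inr (Or.inr (Or.inl ⟨hh, hp, rfl, by simp only; omega, by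
          simp only; omega⟩)))))
        (fun i _ => ⟨by simp, by simp only; push_cast; rw [abs_le]; omega⟩)
      have e2 : ((y + 1).toNat : ℤ) = y + 1 := Int.toNat_of_nonneg (by omega)
      simp only [e2, add_sub_cancel_right] at h
      exact h
    · obtain ⟨hh, hp, rfl, a1, a2⟩ := hF
      have h3 := se_chain H (fun i => ((i : ℤ), -1)) (by simpa using h00) (2 * c.m).toNat
        (fun i hi => hG _ (Or.inr (Or.inr (Or.inl ⟨hh, rfl, by simp only; omega, by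
          simp only; omega⟩))))
        (fun i _ => ⟨by simp only; push_cast; rw [abs_le]; omega, by simp⟩)
      have e1 : ((2 * c.m).toNat : ℤ) = 2 * c.m := Int.toNat_of_nonneg (by omega)
      simp only [e1] at h3
      have h := se_chain H (fun i => (2 * c.m, -1 - (i : ℤ))) (by simpa using h3) (-1 - y).toNat
        (fun i hi => hG _ (Or.inr (Or.inr (Or.inr (Or.inr ⟨hh, hp, rfl, by simp only; omega, by
          simp only; omega⟩)))))
        (fun i _ => ⟨by simp, by simp only; push_cast; rw [abs_le]; omega⟩)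
      have e2 : ((-1 - y).toNat : ℤ) = -1 - y := Int.toNat_of_nonneg (by omega)
      have e3 : -1 - (-1 - y) = y := by ring
      simp only [e2, e3] at h
      exact h
  rintro F ⟨G, hG', hb⟩
  exact Finset.mem_coe.1 (((Stg.brickyE H) F G hb).2 (Finset.mem_coe.2 (hlf G hG')))

/-- What is used of the faces of the inner polygon. -/
theorem SLat.seh (Q : SLat p k S δ N ψ T R Rd cd X κ μ d τ₀ v₀ c w jf L E s) :
    SEh s.ℓ s.ρm d c w s.SE where
  kf := kf_sub_SE Q.ok Q.cut Q.box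
  off := by
    intro F hF hFK
    have h := Q.ok.offB F (Stg.SE_good Q.ok hF) (by
      rw [← Finset.mem_coe, Q.cut.hKB]; exact hFK)
    rw [Q.cut.hB] at h
    exact h.mono_right subset_union_right
  far := by
    intro F hF z hz
    by_contra hlt
    push Not at hlt
    have h1 := Stg.marginE Q.ok (z := z) ⟨F, Finset.mem_coe.2 hF, hz⟩
    refine Q.cut.cc.out (h1 ?_)
    rw [mem_ball, dist_comm]
    exact hlt
  up := by
    intro x h1 h2
    have hq := Q.cut.cc.hq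
    exact (Finset.mem_sdiff.1 (Stg.SP_sub Q.ok (Q.box (x, 0) le_rfl (by show (0 : ℤ) < c.q; omega)
      (by show -c.q ≤ x; omega) (by show x < c.q; omega)))).1

/-- The centre of the square in the plane of the faces is near its face. -/
theorem fc_face {ℓ : ℝ} {N : ℕ} {v₀ u : ℤ × ℤ} (hℓ : 0 < ℓ) (hN : 0 < N) (hu : u ∈ Uset)
    (v : ℤ × ℤ) : ∃ z ∈ sqr ℓ (fce N (v₀ + u) v), dist (fc ℓ N v₀ v) z ≤ ℓ / N := by
  have hN' : (0 : ℤ) < N := by exact_mod_cast hN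
  have hNr : (0 : ℝ) < N := by exact_mod_cast hN
  obtain ⟨u1, u2, u3⟩ := uset_1 hu
  have u1' : (0 : ℝ) ≤ u.1 := by exact_mod_cast u1
  have u2' : (u.1 : ℝ) ≤ 1 := by exact_mod_cast u2
  have u3' : (u.2 : ℝ) = 0 := by exact_mod_cast u3
  have hδ0 : 0 < ℓ / N := by positivity
  have hδN : ℓ / N * N = ℓ := div_mul_cancel₀ _ hNr.ne'
  have key : ∀ a : ℤ, ℓ * ((a / (N : ℤ) : ℤ) : ℝ) ≤ ℓ / N * (a + 1 / 2) ∧
      ℓ / N * (a + 1 / 2) ≤ ℓ * (((a / (N : ℤ) : ℤ) : ℝ) + 1) := by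
    intro a
    have h1 : ((a / (N : ℤ) * N : ℤ) : ℝ) ≤ a := by exact_mod_cast dv_leD hN'
    have h2 : (a : ℝ) + 1 ≤ (((a / (N : ℤ) + 1) * N : ℤ) : ℝ) := by
      exact_mod_cast Int.add_one_le_iff.2 (lt_dvD (x := a) hN')
    push_cast at h1 h2
    constructor
    · calc ℓ * ((a / (N : ℤ) : ℤ) : ℝ) = ℓ / N * (((a / (N : ℤ) : ℤ) : ℝ) * N) := by
            rw [mul_comm _ (N : ℝ), ← mul_assoc, hδN]
        _ ≤ _ := mul_le_mul_of_nonneg_left (by linarith) hδ0.le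
    · calc ℓ / N * (a + 1 / 2) ≤ ℓ / N * ((((a / (N : ℤ) : ℤ) : ℝ) + 1) * N) :=
            mul_le_mul_of_nonneg_left (by linarith) hδ0.le
        _ = _ := by rw [mul_comm _ (N : ℝ), ← mul_assoc, hδN]
  have e1 : (((v.1 - (v₀ + u).1 : ℤ)) : ℝ) = v.1 - v₀.1 - u.1 := by
    show (((v.1 - (v₀.1 + u.1) : ℤ)) : ℝ) = _
    push_cast; ring
  have e2 : (((v.2 - (v₀ + u).2 : ℤ)) : ℝ) = v.2 - v₀.2 := by
    show (((v.2 - (v₀.2 + u.2) : ℤ)) : ℝ) = _
    push_cast; rw [u3']; ring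
  refine ⟨⟨ℓ / N * (v.1 - v₀.1 - u.1 + 1 / 2), ℓ / N * (v.2 - v₀.2 + 1 / 2)⟩, ?_, ?_⟩
  · have k1 := key (v.1 - (v₀ + u).1)
    have k2 := key (v.2 - (v₀ + u).2)
    rw [e1] at k1
    rw [e2] at k2
    exact ⟨k1.1, k1.2, k2.1, k2.2⟩
  · rw [dist_re (z := fc ℓ N v₀ v) (w := ⟨ℓ / N * (v.1 - v₀.1 - u.1 + 1 / 2),
      ℓ / N * (v.2 - v₀.2 + 1 / 2)⟩) rfl]
    unfold fc
    have e : ℓ / N * ((v.1 : ℝ) - v₀.1 + 1 / 2) - ℓ / N * (v.1 - v₀.1 - u.1 + 1 / 2) =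
        ℓ / N * u.1 := by ring
    simp only [e]
    rw [abs_of_nonneg (by positivity)]
    nlinarith

theorem loewner_sub {W : ℝ → ℝ} {t : ℝ} (ht : 0 ≤ t) : loewnerDomain W t ⊆ HH := fun _ hz =>
  Vale.Agent.P164.im_pos_of_dom ht hz

/-- The domain of the stage. -/
theorem SLat.D_eq (Q : SLat p k S δ N ψ T R Rd cd X κ μ d τ₀ v₀ c w jf L E s) :
    s.D = Psi δ s.ℓ N v₀ ψ '' loewnerDomain s.W s.t := by
  rw [Q.ok.D_eq, Q.eψ]

theorem SLat.D_sub (Q : SLat p k S δ N ψ T R Rd cd X κ μ d τ₀ v₀ c w jf L E s) :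
    s.D ⊆ Psi δ s.ℓ N v₀ ψ '' HH := by
  rw [Q.D_eq]
  exact image_mono (loewner_sub Q.ok.drv.nn)

/-- The margin, around the centre. -/
theorem SLat.mar_fc (Q : SLat p k S δ N ψ T R Rd cd X κ μ d τ₀ v₀ c w jf L E s) {u : ℤ × ℤ}
    (hu : u ∈ Uset) {v : ℤ × ℤ} (hv : v ∈ sE s.SE N (v₀ + u)) :
    ball (fc s.ℓ N v₀ v) (79 * (s.ℓ / N)) ⊆ s.D := by
  have hN := Q.lat.hN
  have hℓ := Q.ok.hℓ
  rw [mem_sE (by omega)] at hv
  obtain ⟨z, hz, hd⟩ := fc_face (v₀ := v₀) hℓ (by omega : 0 < N) hu v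
  refine Subset.trans ?_ (Stg.marginE Q.ok (z := z) ⟨_, Finset.mem_coe.2 hv, hz⟩)
  refine ball_subset_ball' ?_
  have h2 := Q.hϱ
  linarith

/-- The squares of the inner polygon are deep. -/
theorem SLat.deep (Q : SLat p k S δ N ψ T R Rd cd X κ μ d τ₀ v₀ c w jf L E s) {u : ℤ × ℤ}
    (hu : u ∈ Uset) {v : ℤ × ℤ} (hv : v ∈ sE s.SE N (v₀ + u)) :
    v ∈ H192.dq p k S ∧ ∀ m, ¬ Crn v (H192.ro (p m)) := by
  have hN := Q.lat.hN
  have hℓ := Q.ok.hℓ
  have hNr : (16 : ℝ) ≤ N := by exact_mod_cast hN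
  refine Q.lat.deep v (Subset.trans ?_ ((Q.mar_fc hu hv).trans Q.D_sub))
  refine ball_subset_ball ?_
  have h1 : 0 < s.ℓ / N := by positivity
  linarith

/-- The inner polygon near the open path. -/
theorem SLat.legPE (Q : SLat p k S δ N ψ T R Rd cd X κ μ d τ₀ v₀ c w jf L E s) {u : ℤ × ℤ}
    (hu : u ∈ Uset) : LegPE (c.leg N v₀ u) (E u) (L u) (sE s.SE N (v₀ + u)) :=
  legPE_ofD Q.lat.cut Q.seh Q.hϱ Q.lat.hN hu (Q.lat.hE u hu) (Q.lat.endw u hu) (Q.lat.hEL u hu)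

theorem SLat.finKF (Q : SLat p k S δ N ψ T R Rd cd X κ μ d τ₀ v₀ c w jf L E s) :
    c.KF.Finite := by
  rw [← Q.cut.hKB]
  exact s.KB.finite_toSet

theorem SLat.legOk (Q : SLat p k S δ N ψ T R Rd cd X κ μ d τ₀ v₀ c w jf L E s) {u : ℤ × ℤ}
    (hu : u ∈ Uset) : (c.leg N v₀ u).Ok := by
  have hN := Q.lat.hN
  have hN16 : (16 : ℤ) ≤ N := by exact_mod_cast hN
  have hq := Q.cut.cc.hq
  have hm := Q.cut.cc.hm
  obtain ⟨u1, u2, u3⟩ := uset_1 hu
  refine ⟨?_, fun _ => ?_⟩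
  · show (2 : ℤ) ≤ (N : ℤ) / 2
    omega
  · show v₀.1 + u.1 + 5 ≤ v₀.1 + 2 * c.m * N + (N : ℤ) / 2
    have h : 35 * 16 ≤ 2 * c.m * (N : ℤ) := mul_le_mul (by omega) hN16 (by norm_num) (by omega)
    omega

/-- The squares of the polygon near the open path. -/
theorem SLat.P_near (Q : SLat p k S δ N ψ T R Rd cd X κ μ d τ₀ v₀ c w jf L E s) {u : ℤ × ℤ}
    (hu : u ∈ Uset) {i : ℤ × ℤ} (hi : i ∈ sE s.SP N (v₀ + u)) :
    fce N (v₀ + u) i ∉ c.KF ∧ ∀ v ∈ (c.leg N v₀ u).O (L u), |i.1 - v.1| ≤ 1 → |i.2 - v.2| ≤ 1 →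
      i.2 = v₀.2 + u.2 ∧ |i.1 - (v₀.1 + u.1)| ≤ 1 := by
  have hN := Q.lat.hN
  have hN0 : 0 < N := by omega
  rw [mem_sE hN0] at hi
  have hi2 := Finset.mem_sdiff.1 (Stg.SP_sub Q.ok hi)
  have hiK : fce N (v₀ + u) i ∉ c.KF := fun h => hi2.2 (by
    rw [← Finset.mem_coe, Q.cut.hKB]; exact h)
  refine ⟨hiK, fun v hv a1 a2 => ?_⟩
  have hL : ∀ j, E u < j → j ≤ L u → |i.1 - ((c.leg N v₀ u).lv j).1| ≤ 2 →
      |i.2 - ((c.leg N v₀ u).lv j).2| ≤ 2 → False := by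
    intro j hj hjL b1 b2
    have hb := beyond Q.lat.cut Q.seh Q.hϱ hN hu (Q.lat.hE u hu) (Q.lat.endw u hu) hj hjL b1 b2
    exact hiK (hb.2 (hb.1 hi2.1))
  by_cases hvE : v ∈ (c.leg N v₀ u).O (E u)
  · rcases near_O hN hu Q.cut.cc.hq Q.cut.cc.e_ge (Q.lat.hE u hu) hvE a1 a2 with
      h3 | h3 | ⟨h3, h4⟩
    · exact absurd h3 hiK
    · exact h3
    · exfalso
      have hEL := Q.lat.hEL u hu
      refine hL (E u + 1) (by omega) (by omega) ?_ ?_
      · have e1 := (c.leg N v₀ u).lv_1 (E u)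
        have e2 := (c.leg N v₀ u).lv_1 (E u + 1)
        push_cast at e2
        rw [h3] at a1
        rw [abs_le] at a1 ⊢
        rcases s_cases (c.leg N v₀ u) with hs | hs | hs | hs <;> rw [hs] at e1 e2 <;>
          simp only at e1 e2 <;> omega
      · have e1 := (c.leg N v₀ u).lv_2 (E u)
        have e2 := (c.leg N v₀ u).lv_2 (E u + 1)
        push_cast at e2
        rw [h3] at a2
        rw [abs_le] at a2 ⊢
        rcases s_cases (c.leg N v₀ u) with hs | hs | hs | hs <;> rw [hs] at e1 e2 <;>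
          simp only at e1 e2 <;> omega
  · exfalso
    have : ∃ j, E u < j ∧ j ≤ L u ∧ (c.leg N v₀ u).lv j = v := by
      rw [LegP.mem_O] at hv
      rcases hv with hv | hv | ⟨j, hj, hv⟩
      · exact absurd (LegP.mem_O.2 (Or.inl hv)) hvE
      · exact absurd (LegP.mem_O.2 (Or.inr (Or.inl hv))) hvE
      · refine ⟨j, ?_, hj, hv⟩
        by_contra hcon
        exact hvE (LegP.mem_O.2 (Or.inr (Or.inr ⟨j, by omega, hv⟩)))
    obtain ⟨j, hj, hjL, rfl⟩ := this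
    exact hL j hj hjL (by omega) (by omega)

/-- The squares of the polygon are not frozen. -/
theorem SLat.P_frz (Q : SLat p k S δ N ψ T R Rd cd X κ μ d τ₀ v₀ c w jf L E s) {u : ℤ × ℤ}
    (hu : u ∈ Uset) {i : ℤ × ℤ} (hi : i ∈ sE s.SP N (v₀ + u)) :
    i ∉ frz (c.leg N v₀ u) (L u) (sE (KFn c) N (v₀ + u)) := by
  have hN := Q.lat.hN
  have hN0 : 0 < N := by omega
  obtain ⟨hiK, h⟩ := Q.P_near hu hi
  rw [mem_frz]
  rintro ⟨h1 | h1, h2⟩
  · rw [mem_sE hN0, mem_KFn Q.finKF] at h1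
    exact hiK h1
  · obtain ⟨v, hv, o, -, hvo, hio⟩ := mem_nbh.1 h1
    obtain ⟨a1, a2⟩ := dist_of_crn hvo hio
    obtain ⟨h3, h4⟩ := h v hv a1 a2
    rw [leg_b1, leg_b2] at h2
    rw [abs_le] at h4
    exact h2 ⟨h3, by omega, by omega⟩

end

end Vale.Agent.P167.CL
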