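import Vale.Agent.P167.CL.DQ3
import Vale.Agent.P167.H450.ZoneIn

/-!
# P167, block CLOSE [D], fourth part: the plane of the faces, the read squares

`toF`: the plane of the faces. `SLat.mar`: the margin. `SLat.frz_near`: the frozen squares are near `w`.
`SLat.far_path`: the path is far from `w`. `SLat.rd_PE`, `SLat.rd_Kc`: the read squares.
-/

set_option autoImplicit false

open MeasureTheory Filter Topology Set Metric

namespace Vale.Agent.P167.CL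

open Vale.Agent.P153.R2.L1 (HH)
open Vale.Agent.P164 (loewnerDomain Zf)
open Vale.Agent.P167.H531 Vale.Agent.P167.H558
open Vale.Agent.P167.E6 Vale.Agent.P167.E2 Vale.Agent.P167.H411 Vale.Agent.P167.H450
open Vale.Agent.P167.H161 (zp Rd)

/-! ### The two planes -/

/-- From the plane of `E6` to the plane of the faces. -/
noncomputable def toF (δ ℓ : ℝ) (N : ℕ) (v₀ : ℤ × ℤ) (z : ℂ) : ℂ :=
  ((ℓ / (N * δ) : ℝ) : ℂ) * ((1 + Complex.I) * z - δ * pt v₀)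

theorem psi_toF (δ ℓ : ℝ) (N : ℕ) (v₀ : ℤ × ℤ) (ψ : ℂ → ℂ) (z : ℂ) :
    Psi δ ℓ N v₀ ψ z = toF δ ℓ N v₀ (ψ z) := rfl

theorem toF_re (δ ℓ : ℝ) (N : ℕ) (v₀ : ℤ × ℤ) (z : ℂ) :
    (toF δ ℓ N v₀ z).re = ℓ / (N * δ) * (z.re - z.im - δ * v₀.1) := by
  unfold toF
  rw [Complex.re_ofReal_mul]
  congr 1
  simp [pt]

theorem toF_im (δ ℓ : ℝ) (N : ℕ) (v₀ : ℤ × ℤ) (z : ℂ) :
    (toF δ ℓ N v₀ z).im = ℓ / (N * δ) * (z.re + z.im - δ * v₀.2) := by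
  unfold toF
  rw [Complex.im_ofReal_mul]
  congr 1
  simp [pt]
  ring

theorem norm_1I : 1 ≤ ‖(1 : ℂ) + Complex.I‖ ∧ ‖(1 : ℂ) + Complex.I‖ ≤ 2 := by
  constructor
  · have := Complex.abs_re_le_norm ((1 : ℂ) + Complex.I)
    simpa using this
  · have := norm_add_le (1 : ℂ) Complex.I
    rw [norm_one, Complex.norm_I] at this
    linarith

section toF

variable {δ ℓ : ℝ} {N : ℕ} {v₀ : ℤ × ℤ}

theorem dist_toF (hδ : 0 < δ) (hℓ : 0 < ℓ) (z z' : ℂ) :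
    dist (toF δ ℓ N v₀ z) (toF δ ℓ N v₀ z') =
      ℓ / (N * δ) * (‖(1 : ℂ) + Complex.I‖ * dist z z') := by
  have e : toF δ ℓ N v₀ z - toF δ ℓ N v₀ z' =
      ((ℓ / (N * δ) : ℝ) : ℂ) * ((1 + Complex.I) * (z - z')) := by
    unfold toF; ring
  rw [dist_eq_norm, e, norm_mul, norm_mul, Complex.norm_real, Real.norm_of_nonneg (by positivity),
    dist_eq_norm]

theorem toF_le (hδ : 0 < δ) (hℓ : 0 < ℓ) {z z' : ℂ} {a : ℝ} (h : dist z z' ≤ a * δ) :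
    dist (toF δ ℓ N v₀ z) (toF δ ℓ N v₀ z') ≤ 2 * a * (ℓ / N) := by
  rw [dist_toF hδ hℓ]
  have h1 := norm_1I.2
  have h0 : 0 ≤ dist z z' := dist_nonneg
  have h2 : ‖(1 : ℂ) + Complex.I‖ * dist z z' ≤ 2 * (a * δ) := by
    calc ‖(1 : ℂ) + Complex.I‖ * dist z z' ≤ 2 * dist z z' := mul_le_mul_of_nonneg_right h1 h0
      _ ≤ _ := by linarith
  calc ℓ / (N * δ) * (‖(1 : ℂ) + Complex.I‖ * dist z z') ≤ ℓ / (N * δ) * (2 * (a * δ)) :=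
        mul_le_mul_of_nonneg_left h2 (by positivity)
    _ = 2 * a * (ℓ / N) := by field_simp

theorem toF_inj (hδ : 0 < δ) (hℓ : 0 < ℓ) (hN : 0 < N) {z z' : ℂ}
    (h : toF δ ℓ N v₀ z = toF δ ℓ N v₀ z') : z = z' := by
  have h1 := dist_toF (N := N) (v₀ := v₀) hδ hℓ z z'
  rw [h, dist_self] at h1
  have hNr : (0 : ℝ) < N := by exact_mod_cast hN
  have h2 : 0 < ℓ / (N * δ) := by positivity
  have h3 : 0 < ‖(1 : ℂ) + Complex.I‖ := by linarith [norm_1I.1]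
  have h4 : ‖(1 : ℂ) + Complex.I‖ * dist z z' = 0 := by
    rcases mul_eq_zero.1 h1.symm with h5 | h5
    · exact absurd h5 h2.ne'
    · exact h5
  rcases mul_eq_zero.1 h4 with h5 | h5
  · exact absurd h5 h3.ne'
  · exact dist_eq_zero.1 h5

/-- The closed diamond of a square. -/
theorem toF_Dsq (hδ : 0 < δ) (hℓ : 0 < ℓ) {v : ℤ × ℤ} {z : ℂ} (hz : z ∈ Dsq δ v) :
    |(toF δ ℓ N v₀ z).re - (fc ℓ N v₀ v).re| ≤ ℓ / N / 2 ∧
      |(toF δ ℓ N v₀ z).im - (fc ℓ N v₀ v).im| ≤ ℓ / N / 2 := by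
  unfold Dsq at hz
  simp only [mem_ofPred_eq, H161.zp_re, H161.zp_im] at hz
  rw [toF_re, toF_im]
  unfold fc
  have k : ∀ x y : ℝ, |x - y| ≤ δ / 2 → |ℓ / (N * δ) * x - ℓ / (N * δ) * y| ≤ ℓ / N / 2 := by
    intro x y h
    rw [← mul_sub, abs_mul, abs_of_nonneg (by positivity : (0 : ℝ) ≤ ℓ / (N * δ))]
    calc ℓ / (N * δ) * |x - y| ≤ ℓ / (N * δ) * (δ / 2) :=
          mul_le_mul_of_nonneg_left h (by positivity)
      _ = ℓ / N / 2 := by field_simp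
  have e : ∀ a : ℝ, ℓ / N * a = ℓ / (N * δ) * (δ * a) := by intro a; field_simp
  have h1 := abs_sub (z.re - δ * ((v.1 : ℝ) + v.2) / 2 - δ / 2) (z.im - δ * ((v.2 : ℝ) - v.1) / 2)
  have h2 := abs_add_le (z.re - δ * ((v.1 : ℝ) + v.2) / 2 - δ / 2)
    (z.im - δ * ((v.2 : ℝ) - v.1) / 2)
  simp only [e]
  constructor
  · refine k _ _ ?_
    have e1 : z.re - z.im - δ * v₀.1 - δ * (v.1 - v₀.1 + 1 / 2) =
        (z.re - δ * ((v.1 : ℝ) + v.2) / 2 - δ / 2) - (z.im - δ * ((v.2 : ℝ) - v.1) / 2) := by ring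
    rw [e1]
    linarith
  · refine k _ _ ?_
    have e1 : z.re + z.im - δ * v₀.2 - δ * (v.2 - v₀.2 + 1 / 2) =
        (z.re - δ * ((v.1 : ℝ) + v.2) / 2 - δ / 2) + (z.im - δ * ((v.2 : ℝ) - v.1) / 2) := by ring
    rw [e1]
    linarith

theorem dist_coord {z w : ℂ} {a b : ℝ} (h1 : |z.re - w.re| ≤ a) (h2 : |z.im - w.im| ≤ b) :
    dist z w ≤ a + b := by
  rw [Complex.dist_eq]
  refine (Complex.norm_le_abs_re_add_abs_im _).trans ?_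
  rw [Complex.sub_re, Complex.sub_im]
  exact add_le_add h1 h2

theorem dist_Dsq_fc (hδ : 0 < δ) (hℓ : 0 < ℓ) {v : ℤ × ℤ} {z : ℂ} (hz : z ∈ Dsq δ v) :
    dist (toF δ ℓ N v₀ z) (fc ℓ N v₀ v) ≤ ℓ / N := by
  obtain ⟨h1, h2⟩ := toF_Dsq (N := N) (v₀ := v₀) hδ hℓ hz
  have := dist_coord h1 h2
  linarith

end toF

theorem zp_mem_Dsq {δ : ℝ} (hδ : 0 ≤ δ) (v : ℤ × ℤ) : zp δ v ∈ Dsq δ v := by
  unfold Dsq
  simp only [mem_ofPred_eq, sub_self, zero_sub, abs_neg, abs_zero, add_zero]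
  rw [abs_of_nonneg (by positivity)]

section

variable {n : ℕ} {p : ZMod n → ℤ × ℤ} {k : ℕ} {S : Finset (ℤ × ℤ)} {δ : ℝ} {N : ℕ}
    {ψ : ℂ → ℂ} {T R Rd' cd X κ μ d τ₀ : ℝ} {v₀ : ℤ × ℤ} {c : CutP} {w : ℂ}
    {jf L E : ℤ × ℤ → ℕ} {s : Stg}

theorem SLat.D_eq' (Q : SLat p k S δ N ψ T R Rd' cd X κ μ d τ₀ v₀ c w jf L E s) :
    s.D = toF δ s.ℓ N v₀ '' (ψ '' loewnerDomain s.W s.t) := by
  rw [Q.D_eq, image_image]
  rfl

theorem SLat.mem_D (Q : SLat p k S δ N ψ T R Rd' cd X κ μ d τ₀ v₀ c w jf L E s) {z : ℂ} :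
    toF δ s.ℓ N v₀ z ∈ s.D ↔ z ∈ ψ '' loewnerDomain s.W s.t := by
  have hN := Q.lat.hN
  rw [Q.D_eq']
  constructor
  · rintro ⟨z', hz', h⟩
    rw [← toF_inj Q.lat.hδ Q.ok.hℓ (by omega) h]
    exact hz'
  · exact fun h => ⟨z, h, rfl⟩

/-- **The margin.** -/
theorem SLat.mar (Q : SLat p k S δ N ψ T R Rd' cd X κ μ d τ₀ v₀ c w jf L E s) {u : ℤ × ℤ}
    (hu : u ∈ Uset) {v : ℤ × ℤ} (hv : v ∈ sE s.SE N (v₀ + u)) {z : ℂ} (hz : z ∈ Dsq δ v) :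
    ball z (8 * δ) ⊆ ψ '' loewnerDomain s.W s.t := by
  have hN := Q.lat.hN
  have hℓ := Q.ok.hℓ
  have hδ := Q.lat.hδ
  have hNr : (16 : ℝ) ≤ N := by exact_mod_cast hN
  have h0 : 0 < s.ℓ / N := by positivity
  intro z' hz'
  rw [← Q.mem_D]
  refine Q.mar_fc hu hv ?_
  have h1 := dist_Dsq_fc (N := N) (v₀ := v₀) hδ hℓ hz
  have h2 := toF_le (N := N) (v₀ := v₀) hδ hℓ (a := 8) (le_of_lt (mem_ball.1 hz'))
  have h3 := dist_triangle (toF δ s.ℓ N v₀ z') (toF δ s.ℓ N v₀ z) (fc s.ℓ N v₀ v)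
  rw [mem_ball]
  linarith

/-- The read squares are not in the inner polygon. -/
theorem SLat.rd_PE (Q : SLat p k S δ N ψ T R Rd' cd X κ μ d τ₀ v₀ c w jf L E s) {u : ℤ × ℤ}
    (hu : u ∈ Uset) {A : Finset (Sym2 (ℤ × ℤ))} {j : ℕ} (hA : A ⊆ edges S)
    (hj : j - 1 ≤ len p k A)
    (hdom : ψ '' loewnerDomain s.W s.t = Om δ S \ pl p k δ A '' Icc 0 j) :
    Disjoint (Rd p k S A j) (sE s.SE N (v₀ + u)) := by
  rw [Finset.disjoint_left]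
  intro v hv hvP
  have hδ := Q.lat.hδ
  obtain ⟨x, hx, hd⟩ := rd_near hδ.le hA hj hv (zp_mem_Dsq hδ.le v)
  have h1 := Q.mar hu hvP (zp_mem_Dsq hδ.le v)
    (mem_ball.2 (by rw [dist_comm]; linarith) : x ∈ ball (zp δ v) (8 * δ))
  rw [hdom] at h1
  exact h1.2 hx

/-- The squares of the leg from the exit on are near `w`. -/
theorem lv_near {ℓ ϱ μ d τ₀ : ℝ} {c : CutP} {N : ℕ} {v₀ u : ℤ × ℤ} {D : Set ℂ} {w : ℂ}
    (C : CutC ℓ ϱ μ d τ₀ c D w) (hN : 16 ≤ N)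
    (hu : u ∈ Uset) {E L : ℕ} (hE : (E : ℤ) + 1 = EI c N)
    (hw : dist (fc ℓ N v₀ ((c.leg N v₀ u).lv L)) w ≤ 64 * (ℓ / N)) {j : ℕ} (hj : E ≤ j)
    (hjL : j ≤ L) : dist (fc ℓ N v₀ ((c.leg N v₀ u).lv j)) w ≤ τ₀ + ϱ + 7 * ℓ := by
  have hNr : (16 : ℝ) ≤ N := by exact_mod_cast hN
  have hℓ := C.hℓ
  have hτ := C.hτ
  have hϱ := C.hϱ
  obtain ⟨u1, u2, u3⟩ := uset_1 hu
  have u1' : (0 : ℝ) ≤ u.1 := by exact_mod_cast u1
  have u2' : (u.1 : ℝ) ≤ 1 := by exact_mod_cast u2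
  have u3' : (u.2 : ℝ) = 0 := by exact_mod_cast u3
  have hj' : (E : ℝ) ≤ j := by exact_mod_cast hj
  have hjL' : (j : ℝ) ≤ L := by exact_mod_cast hjL
  set δ' : ℝ := ℓ / N with hδ'
  have hδ0 : 0 < δ' := by positivity
  have hδN : δ' * N = ℓ := div_mul_cancel₀ _ (by positivity)
  have hδ16 : 16 * δ' ≤ ℓ := by rw [← hδN]; nlinarith
  have m4 : δ' * ((c.e : ℝ) * N) = ℓ * c.e := by rw [← hδN]; ring
  have m1 := mul_le_mul_of_nonneg_left hj' hδ0.le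
  have m2 := mul_le_mul_of_nonneg_left hjL' hδ0.le
  rw [Complex.dist_eq] at hw
  have hre := (Complex.abs_re_le_norm _).trans hw
  have him := (Complex.abs_im_le_norm _).trans hw
  rw [Complex.sub_re] at hre
  rw [Complex.sub_im] at him
  have goal : ∀ a b : ℝ, |a - w.re| ≤ τ₀ + ϱ + 3 * ℓ → |b - w.im| ≤ 64 * δ' →
      dist (⟨a, b⟩ : ℂ) w ≤ τ₀ + ϱ + 7 * ℓ := fun a b h1 h2 =>
    (dist_coord (z := ⟨a, b⟩) h1 h2).trans (by linarith)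
  have goal' : ∀ a b : ℝ, |a - w.re| ≤ 64 * δ' → |b - w.im| ≤ τ₀ + ϱ + 3 * ℓ →
      dist (⟨a, b⟩ : ℂ) w ≤ τ₀ + ϱ + 7 * ℓ := fun a b h1 h2 =>
    (dist_coord (z := ⟨a, b⟩) h1 h2).trans (by linarith)
  rcases hh : c.hor with _ | _ <;> rcases hp : c.pos with _ | _
  · obtain ⟨hs, hlv⟩ := leg_vn (N := N) (v₀ := v₀) (u := u) hh hp j
    have hlL := (leg_vn (N := N) (v₀ := v₀) (u := u) hh hp L).2
    rw [ei_vn hh hp] at hE
    have hE' : ((E : ℤ) : ℝ) + 1 = ((c.e * N - (N : ℤ) / 2 + 1 : ℤ) : ℝ) := by exact_mod_cast hE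
    have m3 := congrArg (fun x => δ' * x) hE'
    obtain ⟨e1, e2⟩ := C.evn hh hp
    rw [hlL] at hre him
    unfold fc at hre him ⊢
    rw [← hδ'] at hre him ⊢
    rw [hlv]
    simp only at hre him m3 ⊢
    push_cast at hre him m3 ⊢
    rw [abs_le] at him
    refine goal' _ _ hre (abs_le.2 ⟨?_, ?_⟩)
    · rw [u3'] at him ⊢
      linarith
    · rw [u3'] at him ⊢
      linarith
  · obtain ⟨hs, hlv⟩ := leg_vp (N := N) (v₀ := v₀) (u := u) hh hp j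
    have hlL := (leg_vp (N := N) (v₀ := v₀) (u := u) hh hp L).2
    rw [ei_vp hh hp] at hE
    have hE' : ((E : ℤ) : ℝ) + 1 = (((c.e + 1) * N + (N : ℤ) / 2 : ℤ) : ℝ) := by exact_mod_cast hE
    have m3 := congrArg (fun x => δ' * x) hE'
    obtain ⟨e1, e2⟩ := C.evp hh hp
    rw [hlL] at hre him
    unfold fc at hre him ⊢
    rw [← hδ'] at hre him ⊢
    rw [hlv]
    simp only at hre him m3 ⊢
    push_cast at hre him m3 ⊢
    rw [abs_le] at him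
    refine goal' _ _ hre (abs_le.2 ⟨?_, ?_⟩)
    · rw [u3'] at him ⊢
      linarith
    · rw [u3'] at him ⊢
      linarith
  · obtain ⟨hs, hlv⟩ := leg_hn (N := N) (v₀ := v₀) (u := u) hh hp j
    have hlL := (leg_hn (N := N) (v₀ := v₀) (u := u) hh hp L).2
    rw [ei_hn hh hp] at hE
    have hE' : ((E : ℤ) : ℝ) + 1 = (((2 * c.e + 1) * N + 1 : ℤ) : ℝ) := by exact_mod_cast hE
    have m3 := congrArg (fun x => δ' * x) hE'
    obtain ⟨e1, e2⟩ := C.eh hh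
    have hsg : (c.sg : ℝ) = -1 := by simp [CutP.sg, hp]
    rw [hsg] at e1 e2
    rw [hlL] at hre him
    unfold fc at hre him ⊢
    rw [← hδ'] at hre him ⊢
    rw [hlv]
    simp only at hre him m3 ⊢
    push_cast at hre him m3 ⊢
    rw [abs_le] at hre
    refine goal _ _ (abs_le.2 ⟨?_, ?_⟩) him
    · nlinarith
    · nlinarith
  · obtain ⟨hs, hlv⟩ := leg_hp (N := N) (v₀ := v₀) (u := u) hh hp j
    have hlL := (leg_hp (N := N) (v₀ := v₀) (u := u) hh hp L).2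
    rw [ei_hp hh hp] at hE
    have hE' : ((E : ℤ) : ℝ) + 1 = (((2 * c.e + 1) * N : ℤ) : ℝ) := by exact_mod_cast hE
    have m3 := congrArg (fun x => δ' * x) hE'
    obtain ⟨e1, e2⟩ := C.eh hh
    have hsg : (c.sg : ℝ) = 1 := by simp [CutP.sg, hp]
    rw [hsg] at e1 e2
    rw [hlL] at hre him
    unfold fc at hre him ⊢
    rw [← hδ'] at hre him ⊢
    rw [hlv]
    simp only at hre him m3 ⊢
    push_cast at hre him m3 ⊢
    rw [abs_le] at hre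
    refine goal _ _ (abs_le.2 ⟨?_, ?_⟩) him
    · nlinarith
    · nlinarith

/-- Neighbouring squares. -/
theorem dist_fcD {ℓ : ℝ} {N : ℕ} {v₀ : ℤ × ℤ} (hℓ : 0 < ℓ) {v v' : ℤ × ℤ}
    (h1 : |v.1 - v'.1| ≤ 1) (h2 : |v.2 - v'.2| ≤ 1) :
    dist (fc ℓ N v₀ v) (fc ℓ N v₀ v') ≤ 2 * (ℓ / N) := by
  have k : ∀ a b x : ℤ, |a - b| ≤ 1 →
      |ℓ / N * ((a : ℝ) - x + 1 / 2) - ℓ / N * (b - x + 1 / 2)| ≤ ℓ / N := by
    intro a b x h
    have h' : |(a : ℝ) - b| ≤ 1 := by exact_mod_cast h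
    have e : ℓ / N * ((a : ℝ) - x + 1 / 2) - ℓ / N * (b - x + 1 / 2) = ℓ / N * (a - b) := by ring
    rw [e, abs_mul, abs_of_nonneg (by positivity)]
    exact mul_le_of_le_one_right (by positivity) h'
  have := dist_coord (z := fc ℓ N v₀ v) (w := fc ℓ N v₀ v') (k v.1 v'.1 v₀.1 h1)
    (k v.2 v'.2 v₀.2 h2)
  linarith

/-- The frozen squares: in the bricks of the cut, or near `w`. -/
theorem SLat.frz_cases (Q : SLat p k S δ N ψ T R Rd' cd X κ μ d τ₀ v₀ c w jf L E s) {u : ℤ × ℤ}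
    (hu : u ∈ Uset) {v : ℤ × ℤ}
    (hv : v ∈ frz (c.leg N v₀ u) (L u) (sE (KFn c) N (v₀ + u))) :
    fce N (v₀ + u) v ∈ c.KF ∨
      (dist (fc s.ℓ N v₀ v) w ≤ τ₀ + s.ρm + 8 * s.ℓ ∧ ∃ j, E u ≤ j ∧ j ≤ L u ∧
        |v.1 - ((c.leg N v₀ u).lv j).1| ≤ 1 ∧ |v.2 - ((c.leg N v₀ u).lv j).2| ≤ 1) := by
  have hN := Q.lat.hN
  have hN0 : 0 < N := by omega
  have hℓ := Q.ok.hℓ
  have hNr : (16 : ℝ) ≤ N := by exact_mod_cast hN
  have h16 : 16 * (s.ℓ / N) ≤ s.ℓ := by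
    rw [← mul_div_assoc, div_le_iff₀ (by positivity)]
    nlinarith
  rw [mem_frz] at hv
  obtain ⟨h1 | h1, h2⟩ := hv
  · rw [mem_sE hN0, mem_KFn Q.finKF] at h1
    exact Or.inl h1
  · obtain ⟨v', hv', o, -, hvo, hio⟩ := mem_nbh.1 h1
    obtain ⟨a1, a2⟩ := dist_of_crn hvo hio
    have hL : ∀ j, E u ≤ j → j ≤ L u → v' = (c.leg N v₀ u).lv j →
        (dist (fc s.ℓ N v₀ v) w ≤ τ₀ + s.ρm + 8 * s.ℓ ∧ ∃ j, E u ≤ j ∧ j ≤ L u ∧
        |v.1 - ((c.leg N v₀ u).lv j).1| ≤ 1 ∧ |v.2 - ((c.leg N v₀ u).lv j).2| ≤ 1) := by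
      intro j hj hjL hv'
      rw [hv'] at a1 a2
      refine ⟨?_, j, hj, hjL, a1, a2⟩
      have b1 := lv_near Q.lat.cut hN hu (Q.lat.hE u hu) (Q.lat.endw u hu) hj hjL
      have b2 := dist_fcD (N := N) (v₀ := v₀) hℓ a1 a2
      have b3 := dist_triangle (fc s.ℓ N v₀ v) (fc s.ℓ N v₀ ((c.leg N v₀ u).lv j)) w
      linarith
    by_cases hvE : v' ∈ (c.leg N v₀ u).O (E u)
    · rcases near_O hN hu Q.cut.cc.hq Q.cut.cc.e_ge (Q.lat.hE u hu) hvE a1 a2 with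
        h3 | ⟨h3, h4⟩ | ⟨h3, h4⟩
      · exact Or.inl h3
      · rw [leg_b1, leg_b2] at h2
        rw [abs_le] at h4
        exact absurd ⟨h3, by omega, by omega⟩ h2
      · exact Or.inr (hL _ le_rfl (Q.lat.hEL u hu).le h3)
    · have : ∃ j, E u < j ∧ j ≤ L u ∧ (c.leg N v₀ u).lv j = v' := by
        rw [LegP.mem_O] at hv'
        rcases hv' with hv' | hv' | ⟨j, hj, hv'⟩
        · exact absurd (LegP.mem_O.2 (Or.inl hv')) hvE
        · exact absurd (LegP.mem_O.2 (Or.inr (Or.inl hv'))) hvE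
        · refine ⟨j, ?_, hj, hv'⟩
          by_contra hcon
          exact hvE (LegP.mem_O.2 (Or.inr (Or.inr ⟨j, by omega, hv'⟩)))
      obtain ⟨j, hj, hjL, hj'⟩ := this
      exact Or.inr (hL j hj.le hjL hj'.symm)

/-- The frozen squares are near `w`. -/
theorem SLat.frz_near (Q : SLat p k S δ N ψ T R Rd' cd X κ μ d τ₀ v₀ c w jf L E s) {u : ℤ × ℤ}
    (hu : u ∈ Uset) {v : ℤ × ℤ}
    (hv : v ∈ frz (c.leg N v₀ u) (L u) (sE (KFn c) N (v₀ + u))) :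
    dist (fc s.ℓ N v₀ v) w ≤ d / 2 := by
  have hN := Q.lat.hN
  have hN0 : 0 < N := by omega
  have hℓ := Q.ok.hℓ
  have hd := Q.cut.cc.hd
  have hd2 := Q.cut.cc.ℓd
  have hNr : (16 : ℝ) ≤ N := by exact_mod_cast hN
  have h16 : 16 * (s.ℓ / N) ≤ s.ℓ := by
    rw [← mul_div_assoc, div_le_iff₀ (by positivity)]
    nlinarith
  rcases Q.frz_cases hu hv with h | ⟨h, -⟩
  · obtain ⟨z, hz, hd'⟩ := fc_face (v₀ := v₀) hℓ hN0 hu v
    have h1 := (cutG1 _ _ _ _ _ _ _ _ Q.cut.cc).2.1 z (Or.inl ⟨_, h, hz⟩)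
    have h2 := dist_triangle (fc s.ℓ N v₀ v) z w
    linarith
  · linarith

/-- **The path is far from `w`.** -/
theorem SLat.far_path (Q : SLat p k S δ N ψ T R Rd' cd X κ μ d τ₀ v₀ c w jf L E s)
    (hX0 : 0 < X) (hX : 16 * R ≤ X) (hX2 : 1024 * T ≤ X ^ 2) (hp : IsPolygon p)
    (hS : Encloses p S) (hk : k < n) {A : Finset (Sym2 (ℤ × ℤ))} {j : ℕ} (hA : A ⊆ edges S)
    (hj0 : 0 < j) (hj : j - 1 ≤ len p k A)
    (hdom : ψ '' loewnerDomain s.W s.t = Om δ S \ pl p k δ A '' Icc 0 j)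
    (hdom0 : ψ '' HH = Om δ S) {x : ℂ} (hx : x ∈ pl p k δ A '' Icc 0 (j : ℝ)) :
    8 * d ≤ dist (toF δ s.ℓ N v₀ x) w := by
  have hδ := Q.lat.hδ
  have hj0' : (0 : ℝ) < j := by exact_mod_cast hj0
  have key : ∀ t' : ℝ, 0 < t' → t' ≤ j → 8 * d ≤ dist (toF δ s.ℓ N v₀ (pl p k δ A t')) w := by
    intro t' h0 h1
    by_contra hlt
    push Not at hlt
    have hlen : (j : ℝ) ≤ len p k A + 1 := by exact_mod_cast (by omega : j ≤ len p k A + 1)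
    have hO := pl_mem_Om (A := A) hp hS hk hA hδ h0 (by unfold nu; push_cast; linarith)
    rw [← hdom0] at hO
    obtain ⟨z, hz, hzx⟩ := hO
    have hz0 : 0 < z.im := hz
    rw [← hzx] at hlt
    have h2 := Q.lat.nearX z hz0.le hlt.le
    have h3 : X / 2 ≤ ‖z‖ := by
      have h4 := dist_triangle_left (X : ℂ) 0 z
      rw [dist_zero_right, dist_zero_right, Complex.norm_real, Real.norm_of_nonneg hX0.le] at h4
      have := Q.cut.hκ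
      linarith
    have h5 : z ∈ loewnerDomain s.W s.t := by
      refine Q.ok.drv.dom hz0 (by linarith) ?_
      have : (X / 2) ^ 2 ≤ ‖z‖ ^ 2 := by gcongr
      nlinarith
    have h6 : pl p k δ A t' ∈ ψ '' loewnerDomain s.W s.t := ⟨z, h5, hzx⟩
    rw [hdom] at h6
    exact h6.2 ⟨t', ⟨h0.le, h1⟩, rfl⟩
  obtain ⟨t', ⟨h0, h1⟩, rfl⟩ := hx
  rcases h0.eq_or_lt with rfl | h0
  · have hc : Continuous fun t : ℝ => dist (toF δ s.ℓ N v₀ (pl p k δ A t)) w := by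
      refine Continuous.dist ?_ continuous_const
      unfold toF
      have := continuous_pl (p := p) (k := k) (A := A) δ
      fun_prop
    have hcl : IsClosed {t : ℝ | 8 * d ≤ dist (toF δ s.ℓ N v₀ (pl p k δ A t)) w} :=
      isClosed_le continuous_const hc
    have hsub : closure (Ioo (0 : ℝ) j) ⊆
        {t : ℝ | 8 * d ≤ dist (toF δ s.ℓ N v₀ (pl p k δ A t)) w} :=
      closure_minimal (fun t ht => key t ht.1 ht.2.le) hcl
    rw [closure_Ioo hj0'.ne] at hsub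
    exact hsub ⟨le_rfl, hj0'.le⟩
  · exact key t' h0 h1

/-- The read squares are not frozen. -/
theorem SLat.rd_frz (Q : SLat p k S δ N ψ T R Rd' cd X κ μ d τ₀ v₀ c w jf L E s)
    (hX0 : 0 < X) (hX : 16 * R ≤ X) (hX2 : 1024 * T ≤ X ^ 2) (hp : IsPolygon p)
    (hS : Encloses p S) (hk : k < n) {A : Finset (Sym2 (ℤ × ℤ))} {j : ℕ} (hA : A ⊆ edges S)
    (hj0 : 0 < j) (hj : j - 1 ≤ len p k A)
    (hdom : ψ '' loewnerDomain s.W s.t = Om δ S \ pl p k δ A '' Icc 0 j)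
    (hdom0 : ψ '' HH = Om δ S) {u : ℤ × ℤ} (hu : u ∈ Uset) :
    Disjoint (Rd p k S A j) (frz (c.leg N v₀ u) (L u) (sE (KFn c) N (v₀ + u))) := by
  rw [Finset.disjoint_left]
  intro v hv hvK
  have hδ := Q.lat.hδ
  have hN := Q.lat.hN
  have hℓ := Q.ok.hℓ
  have hd2 := Q.cut.cc.ℓd
  have hNr : (16 : ℝ) ≤ N := by exact_mod_cast hN
  have h16 : 16 * (s.ℓ / N) ≤ s.ℓ := by
    rw [← mul_div_assoc, div_le_iff₀ (by positivity)]
    nlinarith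
  obtain ⟨x, hx, hd⟩ := rd_near hδ.le hA hj hv (zp_mem_Dsq hδ.le v)
  have h1 := Q.far_path hX0 hX hX2 hp hS hk hA hj0 hj hdom hdom0 hx
  have h2 := Q.frz_near hu hvK
  have h3 := toF_le (N := N) (v₀ := v₀) hδ hℓ hd
  have h4 := dist_Dsq_fc (N := N) (v₀ := v₀) hδ hℓ (zp_mem_Dsq hδ.le v)
  have h5 := dist_triangle_left (toF δ s.ℓ N v₀ x) w (toF δ s.ℓ N v₀ (zp δ v))
  have h6 := dist_triangle (toF δ s.ℓ N v₀ (zp δ v)) (fc s.ℓ N v₀ v) w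
  linarith

end

end Vale.Agent.P167.CL
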