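import Vale.Agent.P167.CL.DQ4

/-!
# P167, block CLOSE [D], fifth part: `LatOne` without the comparison

`KcN`, `kapN`, `xN`, `yN`: the frozen squares, their configuration, the foot in the domain and in the
inner polygon. `SLat.latOne`.
-/

set_option autoImplicit false

open MeasureTheory Filter Topology Set Metric
open scoped ENNReal

namespace Vale.Agent.P167.CL

open Vale.Agent.P153.R2.L1 (HH)
open Vale.Agent.P164 (loewnerDomain Zf)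
open Vale.Agent.P167.H531 Vale.Agent.P167.H558
open Vale.Agent.P167.E6 Vale.Agent.P167.E2 Vale.Agent.P167.H411 Vale.Agent.P167.H450
open Vale.Agent.P167.H161 (zp Rd)

/-- Intersection of the frozen squares with a larger domain. -/
theorem CutOk.inter {D Q Kc B : Finset (ℤ × ℤ)} {κ : Cfg} {x : ℤ × ℤ} {T : Set (ℤ × ℤ)}
    (hDQ : D ⊆ Q) (h : CutOk D Kc B κ x T) : CutOk D (Kc ∩ Q) B κ x T := by
  have e : (↑D ∩ ↑(Kc ∩ Q) : Set (ℤ × ℤ)) = ↑D ∩ ↑Kc := by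
    ext v
    simp only [mem_inter_iff, Finset.mem_coe, Finset.mem_inter]
    exact ⟨fun h => ⟨h.1, h.2.1⟩, fun h => ⟨h.1, h.2, hDQ h.1⟩⟩
  constructor
  · rw [e]; exact h.join
  · rw [e]
    exact fun u hu i hi hiK => h.out u hu i hi fun hk => hiK (Finset.mem_inter.2 ⟨hk, hDQ hi⟩)
  · rw [e]
    exact fun i hi hiK => h.cls i hi (Finset.mem_inter.1 hiK).1
  · rw [e]; exact h.tgt
  · exact h.disj.mono_left Finset.inter_subset_left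

/-- `cutOk_leg` with a weaker hypothesis on the target. -/
theorem cutOk_leg' {g : LegP} (hg : g.Ok) {L E : ℕ} (hEL : E ≤ L) {D Kb : Finset (ℤ × ℤ)} {r : ℤ}
    (hr : 0 < r) (hOD : g.O E ⊆ D) (hOD' : ∀ v ∈ g.O L, v ∈ D → v ∈ g.O E)
    (hB : BR.hbox g.b r ⊆ D) (hKb : Disjoint Kb (BR.hbox g.b r))
    (hX : g.hor = false → g.b.1 + r + 3 ≤ g.X) {x : ℤ × ℤ} (hx0 : (x.1 + x.2) % 2 = 0)
    (hx : ∃ v ∈ g.O E, Crn v x) {T : Set (ℤ × ℤ)}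
    (hT : ∀ t ∈ T, ∀ v ∈ g.O E, Crn v t → t ∈ BR.sites (BR.hbox g.b r)) :
    CutOk D (frz g L Kb) (BR.hbox g.b r) (kap g L) x T := by
  classical
  refine cutOk_of (O := g.O E) ?_ hOD ((LegP.O_mono hEL).trans (O_subset_frz hg)) hB
    (LegP.sconn_OB hg E hr) hx0 hx ?_ hT (frz_disj hg hKb hX)
  · intro v hv _
    unfold kap
    rw [decide_eq_true_iff]
    exact ⟨fun h => hOD' v h hv, fun h => LegP.O_mono hEL h⟩
  · intro v hv i hi hK hiB u h0 hu hiu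
    rw [mem_frz, not_and, not_not] at hK
    have h3 := hK (Or.inr (mem_nbh.2 ⟨v, LegP.O_mono hEL hv, u, h0, hu, hiu⟩))
    have hX' : g.hor = false → g.b.1 + 2 + 3 ≤ g.X := fun h => by
      have := hg.hX h
      omega
    obtain ⟨a1, a2, a3⟩ := LegP.near_zone hg hv hu hiu h3.1.ge (r := 2) (by omega) hX'
    rw [mem_sites]
    refine ⟨g.b, ?_, ?_⟩
    · rw [BR.hbox, Finset.mem_product, Finset.mem_Icc, Finset.mem_Icc]
      omega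
    · unfold Crn
      omega

/-- The frozen squares. -/
noncomputable def KcN {n : ℕ} (p : ZMod n → ℤ × ℤ) (k : ℕ) (S : Finset (ℤ × ℤ)) (c : CutP) (N : ℕ)
    (v₀ : ℤ × ℤ) (L : ℤ × ℤ → ℕ) (u : ℤ × ℤ) : Finset (ℤ × ℤ) :=
  frz (c.leg N v₀ u) (L u) (sE (KFn c) N (v₀ + u)) ∩ H192.dq p k S

/-- The frozen configuration. -/
noncomputable def kapN (c : CutP) (N : ℕ) (v₀ : ℤ × ℤ) (L : ℤ × ℤ → ℕ) (u : ℤ × ℤ) : Cfg :=
  kap (c.leg N v₀ u) (L u)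

/-- The foot in the inner polygon. -/
noncomputable def yN (c : CutP) (N : ℕ) (v₀ : ℤ × ℤ) (E : ℤ × ℤ → ℕ) (u : ℤ × ℤ) : ℤ × ℤ :=
  (exists_exit (c.leg N v₀ u) (E u)).choose

theorem yN_spec (c : CutP) (N : ℕ) (v₀ : ℤ × ℤ) (E : ℤ × ℤ → ℕ) (u : ℤ × ℤ) :
    ((yN c N v₀ E u).1 + (yN c N v₀ E u).2) % 2 = 0 ∧
      Crn ((c.leg N v₀ u).lv (E u)) (yN c N v₀ E u) ∧
      Crn ((c.leg N v₀ u).lv (E u + 1)) (yN c N v₀ E u) ∧
      Near (c.leg N v₀ u).s ((c.leg N v₀ u).lv (E u + 1)) (yN c N v₀ E u) :=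
  (exists_exit (c.leg N v₀ u) (E u)).choose_spec

/-- The corners of a square. -/
theorem crn_Dsq {δ : ℝ} (hδ : 0 ≤ δ) {v s : ℤ × ℤ} (h : Crn v s) : zp δ s ∈ Dsq δ v := by
  unfold Dsq
  simp only [mem_ofPred_eq, H161.zp_re, H161.zp_im]
  unfold Crn at h
  have key : ∀ a b : ℝ, (a = 0 ∨ a = 1) → (b = 0 ∨ b = 1) →
      |δ * ((v.1 : ℝ) + a + (v.2 + b)) / 2 - δ * ((v.1 : ℝ) + v.2) / 2 - δ / 2| +
        |δ * ((v.2 : ℝ) + b - (v.1 + a)) / 2 - δ * ((v.2 : ℝ) - v.1) / 2| ≤ δ / 2 := by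
    intro a b ha hb
    have e3 : δ * ((v.1 : ℝ) + a + (v.2 + b)) / 2 - δ * ((v.1 : ℝ) + v.2) / 2 - δ / 2 =
        δ / 2 * (a + b - 1) := by ring
    have e4 : δ * ((v.2 : ℝ) + b - (v.1 + a)) / 2 - δ * ((v.2 : ℝ) - v.1) / 2 =
        δ / 2 * (b - a) := by ring
    rw [e3, e4, abs_mul, abs_mul, abs_of_nonneg (by positivity : 0 ≤ δ / 2), ← mul_add]
    have : |a + b - 1| + |b - a| ≤ 1 := by
      rcases ha with rfl | rfl <;> rcases hb with rfl | rfl <;> norm_num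
    nlinarith
  have h1 : ∃ a : ℝ, (a = 0 ∨ a = 1) ∧ (s.1 : ℝ) = v.1 + a := by
    rcases h.1 with h | h
    · exact ⟨0, Or.inl rfl, by rw [h]; ring⟩
    · exact ⟨1, Or.inr rfl, by rw [h]; push_cast; ring⟩
  have h2 : ∃ a : ℝ, (a = 0 ∨ a = 1) ∧ (s.2 : ℝ) = v.2 + a := by
    rcases h.2 with h | h
    · exact ⟨0, Or.inl rfl, by rw [h]; ring⟩
    · exact ⟨1, Or.inr rfl, by rw [h]; push_cast; ring⟩
  obtain ⟨a, ha, e1⟩ := h1
  obtain ⟨b, hb, e2⟩ := h2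
  rw [e1, e2]
  exact key a b ha hb

theorem hbox_fce {N : ℕ} (hN : 0 < N) {b : ℤ × ℤ} {r q : ℤ} (h : 2 * r ≤ q * N) {i : ℤ × ℤ}
    (hi : i ∈ BR.hbox b r) : 0 ≤ (fce N b i).2 ∧ (fce N b i).2 < q ∧ -q ≤ (fce N b i).1 ∧
      (fce N b i).1 < q := by
  have hN' : (0 : ℤ) < N := by exact_mod_cast hN
  rw [BR.hbox, Finset.mem_product, Finset.mem_Icc, Finset.mem_Icc] at hi
  unfold fce
  simp only
  have e : -q * (N : ℤ) = -(q * N) := by ring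
  refine ⟨le_dvD hN' (by omega), dv_ltD hN' (by omega), le_dvD hN' (by rw [e]; omega),
    dv_ltD hN' (by omega)⟩

theorem rb_le {ρ ℓ : ℝ} {N : ℕ} {q Rb : ℤ} (hℓ : 0 < ℓ) (h : (Rb : ℝ) ≤ ρ * N / ℓ)
    (h2 : 2 * ρ ≤ ℓ * q) : 2 * Rb ≤ q * N := by
  rw [le_div_iff₀ hℓ] at h
  have hN : (0 : ℝ) ≤ N := by positivity
  have h3 : (2 * Rb : ℝ) * ℓ ≤ (q * N) * ℓ := by nlinarith
  have h4 := le_of_mul_le_mul_right h3 hℓ
  exact_mod_cast h4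

section

variable {n : ℕ} {p : ZMod n → ℤ × ℤ} {k : ℕ} {S : Finset (ℤ × ℤ)} {δ : ℝ} {N : ℕ}
    {ψ : ℂ → ℂ} {T R Rd' cd X κ μ d τ₀ : ℝ} {v₀ : ℤ × ℤ} {c : CutP} {w : ℂ}
    {jf L E : ℤ × ℤ → ℕ} {s : Stg} {u : ℤ × ℤ}

theorem SLat.h16 (Q : SLat p k S δ N ψ T R Rd' cd X κ μ d τ₀ v₀ c w jf L E s) :
    0 < s.ℓ / N ∧ 16 * (s.ℓ / N) ≤ s.ℓ := by
  have hN := Q.lat.hN
  have hℓ := Q.ok.hℓ
  have hNr : (16 : ℝ) ≤ N := by exact_mod_cast hN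
  refine ⟨by positivity, ?_⟩
  rw [← mul_div_assoc, div_le_iff₀ (by positivity)]
  nlinarith

/-- The box is in the polygon. -/
theorem SLat.hbox_P (Q : SLat p k S δ N ψ T R Rd' cd X κ μ d τ₀ v₀ c w jf L E s) {r : ℤ}
    (hr : 2 * r ≤ c.q * N) : BR.hbox (v₀ + u) r ⊆ sE s.SP N (v₀ + u) := by
  have hN := Q.lat.hN
  intro i hi
  rw [mem_sE (by omega)]
  obtain ⟨a, b, c', e⟩ := hbox_fce (by omega : 0 < N) hr hi
  exact Q.box _ a b c' e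

theorem SLat.P_sub (Q : SLat p k S δ N ψ T R Rd' cd X κ μ d τ₀ v₀ c w jf L E s) :
    sE s.SP N (v₀ + u) ⊆ sE s.SE N (v₀ + u) := by
  have hN := Q.lat.hN
  intro i hi
  rw [mem_sE (by omega)] at hi ⊢
  exact (Finset.mem_sdiff.1 (Stg.SP_sub Q.ok hi)).1

theorem SLat.hbox_PE (Q : SLat p k S δ N ψ T R Rd' cd X κ μ d τ₀ v₀ c w jf L E s) {r : ℤ}
    (hr : 2 * r ≤ c.q * N) : BR.hbox (v₀ + u) r ⊆ sE s.SE N (v₀ + u) :=
  (Q.hbox_P hr).trans Q.P_sub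

theorem SLat.PE_dq (Q : SLat p k S δ N ψ T R Rd' cd X κ μ d τ₀ v₀ c w jf L E s)
    (hu : u ∈ Uset) : sE s.SE N (v₀ + u) ⊆ H192.dq p k S := fun _ hv => (Q.deep hu hv).1

/-- The squares of the bricks of the cut are off the box. -/
theorem SLat.kb_disj (Q : SLat p k S δ N ψ T R Rd' cd X κ μ d τ₀ v₀ c w jf L E s) {r : ℤ}
    (hr : 2 * r ≤ c.q * N) : Disjoint (sE (KFn c) N (v₀ + u)) (BR.hbox (v₀ + u) r) := by
  have hN := Q.lat.hN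
  rw [Finset.disjoint_left]
  intro i hi hiB
  rw [mem_sE (by omega), mem_KFn Q.finKF] at hi
  obtain ⟨a, b, c', e⟩ := hbox_fce (by omega : 0 < N) hr hiB
  have hm := Q.cut.cc.hm
  obtain ⟨-, h⟩ := kf_up a hi
  omega

theorem SLat.hXr (Q : SLat p k S δ N ψ T R Rd' cd X κ μ d τ₀ v₀ c w jf L E s)
    (hu : u ∈ Uset) {r : ℤ} (hr0 : 0 < r) (hr : 2 * r ≤ c.q * N) :
    (c.leg N v₀ u).b.1 + r + 3 ≤ (c.leg N v₀ u).X := by
  have hN := Q.lat.hN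
  have hN16 : (16 : ℤ) ≤ N := by exact_mod_cast hN
  have hm := Q.cut.cc.hm
  obtain ⟨u1, u2, u3⟩ := uset_1 hu
  show v₀.1 + u.1 + r + 3 ≤ v₀.1 + 2 * c.m * N + (N : ℤ) / 2
  have h : (c.q + 3) * (N : ℤ) ≤ 2 * c.m * N := mul_le_mul_of_nonneg_right hm (by omega)
  have e : (c.q + 3) * (N : ℤ) = c.q * N + 3 * N := by ring
  omega

/-- The frozen squares are off the box. -/
theorem SLat.kc_box (Q : SLat p k S δ N ψ T R Rd' cd X κ μ d τ₀ v₀ c w jf L E s)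
    (hu : u ∈ Uset) {r : ℤ} (hr0 : 0 < r) (hr : 2 * r ≤ c.q * N) :
    Disjoint (KcN p k S c N v₀ L u) (BR.hbox (v₀ + u) r) :=
  (frz_disj (Q.legOk hu) (Q.kb_disj hr) fun _ => Q.hXr hu hr0 hr).mono_left
    Finset.inter_subset_left

/-- The wired vertices are far from the open path. -/
theorem SLat.wst_off (Q : SLat p k S δ N ψ T R Rd' cd X κ μ d τ₀ v₀ c w jf L E s)
    (hu : u ∈ Uset) (hX0 : 0 < X) (hn : 0 < n)
    (hwir : ∀ i : ℕ, k ≤ i → i < n → ∃ x : ℝ, x ≤ 0 ∧ dist (ψ x) ((δ : ℂ) * pt (p i)) ≤ δ)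
    {t : ℤ × ℤ} (ht : t ∈ wst p k) {v : ℤ × ℤ} (hv : v ∈ (c.leg N v₀ u).O (L u)) : ¬ Crn v t := by
  obtain ⟨v', ⟨i, hi, hin, rfl⟩, rfl⟩ := ht
  intro hc
  by_cases hvL : v = (c.leg N v₀ u).lv (L u)
  · have hδ := Q.lat.hδ
    have hℓ := Q.ok.hℓ
    obtain ⟨hδ0, h16⟩ := Q.h16
    have hd2 := Q.cut.cc.ℓd
    obtain ⟨x, hx, hd⟩ := hwir i hi (by omega)
    have h1 := Q.lat.endw u hu
    rw [← hvL] at h1
    have h2 := dist_Dsq_fc (N := N) (v₀ := v₀) hδ hℓ (crn_Dsq hδ.le hc)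
    rw [H161.zp_ro] at h2
    have h3 := toF_le (N := N) (v₀ := v₀) hδ hℓ (a := 1) (hd.trans (by rw [one_mul]))
    have h4 := dist_triangle (toF δ s.ℓ N v₀ (ψ x)) (toF δ s.ℓ N v₀ ((δ : ℂ) * pt (p i)))
      (fc s.ℓ N v₀ v)
    have h5 := dist_triangle (toF δ s.ℓ N v₀ (ψ x)) (fc s.ℓ N v₀ v) w
    have h6 := Q.lat.nearX (x : ℂ) (by simp) (by rw [psi_toF]; linarith)
    rw [dist_eq_norm, ← Complex.ofReal_sub, Complex.norm_real, Real.norm_eq_abs, abs_le] at h6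
    have := Q.cut.hκ
    linarith [h6.1]
  · exact Q.lat.noC u hu v hv hvL i hc

/-- `CutOk` in the domain. -/
theorem SLat.cutOk_dq (Q : SLat p k S δ N ψ T R Rd' cd X κ μ d τ₀ v₀ c w jf L E s)
    (hu : u ∈ Uset) (hX0 : 0 < X) (hn : 0 < n)
    (hwir : ∀ i : ℕ, k ≤ i → i < n → ∃ x : ℝ, x ≤ 0 ∧ dist (ψ x) ((δ : ℂ) * pt (p i)) ≤ δ)
    {r : ℤ} (hr0 : 0 < r) (hr : 2 * r ≤ c.q * N) :
    CutOk (H192.dq p k S) (KcN p k S c N v₀ L u) (BR.hbox (v₀ + u) r) (kapN c N v₀ L u)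
      (H192.ro (p (jf u))) (wst p k) := by
  refine CutOk.inter Subset.rfl ?_
  refine cutOk_leg' (g := c.leg N v₀ u) (Q.legOk hu) (L := L u) (E := L u) le_rfl hr0
    (fun v hv => Q.lat.inD u hu v hv) (fun v hv _ => hv)
    ((Q.hbox_PE hr).trans (Q.PE_dq hu)) (Q.kb_disj hr) (fun _ => Q.hXr hu hr0 hr)
    (Int.even_iff.1 (H192.even_ro _)) ⟨_, LegP.lv_mem le_rfl, Q.lat.last u hu⟩ ?_
  exact fun t ht v hv hc => absurd hc (Q.wst_off hu hX0 hn hwir ht hv)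

/-- `CutOk` in the inner polygon. -/
theorem SLat.cutOk_PE (Q : SLat p k S δ N ψ T R Rd' cd X κ μ d τ₀ v₀ c w jf L E s)
    (hu : u ∈ Uset) {ip ia ib : ZMod s.mP} (hk : 0 < (ia - ip).val)
    {r : ℤ} (hr0 : 0 < r) (hr : 2 * r ≤ c.q * N) :
    CutOk (sE s.SE N (v₀ + u)) (KcN p k S c N v₀ L u) (BR.hbox (v₀ + u) r) (kapN c N v₀ L u)
      (yN c N v₀ E u) (larc N (v₀ + u) (mkShp s.pP s.SP ip ia ib)) := by
  have hN := Q.lat.hN
  have hN0 : 0 < N := by omega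
  obtain ⟨y0, y1, y2, y3⟩ := yN_spec c N v₀ E u
  have hLP := Q.legPE hu
  refine CutOk.inter (Q.PE_dq hu) ?_
  refine cutOk_leg' (g := c.leg N v₀ u) (Q.legOk hu) (L := L u) (E := E u) (Q.lat.hEL u hu).le hr0
    hLP.inO ?_ (Q.hbox_PE hr) (Q.kb_disj hr) (fun _ => Q.hXr hu hr0 hr) y0
    ⟨_, LegP.lv_mem le_rfl, y1⟩ ?_
  · intro v hv hvP
    by_contra hvE
    have : ∃ j, E u < j ∧ j ≤ L u ∧ (c.leg N v₀ u).lv j = v := by
      rw [LegP.mem_O] at hv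
      rcases hv with hv | hv | ⟨j, hj, hv⟩
      · exact absurd (LegP.mem_O.2 (Or.inl hv)) hvE
      · exact absurd (LegP.mem_O.2 (Or.inr (Or.inl hv))) hvE
      · refine ⟨j, ?_, hj, hv⟩
        by_contra hcon
        exact hvE (LegP.mem_O.2 (Or.inr (Or.inr ⟨j, by omega, hv⟩)))
    obtain ⟨j, hj, hjL, rfl⟩ := this
    have h := (hLP.hex j hj hjL _ (by simp) (by simp)).1 hvP
    rw [alon_lv] at h
    push_cast at h
    omega
  · intro t ht v hv hc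
    rw [larc_iff (p' := s.pP) (ip' := ip) hN0 hk (fun i _ => rfl)] at ht
    obtain ⟨i, -, rfl⟩ := ht
    have hpoly := qE_poly (ip := ip) (v₀ := v₀ + u) Q.ok.polyP hN0
    have hencl := qE_encl (ip := ip) (v₀ := v₀ + u) Q.ok.polyP Q.ok.enclP hN0
    obtain ⟨h1, -⟩ := enc_out (i := (i : ZMod (N * s.mP))) hpoly hencl
    set t := qE s.pP ip N (v₀ + u) (i : ZMod (N * s.mP)) with ht
    set v' := face t (Vale.Agent.P167.E2.ro (qE s.pP ip N (v₀ + u)) (i : ZMod (N * s.mP))) with hv'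
    have hc' : Crn v' t := by
      rw [hv']
      unfold face Crn
      rcases H192.fin4_cases (Vale.Agent.P167.E2.ro (qE s.pP ip N (v₀ + u))
        (i : ZMod (N * s.mP))) with h | h | h | h <;> rw [h] <;> simp
    obtain ⟨a1, a2⟩ := dist_of_crn hc hc'
    obtain ⟨b1, b2⟩ := (Q.P_near hu h1).2 v (LegP.O_mono (Q.lat.hEL u hu).le hv) a1 a2
    rw [abs_le] at b2
    have hX' : (c.leg N v₀ u).hor = false → (c.leg N v₀ u).b.1 + 2 + 3 ≤ (c.leg N v₀ u).X :=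
      fun h => by
        have := (Q.legOk hu).hX h
        omega
    obtain ⟨c1, c2, c3⟩ := LegP.near_zone (Q.legOk hu) hv hc hc' (by rw [leg_b2]; omega) (r := 2)
      (by rw [leg_b1]; omega) hX'
    rw [mem_sites]
    refine ⟨(c.leg N v₀ u).b, ?_, ?_⟩
    · rw [BR.hbox, Finset.mem_product, Finset.mem_Icc, Finset.mem_Icc]
      omega
    · unfold Crn
      omega

/-- The squares of the bricks of the cut are frozen. -/
theorem SLat.kb_sub (Q : SLat p k S δ N ψ T R Rd' cd X κ μ d τ₀ v₀ c w jf L E s)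
    (hu : u ∈ Uset) : sE s.KB N (v₀ + u) ⊆ KcN p k S c N v₀ L u := by
  have hN := Q.lat.hN
  have hN0 : 0 < N := by omega
  have hN' : (0 : ℤ) < N := by exact_mod_cast hN0
  have hq := Q.cut.cc.hq
  intro i hi
  rw [mem_sE hN0, ← Finset.mem_coe, Q.cut.hKB] at hi
  rw [KcN, Finset.mem_inter]
  refine ⟨?_, Q.PE_dq hu ((mem_sE hN0).2 (Q.seh.kf hi))⟩
  rw [mem_frz]
  refine ⟨Or.inl ((mem_sE hN0).2 ((mem_KFn Q.finKF).2 hi)), ?_⟩
  rw [leg_b1, leg_b2]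
  rintro ⟨a1, a2, a3⟩
  have e2 : (fce N (v₀ + u) i).2 = 0 := by
    show (i.2 - (v₀.2 + u.2)) / (N : ℤ) = 0
    rw [a1, sub_self, Int.zero_ediv]
  have hN16 : (16 : ℤ) ≤ N := by exact_mod_cast hN
  have e1 : -1 ≤ (fce N (v₀ + u) i).1 := le_dvD hN' (by
    show -1 * (N : ℤ) ≤ i.1 - (v₀.1 + u.1); omega)
  have e3 : (fce N (v₀ + u) i).1 < 1 := dv_ltD hN' (by
    show i.1 - (v₀.1 + u.1) < 1 * (N : ℤ); omega)
  have h := Q.box (fce N (v₀ + u) i) (by omega) (by omega) (by omega) (by omega)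
  refine (Finset.mem_sdiff.1 (Stg.SP_sub Q.ok h)).2 ?_
  rw [← Finset.mem_coe, Q.cut.hKB]
  exact hi

/-- **`LatOne`**, from the comparison. -/
theorem SLat.latOne (Q : SLat p k S δ N ψ T R Rd' cd X κ μ d τ₀ v₀ c w jf L E s)
    (hu : u ∈ Uset) (hX0 : 0 < X) (hX : 16 * R ≤ X) (hX2 : 1024 * T ≤ X ^ 2) (hp : IsPolygon p)
    (hS : Encloses p S) (hk : k < n)
    (hwir : ∀ i : ℕ, k ≤ i → i < n → ∃ x : ℝ, x ≤ 0 ∧ dist (ψ x) ((δ : ℂ) * pt (p i)) ≤ δ)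
    {A : Finset (Sym2 (ℤ × ℤ))} {j : ℕ} (hA : A ⊆ edges S) (hj0 : 0 < j) (hj : j - 1 ≤ len p k A)
    (hdom : ψ '' loewnerDomain s.W s.t = Om δ S \ pl p k δ A '' Icc 0 j)
    (hdom0 : ψ '' HH = Om δ S)
    {ip ia ib : ZMod s.mP} (hia : 0 < (ia - ip).val) {r Rb : ℤ} (hr0 : 0 < r) (hrR : r ≤ Rb)
    (hRb : 2 * Rb ≤ c.q * N) {e : ℝ}
    (hcmp : ∀ ω₀ : Cfg, (∀ v ∈ Rd p k S A j, ω₀ v = H192.cfg (A : Set _) v) →
      (∀ v ∈ KcN p k S c N v₀ L u, ω₀ v = kapN c N v₀ L u v) →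
      (∀ v ∈ BR.hbox (v₀ + u) r, ω₀ v = true) →
      cpr fair (StM 0) (H192.dq p k S)
          (Rd p k S A j ∪ KcN p k S c N v₀ L u ∪ BR.hbox (v₀ + u) Rb)
          {H192.ro (p (jf u))} (wst p k) ω₀ ≤
        cpr fair (StM 0) (sE s.SE N (v₀ + u))
          (Rd p k S A j ∪ KcN p k S c N v₀ L u ∪ BR.hbox (v₀ + u) Rb) {yN c N v₀ E u}
          (larc N (v₀ + u) (mkShp s.pP s.SP ip ia ib)) ω₀ + ENNReal.ofReal e ∧
      cpr fair (StM 0) (sE s.SE N (v₀ + u))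
          (Rd p k S A j ∪ KcN p k S c N v₀ L u ∪ BR.hbox (v₀ + u) Rb) {yN c N v₀ E u}
          (larc N (v₀ + u) (mkShp s.pP s.SP ip ia ib)) ω₀ ≤
        cpr fair (StM 0) (H192.dq p k S)
          (Rd p k S A j ∪ KcN p k S c N v₀ L u ∪ BR.hbox (v₀ + u) Rb)
          {H192.ro (p (jf u))} (wst p k) ω₀ + ENNReal.ofReal e) :
    LatOne p k S A j (KcN p k S c N v₀ L u) (sE s.SE N (v₀ + u))
      (sq N (v₀ + u) (mkShp s.pP s.SP ip ia ib)) (kapN c N v₀ L u) (H192.ro (p (jf u)))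
      (yN c N v₀ E u) (larc N (v₀ + u) (mkShp s.pP s.SP ip ia ib)) (v₀ + u) r Rb e := by
  have hN := Q.lat.hN
  have hN0 : 0 < N := by omega
  have hr : 2 * r ≤ c.q * N := by omega
  have hn : 0 < n := by have := hp.1; omega
  have hRb0 : 0 < Rb := by omega
  rw [sq_mkShp hN0]
  refine ⟨Q.cutOk_dq hu hX0 hn hwir hr0 hr, Q.cutOk_PE hu hia hr0 hr, ?_, ?_, Q.hbox_P hr,
    (Q.hbox_PE hRb).trans (Q.PE_dq hu), Q.kc_box hu hRb0 hRb, ?_, ?_, Q.rd_PE hu hA hj hdom, hcmp⟩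
  · intro i hi
    rw [Finset.mem_sdiff]
    exact ⟨Q.P_sub hi, fun h => Q.P_frz hu hi (Finset.mem_inter.1 h).1⟩
  · exact Stg.island_sq Q.ok hN0 (Q.kb_sub hu)
  · exact (Q.rd_PE hu hA hj hdom).mono_right (Q.hbox_PE hRb)
  · exact (Q.rd_frz hX0 hX hX2 hp hS hk hA hj0 hj hdom hdom0 hu).mono_right
      Finset.inter_subset_left

end

end Vale.Agent.P167.CL
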