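import Vale.Agent.P167.CL.Fin0

/-!
# P167, block CLOSE [ASM]: the interface of the final assembly

`Stp` : everything known on one outcome and one step. `LatR` : `LatOne` without the comparison.
`kcs` : the frozen squares of the cut. `S_latr` : the last piece.
-/

set_option autoImplicit false

open MeasureTheory Filter Topology Set Metric

namespace Vale.Agent.P167.CL

open Vale.Agent.P153.R2.R1 (IsU mb)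
open Vale.Agent.P153.R2.L1 (HH)
open Vale.Agent.P164 (loewnerDomain Zf)
open Vale.Agent.P167.E6 Vale.Agent.P167.E2 Vale.Agent.P167.H411
open Vale.Agent.P167.H161 (zp Rd)
open Vale.Agent.P167.H756 (HConf Drv)
open Vale.Agent.P167.H531 Vale.Agent.P167.H558
open Vale.Agent.P167.H446 (uX)
open Vale.Agent.P167.H327 (xf)

/-- **Everything known on one outcome `A` and one step `j`.** -/
structure Stp {n : ℕ} (p : ZMod n → ℤ × ℤ) (k : ℕ) (S : Finset (ℤ × ℤ))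
    (A : Finset (Sym2 (ℤ × ℤ))) (j : ℕ) (δ ℓ : ℝ) (N : ℕ) (ψ : ℂ → ℂ) (W : ℝ → ℝ)
    (t T R X Y Rd cd κ d ϱ τ₀ c₀ ρ εn : ℝ) (v₀ : ℤ × ℤ) (c : CutP) (w : ℂ)
    (jf L E : ℤ × ℤ → ℕ) (s : Stg) (F₀ : ℤ × ℤ) (ip ia ib : ZMod s.mP) (iE iaE : ZMod s.mE) :
    Prop where
  lat : CutLat p k S δ ℓ N ψ X κ d ϱ τ₀ v₀ c w jf L E
  cutn : CutN T R X Y κ d c₀ ℓ ϱ (2 * ℓ / N) τ₀ (Psi δ ℓ N v₀ ψ) c w
  dat : CDat δ p k S A j ψ W t T R Rd cd Y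
  isU : IsU ψ (Om δ S) (aM p δ) (bM p k δ)
  W0 : W 0 = 0
  hj0 : 0 < j
  hNδ : (N : ℝ) * δ ≤ ℓ
  hNδ' : ℓ ≤ 2 * (N * δ)
  hρq : 2 * ρ ≤ ℓ * c.q
  stg : StgOf s T R X Y (3 * Rd) cd κ (2 * ℓ / N) d τ₀ ρ εn ℓ ϱ (Psi δ ℓ N v₀ ψ) c w F₀ W t ip ia ib
  hiE : s.pE iE = s.vn true
  hiE1 : s.pE (iE + 1) = s.vn true + (1, 0)
  hiaE : s.pE iaE = s.vn false
  hval : (iaE - iE).val = (ia - ip).val
  hval0 : 0 < (ia - ip).val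
  harc : ∀ i : ℕ, i ≤ (ia - ip).val → s.pP (i + ip) = s.pE (i + iE)

/-- The frozen squares of the cut (`KB` the faces of the bricks, `D` the squares of the domain). -/
noncomputable def kcs (KB : Finset (ℤ × ℤ)) (c : CutP) (N : ℕ) (v₀ u : ℤ × ℤ) (L : ℕ)
    (D : Finset (ℤ × ℤ)) : Finset (ℤ × ℤ) :=
  frz (c.leg N v₀ u) L (sE KB N (v₀ + u)) ∩ D

/-- `LatOne` without the comparison. -/
structure LatR {n : ℕ} (p : ZMod n → ℤ × ℤ) (k : ℕ) (S : Finset (ℤ × ℤ))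
    (A : Finset (Sym2 (ℤ × ℤ))) (j : ℕ) (Kc PE P : Finset (ℤ × ℤ)) (κ : Cfg) (x y : ℤ × ℤ)
    (L : Set (ℤ × ℤ)) (b : ℤ × ℤ) (r Rb : ℤ) : Prop where
  hx : CutOk (H192.dq p k S) Kc (BR.hbox b r) κ x (wst p k)
  hy : CutOk PE Kc (BR.hbox b r) κ y L
  hP : P ⊆ PE \ Kc
  hisl : ∀ i ∈ PE \ Kc, i ∉ P → ∀ v ∈ P, ∀ u, Crn i u → ¬ Crn v u
  hbP : BR.hbox b r ⊆ P
  hB : BR.hbox b Rb ⊆ H192.dq p k S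
  hBK : Disjoint Kc (BR.hbox b Rb)
  hBR : Disjoint (Rd p k S A j) (BR.hbox b Rb)
  hKR : Disjoint (Rd p k S A j) Kc
  hPR : Disjoint (Rd p k S A j) PE

/-- The marks of the medial polygon. -/
noncomputable def aE (s : Stg) (N : ℕ) (iE iaE : ZMod s.mE) : ℕ := N * (iaE - iE).val - N / 2

/-- **[LATR]** (713) the lattice side of one step, with `CutL` and `PosC`. -/
def S_latr : Prop := ∀ {T R X Y Rd cd rc : ℝ}, 0 < Rd → 0 < cd → Cst T R X Y → 0 < rc →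
  ∃ κ₃ > 0, ∀ c₀ ρ : ℝ, 0 < c₀ → 0 < ρ → ∃ cb > 0, ∃ ε₃ > 0, ∀ εn : ℝ, 0 < εn → εn ≤ ε₃ →
  ∃ η > 0, ∀ ℓ ϱ : ℝ, 0 < ℓ → 0 < ϱ → ϱ + 4 * ℓ ≤ η → ∃ d₀ > 0,
  ∀ {n : ℕ} {p : ZMod n → ℤ × ℤ} {k : ℕ} {S : Finset (ℤ × ℤ)} {A : Finset (Sym2 (ℤ × ℤ))} {j : ℕ}
    {δ : ℝ} {N : ℕ} {ψ : ℂ → ℂ} {W : ℝ → ℝ} {t κ d τ₀ : ℝ} {v₀ : ℤ × ℤ} {c : CutP} {w : ℂ}
    {jf L E : ℤ × ℤ → ℕ} {s : Stg} {F₀ : ℤ × ℤ} {ip ia ib : ZMod s.mP} {iE iaE : ZMod s.mE},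
  κ ≤ κ₃ → d ≤ κ → 2048 * ρ ≤ d → δ ≤ d₀ →
  Stp p k S A j δ ℓ N ψ W t T R X Y Rd cd κ d ϱ τ₀ c₀ ρ εn v₀ c w jf L E s F₀ ip ia ib iE iaE →
  ∀ u ∈ Uset, ∃ l : ℕ, 0 < l ∧ l < N * s.mE ∧
    Crn ((c.leg N v₀ u).lv (E u + 1)) (qE s.pE iE N (v₀ + u) (l : ZMod (N * s.mE))) ∧
    ((qE s.pE iE N (v₀ + u) (l : ZMod (N * s.mE))).1 +
      (qE s.pE iE N (v₀ + u) (l : ZMod (N * s.mE))).2) % 2 = 0 ∧
    ∀ r Rb : ℤ, 0 < r → r ≤ Rb → (Rb : ℝ) ≤ ρ * N / ℓ →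
      LatR p k S A j (kcs s.KB c N v₀ u (L u) (H192.dq p k S)) (sE s.SE N (v₀ + u))
        (sE s.SP N (v₀ + u)) (kap (c.leg N v₀ u) (L u)) (H192.ro (p (jf u)))
        (qE s.pE iE N (v₀ + u) (l : ZMod (N * s.mE))) (larc N (v₀ + u) (mkShp s.pP s.SP ip ia ib))
        (v₀ + u) r Rb ∧
      CutL p k S (jf u) (qE s.pE iE N (v₀ + u)) (sE s.SE N (v₀ + u)) (aE s N iE iaE) l
        (kcs s.KB c N v₀ u (L u) (H192.dq p k S)) (BR.hbox (v₀ + u) Rb) (BR.hbox (v₀ + u) r)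
        (kap (c.leg N v₀ u) (L u)) ∧
      PosC δ p k A j ψ W t (kcs s.KB c N v₀ u (L u) (H192.dq p k S)) (BR.hbox (v₀ + u) Rb) rc cb
        (uX W t (xf ψ p δ (jf u)))

/-- **[HCMP]** (531) the comparison. -/
def S_cmp : Prop := ∀ {T R Rd cd Y u₀ U : ℝ}, 0 ≤ T → 0 ≤ R → 0 < Rd → 0 < cd → 0 < Y →
  8 * R ≤ Y → 64 * T ≤ Y ^ 2 → 0 < u₀ → 64 * R ≤ u₀ → 1024 * T ≤ u₀ ^ 2 → ∃ rc > 0,
  ∀ cb e : ℝ, 0 < cb → 0 < e → ∃ ε > 0, ∃ h > 0, ∃ d₀ > 0,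
  ∀ {n m : ℕ} {p : ZMod n → ℤ × ℤ} {k : ℕ} {S : Finset (ℤ × ℤ)}
    {A : Finset (Sym2 (ℤ × ℤ))} {δ : ℝ} {j : ℕ} {ψ : ℂ → ℂ} {W : ℝ → ℝ} {t : ℝ}
    {q : ZMod m → ℤ × ℤ} {PE Kc Bb B : Finset (ℤ × ℤ)} {a l jf : ℕ} {u : ℝ} {κ ω₀ : Cfg}
    {L : Set (ℤ × ℤ)},
  0 < j → δ ≤ d₀ → u₀ ≤ u → u ≤ U → CDat δ p k S A j ψ W t T R Rd cd Y →
  IsU ψ (Om δ S) (aM p δ) (bM p k δ) → Lab δ p k S A j ψ W t ε →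
  PosF δ p k A j ψ W t ε jf u → PosC δ p k A j ψ W t Kc Bb rc cb u → PosE δ ψ W t Kc Bb PE ε u →
  PosP δ p k S A j ψ W t q PE a l ε h u → CutL p k S jf q PE a l Kc Bb B κ →
  (∀ z : ℤ × ℤ, (z.1 + z.2) % 2 = 0 → (z ∈ L ↔ z ∈ arcM q 0 0 a)) →
  (∀ v ∈ H161.Rd p k S A j, ω₀ v = H192.cfg (A : Set (Sym2 (ℤ × ℤ))) v) → (∀ v ∈ Kc, ω₀ v = κ v) →
  (∀ v ∈ B, ω₀ v = true) →
    cpr fair (StM 0) (H192.dq p k S) (H161.Rd p k S A j ∪ Kc ∪ Bb) {H192.ro (p jf)} (wst p k) ω₀ ≤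
      cpr fair (StM 0) PE (H161.Rd p k S A j ∪ Kc ∪ Bb) {q l} L ω₀ + ENNReal.ofReal e ∧
    cpr fair (StM 0) PE (H161.Rd p k S A j ∪ Kc ∪ Bb) {q l} L ω₀ ≤
      cpr fair (StM 0) (H192.dq p k S) (H161.Rd p k S A j ∪ Kc ∪ Bb) {H192.ro (p jf)} (wst p k) ω₀ +
        ENNReal.ofReal e

end Vale.Agent.P167.CL
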