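import Vale.Agent.P167.CL.CutDefs

/-!
# P167, block CUT: the closed squares around a straight leg do not join its two sides

The leg ends at the vertex `x` of the polygon. The face `a` before `x` on the other side can be left
across the leg only through the square in front of the leg, to the face `a'` or to the outside; the
face `a'` is a dead end, as the face `c` behind it is outside of the domain.
-/

set_option autoImplicit false

namespace Vale.Agent.P167.CL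

open Vale.Agent.P167.E6 Vale.Agent.P167.E2 Vale.Agent.P167.H531
open Vale.Agent.P167.H192 (rf rf' sq ed IsEdge ed_sq sq_ed ed_inj isEdge_ed even_ro odd_rf
  rf_rf' rf'_rf rf_inj sq_mk ro_dir)

/-- A path which enters and leaves the set `T` only through `α`. -/
theorem trap {V : Type*} {R : V → V → Prop} {T : Set V} {P : V → Prop} {α : V}
    (h1 : ∀ x y, R x y → x ∉ T → y ∉ T → (P x ↔ P y))
    (h2 : ∀ x y, R x y → x ∉ T → y ∈ T → x = α)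
    (h3 : ∀ x y, R x y → x ∈ T → y ∉ T → y = α) {a b : V} (hab : Relation.ReflTransGen R a b)
    (ha : a ∉ T) : (b ∉ T → (P a ↔ P b)) ∧ (b ∈ T → (P a ↔ P α)) := by
  induction hab with
  | refl => exact ⟨fun _ => Iff.rfl, fun h => absurd h ha⟩
  | @tail b c _ hbc ih =>
    by_cases hb : b ∈ T
    · refine ⟨fun hc => ?_, fun _ => ih.2 hb⟩
      rw [h3 b c hbc hb hc]
      exact ih.2 hb
    · refine ⟨fun hc => (ih.1 hb).trans (h1 b c hbc hb hc), fun hc => ?_⟩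
      rw [← h2 b c hbc hb hc]
      exact ih.1 hb

variable {n : ℕ} {p : ZMod n → ℤ × ℤ} {S : Finset (ℤ × ℤ)}

theorem pos_inl (f : ℤ × ℤ) : pos p (Sum.inl f) = rf f := rfl

theorem pos_inr (i : ZMod n) : pos p (Sum.inr i) = rf (fo' p i) := rfl

/-- A dual site whose position is a face of the domain. -/
theorem eq_inl (hp : IsPolygon p) (hS : Encloses p S) {x : (ℤ × ℤ) ⊕ ZMod n} {z : ℤ × ℤ}
    (hz : rf' z ∈ S) (h : pos p x = z) : x = Sum.inl (rf' z) := by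
  rcases x with f | i
  · rw [pos_inl] at h
    rw [← h, rf'_rf]
  · rw [pos_inr] at h
    rw [← h, rf'_rf] at hz
    exact absurd hz (fo_not_mem hp hS i)

/-- A step from a dual site whose position is not a face of the domain. -/
theorem step_out {g : ℤ × ℤ} {x y : (ℤ × ℤ) ⊕ ZMod n} {z : ℤ × ℤ} (hp : IsPolygon p)
    (hS : Encloses p S)
    (hz : rf' z ∉ S) (h : pos p x = z) (hs : StQ p S g x y) :
    ∃ i, x = Sum.inr i ∧ ed g = pe p i := by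
  rcases hs with ⟨w, r, he, h1, h2, rfl, rfl⟩ | ⟨i, he, rfl, rfl⟩ | ⟨i, he, rfl, rfl⟩
  · rw [pos_inl] at h
    rw [← h, rf'_rf] at hz
    exact absurd h1 hz
  · rw [pos_inl] at h
    rw [← h, rf'_rf] at hz
    exact absurd (fi_mem hp hS i) hz
  · exact ⟨i, rfl, he⟩

/-- A step to an outer side. -/
theorem step_inr {g : ℤ × ℤ} {x : (ℤ × ℤ) ⊕ ZMod n} {i : ZMod n} (hs : StQ p S g x (Sum.inr i)) :
    ed g = pe p i ∧ x = Sum.inl (fi p i) := by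
  rcases hs with ⟨w, r, he, h1, h2, h3, h4⟩ | ⟨i', he, h3, h4⟩ | ⟨i', he, h3, h4⟩
  · cases h4
  · cases h4
    exact ⟨he, h3⟩
  · cases h4

variable {G : Set (ℤ × ℤ)} {P : ℤ × ℤ → Prop} {V w a a' c : ℤ × ℤ}

/-- The main argument. `V` is the square in front of the leg, `a`, `a'`, `c` are consecutive
neighbours of the end `x` of the leg. -/
theorem tube_core (hp : IsPolygon p) (hS : Encloses p S) (hA : rf' a ∈ S)
    (hc : rf' a' ∉ S ∨ rf' c ∉ S) (hV : StM 1 V a a') (hw : StM 1 w a' c)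
    (h1 : ∀ g ∈ G, ∀ y y', StM 1 g y y' → (P y ↔ P y') ∨ g = V)
    (h2 : ∀ g ∈ G, ∀ y, StM 1 g a' y → g = V ∨ g = w) {a₁ b₁ : (ℤ × ℤ) ⊕ ZMod n}
    (hab : Cn (StQ p S) G a₁ b₁) (ha : pos p a₁ ≠ a' ∧ pos p a₁ ≠ c)
    (hb : pos p b₁ ≠ a' ∧ pos p b₁ ≠ c) : P (pos p a₁) ↔ P (pos p b₁) := by
  have hsym := (isSt_Q hp hS).symm
  by_cases hA' : rf' a' ∈ S
  · -- the face `a'` is in the domain
    have hC : rf' c ∉ S := hc.resolve_left (fun h => h hA')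
    set T : Set ((ℤ × ℤ) ⊕ ZMod n) :=
      {x | x = Sum.inl (rf' a') ∨ ∃ i, x = Sum.inr i ∧ ed w = pe p i} with hT
    have k2 : ∀ x y, (∃ g ∈ G, StQ p S g x y) → x ∉ T → y ∈ T → x = Sum.inl (rf' a) := by
      rintro x y ⟨g, hg, hs⟩ hx (rfl | ⟨i, rfl, hi⟩)
      · have h3 := stQ_pos hp (hsym _ _ _ hs)
        have ea : rf (rf' a') = a' := rf_rf' (by
          obtain ⟨-, -, -, h⟩ := hw
          rw [Int.even_iff]; omega)
        rw [pos_inl, ea] at h3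
        rcases h2 g hg _ h3 with rfl | rfl
        · rcases (isSt_M 1).pair _ _ _ _ _ hV h3 with ⟨h4, h5⟩ | ⟨h4, h5⟩
          · exact eq_inl hp hS hA (by rw [h5, h4])
          · exact eq_inl hp hS hA h5
        · exfalso
          have h6 : pos p x = c := by
            rcases (isSt_M 1).pair _ _ _ _ _ hw h3 with ⟨h4, h5⟩ | ⟨h4, h5⟩
            · exact h5
            · rw [h5, h4]
          obtain ⟨i, hi, hi'⟩ := step_out hp hS hC h6 hs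
          exact hx (Or.inr ⟨i, hi, hi'⟩)
      · exfalso
        have h3 := stQ_pos hp hs
        obtain ⟨h4, rfl⟩ := step_inr hs
        rw [← hi] at h4
        obtain rfl := ed_inj h4
        rw [pos_inl] at h3
        rcases (isSt_M 1).pair _ _ _ _ _ hw h3 with ⟨h5, -⟩ | ⟨h5, -⟩
        · refine hx (Or.inl ?_)
          rw [← h5, rf'_rf]
        · apply hC
          rw [← h5, rf'_rf]
          exact fi_mem hp hS i
    have k1 : ∀ x y, (∃ g ∈ G, StQ p S g x y) → x ∉ T → y ∉ T → (P (pos p x) ↔ P (pos p y)) := by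
      rintro x y ⟨g, hg, hs⟩ hx hy
      have h3 := stQ_pos hp hs
      rcases h1 g hg _ _ h3 with h | rfl
      · exact h
      · exfalso
        rcases (isSt_M 1).pair _ _ _ _ _ hV h3 with ⟨-, h5⟩ | ⟨h5, -⟩
        · exact hy (Or.inl (eq_inl hp hS hA' h5))
        · exact hx (Or.inl (eq_inl hp hS hA' h5))
    have k3 : ∀ x : (ℤ × ℤ) ⊕ ZMod n, pos p x ≠ a' → pos p x ≠ c → x ∉ T := by
      rintro x hx hx' (rfl | ⟨i, rfl, hi⟩)
      · apply hx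
        rw [pos_inl]
        exact rf_rf' (by
          obtain ⟨-, -, -, h⟩ := hw
          rw [Int.even_iff]; omega)
      · have h3 : StM 1 w (pos p (Sum.inr i : (ℤ × ℤ) ⊕ ZMod n)) (pos p (Sum.inl (fi p i))) :=
          stQ_pos (S := S) hp (Or.inr (Or.inr ⟨i, hi, rfl, rfl⟩))
        rcases (isSt_M 1).pair _ _ _ _ _ hw h3 with ⟨h5, -⟩ | ⟨h5, -⟩
        · exact hx h5
        · exact hx' h5
    exact (trap (P := fun x => P (pos p x)) k1 k2 (fun x y ⟨g, hg, hs⟩ hx hy =>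
      k2 y x ⟨g, hg, hsym _ _ _ hs⟩ hy hx) hab (k3 _ ha.1 ha.2)).1 (k3 _ hb.1 hb.2)
  · -- the face `a'` is outside
    set T : Set ((ℤ × ℤ) ⊕ ZMod n) := {x | ∃ i, x = Sum.inr i ∧ ed V = pe p i} with hT
    have k2 : ∀ x y, (∃ g ∈ G, StQ p S g x y) → x ∉ T → y ∈ T → x = Sum.inl (rf' a) := by
      rintro x y ⟨g, hg, hs⟩ hx ⟨i, rfl, hi⟩
      have h3 := stQ_pos hp hs
      obtain ⟨h4, rfl⟩ := step_inr hs
      rw [← hi] at h4
      obtain rfl := ed_inj h4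
      rw [pos_inl] at h3
      rcases (isSt_M 1).pair _ _ _ _ _ hV h3 with ⟨h5, -⟩ | ⟨h5, -⟩
      · rw [← h5, rf'_rf]
      · exfalso
        apply hA'
        rw [← h5, rf'_rf]
        exact fi_mem hp hS i
    have k1 : ∀ x y, (∃ g ∈ G, StQ p S g x y) → x ∉ T → y ∉ T → (P (pos p x) ↔ P (pos p y)) := by
      rintro x y ⟨g, hg, hs⟩ hx hy
      have h3 := stQ_pos hp hs
      rcases h1 g hg _ _ h3 with h | rfl
      · exact h
      · exfalso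
        rcases (isSt_M 1).pair _ _ _ _ _ hV h3 with ⟨-, h5⟩ | ⟨h5, -⟩
        · exact hy (step_out hp hS hA' h5 (hsym _ _ _ hs))
        · exact hx (step_out hp hS hA' h5 hs)
    have k3 : ∀ x : (ℤ × ℤ) ⊕ ZMod n, pos p x ≠ a' → x ∉ T := by
      rintro x hx ⟨i, rfl, hi⟩
      have h3 : StM 1 V (pos p (Sum.inr i : (ℤ × ℤ) ⊕ ZMod n)) (pos p (Sum.inl (fi p i))) :=
        stQ_pos (S := S) hp (Or.inr (Or.inr ⟨i, hi, rfl, rfl⟩))
      rcases (isSt_M 1).pair _ _ _ _ _ hV h3 with ⟨h5, -⟩ | ⟨h5, -⟩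
      · apply fo_not_mem hp hS i
        rw [pos_inr] at h5
        rw [← h5, rf'_rf] at hA
        exact hA
      · exact hx h5
    exact (trap (P := fun x => P (pos p x)) k1 k2 (fun x y ⟨g, hg, hs⟩ hx hy =>
      k2 y x ⟨g, hg, hsym _ _ _ hs⟩ hy hx) hab (k3 _ ha.1)).1 (k3 _ hb.1)

/-- An edge of the domain with an end off the polygon has both faces in the domain. -/
theorem faces_in (hS : Encloses p S) {g u u' y y' : ℤ × ℤ} (hg : ed g ∈ edges S)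
    (hu : StM 0 g u u') (hu' : ∀ m, u ≠ H192.ro (p m)) (hy : StM 1 g y y') :
    rf' y ∈ S ∧ rf' y' ∈ S := by
  obtain ⟨v, r, he⟩ := isEdge_ed g
  have h1 : StM 1 g (rf (face v r)) (rf (face v (r - 1))) := by
    have := stM_faces v r
    rwa [← he, sq_ed] at this
  have h0 : StM 0 g (H192.ro v) (H192.ro (v + dir r)) := stE_stM ⟨he, r, rfl⟩
  have hq : (∃ i, p i = v ∧ p (i + 1) = v + dir r) ∨ (∃ i, p i = v + dir r ∧ p (i + 1) = v) →
      False := by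
    rintro (⟨i, h2, h3⟩ | ⟨i, h2, h3⟩) <;>
      rcases (isSt_M 0).pair _ _ _ _ _ h0 hu with ⟨h4, -⟩ | ⟨h4, -⟩
    · exact hu' i (by rw [h4, h2])
    · exact hu' (i + 1) (by rw [h4, h3])
    · exact hu' (i + 1) (by rw [h4, h3])
    · exact hu' i (by rw [h4, h2])
  have hrr : r + 2 - 1 = r + 1 := by
    clear he h1 h0 hq
    revert r; decide
  have hboth : face v r ∈ S ∧ face v (r - 1) ∈ S := by
    rw [he, E2.mem_edges] at hg
    by_contra hcon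
    apply hq
    rcases hg with hg | hg
    · left
      exact (hS v r).2 ⟨hg, fun h => hcon ⟨hg, h⟩⟩
    · right
      obtain ⟨i, h2, h3⟩ := (hS (v + dir r) (r + 2)).2
        ⟨by rwa [face_right], by rw [hrr, face_left]; exact fun h => hcon ⟨h, hg⟩⟩
      exact ⟨i, h2, by rw [h3, dir_add_two']⟩
  rcases (isSt_M 1).pair _ _ _ _ _ h1 hy with ⟨h4, h5⟩ | ⟨h4, h5⟩
  · rw [h4, h5, rf'_rf, rf'_rf]
    exact hboth
  · rw [h4, h5, rf'_rf, rf'_rf]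
    exact hboth.symm

/-- One of the four neighbours of a vertex of the polygon is outside of the domain. -/
theorem nb_out (hp : IsPolygon p) (hS : Encloses p S) (j : ZMod n) {x : ℤ × ℤ}
    (hx : x = H192.ro (p j)) : rf' (x.1 + 1, x.2) ∉ S ∨ rf' (x.1 - 1, x.2) ∉ S ∨
      rf' (x.1, x.2 + 1) ∉ S ∨ rf' (x.1, x.2 - 1) ∉ S := by
  have h := (enc_out hp hS (i := j)).2
  have key : ∀ f z : ℤ × ℤ, f ∉ S → rf f = z → rf' z ∉ S := by
    rintro f z hf rfl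
    rwa [rf'_rf]
  rcases H192.fin4_cases (E2.ro p j - 1) with hr | hr | hr | hr <;> rw [hr] at h
  · refine Or.inr (Or.inr (Or.inl (key _ _ h ?_)))
    rw [face0, hx, rf, H192.ro]
  · refine Or.inr (Or.inl (key _ _ h ?_))
    rw [face1, hx, rf, H192.ro]
    apply Prod.ext <;> simp only <;> ring
  · refine Or.inr (Or.inr (Or.inr (key _ _ h ?_)))
    rw [face2, hx, rf, H192.ro]
    apply Prod.ext <;> simp only <;> ring
  · refine Or.inl (key _ _ h ?_)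
    rw [face3, hx, rf, H192.ro]
    apply Prod.ext <;> simp only <;> ring

theorem stM_mk {c : ℤ} {v x y : ℤ × ℤ} (h1 : v.1 = min x.1 y.1) (h2 : v.2 = min x.2 y.2)
    (h3 : y.1 = x.1 + 1 ∨ y.1 = x.1 - 1) (h4 : y.2 = x.2 + 1 ∨ y.2 = x.2 - 1)
    (h5 : (x.1 + x.2) % 2 = c) : StM c v x y := ⟨Prod.ext h1 h2, h3, h4, h5⟩

theorem stM_1 {c : ℤ} {v x y : ℤ × ℤ} (h : StM c v x y) : v.1 = min x.1 y.1 ∧ v.2 = min x.2 y.2 ∧
    (y.1 = x.1 + 1 ∨ y.1 = x.1 - 1) ∧ (y.2 = x.2 + 1 ∨ y.2 = x.2 - 1) ∧ (x.1 + x.2) % 2 = c := by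
  obtain ⟨h1, h2, h3, h4⟩ := h
  exact ⟨by rw [h1], by rw [h1], h2, h3, h4⟩

/-- Two orthogonal unit vectors. -/
def SE (s e : ℤ × ℤ) : Prop :=
  (s = (1, 0) ∧ e = (0, 1)) ∨ (s = (1, 0) ∧ e = (0, -1)) ∨ (s = (-1, 0) ∧ e = (0, 1)) ∨
    (s = (-1, 0) ∧ e = (0, -1)) ∨ (s = (0, 1) ∧ e = (1, 0)) ∨ (s = (0, 1) ∧ e = (-1, 0)) ∨
    (s = (0, -1) ∧ e = (1, 0)) ∨ (s = (0, -1) ∧ e = (-1, 0))

section arith

variable {s e v V x : ℤ × ℤ} {L : ℕ}

theorem ar_faces (hse : SE s e) (hx0 : (x.1 + x.2) % 2 = 0)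
    (hxV1 : V.1 = min x.1 (x.1 - s.1 - e.1)) (hxV2 : V.2 = min x.2 (x.2 - s.2 - e.2)) :
    StM 0 V (x - s - e) x ∧ StM 1 V (x - e) (x - s) ∧ Crn (V - s) (x - s - e) := by
  refine ⟨?_, ?_, ?_⟩
  · rcases hse with ⟨rfl, rfl⟩ | ⟨rfl, rfl⟩ | ⟨rfl, rfl⟩ | ⟨rfl, rfl⟩ | ⟨rfl, rfl⟩ | ⟨rfl, rfl⟩ |
        ⟨rfl, rfl⟩ | ⟨rfl, rfl⟩ <;>
      apply stM_mk <;> simp only [Prod.fst_sub, Prod.snd_sub] at * <;> omega
  · rcases hse with ⟨rfl, rfl⟩ | ⟨rfl, rfl⟩ | ⟨rfl, rfl⟩ | ⟨rfl, rfl⟩ | ⟨rfl, rfl⟩ | ⟨rfl, rfl⟩ |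
        ⟨rfl, rfl⟩ | ⟨rfl, rfl⟩ <;>
      apply stM_mk <;> simp only [Prod.fst_sub, Prod.snd_sub] at * <;> omega
  · rcases hse with ⟨rfl, rfl⟩ | ⟨rfl, rfl⟩ | ⟨rfl, rfl⟩ | ⟨rfl, rfl⟩ | ⟨rfl, rfl⟩ | ⟨rfl, rfl⟩ |
        ⟨rfl, rfl⟩ | ⟨rfl, rfl⟩ <;>
      simp only [Crn, Prod.fst_sub, Prod.snd_sub] at * <;> omega

theorem ar_nb {z : ℤ × ℤ} (hse : SE s e) (hz : (z.1 = x.1 ∧ (z.2 = x.2 + 1 ∨ z.2 = x.2 - 1)) ∨
    (z.2 = x.2 ∧ (z.1 = x.1 + 1 ∨ z.1 = x.1 - 1))) :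
    z = x - e ∨ z = x - s ∨ z = x + s ∨ z = x + e := by
  simp only [Prod.ext_iff]
  rcases hse with ⟨rfl, rfl⟩ | ⟨rfl, rfl⟩ | ⟨rfl, rfl⟩ | ⟨rfl, rfl⟩ | ⟨rfl, rfl⟩ | ⟨rfl, rfl⟩ |
        ⟨rfl, rfl⟩ | ⟨rfl, rfl⟩ <;>
  simp only [Prod.fst_sub, Prod.snd_sub, Prod.fst_add, Prod.snd_add] <;> omega

theorem ar_front (hse : SE s e) (hx0 : (x.1 + x.2) % 2 = 0)
    (hxV1 : V.1 = min x.1 (x.1 - s.1 - e.1)) (hxV2 : V.2 = min x.2 (x.2 - s.2 - e.2)) :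
    StM 1 (V + s) (x - e) (x + s) ∧
      StM 1 (min x.1 (x.1 + s.1 + e.1), min x.2 (x.2 + s.2 + e.2)) (x + s) (x + e) := by
  constructor
  · rcases hse with ⟨rfl, rfl⟩ | ⟨rfl, rfl⟩ | ⟨rfl, rfl⟩ | ⟨rfl, rfl⟩ | ⟨rfl, rfl⟩ | ⟨rfl, rfl⟩ |
        ⟨rfl, rfl⟩ | ⟨rfl, rfl⟩ <;>
      apply stM_mk <;> simp only [Prod.fst_sub, Prod.snd_sub, Prod.fst_add, Prod.snd_add] at * <;>
      omega
  · rcases hse with ⟨rfl, rfl⟩ | ⟨rfl, rfl⟩ | ⟨rfl, rfl⟩ | ⟨rfl, rfl⟩ | ⟨rfl, rfl⟩ | ⟨rfl, rfl⟩ |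
        ⟨rfl, rfl⟩ | ⟨rfl, rfl⟩ <;>
      apply stM_mk <;> simp only [Prod.fst_add, Prod.snd_add] at * <;> omega

theorem ar_perp {g y y' : ℤ × ℤ} (hs : s = (1, 0) ∨ s = (-1, 0) ∨ s = (0, 1) ∨ s = (0, -1))
    (hV1 : V.1 = v.1 + L * s.1) (hV2 : V.2 = v.2 + L * s.2)
    (g1 : alon s v g ≤ L + 1) (g2 : perp s v g = 0 → alon s v g = L + 1)
    (h : StM 1 g y y') : (perp s v y ≤ 0 ↔ perp s v y' ≤ 0) ∨ g = V + s := by
  have h := stM_1 h
  rcases hs with rfl | rfl | rfl | rfl <;>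
    simp [perp, alon, Prod.ext_iff] at hV1 hV2 g1 g2 ⊢ <;> omega

theorem ar_next {g y : ℤ × ℤ} (hse : SE s e)
    (hV1 : V.1 = v.1 + L * s.1) (hV2 : V.2 = v.2 + L * s.2)
    (hxV1 : V.1 = min x.1 (x.1 - s.1 - e.1)) (hxV2 : V.2 = min x.2 (x.2 - s.2 - e.2))
    (g1 : alon s v g ≤ L + 1) (h : StM 1 g (x + s) y) :
    g = V + s ∨ g = (min x.1 (x.1 + s.1 + e.1), min x.2 (x.2 + s.2 + e.2)) := by
  have h := stM_1 h
  simp only [Prod.ext_iff]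
  rcases hse with ⟨rfl, rfl⟩ | ⟨rfl, rfl⟩ | ⟨rfl, rfl⟩ | ⟨rfl, rfl⟩ | ⟨rfl, rfl⟩ | ⟨rfl, rfl⟩ |
        ⟨rfl, rfl⟩ | ⟨rfl, rfl⟩ <;>
    simp only [alon, Prod.fst_add, Prod.snd_add] at * <;> omega

theorem ar_near (hse : SE s e)
    (hV1 : V.1 = v.1 + L * s.1) (hV2 : V.2 = v.2 + L * s.2)
    (hxV1 : V.1 = min x.1 (x.1 - s.1 - e.1)) (hxV2 : V.2 = min x.2 (x.2 - s.2 - e.2)) :
    ¬ Near s v (x + s) ∧ ¬ Near s v (x + e) := by
  unfold Near
  rcases hse with ⟨rfl, rfl⟩ | ⟨rfl, rfl⟩ | ⟨rfl, rfl⟩ | ⟨rfl, rfl⟩ | ⟨rfl, rfl⟩ | ⟨rfl, rfl⟩ |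
        ⟨rfl, rfl⟩ | ⟨rfl, rfl⟩ <;>
    simp at hV1 hV2 hxV1 hxV2 ⊢ <;> omega

theorem smul_fst (s : ℤ × ℤ) (i : ℕ) : (i • s).1 = i * s.1 := by simp

theorem smul_snd (s : ℤ × ℤ) (i : ℕ) : (i • s).2 = i * s.2 := by simp

/-- The second direction at the end of the leg. -/
theorem ar_e (hs : s = (1, 0) ∨ s = (-1, 0) ∨ s = (0, 1) ∨ s = (0, -1)) (hx : Crn V x)
    (hx' : ¬ Crn (V - s) x) :
    ∃ e, SE s e ∧ V.1 = min x.1 (x.1 - s.1 - e.1) ∧ V.2 = min x.2 (x.2 - s.2 - e.2) := by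
  unfold Crn at hx hx'
  unfold SE
  rcases hs with rfl | rfl | rfl | rfl <;> simp only [Prod.fst_sub, Prod.snd_sub] at hx' ⊢
  · rcases hx.2 with h | h
    · exact ⟨(0, -1), by simp, by simp only; omega, by simp only; omega⟩
    · exact ⟨(0, 1), by simp, by simp only; omega, by simp only; omega⟩
  · rcases hx.2 with h | h
    · exact ⟨(0, -1), by simp, by simp only; omega, by simp only; omega⟩
    · exact ⟨(0, 1), by simp, by simp only; omega, by simp only; omega⟩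
  · rcases hx.1 with h | h
    · exact ⟨(-1, 0), by simp, by simp only; omega, by simp only; omega⟩
    · exact ⟨(1, 0), by simp, by simp only; omega, by simp only; omega⟩
  · rcases hx.1 with h | h
    · exact ⟨(-1, 0), by simp, by simp only; omega, by simp only; omega⟩
    · exact ⟨(1, 0), by simp, by simp only; omega, by simp only; omega⟩

/-- The position of the squares of `G`. -/
theorem ar_G {g : ℤ × ℤ} (hs : s = (1, 0) ∨ s = (-1, 0) ∨ s = (0, 1) ∨ s = (0, -1))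
    (h1 : ∀ i ≤ L, g ≠ v + i • s) (h2 : 0 ≤ alon s v g)
    (h3 : ∃ i ≤ L, ∃ u : ℤ × ℤ, (u.1 + u.2) % 2 = 0 ∧ Crn (v + i • s) u ∧ Crn g u) :
    alon s v g ≤ L + 1 ∧ (perp s v g = 0 → alon s v g = L + 1) := by
  obtain ⟨i, hi, u, -, h4, h5⟩ := h3
  have h6 : alon s v g ≤ L + 1 := by
    unfold Crn at h4 h5
    simp only [Prod.fst_add, Prod.snd_add, smul_fst, smul_snd] at h4
    rcases hs with rfl | rfl | rfl | rfl <;> simp [alon] at h2 h4 ⊢ <;> omega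
  refine ⟨h6, fun h7 => ?_⟩
  by_contra hne
  have h8 : (alon s v g).toNat ≤ L := by omega
  apply h1 _ h8
  have h9 : (((alon s v g).toNat : ℕ) : ℤ) = alon s v g := Int.toNat_of_nonneg h2
  apply Prod.ext
  · rw [Prod.fst_add, smul_fst, h9]
    rcases hs with rfl | rfl | rfl | rfl <;> simp [alon, perp] at h7 ⊢ <;> omega
  · rw [Prod.snd_add, smul_snd, h9]
    rcases hs with rfl | rfl | rfl | rfl <;> simp [alon, perp] at h7 ⊢ <;> omega

end arith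

/-- **[Tube]** -/
theorem tube : S_tube := by
  intro n p S k hp hS v s L j hs hin hdq hleg hend G hG a₁ b₁ hab ha hb
  have hx0 : ((H192.ro (p j)).1 + (H192.ro (p j)).2) % 2 = 0 := Int.even_iff.1 (even_ro _)
  have hV := (H192.mem_dq.1 (hdq L le_rfl)).1
  have hn : ∀ m, ¬ Crn (v + L • s - s) (H192.ro (p m)) := by
    intro m
    rcases L with _ | L
    · rw [zero_smul, add_zero]
      exact hin m
    · have e1 : v + (L + 1) • s - s = v + L • s := by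
        rw [succ_nsmul]; abel
      rw [e1]
      exact hleg L (Nat.lt_succ_self L) m
  have hV1 : (v + L • s).1 = v.1 + L * s.1 := by rw [Prod.fst_add, smul_fst]
  have hV2 : (v + L • s).2 = v.2 + L * s.2 := by rw [Prod.snd_add, smul_snd]
  generalize v + L • s = V at *
  obtain ⟨e, hse, hx1, hx2⟩ := ar_e hs hend (hn j)
  have hG' := fun g hg => ar_G hs (hG g hg).2.1 (hG g hg).2.2.1 (hG g hg).2.2.2
  obtain ⟨f1, f2, f3⟩ := ar_faces hse hx0 hx1 hx2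
  obtain ⟨f4, f5⟩ := ar_front hse hx0 hx1 hx2
  obtain ⟨f6, f7⟩ := ar_near hse hV1 hV2 hx1 hx2
  have hF := faces_in hS hV f1 (fun m hm => hn m (hm ▸ f3)) f2
  refine tube_core (P := fun u => perp s v u ≤ 0) hp hS hF.1 ?_ f4 f5
    (fun g hg y y' h => ar_perp hs hV1 hV2 (hG' g hg).1 (hG' g hg).2 h)
    (fun g hg y h => ar_next hse hV1 hV2 hx1 hx2 (hG' g hg).1 h) hab
    ⟨fun h => f6 (h ▸ ha), fun h => f7 (h ▸ ha)⟩ ⟨fun h => f6 (h ▸ hb), fun h => f7 (h ▸ hb)⟩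
  by_contra hcon
  push Not at hcon
  have key : ∀ z : ℤ × ℤ, rf' z ∉ S →
      ((z.1 = (H192.ro (p j)).1 ∧ (z.2 = (H192.ro (p j)).2 + 1 ∨ z.2 = (H192.ro (p j)).2 - 1)) ∨
      (z.2 = (H192.ro (p j)).2 ∧ (z.1 = (H192.ro (p j)).1 + 1 ∨ z.1 = (H192.ro (p j)).1 - 1))) →
      False := by
    intro z hz h
    rcases ar_nb hse h with rfl | rfl | rfl | rfl
    · exact hz hF.1
    · exact hz hF.2
    · exact hz hcon.1
    · exact hz hcon.2
  rcases nb_out hp hS (j : ZMod n) rfl with h | h | h | h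
  · exact key _ h (Or.inr ⟨rfl, Or.inl rfl⟩)
  · exact key _ h (Or.inr ⟨rfl, Or.inr rfl⟩)
  · exact key _ h (Or.inl ⟨rfl, Or.inl rfl⟩)
  · exact key _ h (Or.inl ⟨rfl, Or.inr rfl⟩)

end Vale.Agent.P167.CL
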