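import Vale.Agent.P167.CL.DQ5
import Vale.Agent.P167.CL.Tube
import Vale.Agent.P167.CL.FinDefs
import Vale.Agent.P167.H634.CellR

/-!
# P167, block CLOSE [D], sixth part: `CutL`

`exists_idx`: the foot in the inner polygon is a vertex of the medial polygon. `SLat.cutL`.
-/

set_option autoImplicit false

open MeasureTheory Filter Topology Set Metric
open scoped ENNReal

namespace Vale.Agent.P167.CL

open Vale.Agent.P153.R2.L1 (HH)
open Vale.Agent.P164 (loewnerDomain Zf)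
open Vale.Agent.P167.H531 Vale.Agent.P167.H558
open Vale.Agent.P167.E6 Vale.Agent.P167.E2 Vale.Agent.P167.H411 Vale.Agent.P167.H450
open Vale.Agent.P167.H161 (zp Rd)

theorem crn_face (y : ℤ × ℤ) (r : Fin 4) : Crn (face y r) y := by
  unfold face Crn
  rcases H192.fin4_cases r with h | h | h | h <;> rw [h] <;> simp

theorem face_of_crn {a y : ℤ × ℤ} (h : Crn a y) : ∃ r, a = face y r := by
  unfold Crn at h
  unfold face
  obtain ⟨h1 | h1, h2 | h2⟩ := h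
  · exact ⟨0, Prod.ext (by simp [h1]) (by simp [h2])⟩
  · exact ⟨3, Prod.ext (by simp [h1]) (by simp [h2])⟩
  · exact ⟨1, Prod.ext (by simp [h1]) (by simp [h2])⟩
  · exact ⟨2, Prod.ext (by simp [h1]) (by simp [h2])⟩

theorem fin4_all : ∀ r r' : Fin 4, r' = r ∨ r' = r - 1 ∨ r' = r - 1 - 1 ∨ r' = r - 1 - 1 - 1 := by
  decide

/-- A site with a corner square inside and a corner square outside is on the polygon. -/
theorem exists_idx {m : ℕ} {q : ZMod m → ℤ × ℤ} {P : Finset (ℤ × ℤ)} (hP : Encloses q P)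
    {a b y : ℤ × ℤ} (ha : a ∈ P) (hay : Crn a y) (hb : b ∉ P) (hby : Crn b y) :
    ∃ i, q i = y := by
  by_contra hcon
  push Not at hcon
  have key : ∀ r, face y r ∈ P → face y (r - 1) ∈ P := by
    intro r hr
    by_contra h
    obtain ⟨i, hi, -⟩ := (hP y r).2 ⟨hr, h⟩
    exact hcon i hi
  obtain ⟨r, rfl⟩ := face_of_crn hay
  obtain ⟨r', rfl⟩ := face_of_crn hby
  have k1 := key r ha
  have k2 := key _ k1
  have k3 := key _ k2
  rcases fin4_all r r' with e | e | e | e <;> rw [e] at hb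
  · exact hb ha
  · exact hb k1
  · exact hb k2
  · exact hb k3

section

variable {n : ℕ} {p : ZMod n → ℤ × ℤ} {k : ℕ} {S : Finset (ℤ × ℤ)} {δ : ℝ} {N : ℕ}
    {ψ : ℂ → ℂ} {T R Rd' cd X κ μ d τ₀ : ℝ} {v₀ : ℤ × ℤ} {c : CutP} {w : ℂ}
    {jf L E : ℤ × ℤ → ℕ} {s : Stg} {u : ℤ × ℤ}

theorem lv_inj (g : LegP) {i j : ℕ} (h : g.lv i = g.lv j) : i = j := by
  have h1 := alon_lv (g := g) i i
  have h2 := alon_lv (g := g) i j
  rw [← h, h1] at h2
  omega

/-- The faces of the odd sites of the inner squares are enclosed. -/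
theorem SLat.inn (Q : SLat p k S δ N ψ T R Rd' cd X κ μ d τ₀ v₀ c w jf L E s) (hu : u ∈ Uset)
    {P : Set ℂ} (hdom : ψ '' loewnerDomain s.W s.t = Om δ S \ P) :
    Inn (sE s.SE N (v₀ + u)) S := by
  intro v hv x y hxy
  have hδ := Q.lat.hδ
  have h1 := Q.mar hu hv (crn_Dsq hδ.le (crn_of_step hxy).1) (mem_ball_self (by positivity))
  rw [hdom] at h1
  refine H634.mem_of_cf hδ ?_
  rw [← H634.cf_zp, H192.rf_rf' (by rw [Int.not_even_iff]; exact hxy.2.2.2)]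
  exact h1.1

/-- **The index of the foot.** -/
theorem SLat.exists_l (Q : SLat p k S δ N ψ T R Rd' cd X κ μ d τ₀ v₀ c w jf L E s) (hu : u ∈ Uset)
    {Y : ℝ} (hc : Cst T R X Y) (hε : SmE s.ε X) {iE : ZMod s.mE} (hiE : s.pE iE = s.vn true)
    (hiE1 : s.pE (iE + 1) = s.vn true + (1, 0)) :
    ∃ l : ℕ, 0 < l ∧ l < N * s.mE ∧
      qE s.pE iE N (v₀ + u) (l : ZMod (N * s.mE)) = yN c N v₀ E u := by
  have hN := Q.lat.hN
  have hN0 : 0 < N := by omega
  have hℓ := Q.ok.hℓ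
  have hNr : (16 : ℝ) ≤ N := by exact_mod_cast hN
  obtain ⟨y0, y1, y2, y3⟩ := yN_spec c N v₀ E u
  have hLP := Q.legPE hu
  have hEL := Q.lat.hEL u hu
  have hpoly := qE_poly (ip := iE) (v₀ := v₀ + u) Q.ok.polyE hN0
  have hencl := qE_encl (ip := iE) (v₀ := v₀ + u) Q.ok.polyE Q.ok.enclE hN0
  have hin : (c.leg N v₀ u).lv (E u) ∈ sE s.SE N (v₀ + u) := hLP.inO (LegP.lv_mem le_rfl)
  have hout : (c.leg N v₀ u).lv (E u + 1) ∉ sE s.SE N (v₀ + u) := by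
    intro h
    have h1 := (hLP.hex (E u + 1) (by omega) (by omega) _ (by simp) (by simp)).1 h
    rw [alon_lv] at h1
    omega
  obtain ⟨i, hi⟩ := exists_idx hencl hin y1 hout y2
  have : NeZero (N * s.mE) := ⟨by have := hpoly.1; omega⟩
  refine ⟨i.val, ?_, ZMod.val_lt i, by rw [ZMod.natCast_zmod_val]; exact hi⟩
  rw [Nat.pos_iff_ne_zero]
  intro h0
  have hi0 : i = ((0 : ℕ) : ZMod (N * s.mE)) := by
    rw [← ZMod.natCast_zmod_val i, h0]
  rw [hi0, qE_nat hN0, zero_add] at hi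
  obtain ⟨hf, hhf⟩ : ∃ hf : ℕ, hf = N / 2 := ⟨_, rfl⟩
  rw [← hhf] at hi
  have e : pe (fun i => s.pE (i + iE)) N hf =
      (N : ℤ) • s.vn true + (hf : ℤ) • ((1 : ℤ), (0 : ℤ)) := by
    have h := pe_mul_add (q := fun i => s.pE (i + iE)) hN0 0 (j := hf) (by omega)
    rw [Nat.mul_zero, zero_add] at h
    rw [h]
    simp only [Nat.cast_zero, zero_add]
    rw [hiE, add_comm 1 iE, hiE1, add_sub_cancel_left]
  rw [e] at hi
  have hy1 : (yN c N v₀ E u).1 = N * (s.vn true).1 + hf + (v₀.1 + u.1) := by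
    rw [← hi]; simp
  have hy2 : (yN c N v₀ E u).2 = N * (s.vn true).2 + (v₀.2 + u.2) := by
    rw [← hi]; simp
  obtain ⟨u1, u2, u3⟩ := uset_1 hu
  have u1' : (0 : ℝ) ≤ u.1 := by exact_mod_cast u1
  have u2' : (u.1 : ℝ) ≤ 1 := by exact_mod_cast u2
  have u3' : (u.2 : ℝ) = 0 := by exact_mod_cast u3
  -- the distances
  have hfar := Stg.vn_far Q.ok hc hε Q.cut true
  have hnear := lv_near Q.lat.cut hN hu (Q.lat.hE u hu) (Q.lat.endw u hu) (le_refl (E u)) hEL.le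
  obtain ⟨hδ0, h16⟩ := Q.h16
  have hδN : s.ℓ / N * N = s.ℓ := div_mul_cancel₀ _ (by positivity)
  have hd := Q.cut.cc.hd
  have hd2 := Q.cut.cc.ℓd
  have hρ := Q.ok.hρm
  have hhalf : (hf : ℝ) ≤ N := by rw [hhf]; exact_mod_cast Nat.div_le_self N 2
  have hhalf0 : (0 : ℝ) ≤ (hf : ℝ) := by positivity
  have hd3 : dist ((s.ℓ : ℂ) * pt (s.vn true)) (fc s.ℓ N v₀ ((c.leg N v₀ u).lv (E u))) ≤
      3 * s.ℓ := by
    have e1 : ((s.ℓ : ℂ) * pt (s.vn true)).re = s.ℓ * (s.vn true).1 := by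
      rw [Complex.re_ofReal_mul]; rfl
    have e2 : ((s.ℓ : ℂ) * pt (s.vn true)).im = s.ℓ * (s.vn true).2 := by
      rw [Complex.im_ofReal_mul]; rfl
    have k1 : ∃ a : ℝ, 0 ≤ a ∧ a ≤ 1 ∧ ((((c.leg N v₀ u).lv (E u)).1 : ℤ) : ℝ) =
        (yN c N v₀ E u).1 - a := by
      rcases y1.1 with h | h
      · exact ⟨0, le_rfl, zero_le_one, by rw [h]; ring⟩
      · exact ⟨1, zero_le_one, le_rfl, by rw [h]; push_cast; ring⟩
    have k2 : ∃ a : ℝ, 0 ≤ a ∧ a ≤ 1 ∧ ((((c.leg N v₀ u).lv (E u)).2 : ℤ) : ℝ) =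
        (yN c N v₀ E u).2 - a := by
      rcases y1.2 with h | h
      · exact ⟨0, le_rfl, zero_le_one, by rw [h]; ring⟩
      · exact ⟨1, zero_le_one, le_rfl, by rw [h]; push_cast; ring⟩
    obtain ⟨a, a0, a1, ea⟩ := k1
    obtain ⟨b, b0, b1, eb⟩ := k2
    have g1 : (fc s.ℓ N v₀ ((c.leg N v₀ u).lv (E u))).re =
        s.ℓ * (s.vn true).1 + s.ℓ / N * ((hf : ℝ) + u.1 - a + 1 / 2) := by
      unfold fc
      simp only
      rw [ea, hy1]
      push_cast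
      nth_rewrite 2 [← hδN]
      ring
    have g2 : (fc s.ℓ N v₀ ((c.leg N v₀ u).lv (E u))).im =
        s.ℓ * (s.vn true).2 + s.ℓ / N * (1 / 2 - b) := by
      unfold fc
      simp only
      rw [eb, hy2]
      push_cast
      rw [u3']
      nth_rewrite 2 [← hδN]
      ring
    refine (dist_coord (a := 2 * s.ℓ) (b := s.ℓ) ?_ ?_).trans (by linarith)
    · rw [e1, g1, abs_le]
      constructor <;> nlinarith
    · rw [e2, g2, abs_le]
      constructor <;> nlinarith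
  have h5 := dist_triangle ((s.ℓ : ℂ) * pt (s.vn true))
    (fc s.ℓ N v₀ ((c.leg N v₀ u).lv (E u))) w
  linarith

/-- **`CutL`.** -/
theorem SLat.cutL (Q : SLat p k S δ N ψ T R Rd' cd X κ μ d τ₀ v₀ c w jf L E s) (hu : u ∈ Uset)
    (hX0 : 0 < X) (hp : IsPolygon p) (hS : Encloses p S)
    (hwir : ∀ i : ℕ, k ≤ i → i < n → ∃ x : ℝ, x ≤ 0 ∧ dist (ψ x) ((δ : ℂ) * pt (p i)) ≤ δ)
    {P : Set ℂ} (hdom : ψ '' loewnerDomain s.W s.t = Om δ S \ P)
    {iE : ZMod s.mE} {l : ℕ}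
    (hl : qE s.pE iE N (v₀ + u) (l : ZMod (N * s.mE)) = yN c N v₀ E u) (a : ℕ) {r Rb : ℤ}
    (hr0 : 0 < r) (hrR : r ≤ Rb) (hRb : 2 * Rb ≤ c.q * N) :
    CutL p k S (jf u) (qE s.pE iE N (v₀ + u)) (sE s.SE N (v₀ + u)) a l
      (KcN p k S c N v₀ L u) (BR.hbox (v₀ + u) Rb) (BR.hbox (v₀ + u) r) (kapN c N v₀ L u) := by
  classical
  have hN := Q.lat.hN
  have hN0 : 0 < N := by omega
  have hr : 2 * r ≤ c.q * N := by omega
  have hn : 0 < n := by have := hp.1; omega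
  obtain ⟨y0, y1, y2, y3⟩ := yN_spec c N v₀ E u
  have hLP := Q.legPE hu
  have hEL := Q.lat.hEL u hu
  have hencl := qE_encl (ip := iE) (v₀ := v₀ + u) Q.ok.polyE Q.ok.enclE hN0
  have hpoly := qE_poly (ip := iE) (v₀ := v₀ + u) Q.ok.polyE hN0
  have hO : ∀ v ∈ (c.leg N v₀ u).O (L u), v ∈ KcN p k S c N v₀ L u ∧ kapN c N v₀ L u v = true := by
    intro v hv
    refine ⟨Finset.mem_inter.2 ⟨O_subset_frz (Q.legOk hu) hv, Q.lat.inD u hu v hv⟩, ?_⟩
    unfold kapN kap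
    rw [decide_eq_true_iff]
    exact hv
  refine ⟨Q.lat.jf_lt u hu, Q.cutOk_dq hu hX0 hn hwir hr0 hr, Finset.inter_subset_right,
    Q.hbox_PE hRb, ?_, Q.kc_box hu (by omega) hRb, ?_, ?_, ?_⟩
  · intro i hi
    rw [BR.hbox, Finset.mem_product, Finset.mem_Icc, Finset.mem_Icc] at hi ⊢
    omega
  · rw [hl]
    exact foot_of hEL (fun j _ hj => hO _ (LegP.lv_mem hj)) (Int.even_iff.1 (H192.even_ro _))
      (Q.lat.last u hu) y0 y2
  · intro v hv hvP hκ o o' hoo ⟨i, hi, z, hz⟩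
    rw [hl]
    have hvO : v ∈ (c.leg N v₀ u).O (L u) := by
      unfold kapN kap at hκ
      rwa [decide_eq_true_iff] at hκ
    have : ∃ j, E u < j ∧ j ≤ L u ∧ (c.leg N v₀ u).lv j = v := by
      have hvE : v ∉ (c.leg N v₀ u).O (E u) := fun h => hvP (hLP.inO h)
      rw [LegP.mem_O] at hvO
      rcases hvO with hvO | hvO | ⟨j, hj, hvO⟩
      · exact absurd (LegP.mem_O.2 (Or.inl hvO)) hvE
      · exact absurd (LegP.mem_O.2 (Or.inr (Or.inl hvO))) hvE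
      · refine ⟨j, ?_, hj, hvO⟩
        by_contra hcon
        exact hvE (LegP.mem_O.2 (Or.inr (Or.inr ⟨j, by omega, hvO⟩)))
    obtain ⟨j, hj, hjL, rfl⟩ := this
    exact hLP.eq_exit y0 y2 y3 hj hjL hi hoo.2.2.2 (crn_of_step hoo).1 (crn_of_step hz).2
  · refine iso_closed tube hp hS hLP (fun i hi => Q.lat.inD u hu _ (LegP.lv_mem hi))
      (fun i hi => Q.lat.noC u hu _ (LegP.lv_mem hi.le) fun h => hi.ne (lv_inj _ h))
      (Q.lat.last u hu) (R := ∅) ?_ (by simp) (by simp) ?_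
    · rintro v ⟨hv, hκ⟩ hvP
      right
      have hv' := Finset.mem_inter.1 hv
      refine ⟨hv'.2, ?_, ?_⟩
      · intro h
        have := (hO v h).2
        rw [hκ] at this
        exact Bool.false_ne_true this
      · have h1 := (mem_frz.1 hv'.1).1
        rcases h1 with h1 | h1
        · rw [mem_sE hN0, mem_KFn Q.finKF] at h1
          exact absurd ((mem_sE hN0).2 (Q.seh.kf h1)) hvP
        · exact h1
    · rintro x (hx | ⟨i, hi, z, hz⟩)
      · have : ∃ j : ℕ, x = dmo n (qE s.pE iE N (v₀ + u) (j : ZMod (N * s.mE))) ∧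
            ((qE s.pE iE N (v₀ + u) (j : ZMod (N * s.mE))).1 +
              (qE s.pE iE N (v₀ + u) (j : ZMod (N * s.mE))).2) % 2 = 1 := by
          rcases hx with ⟨o, ⟨j, -, -, rfl, h⟩, rfl⟩ | ⟨o, ⟨j, -, -, rfl, h⟩, rfl⟩
          · exact ⟨j, rfl, h⟩
          · exact ⟨j, rfl, h⟩
        obtain ⟨j, rfl, h⟩ := this
        refine ⟨_, h, rfl, _, (enc_out (i := (j : ZMod (N * s.mE))) hpoly hencl).1, crn_face _ _⟩
      · obtain ⟨x', y', hxy, -, rfl⟩ := stQ_stM1 hp hS (Q.inn hu hdom) hi hz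
        exact ⟨y', ((isSt_M 1).symm _ _ _ hxy).2.2.2, rfl, i, hi, (crn_of_step hxy).2⟩

end

end Vale.Agent.P167.CL
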