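import Vale.Agent.P167.CL.CutNDefs
import Vale.Agent.P167.H327.PosG

/-!
# P167, block CUT: `S_wir`, wired vertices are near boundary points with a negative parameter
-/

set_option autoImplicit false

open MeasureTheory Filter Topology Set Metric

namespace Vale.Agent.P167.CL

open Vale.Agent.P153.R2.R1 (IsU)
open Vale.Agent.P167.E6 Vale.Agent.P167.E2 Vale.Agent.P167.H411 Vale.Agent.P167.H72
open Vale.Agent.P167.H327 (QF pc QF_half tA tB tA_bd tB_bd ori_wired')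

theorem qp_dist (c : Medial) (u t u' t' : ℝ) :
    dist (qp c u t) (qp c u' t') ≤ |u - u'| + |t - t'| := by
  have e : qp c u t - qp c u' t' = ((u - u' : ℝ) : ℂ) * ⟨(dir (c.2 + 1)).1, (dir (c.2 + 1)).2⟩ +
      ((t - t' : ℝ) : ℂ) * ⟨(dir c.2).1, (dir c.2).2⟩ := by
    apply Complex.ext <;>
      simp only [qp, Complex.sub_re, Complex.sub_im, Complex.add_re, Complex.add_im,
        Complex.re_ofReal_mul, Complex.im_ofReal_mul] <;> ring
  have hd : ∀ r : Fin 4, ‖(⟨(dir r).1, (dir r).2⟩ : ℂ)‖ = 1 := by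
    intro r
    have h : ‖(⟨(dir r).1, (dir r).2⟩ : ℂ)‖ ^ 2 = 1 := by
      rw [Complex.sq_norm, Complex.normSq_apply]
      revert r
      refine forall4 ?_ ?_ ?_ ?_ <;> simp only [dir0, dir1, dir2, dir3] <;> norm_num
    have h0 := norm_nonneg (⟨(dir r).1, (dir r).2⟩ : ℂ)
    nlinarith
  rw [dist_eq_norm, e]
  refine (norm_add_le _ _).trans ?_
  rw [norm_mul, norm_mul, hd, hd, mul_one, mul_one, Complex.norm_real, Complex.norm_real,
    Real.norm_eq_abs, Real.norm_eq_abs]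

/-- Wired vertices are near boundary points with a negative parameter. -/
theorem wir_aux {n : ℕ} {p : ZMod n → ℤ × ℤ} {S : Finset (ℤ × ℤ)} {δ : ℝ} (hδ : 0 < δ)
    (hp : IsPolygon p) (hS : Encloses p S) {k : ℕ} (hk : 0 < k) (hkn : k + 1 < n) {ψ : ℂ → ℂ}
    (hU : IsU ψ (Om δ S) (aM p δ) (bM p k δ)) {i : ℕ} (hi : k ≤ i) (hin : i < n) :
    ∃ x : ℝ, x ≤ 0 ∧ dist (ψ x) ((δ : ℂ) * pt (p i)) ≤ δ := by
  have ha := tA_bd (p := p)
  have hb := tB_bd (p := p) k
  have hk1 : (k : ℝ) ≤ i := by exact_mod_cast hi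
  have hkn1 : (k : ℝ) + 1 + 1 ≤ n := by exact_mod_cast hkn
  have hdist : ∀ z w : ℂ, dist z w ≤ 1 → dist ((δ : ℂ) * z) ((δ : ℂ) * w) ≤ δ := by
    intro z w h
    rw [dist_eq_norm, ← mul_sub, norm_mul, Complex.norm_real, Real.norm_of_nonneg hδ.le,
      ← dist_eq_norm]
    nlinarith
  rcases (by omega : i + 1 < n ∨ i + 1 = n) with h | h
  · have h1 : (i : ℝ) + 1 + 1 ≤ n := by exact_mod_cast h
    obtain ⟨x, hx, hx'⟩ := ori_wired' hδ hp hS hk hkn hU
      (t := ((i : ℤ) : ℝ) + 1 / 2) (by push_cast; constructor <;> linarith)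
    refine ⟨x, hx.le, ?_⟩
    rw [hx', QF_half hp hS]
    refine hdist _ _ ?_
    have e : (((i : ℤ)) : ZMod n) = (i : ZMod n) := by push_cast; rfl
    rw [e]
    have e1 : pt (p (i : ZMod n)) = qp (pc p i) (-(1 / 2)) 0 := pt_qp (pc p i)
    rw [e1]
    refine (qp_dist _ _ _ _ _).trans ?_
    rw [show (0 : ℝ) - -(1 / 2) = 1 / 2 by ring, sub_zero, abs_of_pos (by norm_num : (0:ℝ) < 1 / 2),
      abs_of_pos (by norm_num : (0:ℝ) < 3 / 8)]
    norm_num
  · have h1 : (i : ℝ) + 1 = n := by exact_mod_cast h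
    obtain ⟨x, hx, hx'⟩ := ori_wired' hδ hp hS hk hkn hU
      (t := ((i - 1 : ℤ) : ℝ) + 1 / 2) (by push_cast; constructor <;> linarith)
    refine ⟨x, hx.le, ?_⟩
    rw [hx', QF_half hp hS]
    refine hdist _ _ ?_
    have e : (((i - 1 : ℤ)) : ZMod n) + 1 = (i : ZMod n) := by push_cast; ring
    have e1 : pt (p (i : ZMod n)) = qp (pc p (((i - 1 : ℤ)) : ZMod n)) (1 / 2) 0 := by
      rw [← pt_adv_qp, ← e]
      congr 1
      unfold pc Vale.Agent.P167.Fjord.adv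
      simp only [Vale.Agent.P167.H327.fin4_m1]
      exact ro_spec hp _
    rw [e1]
    refine (qp_dist _ _ _ _ _).trans ?_
    rw [sub_zero, show |(0 : ℝ) - 1 / 2| = 1 / 2 by norm_num,
      abs_of_pos (by norm_num : (0:ℝ) < 3 / 8)]
    norm_num

/-- **[Wir]** -/
theorem wir : S_wir := by
  intro Φ ψ δ N k p S ψn H
  filter_upwards [good_ev H.appr] with n hn i hi hin
  obtain ⟨h1, h2, -, h4, h5⟩ := H.appr.1 n
  exact wir_aux h1 h4 h5 h2 hn (H.isU n hn) hi hin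

end Vale.Agent.P167.CL
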