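import Vale.Agent.P167.H756.Chain
import Vale.Agent.P167.H446.Stage
import Vale.Agent.P167.H446.PosX

/-!
# P167, block CLOSE: points joined to the base point at a distance from the boundary are deep

`deep_cls`, `deep_dom` : if a connected set `C` contains the base point and the balls of radius `η`
around its points are in the domain, then the coordinates of its points are at distance at least
`cb` from the unit circle.
-/

set_option autoImplicit false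

open Set Topology Metric MeasureTheory Filter Bornology
open scoped ENNReal Real ComplexConjugate

namespace Vale.Agent.P167.CL

open Vale.Agent.P153.R2.R1 Vale.Agent.P153.R2.OBSV Vale.Agent.P167.H756
open Vale.Agent.P153.R2.L1 (HH)
open Vale.Agent.P164 (loewnerDomain Zf)

theorem imb_im (v : ℂ) : (imb 1 Complex.I v).im = (1 - ‖v‖ ^ 2) / ‖1 - v‖ ^ 2 := by
  rw [imb_eq, ← Complex.normSq_eq_norm_sq (1 - v), ← Complex.normSq_eq_norm_sq v, Complex.div_im,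
    ← sub_div, Complex.normSq_apply v]
  congr 1
  simp only [Complex.mul_re, Complex.mul_im, Complex.I_re, Complex.I_im, Complex.add_re,
    Complex.add_im, Complex.one_re, Complex.one_im, Complex.sub_re, Complex.sub_im]
  ring

/-- Points joined to the base point off a neighbourhood of the boundary are deep. -/
theorem deep_cls {R c η ρ₀ : ℝ} (hR : 0 < R) (hη : 0 < η) (hρ₀ : ρ₀ < 1) :
    ∃ cb : ℝ, 0 < cb ∧ ∀ F : ℂ → ℂ, Cls R c F → ∀ w₀ ∈ closedBall (0 : ℂ) ρ₀, ∀ C : Set ℂ,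
      IsPreconnected C → F w₀ ∈ C → (∀ u ∈ C, ball u η ⊆ F '' ball 0 1) →
      ∀ v ∈ ball (0 : ℂ) 1, F v ∈ C → ‖v‖ ≤ 1 - cb := by
  obtain ⟨k, hk, hH⟩ := harnack_chain (Rd := 2 * R) hη
  have h0 : 0 < 1 - ρ₀ := by linarith
  refine ⟨min (1 / 2) (k * (1 - ρ₀) ^ 2), by positivity, ?_⟩
  intro F hF w₀ hw₀ C hC hw₀C hball v hv hvC
  rw [mem_closedBall_zero_iff] at hw₀
  rw [mem_ball_zero_iff] at hv
  by_cases hv0 : v = 0
  · rw [hv0, norm_zero]
    have := min_le_left (1 / 2) (k * (1 - ρ₀) ^ 2)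
    linarith
  have hvn : 0 < ‖v‖ := norm_pos_iff.2 hv0
  have hconf := hF.conf
  obtain ⟨ξ, hξ⟩ : ∃ ξ : ℂ, ξ = conj v / ‖v‖ := ⟨_, rfl⟩
  have hξn : ‖ξ‖ = 1 := by
    rw [hξ, norm_div, RCLike.norm_conj, Complex.norm_real, norm_norm, div_self hvn.ne']
  have hξv : ξ * v = ‖v‖ := by
    have : ((‖v‖ : ℝ) : ℂ) ≠ 0 := by exact_mod_cast hvn.ne'
    rw [hξ, div_mul_eq_mul_div, Complex.conj_mul']
    field_simp
  have hlt : ∀ a : ℂ, ‖a‖ < 1 → ‖ξ * a‖ < 1 := fun a ha => by rw [norm_mul, hξn, one_mul]; exact ha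
  have hg : DifferentiableOn ℂ (fun z => imb 1 Complex.I (ξ * dinv F z)) (F '' ball 0 1) := by
    intro z hz
    have h1 := (hconf.dinv_differentiableOn z hz).const_mul ξ
    have h2 : ξ * dinv F z ∈ ball (0 : ℂ) 1 := by
      rw [mem_ball_zero_iff]
      exact hlt _ (mem_ball_zero_iff.1 (hconf.dinv_mem hz))
    exact (imb_differentiableAt (ball_ne_one h2)).comp_differentiableWithinAt z h1
  have hpos : ∀ z ∈ F '' ball 0 1, 0 < (imb 1 Complex.I (ξ * dinv F z)).im := fun z hz =>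
    imb_im_pos norm_one (by simp) (hlt _ (mem_ball_zero_iff.1 (hconf.dinv_mem hz)))
  have hv' : v ∈ ball (0 : ℂ) 1 := mem_ball_zero_iff.2 hv
  have hw' : w₀ ∈ ball (0 : ℂ) 1 := mem_ball_zero_iff.2 (lt_of_le_of_lt hw₀ hρ₀)
  have hdist : ∀ z ∈ C, dist z (F v) ≤ 2 * R := by
    intro z hz
    obtain ⟨u, hu, rfl⟩ := hball z hz (mem_ball_self hη)
    have h1 := hF.bdd u hu
    have h2 := hF.bdd v hv'
    rw [dist_eq_norm]
    have e : F u - F v = (F u - F 0) - (F v - F 0) := by ring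
    rw [e]
    exact (norm_sub_le _ _).trans (by linarith)
  have h := hH _ _ hg hpos C (F v) hC hvC hball hdist (F w₀) hw₀C
  simp only [hconf.dinv_apply hv', hconf.dinv_apply hw', imb_im, hξv] at h
  have e1 : ‖(1 : ℂ) - ‖v‖‖ = 1 - ‖v‖ := by
    rw [← Complex.ofReal_one, ← Complex.ofReal_sub, Complex.norm_real, Real.norm_eq_abs,
      abs_of_pos (by linarith)]
  have e2 : ‖((‖v‖ : ℝ) : ℂ)‖ = ‖v‖ := by rw [Complex.norm_real, norm_norm]
  rw [e1, e2] at h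
  have h3 : (1 - ‖ξ * w₀‖ ^ 2) / ‖1 - ξ * w₀‖ ^ 2 ≤ 1 / (1 - ρ₀) ^ 2 := by
    have h4 : ‖ξ * w₀‖ ≤ ρ₀ := by rw [norm_mul, hξn, one_mul]; exact hw₀
    have h5 : 1 - ρ₀ ≤ ‖1 - ξ * w₀‖ := by
      have := norm_sub_norm_le (1 : ℂ) (ξ * w₀)
      rw [norm_one] at this
      linarith
    have h6 : (1 - ρ₀) ^ 2 ≤ ‖1 - ξ * w₀‖ ^ 2 := by gcongr
    exact div_le_div₀ zero_le_one (by nlinarith [norm_nonneg (ξ * w₀)]) (by positivity) h6
  have h7 := h.trans h3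
  have h8 : 0 < 1 - ‖v‖ := by linarith
  have h9 : (1 - ‖v‖ ^ 2) / (1 - ‖v‖) ^ 2 = (1 + ‖v‖) / (1 - ‖v‖) := by
    field_simp
    ring
  rw [h9, ← mul_div_assoc, div_le_div_iff₀ h8 (by positivity), one_mul] at h7
  have h10 : k * 1 * (1 - ρ₀) ^ 2 ≤ k * (1 + ‖v‖) * (1 - ρ₀) ^ 2 := by gcongr; linarith
  have := min_le_right (1 / 2) (k * (1 - ρ₀) ^ 2)
  linarith

/-- The version for the domains of a Loewner chain. -/
theorem deep_dom {T R Rd cd Y η : ℝ} (hRd : 0 < Rd) (hcd : 0 < cd) (hY0 : 0 < Y) (hY : 8 * R ≤ Y)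
    (hY2 : 64 * T ≤ Y ^ 2) (hη : 0 < η) :
    ∃ cb : ℝ, 0 < cb ∧ ∀ ψ : ℂ → ℂ, HConf Rd cd Y ψ → ∀ (W : ℝ → ℝ) (t : ℝ), Drv T R W t →
      ∀ C : Set ℂ, IsPreconnected C → ψ (Y * Complex.I) ∈ C →
      (∀ u ∈ C, ball u η ⊆ ψ '' loewnerDomain W t) →
      ∀ z ∈ C, ∃ w ∈ loewnerDomain W t, ψ w = z ∧ ‖mb 1 Complex.I (Zf W w t)‖ ≤ 1 - cb := by
  obtain ⟨c, hc, hcls⟩ := cls_FD (T := T) (R := R) hRd hcd hY0 hY hY2
  have hlt : √(1 - 4 * (3 * Y / 4) / (1 + 2 * Y) ^ 2) < 1 := by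
    rw [Real.sqrt_lt' one_pos]
    have : 0 < 4 * (3 * Y / 4) / (1 + 2 * Y) ^ 2 := by positivity
    linarith
  obtain ⟨cb, hcb, h⟩ := deep_cls (R := Rd) (c := c) hRd hη hlt
  refine ⟨cb, hcb, fun ψ hψ W t H C hC h0 hball z hz => ?_⟩
  obtain ⟨w, hw, rfl⟩ := hball z hz (mem_ball_self hη)
  refine ⟨w, hw, rfl, ?_⟩
  have hYd : (Y * Complex.I : ℂ) ∈ loewnerDomain W t := (H.base hY0 hY hY2).1
  refine h _ (hcls ψ hψ W t H) _ (H446.base_mem H hY0 hY hY2) C hC ?_ ?_ _ ?_ ?_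
  · rw [FD_mb H ψ hYd]; exact h0
  · rw [FD_img H]; exact hball
  · rw [mem_ball_zero_iff]
    exact norm_mb_lt norm_one (by simp) (Vale.Agent.P164.Zf_im_pos H.nn hw)
  · rw [FD_mb H ψ hw]; exact hz

end Vale.Agent.P167.CL
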