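import Vale.Agent.P167.CL.DQ6
import Vale.Agent.P167.CL.Wir
import Vale.Agent.P167.H531.PosCOf

/-!
# P167, block CLOSE [D], seventh part: `S_latr`

`slat_ofD` : `SLat` from `Stp`. `SLat.latR`. `S_posc` : the positions of the cut (531).
`latr_of : S_posc → S_latr`.
-/

set_option autoImplicit false

open MeasureTheory Filter Topology Set Metric
open scoped ENNReal

namespace Vale.Agent.P167.CL

open Vale.Agent.P153.R2.R1 (IsU mb)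
open Vale.Agent.P153.R2.L1 (HH)
open Vale.Agent.P164 (loewnerDomain Zf)
open Vale.Agent.P167.H531 Vale.Agent.P167.H558
open Vale.Agent.P167.E6 Vale.Agent.P167.E2 Vale.Agent.P167.H411 Vale.Agent.P167.H450
open Vale.Agent.P167.H161 (zp Rd)
open Vale.Agent.P167.H446 (uX)
open Vale.Agent.P167.H327 (xf)

section

variable {n : ℕ} {p : ZMod n → ℤ × ℤ} {k : ℕ} {S : Finset (ℤ × ℤ)} {δ : ℝ} {N : ℕ}
    {ψ : ℂ → ℂ} {T R Rd' cd X κ μ d τ₀ : ℝ} {v₀ : ℤ × ℤ} {c : CutP} {w : ℂ}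
    {jf L E : ℤ × ℤ → ℕ} {s : Stg} {u : ℤ × ℤ}

theorem SLat.KB_eq (Q : SLat p k S δ N ψ T R Rd' cd X κ μ d τ₀ v₀ c w jf L E s) :
    s.KB = KFn c := by
  ext F
  rw [mem_KFn Q.finKF, ← Finset.mem_coe, Q.cut.hKB]

theorem SLat.kcs_eq (Q : SLat p k S δ N ψ T R Rd' cd X κ μ d τ₀ v₀ c w jf L E s) :
    kcs s.KB c N v₀ u (L u) (H192.dq p k S) = KcN p k S c N v₀ L u := by
  rw [Q.KB_eq]
  rfl

/-- **`LatR`.** -/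
theorem SLat.latR (Q : SLat p k S δ N ψ T R Rd' cd X κ μ d τ₀ v₀ c w jf L E s)
    (hu : u ∈ Uset) (hX0 : 0 < X) (hX : 16 * R ≤ X) (hX2 : 1024 * T ≤ X ^ 2) (hp : IsPolygon p)
    (hS : Encloses p S) (hk : k < n)
    (hwir : ∀ i : ℕ, k ≤ i → i < n → ∃ x : ℝ, x ≤ 0 ∧ dist (ψ x) ((δ : ℂ) * pt (p i)) ≤ δ)
    {A : Finset (Sym2 (ℤ × ℤ))} {j : ℕ} (hA : A ⊆ edges S) (hj0 : 0 < j) (hj : j - 1 ≤ len p k A)
    (hdom : ψ '' loewnerDomain s.W s.t = Om δ S \ pl p k δ A '' Icc 0 j)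
    (hdom0 : ψ '' HH = Om δ S)
    {ip ia ib : ZMod s.mP} (hia : 0 < (ia - ip).val) {r Rb : ℤ} (hr0 : 0 < r) (hrR : r ≤ Rb)
    (hRb : 2 * Rb ≤ c.q * N) :
    LatR p k S A j (KcN p k S c N v₀ L u) (sE s.SE N (v₀ + u)) (sE s.SP N (v₀ + u))
      (kapN c N v₀ L u) (H192.ro (p (jf u)))
      (yN c N v₀ E u) (larc N (v₀ + u) (mkShp s.pP s.SP ip ia ib)) (v₀ + u) r Rb := by
  have hN := Q.lat.hN
  have hN0 : 0 < N := by omega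
  have hr : 2 * r ≤ c.q * N := by omega
  have hn : 0 < n := by have := hp.1; omega
  have hRb0 : 0 < Rb := by omega
  refine ⟨Q.cutOk_dq hu hX0 hn hwir hr0 hr, Q.cutOk_PE hu hia hr0 hr, ?_, ?_, Q.hbox_P hr,
    (Q.hbox_PE hRb).trans (Q.PE_dq hu), Q.kc_box hu hRb0 hRb, ?_, ?_, Q.rd_PE hu hA hj hdom⟩
  · intro i hi
    rw [Finset.mem_sdiff]
    exact ⟨Q.P_sub hi, fun h => Q.P_frz hu hi (Finset.mem_inter.1 h).1⟩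
  · exact Stg.island_sq Q.ok hN0 (Q.kb_sub hu)
  · exact (Q.rd_PE hu hA hj hdom).mono_right (Q.hbox_PE hRb)
  · exact (Q.rd_frz hX0 hX hX2 hp hS hk hA hj0 hj hdom hdom0 hu).mono_right
      Finset.inter_subset_left

end

/-- `SLat` from the data of one step. -/
theorem slat_ofD {n : ℕ} {p : ZMod n → ℤ × ℤ} {k : ℕ} {S : Finset (ℤ × ℤ)}
    {A : Finset (Sym2 (ℤ × ℤ))} {j : ℕ} {δ ℓ : ℝ} {N : ℕ} {ψ : ℂ → ℂ} {W : ℝ → ℝ}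
    {t T R X Y Rd cd κ d ϱ τ₀ c₀ ρ εn : ℝ} {v₀ : ℤ × ℤ} {c : CutP} {w : ℂ}
    {jf L E : ℤ × ℤ → ℕ} {s : Stg} {F₀ : ℤ × ℤ} {ip ia ib : ZMod s.mP} {iE iaE : ZMod s.mE}
    (H : Stp p k S A j δ ℓ N ψ W t T R X Y Rd cd κ d ϱ τ₀ c₀ ρ εn v₀ c w jf L E s F₀ ip ia ib
      iE iaE) (hδ : 160 * δ ≤ ϱ) :
    SLat p k S δ N ψ T R (3 * Rd) cd X κ (2 * ℓ / N) d τ₀ v₀ c w jf L E s where
  lat := by rw [H.stg.eℓ, H.stg.eρ]; exact H.lat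
  ok := H.stg.ok
  cut := H.stg.cut
  eψ := by rw [H.stg.eℓ]; exact H.stg.eψ
  box := H.stg.box
  hϱ := by
    rw [H.stg.eℓ, H.stg.eρ]
    have hN := H.lat.hN
    have hNr : (16 : ℝ) ≤ N := by exact_mod_cast hN
    have h1 : ℓ / N ≤ 2 * δ := by
      rw [div_le_iff₀ (by linarith)]
      have := H.hNδ'
      linarith
    linarith

/-- The number `2 Rb`. -/
theorem smE_of {X εn : ℝ} (h0 : 0 < εn)
    (h : εn ≤ min 1 (min (X / 16) (1 / (3 * X + 1)))) : SmE εn X :=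
  ⟨h0, h.trans (min_le_left _ _), h.trans ((min_le_right _ _).trans (min_le_left _ _)),
    h.trans ((min_le_right _ _).trans (min_le_right _ _))⟩

/-- **[POSC]** (531) the positions of the cut and of the box. -/
def S_posc : Prop := ∀ {T R X Y Rd cd rc : ℝ}, 0 < Rd → 0 < cd → Cst T R X Y → 0 < rc →
  ∃ κ₃ > 0, ∀ c₀ ρ : ℝ, 0 < c₀ → 0 < ρ → ∃ cb > 0, ∀ ℓ ϱ : ℝ, 0 < ℓ → 0 < ϱ → ∃ d₀ > 0,
  ∀ {n : ℕ} {p : ZMod n → ℤ × ℤ} {k : ℕ} {S : Finset (ℤ × ℤ)} {A : Finset (Sym2 (ℤ × ℤ))} {j : ℕ}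
    {δ : ℝ} {N : ℕ} {ψ : ℂ → ℂ} {W : ℝ → ℝ} {t κ d τ₀ εn : ℝ} {v₀ : ℤ × ℤ} {c : CutP} {w : ℂ}
    {jf L E : ℤ × ℤ → ℕ} {s : Stg} {F₀ : ℤ × ℤ} {ip ia ib : ZMod s.mP} {iE iaE : ZMod s.mE},
  κ ≤ κ₃ → d ≤ κ → 2048 * ρ ≤ d → δ ≤ d₀ →
  Stp p k S A j δ ℓ N ψ W t T R X Y Rd cd κ d ϱ τ₀ c₀ ρ εn v₀ c w jf L E s F₀ ip ia ib iE iaE →
  ∀ u ∈ Uset, ∀ Rb : ℤ, (Rb : ℝ) ≤ ρ * N / ℓ →
      PosC δ p k A j ψ W t (kcs s.KB c N v₀ u (L u) (H192.dq p k S)) (BR.hbox (v₀ + u) Rb) rc cb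
        (uX W t (xf ψ p δ (jf u)))

/-- **[LATR]** -/
theorem latr_of (hPC : S_posc) : S_latr := by
  intro T R X Y Rd cd rc hRd hcd hc hrc
  obtain ⟨κ₃, hκ₃, H⟩ := hPC hRd hcd hc hrc
  refine ⟨κ₃, hκ₃, fun c₀ ρ hc₀ hρ => ?_⟩
  obtain ⟨cb, hcb, H⟩ := H c₀ ρ hc₀ hρ
  have hX0 := hc.hX0
  refine ⟨cb, hcb, min 1 (min (X / 16) (1 / (3 * X + 1))), by positivity, fun εn hεn hεn' => ?_⟩
  refine ⟨1, one_pos, fun ℓ ϱ hℓ hϱ _ => ?_⟩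
  obtain ⟨d₀, hd₀, H⟩ := H ℓ ϱ hℓ hϱ
  refine ⟨min d₀ (ϱ / 160), by positivity, ?_⟩
  intro n p k S A j δ N ψ W t κ d τ₀ v₀ c w jf L E s F₀ ip ia ib iE iaE hκ hdκ hρd hδ G u hu
  have hδ1 := hδ.trans (min_le_left _ _)
  have hδ2 := hδ.trans (min_le_right _ _)
  have Q := slat_ofD G (by linarith)
  have hD := G.dat
  have hSm : SmE s.ε X := by
    rw [G.stg.eε]
    exact smE_of hεn hεn'
  have hdom : ψ '' loewnerDomain s.W s.t = Om δ S \ pl p k δ A '' Icc 0 j := by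
    rw [G.stg.eW, G.stg.et]
    exact hD.dom
  have hkn : k < n := by have := hD.hkn; omega
  have hwir : ∀ i : ℕ, k ≤ i → i < n → ∃ x : ℝ, x ≤ 0 ∧ dist (ψ x) ((δ : ℂ) * pt (p i)) ≤ δ :=
    fun i hi hin => wir_aux hD.hδ hD.hp hD.hS hD.hk hD.hkn G.isU hi hin
  obtain ⟨l, hl0, hlm, hl⟩ := Q.exists_l hu hc hSm G.hiE G.hiE1
  obtain ⟨y0, y1, y2, y3⟩ := yN_spec c N v₀ E u
  refine ⟨l, hl0, hlm, by rw [hl]; exact y2, by rw [hl]; exact y0, fun r Rb hr0 hrR hRb => ?_⟩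
  have hRb2 : 2 * Rb ≤ c.q * N := rb_le hℓ hRb G.hρq
  refine ⟨?_, ?_, H hκ hdκ hρd hδ1 G u hu Rb hRb⟩
  · rw [Q.kcs_eq, hl]
    exact Q.latR hu hX0 hc.hX hc.hX2 hD.hp hD.hS hkn hwir hD.hA G.hj0 hD.hj hdom hD.dom0 G.hval0
      hr0 hrR hRb2
  · rw [Q.kcs_eq]
    exact Q.cutL hu hX0 hD.hp hD.hS hwir hdom hl _ hr0 hrR hRb2

/-- **[LATR]** -/
theorem latr : S_latr := latr_of fun hRd hcd hc hrc => posC hRd hcd hc hrc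

end Vale.Agent.P167.CL
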