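import Vale.Agent.P167.CL.Fin2

/-!
# P167, block CLOSE [ASM]: the final assembly of `I_geo`

`i_stage1_of : S_latr → H450.I_stage1`.
-/

set_option autoImplicit false

open MeasureTheory Filter Topology Set Metric
open scoped NNReal ENNReal

namespace Vale.Agent.P167.CL

open Vale.Agent.P153.R2.R1 (IsU mb)
open Vale.Agent.P153.R2.L1 (HH)
open Vale.Agent.P164 (loewnerDomain Zf)
open Vale.Agent.P167.E6 Vale.Agent.P167.E2 Vale.Agent.P167.H411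
open Vale.Agent.P167.H161 (zp)
open Vale.Agent.P167.H756 (HConf Drv)
open Vale.Agent.P167.H531 Vale.Agent.P167.H558
open Vale.Agent.P167.H446 (uX)
open Vale.Agent.P167.H327 (xf)

theorem hRb2 {d ℓ : ℝ} (hℓ : 0 < ℓ) {N : ℕ} (hN : 0 < N) {q c : ℤ} {Rb : ℤ}
    (hq : 2 * (d / 2048) ≤ ℓ * q) (hRb : (Rb : ℝ) ≤ d / 2048 * N / ℓ) (hc : c = q) :
    2 * Rb ≤ c * (N : ℤ) := by
  have hNr : (0 : ℝ) < N := by exact_mod_cast hN
  rw [le_div_iff₀ hℓ] at hRb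
  have h2 : 2 * (d / 2048) * N ≤ ℓ * q * N := mul_le_mul_of_nonneg_right hq hNr.le
  have h3 : (2 * (Rb : ℝ)) * ℓ ≤ (q * N) * ℓ := by linarith
  have h4 : 2 * (Rb : ℝ) ≤ q * N := le_of_mul_le_mul_right h3 hℓ
  rw [hc]
  exact_mod_cast h4

theorem i_stage1_of (hL : S_latr) : H450.I_stage1 := by
  intro Φ ψ δ N k p S ψn hS T R hT hR
  set T₁ : ℝ := T + 1 with hT₁
  set R₁ : ℝ := R + 1 with hR₁
  have hT10 : 0 ≤ T₁ := by positivity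
  have hR10 : 0 ≤ R₁ := by positivity
  refine ⟨256 * R₁ + 128 * √T₁ + 1, fun X hX ε hε => ?_⟩
  have hsq := Real.sq_sqrt hT10
  have hs0 := Real.sqrt_nonneg T₁
  set Y : ℝ := 8 * R₁ + 8 * √T₁ + 1 with hYd
  have hX0 : 0 < X := by linarith
  have hX16 : 16 * R₁ ≤ X := by linarith
  have hX128 : 128 * √T₁ ≤ X := by linarith
  have hX2 : 16384 * T₁ ≤ X ^ 2 := by nlinarith
  have hY0 : 0 < Y := by positivity
  have hY8 : 8 * R₁ ≤ Y := by linarith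
  have hY2 : 64 * T₁ ≤ Y ^ 2 := by nlinarith
  have hc : Cst T₁ R₁ X Y := ⟨hT10, hR10, hX0, hX16, by linarith, hY0, hY8, hY2⟩
  obtain ⟨Rd, hRd, cd, hcd, hconf, hconfP⟩ := hconf_Psi hS hY0
  have h3Rd : 0 < 3 * Rd := by positivity
  obtain ⟨rc, hrc, HC⟩ := H531.hcmp (T := T₁) (R := R₁) (Rd := Rd) (cd := cd) (Y := Y)
    (u₀ := X / 4) (U := 4 * X) hT10 hR10 hRd hcd hY0 hY8 hY2 (by positivity) (by linarith)
    (by linarith) (by linarith)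
  obtain ⟨κ₀, hκ₀, H2⟩ := part_two (Rd := 3 * Rd) (cd := cd) h3Rd hcd hc hε
  obtain ⟨κ₁, hκ₁, ε₁, hε₁, HA⟩ := exists_arcs (Rd := 3 * Rd) (cd := cd) h3Rd hcd hc
  obtain ⟨κ₃, hκ₃, HL⟩ := hL hRd hcd hc hrc
  set κ : ℝ := min (min κ₀ κ₁) (min κ₃ (X / 16)) with hκ
  have hκ0 : 0 < κ := by positivity
  have k0 : κ ≤ κ₀ := (min_le_left _ _).trans (min_le_left _ _)
  have k1 : κ ≤ κ₁ := (min_le_left _ _).trans (min_le_right _ _)
  have k3 : κ ≤ κ₃ := (min_le_right _ _).trans (min_le_left _ _)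
  have kX : κ ≤ X / 16 := (min_le_right _ _).trans (min_le_right _ _)
  obtain ⟨d, hd, hdκ, HM⟩ := cutM Φ ψ δ N k p S ψn hS X κ hX0 hκ0
  obtain ⟨c₀, hc₀, HT⟩ := cutT Φ ψ δ N k p S ψn hS T₁ R₁ X Y κ d hT10 hR10 hX0 hX16 (by linarith)
    hY0 hY8 hY2 hκ0 (by linarith) hd
  have hρ : 0 < d / 2048 := by positivity
  obtain ⟨M, hM, ε₀, hε₀, H2⟩ := H2 c₀ (d / 2048) hc₀ hρ
  obtain ⟨cb, hcb, ε₃, hε₃, HL⟩ := HL c₀ (d / 2048) hc₀ hρ
  refine ⟨d / 2048, M, hρ, hM, fun ε' hε' => ?_⟩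
  obtain ⟨εh, hεh, hh, hhh, d₁, hd₁, HC⟩ := HC cb hcb ε' hε'
  obtain ⟨h₀, hh₀, HP⟩ := H446.posP_stg (T := T₁) (R := R₁) (Rd := 3 * Rd) (cd := cd) (Y := Y)
    (u₀ := X / 4) (U := 4 * X) (ε := εh) (h := hh) h3Rd hcd hY0 hY8 hY2 hT10 hR10 (by positivity)
    hεh hhh
  set εe : ℝ := min εh h₀ with hεe
  have hεe0 : 0 < εe := lt_min hεh hh₀
  obtain ⟨r₀, hr₀, HE⟩ := H450.PE.posE hS (T := T₁) (R := R₁) (X := X) (Y := Y) (κ' := κ)
    (ε := εe) hc (by linarith) hεe0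
  obtain ⟨d₂, hd₂, HF⟩ := H327.posF (T := T₁) (R := R₁) (Rd := Rd) (cd := cd) (Y := Y)
    (ε := εe / 2) hRd hcd hY0 hY8 hY2 (by positivity)
  obtain ⟨d₃, hd₃, HLab⟩ := H72.lab_of (T := T₁) (R := R₁) (Rd := Rd) (cd := cd) (Y := Y)
    (ε := εh) hRd hcd hY0 hY8 hY2 hεh
  obtain ⟨d₄, hd₄, HU⟩ := H327.unr (T := T₁) (R := R₁) (Rd := Rd) (cd := cd) (Y := Y)
    (x0 := X / 2) hRd hcd hT10 hR10 hY0 hY8 hY2 (by positivity) (by linarith) (by nlinarith)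
  -- the size of the notches
  set εn : ℝ := min (min (min ε₀ ε₁) (min ε₃ h₀)) (min 1 (min (X / 16) (1 / (3 * X + 1)))) with hεn
  have hεn0 : 0 < εn := by positivity
  have hεn1 : εn ≤ min (min ε₀ ε₁) (min ε₃ h₀) := min_le_left _ _
  have n0 : εn ≤ ε₀ := hεn1.trans ((min_le_left _ _).trans (min_le_left _ _))
  have n1 : εn ≤ ε₁ := hεn1.trans ((min_le_left _ _).trans (min_le_right _ _))
  have n3 : εn ≤ ε₃ := hεn1.trans ((min_le_right _ _).trans (min_le_left _ _))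
  have nh : εn ≤ h₀ := hεn1.trans ((min_le_right _ _).trans (min_le_right _ _))
  have hSm : SmE εn X := ⟨hεn0, (min_le_right _ _).trans (min_le_left _ _),
    (min_le_right _ _).trans ((min_le_right _ _).trans (min_le_left _ _)),
    (min_le_right _ _).trans ((min_le_right _ _).trans (min_le_right _ _))⟩
  obtain ⟨η₂, hη₂, H2⟩ := H2 εn hεn0 n0
  obtain ⟨η₃, hη₃, HL⟩ := HL εn hεn0 n3
  -- the scales
  obtain ⟨ℓ, ϱ, τ₀, q, hℓ, hϱ, hℓϱ, hτ, hτd, hq, hqd, hρq, hℓρ, hmin⟩ := exists_scales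
    (m := min (min (η₂ / 8) η₃) (min κ₁ (min h₀ r₀))) hd (by positivity)
  have hmin1 := hmin.trans (min_le_left _ _)
  have hmin2 := hmin.trans (min_le_right _ _)
  have m2 := hmin1.trans (min_le_left _ _)
  have m3 := hmin1.trans (min_le_right _ _)
  have mκ := hmin2.trans (min_le_left _ _)
  have mh := (hmin2.trans (min_le_right _ _)).trans (min_le_left _ _)
  have mr := (hmin2.trans (min_le_right _ _)).trans (min_le_right _ _)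
  have hτ0 : 0 < τ₀ := by linarith
  obtain ⟨d₅, hd₅, HL⟩ := HL ℓ ϱ hℓ hϱ (by linarith)
  refine ⟨ℓ, hℓ, hℓρ, Bx (3 * Rd) ℓ, ?_⟩
  filter_upwards [HM τ₀ ϱ ℓ q hϱ hℓ hτ hτd hq hqd, HT τ₀ ϱ ℓ hℓ,
    lat wir Φ ψ δ N k p S ψn hS X κ d τ₀ ϱ ℓ (by linarith) hℓ hϱ,
    HE d τ₀ ϱ ℓ hℓ (by linarith), hconf, hconfP ℓ hℓ, H756.drv hS hT hR.le one_pos,
    delta_ev hS (show 0 < min (min (min d₁ d₂) (min d₃ d₄)) (min d₅ (ℓ / 8)) by positivity),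
    good_ev hS.appr] with n hM hT' hlat hE hψ hψP hdrv hδ hn
  obtain ⟨hδ0, hδ⟩ := hδ
  have hδ1 := hδ.trans ((min_le_left _ _).trans ((min_le_left _ _).trans (min_le_left _ _)))
  have hδ2 := hδ.trans ((min_le_left _ _).trans ((min_le_left _ _).trans (min_le_right _ _)))
  have hδ3 := hδ.trans ((min_le_left _ _).trans ((min_le_right _ _).trans (min_le_left _ _)))
  have hδ4 := hδ.trans ((min_le_left _ _).trans ((min_le_right _ _).trans (min_le_right _ _)))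
  have hδ5 := hδ.trans ((min_le_right _ _).trans (min_le_left _ _))
  have hδℓ := hδ.trans ((min_le_right _ _).trans (min_le_right _ _))
  obtain ⟨hNn0, hNn1, hNn2⟩ := Nn_bounds hδ0 (show 8 * δ n ≤ ℓ by linarith)
  obtain ⟨v₀, c, w, hcq, CM⟩ := hM
  have CN := hT' v₀ c w CM
  obtain ⟨jf, L, E, CL⟩ := hlat v₀ c w CM
  change CutN T₁ R₁ X Y κ d c₀ ℓ ϱ (2 * ℓ / (Nn ℓ (δ n) : ℕ)) τ₀
    (Psi (δ n) ℓ (Nn ℓ (δ n)) v₀ (ψn n)) c w at CN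
  change CutLat (p n) (k n) (S n) (δ n) ℓ (Nn ℓ (δ n)) (ψn n) X κ d ϱ τ₀ v₀ c w jf L E at CL
  set Nm : ℕ := Nn ℓ (δ n) with hNm
  have hNr : (0 : ℝ) < Nm := by exact_mod_cast hNn0
  have hN16 : (16 : ℝ) ≤ Nm := by exact_mod_cast CL.hN
  obtain ⟨-, hk0, hkN, hp, hS'⟩ := hS.appr.1 n
  have hU := hS.isU n hn
  have hscale : ℓ / (Nm * δ n) ≠ 0 := by positivity
  obtain ⟨F₀, g₀, hg1, hg2, H2⟩ := H2 κ d ℓ ϱ (2 * ℓ / Nm) τ₀ (Psi (δ n) ℓ Nm v₀ (ψn n)) c w k0 hdκ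
    hℓ hϱ (by linarith) (by rw [hcq]; exact hρq) (hψP v₀) CN
    (compl_image_Psi hscale (pc_zero hS hn))
  -- the faces of the cut
  obtain ⟨KB₀, hKB₀⟩ : ∃ KB₀ : Finset (ℤ × ℤ), (KB₀ : Set (ℤ × ℤ)) = c.KF := by
    obtain ⟨s, ip, ia, ib, S₀, -⟩ := H2 (fun _ => 0) 0
      ⟨continuous_const, le_rfl, hT10, fun s _ => by simpa using hR10⟩
      (compl_image_Psi hscale (pc_zero hS hn))
    exact ⟨s.KB, S₀.cut.hKB⟩
  refine ⟨v₀, fun u => kcs KB₀ c Nm v₀ u (L u) (H192.dq (p n) (k n) (S n)),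
    fun u => kap (c.leg Nm v₀ u) (L u), fun u => H192.ro (p n (jf u)), g₀, hg1, hg2, ?_⟩
  intro A hA j hj hj0 hcap
  obtain ⟨hD, hW0⟩ := hdrv A hA j hj hcap
  have hCD := cdat_of hS hn hψ hA hj hD
  obtain ⟨s, ip, ia, ib, S₁, hOk, hG, hObs⟩ := H2 _ _ hD
    (compl_image_Psi hscale (pc_dom hS hn (sub_of_mem hA) hj))
  obtain ⟨iE, iaE, a1, a2, a3, a4, a5⟩ := HA s κ _ d τ₀ _ εn ℓ ϱ _ c w F₀ _ _ ip ia ib S₁ hρ k1
    hεn0 n1 (by linarith) (hdκ.trans k1)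
  have hKB : s.KB = KB₀ := Finset.coe_injective (S₁.cut.hKB.trans hKB₀.symm)
  have a6 : s.pE (iE + 1) = s.vn true + (1, 0) := by
    have h1 := a5 1 (by omega)
    rw [Nat.cast_one, Nat.cast_one] at h1
    rw [add_comm iE, ← h1, add_comm, S₁.hMk.east, S₁.hp]
  have hLab' : 0 < j → Lab (δ n) (p n) (k n) (S n) A j (ψn n) ((exn δ N k p S ψn n).W A)
      ((exn δ N k p S ψn n).c A j) εh := by
    intro hj0
    obtain ⟨τ, rfl⟩ : ∃ τ, j = τ + 1 := ⟨j - 1, by omega⟩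
    exact HLab hδ0 hδ3 hp hS' hk0 hn (sub_of_mem hA) hCD.hj hU hψ hD
  have hStp : Stp (p n) (k n) (S n) A j (δ n) ℓ Nm (ψn n) ((exn δ N k p S ψn n).W A)
      ((exn δ N k p S ψn n).c A j) T₁ R₁ X Y Rd cd κ d ϱ τ₀ c₀ (d / 2048) εn v₀ c w jf L E s F₀
      ip ia ib iE iaE :=
    { lat := CL
      cutn := CN
      dat := hCD
      isU := hU
      W0 := hW0
      hj0 := hj0
      hNδ := hNn1
      hNδ' := by linarith
      hρq := by rw [hcq]; exact hρq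
      stg := S₁
      hiE := a1
      hiE1 := a6
      hiaE := a2
      hval := a3
      hval0 := a4
      harc := a5 }
  refine ⟨mkShp s.pP s.SP ip ia ib, ⟨hOk, S₁.SP_Bx, hG⟩, ?_, hObs⟩
  intro u hu r Rb hr hrR hRb
  obtain ⟨l, l0, lM, hexit, -, HH⟩ := HL k3 hdκ (by linarith) hδ5 hStp u hu
  obtain ⟨hLR, hCL, hPC⟩ := HH r Rb hr hrR hRb
  rw [hKB] at hLR hCL hPC
  refine ⟨sE s.SE Nm (v₀ + u), qE s.pE iE Nm (v₀ + u) (l : ZMod (Nm * s.mE)), ?_⟩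
  -- the position of the foot
  have hjf := CL.jf_lt u hu
  have hxf := xf_near CL hp hS' hk0 hn hU hu
  obtain ⟨hu1, hu2⟩ := uX_xf hD hX0 hX16 (by linarith) (by linarith) hxf
  rw [abs_le] at hxf
  have hun := HU hCD hU hW0 hδ4 (jf u) hjf (by linarith [hxf.1])
  obtain ⟨-, hPF⟩ := HF hCD hU hW0 hδ2 (jf u) hjf hun
  have he1 : εe ≤ εh := min_le_left _ _
  have he2 : εe ≤ h₀ := min_le_right _ _
  have hPE := hE v₀ c w jf L E CL u hu s (3 * Rd) cd κ (2 * ℓ / Nm) (d / 2048) εn F₀ _ _ ip ia ib S₁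
    hSm (BR.hbox (v₀ + u) Rb) (fun v hv => fce_hbox hNn0 (by rw [hcq]; exact hq)
      (hRb2 hℓ hNn0 hρq hRb hcq) hv) _ hPF.foot
  rw [hKB] at hPE
  exact latOne_step HP HC hStp hεn0 nh (by linarith) (by linarith) hℓϱ hu l0 lM hexit hu1 hu2 hPE he2
    he1 hδ1 (hLab' hj0) (PosF_mono hPF (by linarith)) hPC hCL hLR

end Vale.Agent.P167.CL
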