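import Vale.Agent.P167.CL.Geo6
import Vale.Agent.P167.H327.Rado6
import Vale.Agent.P167.H446.GeoT

/-!
# P167, block CLOSE [ASM]: facts for all large `n`

* `scale_ev` : `1 ≤ ℓ / (N δ) ≤ 2`;
* `hconf_Psi` : the class of `Psi`;
* `pc_ev` : the complements of the slit domains are connected;
* `SP_box` : the shapes are in a fixed box.
-/

set_option autoImplicit false

open MeasureTheory Filter Topology Set Metric
open scoped NNReal ENNReal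

namespace Vale.Agent.P167.CL

open Vale.Agent.P153.R2.L1 (HH)
open Vale.Agent.P164 (loewnerDomain Zf)
open Vale.Agent.P167.E6 Vale.Agent.P167.E2 Vale.Agent.P167.H411
open Vale.Agent.P167.H756
open Vale.Agent.P167.H446.Cut
open Vale.Agent.P167.H450

/-- The number of squares of a side of a face. -/
noncomputable def Nn (ℓ δ : ℝ) : ℕ := 4 * ⌊ℓ / (4 * δ)⌋₊

theorem Nn_bounds {ℓ δ : ℝ} (hδ : 0 < δ) (hδℓ : 8 * δ ≤ ℓ) :
    0 < Nn ℓ δ ∧ (Nn ℓ δ : ℝ) * δ ≤ ℓ ∧ ℓ / 2 ≤ (Nn ℓ δ : ℝ) * δ := by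
  have hℓ : 0 < ℓ := by linarith
  have h1 : (⌊ℓ / (4 * δ)⌋₊ : ℝ) ≤ ℓ / (4 * δ) := Nat.floor_le (by positivity)
  have h2 : ℓ / (4 * δ) < ⌊ℓ / (4 * δ)⌋₊ + 1 := Nat.lt_floor_add_one _
  have h3 : (Nn ℓ δ : ℝ) = 4 * (⌊ℓ / (4 * δ)⌋₊ : ℝ) := by simp [Nn]
  rw [le_div_iff₀ (by positivity)] at h1
  rw [div_lt_iff₀ (by positivity)] at h2
  have h4 : (Nn ℓ δ : ℝ) * δ ≤ ℓ := by rw [h3]; linarith
  have h5 : ℓ / 2 ≤ (Nn ℓ δ : ℝ) * δ := by rw [h3]; linarith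
  refine ⟨?_, h4, h5⟩
  by_contra h0
  have h0' : Nn ℓ δ = 0 := by omega
  rw [h0', Nat.cast_zero, zero_mul] at h5
  linarith

theorem scale_bounds {ℓ δ : ℝ} (hδ : 0 < δ) (hδℓ : 8 * δ ≤ ℓ) :
    1 ≤ ℓ / (Nn ℓ δ * δ) ∧ ℓ / (Nn ℓ δ * δ) ≤ 2 := by
  have hℓ : 0 < ℓ := by linarith
  obtain ⟨h1, h2, h3⟩ := Nn_bounds hδ hδℓ
  have h4 : 0 < (Nn ℓ δ : ℝ) * δ := by linarith
  constructor
  · rw [le_div_iff₀ h4]; linarith
  · rw [div_le_iff₀ h4]; linarith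

theorem HConf.mono' {Rd cd Rd' cd' Y : ℝ} {ψ : ℂ → ℂ} (H : HConf Rd cd Y ψ) (h1 : Rd ≤ Rd')
    (h2 : cd' ≤ cd) : HConf Rd' cd' Y ψ where
  diff := H.diff
  inj := H.inj
  bdd z hz z' hz' := (H.bdd z hz z' hz').trans h1
  sub := (ball_subset_ball h2).trans H.sub

theorem hconf_of {Rd cd Y ℓ δ : ℝ} {ψ : ℂ → ℂ} (hRd : 0 < Rd) (hcd : 0 < cd)
    (H : HConf Rd cd Y ψ) (hδ : 0 < δ) (hδℓ : 8 * δ ≤ ℓ) (v₀ : ℤ × ℤ) :
    HConf (3 * Rd) cd Y (Psi δ ℓ (Nn ℓ δ) v₀ ψ) := by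
  obtain ⟨h1, h2⟩ := scale_bounds hδ hδℓ
  set c : ℝ := ℓ / (Nn ℓ δ * δ) with hc
  have hc0 : 0 < c := by linarith
  have hα : ‖((c : ℝ) : ℂ) * (1 + Complex.I)‖ = c * √2 := by
    rw [norm_mul, Complex.norm_real, Real.norm_of_nonneg hc0.le]
    congr 1
    rw [Complex.norm_def, Complex.normSq_apply]
    norm_num
  have hα0 : ((c : ℝ) : ℂ) * (1 + Complex.I) ≠ 0 := by
    rw [← norm_pos_iff, hα]; positivity
  have h3 := H.affine hα0 (-((c : ℂ) * (δ * pt v₀)))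
  have e : (fun z => ((c : ℝ) : ℂ) * (1 + Complex.I) * ψ z + -((c : ℂ) * (δ * pt v₀))) =
      Psi δ ℓ (Nn ℓ δ) v₀ ψ := by
    funext z
    rw [Psi, ← hc]
    ring
  rw [e] at h3
  have hs1 : (1 : ℝ) ≤ √2 := by
    rw [Real.one_le_sqrt]; norm_num
  have hs2 : √2 ≤ 3 / 2 := by
    rw [Real.sqrt_le_left (by norm_num)]; norm_num
  have h5 : 1 ≤ c * √2 := one_le_mul_of_one_le_of_one_le h1 hs1
  refine HConf.mono' h3 ?_ ?_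
  · rw [hα]
    nlinarith [mul_nonneg hc0.le hRd.le]
  · rw [hα]
    nlinarith

section ev

variable {Φ : (ℝ × ℝ) ≃ₜ (ℝ × ℝ)} {ψ : ℂ → ℂ} {δ : ℕ → ℝ} {N k : ℕ → ℕ}
  {p : ∀ n, ZMod (N n) → ℤ × ℤ} {S : ℕ → Finset (ℤ × ℤ)} {ψn : ℕ → ℂ → ℂ}

theorem delta_ev (H : Set6 Φ ψ δ N k p S ψn) {e : ℝ} (he : 0 < e) :
    ∀ᶠ n in atTop, 0 < δ n ∧ δ n ≤ e := by
  filter_upwards [(H.appr.2.1).eventually (gt_mem_nhds he)] with n hn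
  exact ⟨(H.appr.1 n).1, hn.le⟩

/-- The class of `Psi`. -/
theorem hconf_Psi (H : Set6 Φ ψ δ N k p S ψn) {Y : ℝ} (hY : 0 < Y) :
    ∃ Rd > 0, ∃ cd > 0, (∀ᶠ n in atTop, HConf Rd cd Y (ψn n)) ∧
      ∀ ℓ : ℝ, 0 < ℓ → ∀ᶠ n in atTop, ∀ v₀ : ℤ × ℤ,
        HConf (3 * Rd) cd Y (Psi (δ n) ℓ (Nn ℓ (δ n)) v₀ (ψn n)) := by
  obtain ⟨Rd, hRd, cd, hcd, h⟩ := hconf H hY
  refine ⟨Rd, hRd, cd, hcd, h, fun ℓ hℓ => ?_⟩
  filter_upwards [h, delta_ev H (show 0 < ℓ / 8 by positivity)] with n h1 h2 v₀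
  exact hconf_of hRd hcd h1 h2.1 (by linarith [h2.2]) v₀

theorem compl_image_Psi {δ ℓ : ℝ} {N : ℕ} {v₀ : ℤ × ℤ} {ψ : ℂ → ℂ} {D : Set ℂ}
    (hc : ℓ / (N * δ) ≠ 0) (h : IsPreconnected (ψ '' D)ᶜ) :
    IsPreconnected (Psi δ ℓ N v₀ ψ '' D)ᶜ := by
  have hα0 : ((ℓ / (N * δ) : ℝ) : ℂ) * (1 + Complex.I) ≠ 0 := by
    refine mul_ne_zero (by exact_mod_cast hc) ?_
    intro h0
    have := congrArg Complex.re h0
    simp at this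
  set f : ℂ → ℂ := fun z => ((ℓ / (N * δ) : ℝ) : ℂ) * (1 + Complex.I) * z +
    -(((ℓ / (N * δ) : ℝ) : ℂ) * (δ * pt v₀)) with hf
  have hbij : Function.Bijective f := by
    constructor
    · intro x y h
      exact mul_left_cancel₀ hα0 (add_right_cancel h)
    · intro y
      refine ⟨(y + ((ℓ / (N * δ) : ℝ) : ℂ) * (δ * pt v₀)) /
        (((ℓ / (N * δ) : ℝ) : ℂ) * (1 + Complex.I)), ?_⟩
      rw [hf]
      simp only
      rw [mul_div_cancel₀ _ hα0]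
      ring
  have e : Psi δ ℓ N v₀ ψ '' D = f '' (ψ '' D) := by
    rw [image_image]
    refine image_congr fun z _ => ?_
    rw [Psi, hf]
    ring
  rw [e, ← image_compl_eq hbij]
  refine h.image _ (Continuous.continuousOn ?_)
  rw [hf]
  fun_prop

/-- The complements of the slit domains are connected. -/
theorem pc_dom (H : Set6 Φ ψ δ N k p S ψn) {n : ℕ} (hn : k n + 1 < N n)
    {A : Finset (Sym2 (ℤ × ℤ))} (hA : A ⊆ edges (S n)) {j : ℕ} (hj : j < nu (p n) (k n) A) :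
    IsPreconnected (ψn n '' loewnerDomain ((exn δ N k p S ψn n).W A)
      ((exn δ N k p S ψn n).c A j))ᶜ := by
  obtain ⟨hδ, hk0, hkN, hp, hS⟩ := H.appr.1 n
  rw [dom_eq H hn hA hj]
  refine pc_diff (H446.isPreconnected_compl_Om hδ hp hS)
    (isPreconnected_Icc.image _ (continuous_pl (δ n)).continuousOn)
    (w := aM (p n) (δ n)) ⟨0, ⟨le_rfl, Nat.cast_nonneg _⟩, pl_zero (δ n)⟩ ?_
  intro hc
  have h1 := H327.aM_mem hδ hp hS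
  exact h1.2 (by rwa [(H327.isOpen_Om hδ (S n)).interior_eq])

theorem pc_zero (H : Set6 Φ ψ δ N k p S ψn) {n : ℕ} (hn : k n + 1 < N n) :
    IsPreconnected (ψn n '' loewnerDomain (fun _ => 0) 0)ᶜ := by
  obtain ⟨hδ, hk0, hkN, hp, hS⟩ := H.appr.1 n
  rw [dom_zero']
  have e : ψn n '' HH = Om (δ n) (S n) := (H.isU n hn).img
  rw [e]
  exact H446.isPreconnected_compl_Om hδ hp hS

end ev

/-- The box of the shapes. -/
noncomputable def Bx (Rd ℓ : ℝ) : Finset (ℤ × ℤ) :=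
  Finset.Icc (-⌈Rd / ℓ⌉ - 1) (⌈Rd / ℓ⌉ + 1) ×ˢ Finset.Icc (-⌈Rd / ℓ⌉ - 1) (⌈Rd / ℓ⌉ + 1)

end Vale.Agent.P167.CL
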