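import Vale.Agent.P167.CL.Geo6
import Vale.Agent.P167.H446.PosP

/-!
# P167, block CLOSE [ASM]: the arcs from the target to the tip of the two polygons

* `zero_mem`, `exists_near` : the points of the cut in the domain are near `X`;
* `pdV` : the structure `PD` of `pP` with the base point at the vertex;
* `exists_arcs` : the polygons `pP` and `pE` coincide from the target to the tip.
-/

set_option autoImplicit false

open MeasureTheory Filter Topology Set Metric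
open scoped NNReal ENNReal

namespace Vale.Agent.P167.CL

open Vale.Agent.P153.R2.R1 (mb)
open Vale.Agent.P153.R2.L1 (HH)
open Vale.Agent.P164 (loewnerDomain Zf)
open Vale.Agent.P167.E6 Vale.Agent.P167.E2 Vale.Agent.P167.H411
open Vale.Agent.P167.H756
open Vale.Agent.P167.H446 (uX uX_bd Nr pos_poly near_X chord_sep)
open Vale.Agent.P167.H446.Cut
open Vale.Agent.P167.H450

theorem pt_mem_sqr {ℓ : ℝ} (hℓ : 0 < ℓ) (v : ℤ × ℤ) (r : Fin 4) :
    (ℓ : ℂ) * pt v ∈ sqr ℓ (face v r) := by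
  have e1 : ((ℓ : ℂ) * pt v).re = ℓ * v.1 := by rw [Complex.re_ofReal_mul]; rfl
  have e2 : ((ℓ : ℂ) * pt v).im = ℓ * v.2 := by rw [Complex.im_ofReal_mul]; rfl
  unfold sqr
  rw [mem_ofPred_eq, e1, e2]
  obtain ⟨a, b⟩ := v
  have key : ∀ (x y : ℤ), (x = y ∨ x = y - 1) → ℓ * (x : ℝ) ≤ ℓ * y ∧ ℓ * y ≤ ℓ * ((x : ℝ) + 1) := by
    rintro x y (rfl | rfl)
    · exact ⟨le_rfl, mul_le_mul_of_nonneg_left (by linarith) hℓ.le⟩
    · push_cast
      exact ⟨mul_le_mul_of_nonneg_left (by linarith) hℓ.le,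
        mul_le_mul_of_nonneg_left (by linarith) hℓ.le⟩
  have h : ((face (a, b) r).1 = a ∨ (face (a, b) r).1 = a - 1) ∧
      ((face (a, b) r).2 = b ∨ (face (a, b) r).2 = b - 1) := by
    fin_cases r <;> simp [face] <;> omega
  obtain ⟨h1, h2⟩ := key _ _ h.1
  obtain ⟨h3, h4⟩ := key _ _ h.2
  exact ⟨h1, h2, h3, h4⟩

theorem vadj_face (v : ℤ × ℤ) (r r' : Fin 4) : VAdj (face v r) (face v r') := by
  obtain ⟨a, b⟩ := v
  have h : ∀ r : Fin 4, ((face (a, b) r).1 = a ∨ (face (a, b) r).1 = a - 1) ∧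
      ((face (a, b) r).2 = b ∨ (face (a, b) r).2 = b - 1) := by
    intro r
    fin_cases r <;> simp [face] <;> omega
  obtain ⟨h1, h2⟩ := h r
  obtain ⟨h3, h4⟩ := h r'
  constructor
  · rw [abs_le]; omega
  · rw [abs_le]; omega

namespace StgOf

variable {s : Stg} {T R X Y Rd cd κ μ d τ₀ ρ εn ℓ ϱ : ℝ} {ψ : ℂ → ℂ} {c : CutP} {w : ℂ}
  {F₀ : ℤ × ℤ} {W : ℝ → ℝ} {t : ℝ} {ip ia ib : ZMod s.mP}

/-- The points of the domain at distance at most `8 d` of `w` are near `X`. -/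
theorem exists_near (H : StgOf s T R X Y Rd cd κ μ d τ₀ ρ εn ℓ ϱ ψ c w F₀ W t ip ia ib) {y : ℂ}
    (hy : y ∈ s.D) (hd : dist y w ≤ 8 * d) :
    ∃ z ∈ loewnerDomain W t, 0 < z.im ∧ ψ z = y ∧ ‖z - X‖ ≤ κ := by
  obtain ⟨z, hz, hz0, rfl⟩ := H.ok.exists_pt hy
  refine ⟨z, ?_, hz0, by rw [H.eψ], H.cut.near z hz0 hd⟩
  rw [H.eW, H.et] at hz
  exact hz

/-- The point `b'`. -/
theorem zero_mem (H : StgOf s T R X Y Rd cd κ μ d τ₀ ρ εn ℓ ϱ ψ c w F₀ W t ip ia ib) :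
    (0 : ℂ) ∈ s.D := by
  have hℓ := H.ok.hℓ
  have hq := H.cut.cc.hq
  have h1 : ((0, -1) : ℤ × ℤ) ∈ c.KF :=
    ⟨(0, -1), Or.inl ⟨by simp only; omega, by simp, by simp only; omega, by simp only; omega⟩, rfl⟩
  rw [← H.cut.hKB] at h1
  have h2 := H.ok.KG h1
  have h3 : (0 : ℂ) ∈ sqr s.ℓ (0, -1) := by
    refine ⟨?_, ?_, ?_, ?_⟩ <;> simp
    all_goals exact hℓ.le
  exact Stg.E1_sub H.ok (h2.1 0 (sqr_subset_bk hℓ h3) (mem_ball_self H.ok.hρm))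

theorem zero_dist (H : StgOf s T R X Y Rd cd κ μ d τ₀ ρ εn ℓ ϱ ψ c w F₀ W t ip ia ib) :
    dist (0 : ℂ) w ≤ 8 * d := by
  have h1 := H.cut.cc.w_le
  have h2 := H.cut.cc.d_pos
  rw [dist_eq_norm, zero_sub, norm_neg]
  linarith

/-- The bricks of the cut are near `w`. -/
theorem dist_KB (H : StgOf s T R X Y Rd cd κ μ d τ₀ ρ εn ℓ ϱ ψ c w F₀ W t ip ia ib)
    {F : ℤ × ℤ} (hF : F ∈ s.KB) {y : ℂ} (hy : y ∈ sqr s.ℓ F) : dist y w ≤ 8 * d := by
  have h1 := (cutG1 _ _ _ _ _ _ _ _ H.cut.cc).2.1 y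
    (Or.inl ⟨F, by rw [← H.cut.hKB]; exact Finset.mem_coe.2 hF, hy⟩)
  have h2 := H.cut.cc.d_pos
  linarith

end StgOf

/-- `PD` for `pP`, the base point at the vertex. -/
theorem StgOf.pdV {T R Y h : ℝ} (hT : 0 ≤ T) (hR : 0 ≤ R) (hY0 : 0 < Y) (hY : 8 * R ≤ Y)
    (hY2 : 64 * T ≤ Y ^ 2) (hh : 0 < h) :
    ∃ ε₀ > 0, ∀ (s : Stg) (X Rd cd κ μ d τ₀ ρ εn ℓ ϱ : ℝ) (ψ : ℂ → ℂ) (c : CutP) (w : ℂ)
      (F₀ : ℤ × ℤ) (W : ℝ → ℝ) (t : ℝ) (ip ia ib : ZMod s.mP),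
      StgOf s T R X Y Rd cd κ μ d τ₀ ρ εn ℓ ϱ ψ c w F₀ W t ip ia ib → 0 < εn → εn ≤ ε₀ →
      ϱ + 3 * ℓ ≤ h / 2 → d ≤ h / 2 →
      PD h ψ W t Y (D6 ℓ s.SP) (ℓ * pt (s.pP ia)) (ℓ * pt (s.pP ip)) := by
  obtain ⟨ε₀, hε₀, H⟩ := pd_of_sys (ι := Bool) hT hR hY0 hY hY2 hh
  refine ⟨ε₀, hε₀, ?_⟩
  intro s X Rd cd κ μ d τ₀ ρ εn ℓ ϱ ψ c w F₀ W t ip ia ib S hε0 hε hρ hd
  have hs := S.ok
  have hC := S.cut
  have hcc := hC.cc
  have hfin : c.KF.Finite := by rw [← hC.hKB]; exact s.KB.finite_toSet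
  have hw := gg_sub hcc (w_mem_gg τ₀ c w)
  have hcon := (cutG1 _ _ _ _ _ _ _ _ hcc).1
  have hb := SG.base' hs (by rw [S.eY]; exact hY0) (by rw [S.eY]; exact hY)
    (by rw [S.eY]; exact hY2)
  have hsys : Sys (FD s.ψ s.W s.t) (mb 1 Complex.I (Zf s.W (Y * Complex.I) s.t)) xi s.ε s.η s.ℓ s.x
      s.k s.q s.K s.C s.B (s.D \ s.g) := by
    have h1 := hs.sysP
    rw [Stg.F, Stg.w₀, S.eY] at h1
    exact h1
  have hconf : HConf Rd cd Y s.ψ := by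
    have h1 := hs.conf
    rwa [S.eY] at h1
  have hP := H s.ψ Rd cd hconf s.W s.t hs.drv xi false true (by simp [xi]) (by simp [xi]) s.ε s.η
    s.ℓ s.ρm s.x s.k s.q s.K s.C s.B (s.D \ s.g) s.F₀ (by rw [S.eε]; exact hε0)
    (by rw [S.eε]; exact hε) hs.hρm hs.mesh (by rw [S.eρ, S.eℓ]; exact hρ) hsys
    (by rw [← S.eY]; exact hb) (fun z hz => by
      rw [hC.hB] at hz ⊢
      refine ⟨w, hw, ?_, joinedIn_cutSet hs.hℓ hfin hcon hz hw,
        fun u hu => (dist_cutSet hcc hu hz).trans hd⟩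
      rw [← hs.D_eq]
      exact hcc.out) (s.ℓ * pt (s.vn false)) (s.ℓ * pt (s.vn true))
    (by rw [SG.re_mark]; exact SG.near_x hs false le_rfl zero_le_one)
    (by rw [SG.im_mark]; rfl)
    (by rw [SG.re_mark]; exact SG.near_x hs true le_rfl zero_le_one)
    (by rw [SG.im_mark]; rfl)
    (by
      rw [Stg.BP_P hs]
      exact good_D6 hs.hℓ hs.polyP hs.enclP)
  rw [Stg.BP_P hs, ← S.hp, ← S.ha, S.eψ, S.eW, S.et, S.eℓ] at hP
  exact hP

/-- **The polygons coincide from the target to the tip.** -/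
theorem exists_arcs {T R X Y Rd cd : ℝ} (hRd : 0 < Rd) (hcd : 0 < cd) (hc : Cst T R X Y) :
    ∃ κ₁ > 0, ∃ ε₁ > 0, ∀ (s : Stg) (κ μ d τ₀ ρ εn ℓ ϱ : ℝ) (ψ : ℂ → ℂ) (c : CutP) (w : ℂ)
      (F₀ : ℤ × ℤ) (W : ℝ → ℝ) (t : ℝ) (ip ia ib : ZMod s.mP),
      StgOf s T R X Y Rd cd κ μ d τ₀ ρ εn ℓ ϱ ψ c w F₀ W t ip ia ib → 0 < ρ → κ ≤ κ₁ → 0 < εn →
      εn ≤ ε₁ → ϱ + 3 * ℓ ≤ κ₁ → d ≤ κ₁ →
      ∃ iE iaE : ZMod s.mE, s.pE iE = s.vn true ∧ s.pE iaE = s.vn false ∧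
        (iaE - iE).val = (ia - ip).val ∧ 0 < (ia - ip).val ∧
        ∀ i : ℕ, i ≤ (ia - ip).val → s.pP (i + ip) = s.pE (i + iE) := by
  have hX0 := hc.hX0
  have hX8 : 8 * R ≤ X := by have := hc.hR; have := hc.hX; linarith
  have hX64 : 64 * T ≤ X ^ 2 := by have := hc.hT; have := hc.hX2; linarith
  set σ : ℝ := 2 * min (X / 2) 1 / (1 + 2 * X) with hσ
  have hσ0 : 0 < σ := by positivity
  obtain ⟨h, hh, HP⟩ := pos_poly (T := T) (R := R) (X := X) (κ := σ / 4) hRd hcd hc.hY0 hc.hY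
    hc.hY2 hc.hT hc.hR hX0 hX8 hX64 (by positivity)
  obtain ⟨ηX, hηX, hnX⟩ := near_X (T := T) (R := R) (X := X) (κ := min h (σ / 4)) hX0 hX8 hX64
    (by positivity)
  obtain ⟨ε₁, hε₁, HV⟩ := StgOf.pdV (T := T) (R := R) (Y := Y) hc.hT hc.hR hc.hY0 hc.hY hc.hY2 hh
  refine ⟨min ηX (h / 2), by positivity, ε₁, hε₁, ?_⟩
  intro s κ μ d τ₀ ρ εn ℓ ϱ ψ c w F₀ W t ip ia ib S hρ hκ hε0 hε hϱ hd
  have hs := S.ok
  have hℓ := hs.hℓ
  have hD : Drv T R W t := by have := hs.drv; rwa [S.eW, S.et] at this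
  have hψ : HConf Rd cd Y ψ := by have := hs.conf; rwa [S.eψ, S.eY] at this
  have hneP := S.hMk.neZero
  have hmE : NeZero s.mE := ⟨by have := hs.polyE.1; omega⟩
  obtain ⟨iE, hiE, -⟩ := dist_ne hs.polyE hs.enclE (Stg.flatE hs true (Stg.flat_one hs true))
  obtain ⟨iaE, hiaE, -⟩ := dist_ne hs.polyE hs.enclE (Stg.flatE hs false (Stg.flat_one hs false))
  -- the points near `w`
  have hnear : ∀ y ∈ s.D, dist y w ≤ 8 * d → ∃ z ∈ loewnerDomain W t, ψ z = y ∧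
      dist (mb 1 Complex.I (Zf W z t)) (mb 1 Complex.I (uX W t X : ℂ)) ≤ min h (σ / 4) := by
    intro y hy hyd
    obtain ⟨z, hz, hz0, hzy, hzX⟩ := S.exists_near hy hyd
    exact ⟨z, hz, hzy, (hnX W t hD z hz0 (hzX.trans (hκ.trans (min_le_left _ _)))).2.2⟩
  -- the indices
  have hk0 : 0 < (ia - ip).val := by
    rw [Nat.pos_iff_ne_zero, Ne, ZMod.val_eq_zero, sub_eq_zero]
    exact S.hMk.ne0
  have hkM : (ia - ip).val < s.mP := ZMod.val_lt _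
  have hl0 : 0 < (ib - ip).val := by
    rw [Nat.pos_iff_ne_zero, Ne, ZMod.val_eq_zero, sub_eq_zero]
    rintro rfl
    have h1 := S.hMk.far_p
    have h2 := S.hMk.zero
    rw [h2] at h1
    have hr : 0 < ⌈2 * ρ / ℓ⌉ := Mk.rpos hρ (by rw [← S.eℓ]; exact hℓ)
    rcases h1 with h1 | h1 <;> simp at h1 <;> omega
  have hlM : (ib - ip).val < s.mP := ZMod.val_lt _
  have hka : (((ia - ip).val : ℕ) : ZMod s.mP) + ip = ia := by
    rw [ZMod.natCast_zmod_val]; ring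
  have hkb : (((ib - ip).val : ℕ) : ZMod s.mP) + ip = ib := by
    rw [ZMod.natCast_zmod_val]; ring
  -- positions
  obtain ⟨z₀, hz₀, hz₀0, hz₀n⟩ := hnear 0 S.zero_mem S.zero_dist
  have hPD := HV s X Rd cd κ μ d τ₀ ρ εn ℓ ϱ ψ c w F₀ W t ip ia ib S hε0 hε
    (hϱ.trans (min_le_right _ _)) (hd.trans (min_le_right _ _))
  have hℓ' : 0 < ℓ := by rw [← S.eℓ]; exact hℓ
  have himg : (fun z : ℂ => z + 0) '' D6 ℓ s.SP = D6 ℓ s.SP := by simp
  have hpos := HP ψ hψ W t hD s.mP (fun i => s.pP (i + ip)) s.SP ℓ 0 (ia - ip).val (ib - ip).val hℓ'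
    (isPolygon_shift hs.polyP ip) (encloses_shift hs.enclP ip) hk0 hkM hl0 hlM
    (by
      rw [himg]
      simp only [add_zero, zero_add]
      rw [hka]
      exact hPD) z₀ hz₀
    (by
      simp only [add_zero]
      rw [hkb, S.hMk.zero, hz₀0]
      apply Complex.ext <;> simp [pt])
    ⟨uX W t X, rfl, hz₀n.trans (min_le_left _ _)⟩
  obtain ⟨-, -, hpos⟩ := hpos
  -- the arcs
  have harc := arc_agree (p := fun i => s.pP (i + ip)) (p' := fun i => s.pE (i + iE))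
    (isPolygon_shift hs.polyP ip) (encloses_shift hs.enclP ip) (isPolygon_shift hs.polyE iE)
    (encloses_shift hs.enclE iE) (by simp only [zero_add]; rw [S.hp, hiE]) (k := (ia - ip).val)
    (by
      intro i hi r
      refine ⟨fun hF => (Finset.mem_sdiff.1 (Stg.SP_sub hs hF)).1, fun hF => ?_⟩
      set v := s.pP ((i : ZMod s.mP) + ip) with hv
      obtain ⟨r', hr'⟩ := (isPolygon_shift hs.polyP ip).2.2 (i : ZMod s.mP)
      have hG := ((encloses_shift hs.enclP ip) v r').1 ⟨(i : ZMod s.mP), rfl, hr'⟩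
      by_cases hK : face v r ∈ s.KB
      · exfalso
        have hvs := pt_mem_sqr hℓ v r
        have hvD := Stg.marginE hs ⟨_, Finset.mem_coe.2 hF, hvs⟩ (mem_ball_self hs.hρm)
        obtain ⟨z, hz, hzv, hzn⟩ := hnear _ hvD (S.dist_KB hK hvs)
        obtain ⟨x, hx, hx2⟩ := (hpos i (by omega) z hz (by
          rw [hzv, S.eℓ, add_zero])).1 hi.le
        obtain ⟨-, hu1, hu2⟩ := uX_bd hD hX0 hX8 hX64
        have hsep := chord_sep (u := uX W t X) (x := x) (by linarith) hx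
        have hσu : σ ≤ 2 * min (uX W t X) 1 / (1 + uX W t X) := by
          rw [hσ]
          have h5 : min (X / 2) 1 ≤ min (uX W t X) 1 := min_le_min_right _ hu1
          have h6 : 0 ≤ min (X / 2) 1 := by positivity
          have h7 : 0 < uX W t X := by linarith
          gcongr
        have htri := dist_triangle_left (mb 1 Complex.I (x : ℂ)) (mb 1 Complex.I (uX W t X : ℂ))
          (mb 1 Complex.I (Zf W z t))
        have h8 := hzn.trans (min_le_right _ _)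
        linarith
      · exact Stg.island hs hF hK hG.1 (vadj_face v r r'))
  have hEa : iaE - iE = (((ia - ip).val : ℕ) : ZMod s.mE) := by
    have h1 := harc _ le_rfl
    rw [hka, S.ha, ← hiaE] at h1
    have h2 := hs.polyE.2.1 h1
    rw [h2]; ring
  have hlt := agree_lt (isPolygon_shift hs.polyP ip) (isPolygon_shift hs.polyE iE) hkM harc
  refine ⟨iE, iaE, hiE, hiaE, ?_, hk0, harc⟩
  rw [hEa, ZMod.val_natCast_of_lt hlt]

end Vale.Agent.P167.CL
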