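import Vale.Agent.P167.CL.Geo7
import Vale.Agent.P167.CL.Geo8

/-!
# P167, block CLOSE [ASM]: the shapes are in a fixed box
-/

set_option autoImplicit false

open MeasureTheory Filter Topology Set Metric
open scoped NNReal ENNReal

namespace Vale.Agent.P167.CL

open Vale.Agent.P153.R2.L1 (HH)
open Vale.Agent.P164 (loewnerDomain Zf)
open Vale.Agent.P167.E6 Vale.Agent.P167.E2 Vale.Agent.P167.H411
open Vale.Agent.P167.H756
open Vale.Agent.P167.H446.Cut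
open Vale.Agent.P167.H450

/-- The squares of the shape are in a fixed box. -/
theorem StgOf.SP_Bx {s : Stg} {T R X Y Rd cd κ μ d τ₀ ρ εn ℓ ϱ : ℝ} {ψ : ℂ → ℂ} {c : CutP} {w : ℂ}
    {F₀ : ℤ × ℤ} {W : ℝ → ℝ} {t : ℝ} {ip ia ib : ZMod s.mP}
    (H : StgOf s T R X Y Rd cd κ μ d τ₀ ρ εn ℓ ϱ ψ c w F₀ W t ip ia ib) : s.SP ⊆ Bx Rd ℓ := by
  have hs := H.ok
  have hℓ := hs.hℓ
  intro F hF
  have hbd : ∀ y ∈ s.D, ‖y‖ ≤ Rd := by
    intro y hy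
    obtain ⟨z, -, hz0, rfl⟩ := hs.exists_pt hy
    obtain ⟨z', -, hz'0, hz'⟩ := hs.exists_pt H.zero_mem
    have h1 := hs.conf.bdd z hz0 z' hz'0
    rwa [hz', sub_zero] at h1
  have hy : (⟨s.ℓ * F.1, s.ℓ * F.2⟩ : ℂ) ∈ sqr s.ℓ F :=
    ⟨le_rfl, mul_le_mul_of_nonneg_left (by linarith) hℓ.le, le_rfl,
      mul_le_mul_of_nonneg_left (by linarith) hℓ.le⟩
  have h2 := hbd _ (Stg.marginP hs ⟨F, Finset.mem_coe.2 hF, hy⟩ (mem_ball_self hs.hρm))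
  have h3 := (Complex.abs_re_le_norm _).trans h2
  have h4 := (Complex.abs_im_le_norm _).trans h2
  simp only at h3 h4
  rw [H.eℓ] at h3 h4 hℓ
  have key : ∀ a : ℤ, |ℓ * (a : ℝ)| ≤ Rd → -⌈Rd / ℓ⌉ - 1 ≤ a ∧ a ≤ ⌈Rd / ℓ⌉ + 1 := by
    intro a ha
    rw [abs_mul, abs_of_pos hℓ, mul_comm, ← le_div_iff₀ hℓ] at ha
    have h5 := ha.trans (Int.le_ceil _)
    rw [abs_le] at h5
    have h6 : (-⌈Rd / ℓ⌉ : ℤ) ≤ a := by exact_mod_cast h5.1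
    have h7 : a ≤ ⌈Rd / ℓ⌉ := by exact_mod_cast h5.2
    omega
  rw [Bx, Finset.mem_product, Finset.mem_Icc, Finset.mem_Icc]
  exact ⟨key _ h3, key _ h4⟩

end Vale.Agent.P167.CL
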