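import Vale.Agent.P167.CL.Sh
import Vale.Agent.P167.H327.OriG
import Vale.Agent.P167.H756.Bounds

/-!
# P167, block CLOSE [SH]: the shape of a marked polygon

For a square lattice polygon `p₀` with three marked vertices (`ip`: the base point is the midpoint of the
east side `p₀ ip → p₀ (ip + 1)`, `ia`, `ib`), `mkShp` is the shape (the polygon re-indexed from `ip`).

* `isG_mkShp` : `IsG` is `GPos` of the domain;
* `mkShp_ok` : the shape is well formed; the order `0 < k < l` of the marks follows from the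
  orientation lemma and from the sign of `x` in `GPos`;
* `GPos.sim` : behaviour under similarities.
-/

set_option autoImplicit false

open Set Topology Metric Filter Bornology

namespace Vale.Agent.P167.CL

open Vale.Agent.P153.R2.R1
open Vale.Agent.P167.E6
open Vale.Agent.P167.H756 (GPos)
open Vale.Agent.P153.R2.DET (HC)

theorem isPolygon_shift {m : ℕ} {p : ZMod m → ℤ × ℤ} (hp : IsPolygon p) (s : ZMod m) :
    IsPolygon (fun i => p (i + s)) := by
  refine ⟨hp.1, fun i j h => ?_, fun i => ?_⟩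
  · exact add_right_cancel (hp.2.1 h)
  · obtain ⟨r, hr⟩ := hp.2.2 (i + s)
    refine ⟨r, ?_⟩
    rw [← hr]
    congr 1
    ring

theorem encloses_shift {m : ℕ} {p : ZMod m → ℤ × ℤ} {S : Finset (ℤ × ℤ)} (hS : Encloses p S)
    (s : ZMod m) : Encloses (fun i => p (i + s)) S := by
  intro v r
  rw [← hS v r]
  constructor
  · rintro ⟨i, h1, h2⟩
    refine ⟨i + s, h1, ?_⟩
    rw [← h2]
    congr 1
    ring
  · rintro ⟨i, h1, h2⟩
    refine ⟨i - s, ?_, ?_⟩
    · show p (i - s + s) = v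
      rw [sub_add_cancel]; exact h1
    · show p (i - s + 1 + s) = _
      rw [← h2]
      congr 1
      ring

/-- The shape of a marked polygon. -/
def mkShp {m : ℕ} (p₀ : ZMod m → ℤ × ℤ) (S : Finset (ℤ × ℤ)) (ip ia ib : ZMod m) : Shp where
  m := m
  q := fun i => p₀ (i + ip)
  S := S
  k := (ia - ip).val
  l := (ib - ip).val

section mk

variable {m : ℕ} {p₀ : ZMod m → ℤ × ℤ} {S : Finset (ℤ × ℤ)} {ip ia ib : ZMod m}

theorem mkShp_k [NeZero m] : (mkShp p₀ S ip ia ib).q (mkShp p₀ S ip ia ib).k = p₀ ia := by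
  show p₀ ((((ia - ip).val : ℕ) : ZMod m) + ip) = p₀ ia
  rw [ZMod.natCast_zmod_val, sub_add_cancel]

theorem mkShp_l [NeZero m] : (mkShp p₀ S ip ia ib).q (mkShp p₀ S ip ia ib).l = p₀ ib := by
  show p₀ ((((ib - ip).val : ℕ) : ZMod m) + ip) = p₀ ib
  rw [ZMod.natCast_zmod_val, sub_add_cancel]

theorem mkShp_zero : (mkShp p₀ S ip ia ib).q 0 = p₀ ip := by
  show p₀ (0 + ip) = p₀ ip
  rw [zero_add]

/-- `IsG` of the shape. -/
theorem isG_mkShp [NeZero m] {ℓ g : ℝ} : IsG (mkShp p₀ S ip ia ib) ℓ g ↔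
    GPos (D6 ℓ S) (ℓ * pt (p₀ ia)) (ℓ * (pt (p₀ ip) + 1 / 2)) 0 g := by
  rw [← mkShp_k (p₀ := p₀) (S := S) (ip := ip) (ia := ia) (ib := ib),
    ← mkShp_zero (p₀ := p₀) (S := S) (ip := ip) (ia := ia) (ib := ib)]
  exact Iff.rfl

/-- Near a flat vertex the polygon runs to the east. -/
theorem next_of_flt {ρ : ℤ} (hp : IsPolygon p₀) (hS : Encloses p₀ S) (hF : BR.Flt S (p₀ ib) ρ)
    (hρ : 0 < ρ) : p₀ (ib + 1) = p₀ ib + (1, 0) := by
  have h1 : face (p₀ ib) 0 ∈ S := by
    refine (hF _ ?_ ?_ ?_ ?_).2 ?_ <;> simp [face] <;> omega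
  have h2 : face (p₀ ib) ((0 : Fin 4) - 1) ∉ S := by
    intro hc
    have : face (p₀ ib) ((0 : Fin 4) - 1) = p₀ ib + (0, -1) := rfl
    rw [this] at hc
    have := (hF (p₀ ib + (0, -1)) (by simp; omega) (by simp; omega) (by simp; omega)
      (by simp; omega)).1 hc
    simp at this
  obtain ⟨i, hi1, hi2⟩ := (hS (p₀ ib) 0).2 ⟨h1, h2⟩
  have : i = ib := hp.2.1 hi1
  rw [this] at hi2
  exact hi2

/-- **The order of the marks.** -/
theorem order_of_gpos [NeZero m] {ρ : ℤ} {ℓ g : ℝ} (hℓ : 0 < ℓ) (hp : IsPolygon p₀)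
    (hS : Encloses p₀ S) (east : p₀ (ip + 1) = p₀ ip + (1, 0)) (hb : p₀ ib = (0, 0))
    (hF : BR.Flt S (0, 0) ρ) (hρ : 0 < ρ) (hpb : p₀ ip ≠ (0, 0)) (hap : ia ≠ ip)
    (hg : GPos (D6 ℓ S) (ℓ * pt (p₀ ia)) (ℓ * (pt (p₀ ip) + 1 / 2)) 0 g) :
    (ia - ip).val < (ib - ip).val := by
  classical
  obtain ⟨ψ, x, hU, hx, hg0, hψx, -⟩ := hg
  set q : ZMod m → ℤ × ℤ := fun i => p₀ (i + ip) with hq
  have hpq : IsPolygon q := isPolygon_shift hp ip
  have hSq : Encloses q S := encloses_shift hS ip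
  set k := (ia - ip).val with hk
  set l := (ib - ip).val with hl
  have hkm : k < m := ZMod.val_lt _
  have hlm : l < m := ZMod.val_lt _
  have hqk : q (k : ZMod m) = p₀ ia := by
    show p₀ (((ia - ip).val : ZMod m) + ip) = p₀ ia
    rw [ZMod.natCast_zmod_val, sub_add_cancel]
  have hql : q (l : ZMod m) = (0, 0) := by
    show p₀ (((ib - ip).val : ZMod m) + ip) = (0, 0)
    rw [ZMod.natCast_zmod_val, sub_add_cancel, hb]
  have hk0 : 0 < k := by
    rw [Nat.pos_iff_ne_zero]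
    intro h0
    rw [hk, ZMod.val_eq_zero] at h0
    exact hap (sub_eq_zero.1 h0)
  have hl0 : 0 < l := by
    rw [Nat.pos_iff_ne_zero]
    intro h0
    rw [hl, ZMod.val_eq_zero] at h0
    exact hpb (by rw [← sub_eq_zero.1 h0]; exact hb)
  have hfr := frontier_D6 hℓ hpq hSq
  have hJ := jcurve_PF6 (n := m) hℓ hpq
  have hgood := good_D6 hℓ hpq hSq
  have hD := isOpen_D6 ℓ S
  have hn := hgood.nocut
  -- the base point
  have hbar : PF6 q ℓ (1 / 2) = ℓ * (pt (p₀ ip) + 1 / 2) := by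
    have h0 : ⌊(1 / 2 : ℝ)⌋ = 0 := by norm_num
    have h1 : Int.fract (1 / 2 : ℝ) = 1 / 2 := by
      rw [← Int.self_sub_floor, h0]; norm_num
    have e1 : pt (q 1) = pt (p₀ ip) + 1 := by
      have : q 1 = p₀ ip + (1, 0) := by
        show p₀ (1 + ip) = _
        rw [add_comm, east]
      rw [this]
      apply Complex.ext <;> simp [pt]
    have e0 : q 0 = p₀ ip := by
      show p₀ (0 + ip) = _
      rw [zero_add]
    simp only [PF6, Vale.Agent.P153.R2.R1.pl, h0, h1, PV6, Int.cast_zero, zero_add, Int.cast_one]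
    rw [e1, e0]
    simp only [Complex.real_smul]
    push_cast
    ring
  have hnat : ∀ i : ℕ, PF6 q ℓ (i : ℝ) = ℓ * pt (q (i : ZMod m)) := by
    intro i
    have h := pl_int (PV6 q ℓ) (i : ℤ)
    rw [PV6] at h
    push_cast at h
    exact h
  rw [← hbar] at hU
  have hkm' : (k : ℝ) ∈ Ioo (1 / 2 : ℝ) (1 / 2 + m) := by
    have h1 : (1 : ℝ) ≤ k := by exact_mod_cast hk0
    have h2 : (k : ℝ) + 1 ≤ m := by exact_mod_cast hkm
    constructor <;> linarith
  have hlm' : (l : ℝ) ∈ Ioo (1 / 2 : ℝ) (1 / 2 + m) := by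
    have h1 : (1 : ℝ) ≤ l := by exact_mod_cast hl0
    have h2 : (l : ℝ) + 1 ≤ m := by exact_mod_cast hlm
    constructor <;> linarith
  have hlm2 : (l : ℝ) + 1 / 2 ∈ Ioo (1 / 2 : ℝ) (1 / 2 + m) := by
    have h1 : (1 : ℝ) ≤ l := by exact_mod_cast hl0
    have h2 : (l : ℝ) + 1 ≤ m := by exact_mod_cast hlm
    constructor <;> linarith
  have hρ1 : (1 : ℝ) ≤ ρ := by exact_mod_cast hρ
  -- the curve is straight at `l + 1/2`
  have hnext : q ((l : ZMod m) + 1) = q (l : ZMod m) + (1, 0) := by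
    refine next_of_flt hpq hSq (ρ := ρ) ?_ hρ
    rw [hql]; exact hF
  have hcurve : ∀ s : ℝ, 0 ≤ s → s ≤ 1 → PF6 q ℓ (l + s) = ((ℓ * s : ℝ) : ℂ) := by
    intro s hs0 hs1
    have h := pl_eq (PV6 q ℓ) (l : ℤ) (x := l + s) (by push_cast; linarith)
      (by push_cast; linarith)
    rw [PF6, h]
    simp only [PV6]
    push_cast
    have e2 : q ((l : ZMod m) + 1) = (1, 0) := by rw [hnext, hql]; rfl
    rw [hql, e2]
    apply Complex.ext <;> simp [pt]
    ring
  have hflat : H327.Flat (PF6 q ℓ) (D6 ℓ S) ((l : ℝ) + 1 / 2) := by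
    refine ⟨ℓ / 4, 1 / ℓ, 1, by positivity, by positivity, ?_, ?_⟩
    · intro y hy
      have h1 : 1 / 2 + 1 / ℓ * y ∈ Icc (0 : ℝ) 1 := by
        have e1 : 1 / ℓ * y ≤ 1 / 4 := by
          have := mul_le_mul_of_nonneg_left hy.2 (show 0 ≤ 1 / ℓ by positivity)
          have e : 1 / ℓ * (ℓ / 4) = 1 / 4 := by field_simp
          linarith
        have e2 : -(1 / 4) ≤ 1 / ℓ * y := by
          have := mul_le_mul_of_nonneg_left hy.1 (show 0 ≤ 1 / ℓ by positivity)
          have e : 1 / ℓ * (-(ℓ / 4)) = -(1 / 4) := by field_simp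
          linarith
        constructor <;> linarith
      have h2 := hcurve _ h1.1 h1.2
      have h3 := hcurve (1 / 2) (by norm_num) (by norm_num)
      rw [← add_assoc] at h2
      rw [h2, h3, mul_one, ← Complex.ofReal_add]
      congr 1
      have : ℓ * (1 / ℓ * y) = y := by field_simp
      rw [mul_add, this]
    · intro y hy z hz
      have h3 := hcurve (1 / 2) (by norm_num) (by norm_num)
      rw [h3, mul_one]
      have hre : (((ℓ * (1 / 2) : ℝ) : ℂ) + ((y : ℂ) + (z : ℂ) * Complex.I)).re = ℓ / 2 + y := by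
        simp; ring
      have him : (((ℓ * (1 / 2) : ℝ) : ℂ) + ((y : ℂ) + (z : ℂ) * Complex.I)).im = z := by
        simp
      refine (mem_D6_of_flt hF hℓ ?_ ?_).2 ?_
      · rw [hre]
        simp only [Int.cast_zero, mul_zero, sub_zero]
        have : ℓ * 1 ≤ ℓ * ρ := mul_le_mul_of_nonneg_left hρ1 hℓ.le
        rw [abs_lt]
        constructor <;> linarith [hy.1, hy.2]
      · rw [him]
        simp only [Int.cast_zero, mul_zero, sub_zero]
        have : ℓ * 1 ≤ ℓ * ρ := mul_le_mul_of_nonneg_left hρ1 hℓ.le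
        rw [abs_lt]
        constructor <;> linarith [hz.1, hz.2]
      · rw [him]
        simp only [Int.cast_zero, mul_zero]
        exact hz.1
  have hmono := H327.hpar_mono hU hn hD hJ hfr hlm2 hflat
  -- the values at the marks
  have hu := H327.uni_of hU hn
  have hvk : H327.hpar ψ (PF6 q ℓ) k = 0 := by
    have h1 := (H327.hpar_spec hU hn hD hJ hfr hkm').1
    rw [hnat k, hqk, ← hU.zero] at h1
    have := hu.inj (H327.real_HC _) (by show (0 : ℝ) ≤ (0 : ℂ).im; simp) h1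
    exact_mod_cast this
  have hvl : H327.hpar ψ (PF6 q ℓ) l = x := by
    have h1 := (H327.hpar_spec hU hn hD hJ hfr hlm').1
    have e0 : PF6 q ℓ (l : ℝ) = 0 := by
      have := hcurve 0 le_rfl zero_le_one
      simpa using this
    rw [e0, ← hψx] at h1
    have := hu.inj (H327.real_HC _) (H327.real_HC _) h1
    exact_mod_cast this
  by_contra hlt
  push Not at hlt
  have h1 : (l : ℝ) ≤ k := by exact_mod_cast hlt
  have h2 := hmono.monotoneOn hlm' hkm' h1
  rw [hvk, hvl] at h2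
  linarith

/-- **The shape of a marked polygon is well formed.** -/
theorem mkShp_ok [NeZero m] {ρ : ℤ} {ℓ g : ℝ} (hℓ : 0 < ℓ) (hp : IsPolygon p₀)
    (hS : Encloses p₀ S) (east : p₀ (ip + 1) = p₀ ip + (1, 0)) (hb : p₀ ib = (0, 0))
    (hFa : BR.Flt S (p₀ ia) 1) (hF : BR.Flt S (0, 0) ρ) (hρ : 0 < ρ)
    (far_a : ρ ≤ |(p₀ ia).1| ∨ ρ ≤ |(p₀ ia).2|)
    (far_p : ρ + 1 ≤ |(p₀ ip).1| ∨ ρ ≤ |(p₀ ip).2|) (hap : ia ≠ ip) (hap1 : ia ≠ ip + 1)
    (hg : GPos (D6 ℓ S) (ℓ * pt (p₀ ia)) (ℓ * (pt (p₀ ip) + 1 / 2)) 0 g) :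
    (mkShp p₀ S ip ia ib).Ok ρ where
  poly := isPolygon_shift hp ip
  encl := encloses_shift hS ip
  east := by
    show p₀ (1 + ip) = p₀ (0 + ip) + (1, 0)
    rw [add_comm, east, zero_add]
  k_gt := by
    show 1 < (ia - ip).val
    have h0 : (ia - ip).val ≠ 0 := by
      intro h
      rw [ZMod.val_eq_zero] at h
      exact hap (sub_eq_zero.1 h)
    have h1 : (ia - ip).val ≠ 1 := by
      intro h
      have h2 := ZMod.natCast_zmod_val (ia - ip)
      rw [h, Nat.cast_one] at h2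
      exact hap1 (by rw [h2]; ring)
    omega
  k_lt := order_of_gpos hℓ hp hS east hb hF hρ (by
    intro h0
    rw [h0] at far_p
    simp at far_p
    omega) hap hg
  l_lt := ZMod.val_lt _
  ql := mkShp_l.trans hb
  flat_a := by rw [mkShp_k]; exact hFa
  flat_b := hF
  far_a := by rw [mkShp_k]; exact far_a
  far_p := by rw [mkShp_zero]; exact far_p

end mk

end Vale.Agent.P167.CL
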