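import Vale.Agent.P167.CL.Geo10
import Vale.Agent.P167.CL.Geo9
import Vale.Agent.P167.CL.Geo8
import Vale.Agent.P167.CL.Geo7
import Vale.Agent.P167.CL.CutNDefs
import Vale.Agent.P167.H327.Pos
import Vale.Agent.P167.H531.AsmDefs

/-!
# P167, block CLOSE [ASM]: elementary facts for the final assembly

* `Psi_zp`, `dist_Psi` : the two planes;
* `foot_plane`, `xf_near` : the foot of the cut is near `w`, its parameter is near `X`;
* `cdat_of` : the structure `CDat` for the exploration;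
* `uX_xf` : the position of the foot.
-/

set_option autoImplicit false

open MeasureTheory Filter Topology Set Metric

namespace Vale.Agent.P167.CL

open Vale.Agent.P153.R2.R1 (IsU mb)
open Vale.Agent.P153.R2.L1 (HH)
open Vale.Agent.P164 (loewnerDomain Zf)
open Vale.Agent.P167.E6 Vale.Agent.P167.E2 Vale.Agent.P167.H411
open Vale.Agent.P167.H161 (zp zp_ro zp_rf)
open Vale.Agent.P167.H756 (HConf Drv)
open Vale.Agent.P167.H531 Vale.Agent.P167.H558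
open Vale.Agent.P167.H72 (qp)
open Vale.Agent.P167.H327 (xf xf_spec pc)

/-! ### The two planes -/

theorem opI_zp (δ : ℝ) (s : ℤ × ℤ) : (1 + Complex.I) * zp δ s = δ * pt s := by
  apply Complex.ext <;>
    simp only [zp, pt, Complex.mul_re, Complex.mul_im, Complex.add_re, Complex.add_im,
      Complex.one_re, Complex.one_im, Complex.I_re, Complex.I_im, Complex.ofReal_re,
      Complex.ofReal_im] <;> push_cast <;> ring

theorem norm_opI : ‖(1 : ℂ) + Complex.I‖ = √2 := by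
  rw [Complex.norm_def, Complex.normSq_apply]
  norm_num

theorem Psi_eq {δ ℓ : ℝ} {N : ℕ} {v₀ : ℤ × ℤ} {ψ : ℂ → ℂ} {z : ℂ} {s : ℂ} (hδ : 0 < δ)
    (h : (1 + Complex.I) * ψ z = δ * s) :
    Psi δ ℓ N v₀ ψ z = ((ℓ / N : ℝ) : ℂ) * (s - pt v₀) := by
  rw [Psi, h, ← mul_sub, ← mul_assoc, ← Complex.ofReal_mul]
  congr 2
  rw [div_mul_eq_mul_div, mul_comm (N : ℝ) δ, mul_comm ℓ δ, mul_div_mul_left _ _ hδ.ne']

theorem Psi_zp {δ ℓ : ℝ} {N : ℕ} {v₀ : ℤ × ℤ} {ψ : ℂ → ℂ} {z : ℂ} {s : ℤ × ℤ} (hδ : 0 < δ)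
    (h : ψ z = zp δ s) : Psi δ ℓ N v₀ ψ z = ((ℓ / N : ℝ) : ℂ) * (pt s - pt v₀) :=
  Psi_eq hδ (by rw [h, opI_zp])

theorem dist_Psi {δ ℓ : ℝ} {N : ℕ} {v₀ : ℤ × ℤ} {ψ : ℂ → ℂ} (hδ : 0 < δ) (hℓ : 0 ≤ ℓ) (z z' : ℂ) :
    dist (Psi δ ℓ N v₀ ψ z) (Psi δ ℓ N v₀ ψ z') = ℓ / (N * δ) * (√2 * dist (ψ z) (ψ z')) := by
  rw [dist_eq_norm, dist_eq_norm]
  have e : Psi δ ℓ N v₀ ψ z - Psi δ ℓ N v₀ ψ z' =
      ((ℓ / (N * δ) : ℝ) : ℂ) * ((1 + Complex.I) * (ψ z - ψ z')) := by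
    unfold Psi; ring
  rw [e, norm_mul, norm_mul, norm_opI, Complex.norm_real, Real.norm_of_nonneg (by positivity)]

theorem dist_qp_pt (c : Medial) : dist (qp c 0 (3 / 8)) (pt c.1) ≤ 1 := by
  have h : ∀ v : ℤ × ℤ, ∀ r : Fin 4, dist (qp (v, r) 0 (3 / 8)) (pt v) ≤ 1 := by
    intro v
    refine forall4 ?_ ?_ ?_ ?_ <;>
    · rw [dist_eq_norm]
      refine (Complex.norm_le_abs_re_add_abs_im _).trans ?_
      simp only [qp, Fjord.em, Fjord.adv_0, Fjord.adv_1, Fjord.adv_2, Fjord.adv_3, dir0, dir1, dir2, dir3,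
        f4_01, f4_11, f4_21, f4_31, pt, Complex.sub_re, Complex.sub_im]
      push_cast
      norm_num
      first
        | (rw [show ((v.2 : ℝ) + (v.2 + 1)) / 2 - v.2 = 1 / 2 by ring]; norm_num)
        | (rw [show ((v.1 : ℝ) + (v.1 - 1)) / 2 - v.1 = -(1 / 2) by ring]; norm_num)
        | (rw [show ((v.2 : ℝ) + (v.2 - 1)) / 2 - v.2 = -(1 / 2) by ring]; norm_num)
        | (rw [show ((v.1 : ℝ) + (v.1 + 1)) / 2 - v.1 = 1 / 2 by ring]; norm_num)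
  exact h c.1 c.2

theorem sqrt2_le : √2 ≤ 3 / 2 := by
  rw [Real.sqrt_le_left (by norm_num)]; norm_num

theorem pt_ro (u : ℤ × ℤ) : pt (H192.ro u) = (1 + Complex.I) * pt u := by
  have h1 := opI_zp 1 (H192.ro u)
  rw [zp_ro] at h1
  simp only [Complex.ofReal_one, one_mul] at h1
  exact h1.symm

/-- A corner and the centre of a square. -/
theorem dist_crn {v s : ℤ × ℤ} (h : Crn v s) : dist (pt s) (pt v + (1 + Complex.I) / 2) ≤ 1 := by
  rw [dist_eq_norm]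
  refine (Complex.norm_le_abs_re_add_abs_im _).trans ?_
  have e1 : (pt s - (pt v + (1 + Complex.I) / 2)).re = s.1 - v.1 - 1 / 2 := by
    simp [pt]; ring
  have e2 : (pt s - (pt v + (1 + Complex.I) / 2)).im = s.2 - v.2 - 1 / 2 := by
    simp [pt]; ring
  rw [e1, e2]
  obtain ⟨h1, h2⟩ := h
  have k1 : |(s.1 : ℝ) - v.1 - 1 / 2| = 1 / 2 := by
    rcases h1 with h1 | h1 <;> rw [h1] <;> push_cast <;> norm_num [abs_of_nonneg, abs_of_neg]
  have k2 : |(s.2 : ℝ) - v.2 - 1 / 2| = 1 / 2 := by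
    rcases h2 with h2 | h2 <;> rw [h2] <;> push_cast <;> norm_num [abs_of_nonneg, abs_of_neg]
  rw [k1, k2]
  norm_num

theorem fc_eq (ℓ : ℝ) (N : ℕ) (v₀ v : ℤ × ℤ) :
    fc ℓ N v₀ v = ((ℓ / N : ℝ) : ℂ) * (pt v + (1 + Complex.I) / 2 - pt v₀) := by
  have e1 : (pt v + (1 + Complex.I) / 2 - pt v₀).re = v.1 - v₀.1 + 1 / 2 := by
    simp [pt]; ring
  have e2 : (pt v + (1 + Complex.I) / 2 - pt v₀).im = v.2 - v₀.2 + 1 / 2 := by
    simp [pt]; ring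
  apply Complex.ext
  · rw [Complex.re_ofReal_mul, e1]; rfl
  · rw [Complex.im_ofReal_mul, e2]; rfl

/-! ### The foot -/

section foot

variable {n : ℕ} {p : ZMod n → ℤ × ℤ} {k : ℕ} {S : Finset (ℤ × ℤ)} {δ ℓ : ℝ} {N : ℕ}
  {ψ : ℂ → ℂ} {X κ d ϱ τ₀ : ℝ} {v₀ : ℤ × ℤ} {c : CutP} {w : ℂ} {jf L E : ℤ × ℤ → ℕ}

/-- The foot of the cut is near `w`. -/
theorem foot_plane (C : CutLat p k S δ ℓ N ψ X κ d ϱ τ₀ v₀ c w jf L E) (hp : IsPolygon p)
    (hS : Encloses p S) (hk : 0 < k) (hkn : k + 1 < n)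
    (hU : IsU ψ (Om δ S) (aM p δ) (bM p k δ)) {u : ℤ × ℤ} (hu : u ∈ Uset) :
    dist (Psi δ ℓ N v₀ ψ (xf ψ p δ (jf u))) w ≤ 67 * (ℓ / N) := by
  have hℓ := C.cut.hℓ
  have hN : (0 : ℝ) < N := by have := C.hN; exact_mod_cast (show 0 < N by omega)
  have hjf := C.jf_lt u hu
  obtain ⟨-, h2⟩ := (xf_spec C.hδ hp hS hk hkn hU).1 (jf u : ℤ) (by omega) (by exact_mod_cast hjf)
  have hcast : (((jf u : ℕ) : ℤ) : ZMod n) = (jf u : ZMod n) := by push_cast; rfl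
  rw [hcast] at h2
  set q : ℂ := qp (pc p (jf u)) 0 (3 / 8) with hq
  have h3 : dist q (pt (p (jf u))) ≤ 1 := dist_qp_pt (pc p (jf u))
  have h4 : Psi δ ℓ N v₀ ψ (xf ψ p δ (jf u)) =
      ((ℓ / N : ℝ) : ℂ) * ((1 + Complex.I) * q - pt v₀) :=
    Psi_eq C.hδ (by rw [h2]; ring)
  have h5 := dist_crn (C.last u hu)
  have h6 := C.endw u hu
  set v := (c.leg N v₀ u).lv (L u) with hv
  have h7 : dist ((1 + Complex.I) * q) (pt (H192.ro (p (jf u)))) ≤ 3 / 2 := by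
    rw [pt_ro, dist_eq_norm, ← mul_sub, norm_mul, norm_opI, ← dist_eq_norm]
    have := sqrt2_le
    have h0 := Real.sqrt_nonneg 2
    nlinarith [dist_nonneg (x := q) (y := pt (p (jf u)))]
  have hc0 : 0 ≤ ℓ / N := by positivity
  have h8 : dist (Psi δ ℓ N v₀ ψ (xf ψ p δ (jf u))) (fc ℓ N v₀ v) ≤ ℓ / N * (3 / 2 + 1) := by
    rw [h4, fc_eq, dist_eq_norm, ← mul_sub, norm_mul, Complex.norm_real,
      Real.norm_of_nonneg hc0]
    refine mul_le_mul_of_nonneg_left ?_ hc0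
    have e : (1 + Complex.I) * q - pt v₀ - (pt v + (1 + Complex.I) / 2 - pt v₀) =
        (1 + Complex.I) * q - (pt v + (1 + Complex.I) / 2) := by ring
    rw [e, ← dist_eq_norm]
    exact (dist_triangle _ _ _).trans (add_le_add h7 h5)
  have h9 := dist_triangle (Psi δ ℓ N v₀ ψ (xf ψ p δ (jf u))) (fc ℓ N v₀ v) w
  linarith

/-- The parameter of the foot is near `X`. -/
theorem xf_near (C : CutLat p k S δ ℓ N ψ X κ d ϱ τ₀ v₀ c w jf L E) (hp : IsPolygon p)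
    (hS : Encloses p S) (hk : 0 < k) (hkn : k + 1 < n)
    (hU : IsU ψ (Om δ S) (aM p δ) (bM p k δ)) {u : ℤ × ℤ} (hu : u ∈ Uset) :
    |xf ψ p δ (jf u) - X| ≤ κ := by
  have h1 := foot_plane C hp hS hk hkn hU hu
  have hℓ := C.cut.hℓ
  have hℓd := C.cut.ℓd
  have hN : (16 : ℝ) ≤ N := by exact_mod_cast C.hN
  have h2 : ℓ / N ≤ ℓ := div_le_self hℓ.le (by linarith)
  have h3 := C.nearX (xf ψ p δ (jf u)) (by simp) (by linarith)
  rw [dist_eq_norm, ← Complex.ofReal_sub, Complex.norm_real] at h3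
  exact h3

end foot

/-- The position of the foot. -/
theorem uX_xf {T R X κ : ℝ} {W : ℝ → ℝ} {t x : ℝ} (H : Drv T R W t) (hX0 : 0 < X)
    (hX : 16 * R ≤ X) (hX2 : 1024 * T ≤ X ^ 2) (hκ : 8 * κ ≤ X) (hx : |x - X| ≤ κ) :
    X / 4 ≤ H446.uX W t x ∧ H446.uX W t x ≤ 4 * X := by
  rw [abs_le] at hx
  have hx0 : X / 2 ≤ x := by linarith [hx.1]
  have hx1 : x ≤ 2 * X := by linarith [hx.2]
  obtain ⟨-, h1, h2⟩ := H446.uX_bd H (X := x) (by linarith) (by linarith) (by nlinarith)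
  constructor <;> linarith

section ev

variable {Φ : (ℝ × ℝ) ≃ₜ (ℝ × ℝ)} {ψ : ℂ → ℂ} {δ : ℕ → ℝ} {N k : ℕ → ℕ}
  {p : ∀ n, ZMod (N n) → ℤ × ℤ} {S : ℕ → Finset (ℤ × ℤ)} {ψn : ℕ → ℂ → ℂ}

/-- The structure `CDat` for the exploration. -/
theorem cdat_of (H : Set6 Φ ψ δ N k p S ψn) {n : ℕ} (hn : k n + 1 < N n) {T R Rd cd Y : ℝ}
    (hψ : HConf Rd cd Y (ψn n)) {A : Finset (Sym2 (ℤ × ℤ))} (hA : A ∈ (exn δ N k p S ψn n).C)
    {j : ℕ} (hj : j < (exn δ N k p S ψn n).K A)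
    (hD : Drv T R ((exn δ N k p S ψn n).W A) ((exn δ N k p S ψn n).c A j)) :
    CDat (δ n) (p n) (k n) (S n) A j (ψn n) ((exn δ N k p S ψn n).W A)
      ((exn δ N k p S ψn n).c A j) T R Rd cd Y := by
  obtain ⟨hδ, hk0, hkN, hp, hS⟩ := H.appr.1 n
  have hA' := sub_of_mem hA
  have hj' : j < nu (p n) (k n) A := hj
  exact
    { hδ := hδ
      hp := hp
      hS := hS
      hk := hk0
      hkn := hn
      hA := hA'
      hj := by unfold nu at hj'; omega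
      conf := hψ
      drv := hD
      dom := H756.dom_eq H hn hA' hj'
      dom0 := (H.isU n hn).img }

end ev

end Vale.Agent.P167.CL
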