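import Vale.Agent.P167.CL.FinDefs
import Vale.Agent.P167.H450.PosE2
import Vale.Agent.P167.H446.PosQ

/-!
# P167, block CLOSE [ASM]: last elementary steps

* `foot_pos` : the position of the foot of the inner polygon, from `PosE`;
* `fce_hbox` : the faces of the squares of the half boxes;
* `gg_path` : the end of the cut is path connected and small.
-/

set_option autoImplicit false

open MeasureTheory Filter Topology Set Metric

namespace Vale.Agent.P167.CL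

open Vale.Agent.P164 (loewnerDomain Zf)
open Vale.Agent.P167.E6 Vale.Agent.P167.E2 Vale.Agent.P167.H411
open Vale.Agent.P167.H161 (zp)
open Vale.Agent.P167.H531 Vale.Agent.P167.H558

/-- A vertex is a corner of its faces. -/
theorem crn_face (v : ℤ × ℤ) (r : Fin 4) : Crn (face v r) v := by
  obtain ⟨a, b⟩ := v
  revert r
  refine forall4 ?_ ?_ ?_ ?_ <;> simp [face, Crn]

/-- The site `q l` of the inner polygon on a frozen square. -/
theorem foot_pos {m : ℕ} {δ : ℝ} {ψ : ℂ → ℂ} {W : ℝ → ℝ} {t ε x : ℝ} {Kc Bb PE : Finset (ℤ × ℤ)}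
    {q : ZMod m → ℤ × ℤ} (hδ : 0 < δ) (hq : IsPolygon q) (hPE : Encloses q PE)
    (mar : ∀ v ∈ PE, ∀ z ∈ Dsq δ v, ball z (8 * δ) ⊆ ψ '' loewnerDomain W t)
    (hE : PosE δ ψ W t Kc Bb PE ε x) (l : ZMod m) {v : ℤ × ℤ} (hv : v ∈ Kc) (hc : Crn v (q l)) :
    Pos ψ W t ε {x} (zp δ (q l)) := by
  obtain ⟨r, hr⟩ := hq.2.2 l
  obtain ⟨h1, h2⟩ := (hPE (q l) r).1 ⟨l, rfl, hr⟩
  refine hE.edge v (Finset.mem_union_left _ hv) _ (H450.PE.mem_Dsq_zp hδ hc) ?_ ⟨_, h2, ?_⟩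
  · exact mar _ h1 _ (H450.PE.mem_Dsq_zp hδ (crn_face _ _)) (mem_ball_self (by positivity))
  · exact H450.PE.mem_Dsq_zp hδ (crn_face _ _)

/-- The faces of the squares of the half box. -/
theorem fce_hbox {N : ℕ} (hN : 0 < N) {b : ℤ × ℤ} {Rb q : ℤ} (hq : 32 ≤ q)
    (hR : 2 * Rb ≤ q * N) {v : ℤ × ℤ} (hv : v ∈ BR.hbox b Rb) :
    0 ≤ (fce N b v).2 ∧ (fce N b v).2 + 1 < q ∧ -q + 1 ≤ (fce N b v).1 ∧ (fce N b v).1 + 1 < q := by
  have hN0 : (0 : ℤ) < N := by exact_mod_cast hN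
  rw [BR.hbox, Finset.mem_product, Finset.mem_Icc, Finset.mem_Icc] at hv
  obtain ⟨⟨h1, h2⟩, h3, h4⟩ := hv
  have hqN : 32 * (N : ℤ) ≤ q * N := mul_le_mul_of_nonneg_right hq hN0.le
  refine ⟨Int.ediv_nonneg (by omega) hN0.le, ?_, ?_, ?_⟩
  · have : (fce N b v).2 < q - 1 := by
      refine Int.ediv_lt_of_lt_mul hN0 ?_
      nlinarith
    omega
  · show -q + 1 ≤ (v.1 - b.1) / N
    rw [Int.le_ediv_iff_mul_le hN0]
    nlinarith
  · have : (fce N b v).1 < q - 1 := by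
      refine Int.ediv_lt_of_lt_mul hN0 ?_
      nlinarith
    omega

/-- The end of the cut. -/
theorem gg_small {τ₀ : ℝ} (hτ : 0 ≤ τ₀) (c : CutP) (w : ℂ) {h : ℝ} (hh : τ₀ ≤ h) :
    IsPathConnected (gg τ₀ c w) ∧ ∀ u ∈ gg τ₀ c w, ∀ z ∈ gg τ₀ c w, dist u z ≤ h := by
  refine ⟨(convex_segment _ _).isPathConnected ⟨w, w_mem_gg τ₀ c w⟩, ?_⟩
  have hd : dist (w - (τ₀ : ℂ) * c.dv) w = τ₀ := by
    rw [dist_eq_norm, sub_sub_cancel_left, norm_neg, norm_mul, norm_dv, mul_one,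
      Complex.norm_real, Real.norm_of_nonneg hτ]
  intro u hu z hz
  have h1 : dist u z ≤ Metric.diam (segment ℝ (w - (τ₀ : ℂ) * c.dv) w) :=
    Metric.dist_le_diam_of_mem (by
      rw [← convexHull_pair]
      exact isBounded_convexHull.2 (Set.toFinite _).isBounded) hu hz
  have h2 : Metric.diam (segment ℝ (w - (τ₀ : ℂ) * c.dv) w) = τ₀ := by
    rw [← convexHull_pair, convexHull_diam, Metric.diam_pair, hd]
  linarith

/-- The sites joined to an even site are even. -/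
theorem even_of_cn {G : Set (ℤ × ℤ)} {x y : ℤ × ℤ} (hx : (x.1 + x.2) % 2 = 0)
    (h : Cn (StM 0) G x y) : (y.1 + y.2) % 2 = 0 := by
  induction h with
  | refl => exact hx
  | tail _ hb _ =>
    obtain ⟨i, -, c1, c2, c3, c4⟩ := hb
    omega

theorem even_ro (u : ℤ × ℤ) : ((H192.ro u).1 + (H192.ro u).2) % 2 = 0 := by
  simp only [H192.ro]; omega

section mono

variable {n : ℕ} {δ : ℝ} {p : ZMod n → ℤ × ℤ} {k : ℕ} {A : Finset (Sym2 (ℤ × ℤ))} {j : ℕ}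
  {ψ : ℂ → ℂ} {W : ℝ → ℝ} {t : ℝ}

theorem PosF_mono {ε ε' u : ℝ} {jf : ℕ} (h : PosF δ p k A j ψ W t ε jf u) (hε : ε ≤ ε') :
    PosF δ p k A j ψ W t ε' jf u where
  foot := H446.pos_mono h.foot hε Subset.rfl
  unr := h.unr
  lo i hi hu := H446.pos_mono (h.lo i hi hu) hε Subset.rfl
  hi i hi hk hu := H446.pos_mono (h.hi i hi hk hu) hε Subset.rfl

theorem PosE_mono {ε ε' u : ℝ} {Kc Kc' Bb PE : Finset (ℤ × ℤ)} (h : PosE δ ψ W t Kc Bb PE ε u)
    (hK : Kc' ⊆ Kc) (hε : ε ≤ ε') : PosE δ ψ W t Kc' Bb PE ε' u where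
  edge v hv z hz hz' hv' := H446.pos_mono (h.edge v (Finset.union_subset_union_left hK hv) z hz hz'
    hv') hε Subset.rfl

end mono

end Vale.Agent.P167.CL
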