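import Vale.Agent.P167.CL.CutNDefs
import Vale.Agent.P167.CL.CutW
import Vale.Agent.P167.CL.CutG1c

/-!
# P167, block CUT: the lattice part of the cut

`lat : S_wir → S_lat`. For the shift `u`: `A` is the position (along the leg, backwards from `w`) of
the centre of the first square of the leg, `i₁` the index of the square of the leg which contains `w`,
`i₁ - 20` the index of the last deep square.
-/

set_option autoImplicit false

open MeasureTheory Filter Topology Set Metric Complex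

namespace Vale.Agent.P167.CL.LT

open Vale.Agent.P153.R2.L1 (HH)
open Vale.Agent.P167.H531 Vale.Agent.P167.H558
open Vale.Agent.P167.E6 Vale.Agent.P167.E2 Vale.Agent.P167.H411
open Vale.Agent.P167.CL Vale.Agent.P167.CL.G1

/-- One domain with a cut. -/
structure Dat {n : ℕ} (p : ZMod n → ℤ × ℤ) (k : ℕ) (S : Finset (ℤ × ℤ)) (δ ℓ : ℝ) (N : ℕ)
    (ψ : ℂ → ℂ) (X κ d ϱ τ₀ : ℝ) (v₀ : ℤ × ℤ) (c : CutP) (w : ℂ) : Prop where
  poly : IsPolygon p
  encl : Encloses p S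
  hδ : 0 < δ
  hN : 16 ≤ N
  h4 : 4 ∣ N
  s1 : N * δ ≤ ℓ
  img : ψ '' HH = Om δ S
  wir : ∀ i : ℕ, k ≤ i → i < n → ∃ x : ℝ, x ≤ 0 ∧ dist (ψ x) ((δ : ℂ) * pt (p i)) ≤ δ
  hκ : κ < X
  M : CutM ℓ N (Psi δ ℓ N v₀ ψ) X κ d ϱ τ₀ c w

variable {n : ℕ} {p : ZMod n → ℤ × ℤ} {k : ℕ} {S : Finset (ℤ × ℤ)} {δ ℓ : ℝ} {N : ℕ}
    {ψ : ℂ → ℂ} {X κ d ϱ τ₀ : ℝ} {v₀ : ℤ × ℤ} {c : CutP} {w : ℂ}

variable (H : Dat p k S δ ℓ N ψ X κ d ϱ τ₀ v₀ c w)
include H

theorem Dat.Np : (16 : ℝ) ≤ N := by exact_mod_cast H.hN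

theorem Dat.ηp : 0 < ℓ / N := div_pos H.M.cut.hℓ (by linarith [H.Np])

theorem Dat.Nη : N * (ℓ / N) = ℓ := mul_div_cancel₀ _ (by linarith [H.Np] : (N : ℝ) ≠ 0)

theorem Dat.ηℓ : 16 * (ℓ / N) ≤ ℓ := by
  have h1 := H.Nη
  have h2 := H.ηp
  have h3 := H.Np
  nlinarith

/-- the scale -/
theorem Dat.a1 : 1 ≤ ℓ / (N * δ) := by
  have h1 := H.hδ
  have h2 := H.Np
  rw [le_div_iff₀ (by positivity), one_mul]
  exact H.s1

theorem Dat.aδ : ℓ / (N * δ) * δ = ℓ / N := by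
  have h1 := H.hδ.ne'
  have h2 : (N : ℝ) ≠ 0 := by linarith [H.Np]
  field_simp

theorem Dat.N2 : (((N : ℤ) / 2 : ℤ) : ℝ) = N / 2 := by
  obtain ⟨K, hK⟩ := H.h4
  have : (N : ℤ) / 2 = 2 * K := by omega
  rw [this, hK]
  push_cast
  ring

theorem Dat.N2η : ℓ / N * (((N : ℤ) / 2 : ℤ) : ℝ) = ℓ / 2 := by
  rw [H.N2]
  have := H.Nη
  linarith

/-- the affine map -/
noncomputable def af (δ ℓ : ℝ) (N : ℕ) (v₀ : ℤ × ℤ) (u : ℂ) : ℂ :=
  ((ℓ / (N * δ) : ℝ) : ℂ) * (u - δ * pt v₀)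

omit H in
theorem psi_eq (z : ℂ) : Psi δ ℓ N v₀ ψ z = af δ ℓ N v₀ ((1 + I) * ψ z) := rfl

theorem Dat.a0 : ((ℓ / (N * δ) : ℝ) : ℂ) ≠ 0 := by
  exact_mod_cast (by linarith [H.a1] : (0 : ℝ) < ℓ / (N * δ)).ne'

theorem Dat.dist_af (u v : ℂ) :
    dist (af δ ℓ N v₀ u) (af δ ℓ N v₀ v) = ℓ / (N * δ) * dist u v := by
  rw [dist_eq_norm, dist_eq_norm]
  have e : af δ ℓ N v₀ u - af δ ℓ N v₀ v = ((ℓ / (N * δ) : ℝ) : ℂ) * (u - v) := by
    unfold af; ring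
  rw [e, norm_mul, Complex.norm_real, Real.norm_of_nonneg (by linarith [H.a1])]

theorem Dat.af_inj {u v : ℂ} (h : af δ ℓ N v₀ u = af δ ℓ N v₀ v) : u = v := by
  unfold af at h
  exact sub_left_inj.1 (mul_left_cancel₀ H.a0 h)

omit H in
theorem oI : (1 + I : ℂ) ≠ 0 := by
  intro h
  have := congrArg Complex.re h
  simp at this

omit H in
theorem noI : ‖(1 + I : ℂ)‖ ≤ 2 := by
  calc ‖(1 + I : ℂ)‖ ≤ ‖(1 : ℂ)‖ + ‖I‖ := norm_add_le _ _
    _ = 2 := by rw [norm_one, Complex.norm_I]; norm_num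

theorem Dat.fc_eq (v : ℤ × ℤ) : fc ℓ N v₀ v = af δ ℓ N v₀ ((1 + I) * zc δ v) := by
  have h1 := H.aδ
  have e : (1 + I) * zc δ v = δ * (((v.1 : ℂ) + 1 / 2) + ((v.2 : ℂ) + 1 / 2) * I) := by
    unfold zc
    rw [mul_div_cancel₀ _ oI]
  rw [e]
  apply Complex.ext
  · simp only [fc, af, pt, Complex.mul_re, Complex.mul_im, Complex.sub_re, Complex.sub_im,
      Complex.add_re, Complex.add_im, Complex.ofReal_re, Complex.ofReal_im, Complex.I_re,
      Complex.I_im, Complex.intCast_re, Complex.intCast_im, zero_mul, mul_zero, sub_zero, add_zero,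
      mul_one]
    norm_num
    rw [← h1]
    ring
  · simp only [fc, af, pt, Complex.mul_re, Complex.mul_im, Complex.sub_re, Complex.sub_im,
      Complex.add_re, Complex.add_im, Complex.ofReal_re, Complex.ofReal_im, Complex.I_re,
      Complex.I_im, Complex.intCast_re, Complex.intCast_im, zero_mul, mul_zero, sub_zero, add_zero,
      mul_one]
    norm_num
    rw [← h1]
    ring

/-- deep squares -/
theorem Dat.ball3 {v : ℤ × ℤ} (hv : ball (fc ℓ N v₀ v) (6 * (ℓ / N)) ⊆ Psi δ ℓ N v₀ ψ '' HH) :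
    ball (zc δ v) (3 * δ) ⊆ Om δ S := by
  intro u hu
  rw [mem_ball] at hu
  have h1 : af δ ℓ N v₀ ((1 + I) * u) ∈ ball (fc ℓ N v₀ v) (6 * (ℓ / N)) := by
    rw [mem_ball, H.fc_eq, H.dist_af, dist_eq_norm, ← mul_sub, norm_mul, ← dist_eq_norm]
    have h2 : ‖(1 + I : ℂ)‖ * dist u (zc δ v) ≤ 2 * dist u (zc δ v) :=
      mul_le_mul_of_nonneg_right noI dist_nonneg
    have h3 := H.a1
    calc ℓ / (N * δ) * (‖(1 + I : ℂ)‖ * dist u (zc δ v)) ≤ ℓ / (N * δ) * (2 * dist u (zc δ v)) := by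
          gcongr
      _ < ℓ / (N * δ) * (2 * (3 * δ)) := by gcongr
      _ = 6 * (ℓ / (N * δ) * δ) := by ring
      _ = 6 * (ℓ / N) := by rw [H.aδ]
  obtain ⟨z, hz, h⟩ := hv h1
  rw [psi_eq] at h
  have h2 := mul_left_cancel₀ oI (H.af_inj h)
  rw [← H.img, ← h2]
  exact ⟨z, hz, rfl⟩

theorem Dat.deep {v : ℤ × ℤ} (hv : ball (fc ℓ N v₀ v) (6 * (ℓ / N)) ⊆ Psi δ ℓ N v₀ ψ '' HH) :
    v ∈ H192.dq p k S ∧ ∀ m, ¬ Crn v (H192.ro (p m)) :=
  (cutW n p S k δ H.poly H.encl H.hδ).1 v (H.ball3 hv)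

/-- points near the leg -/
theorem Dat.ball_leg {z : ℂ} (h1 : 14 * (ℓ / N) ≤ al c w z) (h2 : al c w z ≤ d / 2)
    (h3 : |tr c w z| ≤ ℓ / N) : ball z (6 * (ℓ / N)) ⊆ Psi δ ℓ N v₀ ψ '' HH := by
  intro u hu
  rw [mem_ball] at hu
  have h0 := H.ηp
  have h4 := dist_pw_le (c := c) (w := w) (z := z)
  refine H.M.cut.clr (al c w z) (by linarith) h2 (mem_ball.2 ?_)
  have := dist_triangle u z (pw c w (al c w z))
  show dist u (pw c w (al c w z)) < _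
  linarith

/-- points near the box -/
theorem Dat.ball_box {z : ℂ} (h : dist z (pw c w (d / 4)) ≤ 3 * d / 64) :
    ball z (6 * (ℓ / N)) ⊆ Psi δ ℓ N v₀ ψ '' HH := by
  intro u hu
  rw [mem_ball] at hu
  have h0 := H.ηp
  have h1 := H.ηℓ
  have h2 := ell_le H.M.cut
  have h3 := d_pos H.M.cut
  have h4 : d / 4 / 2 = d / 8 := by ring
  refine H.M.cut.clr (d / 4) (by linarith) (by linarith) (mem_ball.2 ?_)
  have := dist_triangle u z (pw c w (d / 4))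
  show dist u (pw c w (d / 4)) < _
  rw [h4]
  linarith

/-! ### The leg -/

omit H in
theorem uset {u : ℤ × ℤ} (hu : u ∈ Uset) : u.2 = 0 ∧ 0 ≤ u.1 ∧ u.1 ≤ 1 := by
  rcases hu with rfl | rfl <;> simp

omit H in
theorem leg_s_re (N : ℕ) (v₀ u : ℤ × ℤ) (h : c.hor = true) :
    (c.leg N v₀ u).s = (c.sg, 0) := by
  cases hp : c.pos <;> simp [LegP.s, CutP.leg, usv, h, CutP.sg, hp]

omit H in
theorem leg_s_im (N : ℕ) (v₀ u : ℤ × ℤ) (h : c.hor = false) :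
    (c.leg N v₀ u).s = (0, c.sg) := by
  cases hp : c.pos <;> simp [LegP.s, CutP.leg, usv, h, CutP.sg, hp]

omit H in
theorem leg_base_hor (N : ℕ) (v₀ u : ℤ × ℤ) (h : c.hor = true) :
    (c.leg N v₀ u).base = (v₀.1 + u.1, v₀.2 + u.2 - (N : ℤ) / 2) := by
  simp [LegP.base, CutP.leg, h]

omit H in
theorem leg_base_ver (N : ℕ) (v₀ u : ℤ × ℤ) (h : c.hor = false) :
    (c.leg N v₀ u).base = (v₀.1 + 2 * c.m * N + (N : ℤ) / 2, v₀.2 + u.2 - (N : ℤ) / 2) := by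
  simp [LegP.base, CutP.leg, h]

omit H in
/-- the squares of the leg, along -/
theorem al_lv (u : ℤ × ℤ) (i : ℕ) : al c w (fc ℓ N v₀ ((c.leg N v₀ u).lv i)) =
    al c w (fc ℓ N v₀ (c.leg N v₀ u).base) - i * (ℓ / N) := by
  have h1 := sg_sq c
  cases h : c.hor
  · simp only [al, h, Bool.false_eq_true, if_false, fc, LegP.lv_2, leg_s_im N v₀ u h]
    push_cast
    linear_combination (-(i : ℝ) * (ℓ / N)) * h1
  · simp only [al, h, if_true, fc, LegP.lv_1, leg_s_re N v₀ u h]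
    push_cast
    linear_combination (-(i : ℝ) * (ℓ / N)) * h1

/-- the squares of the leg, across -/
theorem Dat.tr_lv {u : ℤ × ℤ} (hu : u ∈ Uset) (i : ℕ) :
    |tr c w (fc ℓ N v₀ ((c.leg N v₀ u).lv i))| ≤ ℓ / N / 2 := by
  obtain ⟨hu2, -, -⟩ := uset hu
  have h2 := H.N2η
  have h3 := H.Nη
  have h4 := H.ηp
  cases h : c.hor
  · obtain ⟨r1, r2⟩ := H.M.col h
    simp only [tr, h, Bool.false_eq_true, if_false, fc, LegP.lv_1, leg_s_im N v₀ u h,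
      leg_base_ver N v₀ u h]
    have e : ℓ / N * (((v₀.1 + 2 * c.m * N + (N : ℤ) / 2 + (i : ℤ) * 0 : ℤ) : ℝ) - v₀.1 + 1 / 2) -
        w.re = ℓ * (2 * c.m + 1 / 2) + ℓ / N / 2 - w.re := by
      push_cast
      linear_combination (2 * (c.m : ℝ)) * h3 + h2
    rw [e, abs_le]
    constructor <;> linarith
  · obtain ⟨r1, r2⟩ := H.M.row h
    simp only [tr, h, if_true, fc, LegP.lv_2, leg_s_re N v₀ u h, leg_base_hor N v₀ u h, hu2]
    have e : ℓ / N * (((v₀.2 + 0 - (N : ℤ) / 2 + (i : ℤ) * 0 : ℤ) : ℝ) - v₀.2 + 1 / 2) -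
        w.im = -(ℓ / 2) + ℓ / N / 2 - w.im := by
      push_cast
      linear_combination (-1 : ℝ) * h2
    rw [e, abs_le]
    constructor <;> linarith

/-- the position of the first square of the leg -/
theorem Dat.A_eq {u : ℤ × ℤ} (hu : u ∈ Uset) : al c w (fc ℓ N v₀ (c.leg N v₀ u).base) =
    if c.hor then c.sg * w.re - c.sg * (ℓ / N) * (u.1 + 1 / 2)
    else c.sg * w.im + c.sg * (ℓ / 2 - ℓ / N / 2) := by
  obtain ⟨hu2, -, -⟩ := uset hu
  have h2 := H.N2η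
  cases h : c.hor
  · simp only [al, h, Bool.false_eq_true, if_false, fc, leg_base_ver N v₀ u h, hu2]
    push_cast
    linear_combination (c.sg : ℝ) * h2
  · simp only [al, h, if_true, fc, leg_base_hor N v₀ u h]
    push_cast
    ring

theorem Dat.A_bd {u : ℤ × ℤ} (hu : u ∈ Uset) :
    d / 4 - ℓ ≤ al c w (fc ℓ N v₀ (c.leg N v₀ u).base) ∧
    al c w (fc ℓ N v₀ (c.leg N v₀ u).base) ≤ d / 4 + ℓ := by
  obtain ⟨hu2, hu0, hu1⟩ := uset hu
  have u0 : (0 : ℝ) ≤ u.1 := by exact_mod_cast hu0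
  have u1 : (u.1 : ℝ) ≤ 1 := by exact_mod_cast hu1
  have h0 := H.ηp
  have h1 := H.ηℓ
  have hs := sg_or c
  have h5 : ℓ / N * (u.1 : ℝ) ≤ ℓ / N := by nlinarith
  have h6 : 0 ≤ ℓ / N * (u.1 : ℝ) := by positivity
  have h7 : 2 * ℓ / N = 2 * (ℓ / N) := by ring
  rw [H.A_eq hu]
  cases h : c.hor
  · obtain ⟨-, p2⟩ := H.M.cut.posv h
    rw [abs_le, h7] at p2
    simp only [Bool.false_eq_true, if_false]
    rcases hs with hs | hs <;> rw [hs] at p2 ⊢ <;> push_cast at p2 ⊢ <;>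
      constructor <;> linarith [p2.1, p2.2]
  · obtain ⟨-, p2⟩ := H.M.cut.posh h
    rw [abs_le, h7] at p2
    simp only [if_true]
    rcases hs with hs | hs <;> rw [hs] at p2 ⊢ <;> push_cast at p2 ⊢ <;>
      constructor <;> linarith [p2.1, p2.2]

/-- the index of the square which contains `w` -/
theorem Dat.ex_i {u : ℤ × ℤ} (hu : u ∈ Uset) : ∃ i : ℕ,
    |al c w (fc ℓ N v₀ ((c.leg N v₀ u).lv (i + 20)))| ≤ ℓ / N / 2 := by
  obtain ⟨h1, h2⟩ := H.A_bd hu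
  set A := al c w (fc ℓ N v₀ (c.leg N v₀ u).base) with hA
  have h0 := H.ηp
  have h3 := ell_le H.M.cut
  have h4 := H.ηℓ
  have hℓ := H.M.cut.hℓ
  set η := ℓ / N with hη
  obtain ⟨j, hj1, hj2⟩ : ∃ j : ℕ, (j : ℝ) * η ≤ A + η / 2 ∧ A + η / 2 < (j + 1) * η := by
    refine ⟨⌊(A + η / 2) / η⌋₊, ?_, ?_⟩
    · have := Nat.floor_le (a := (A + η / 2) / η) (by apply div_nonneg <;> linarith)
      rwa [le_div_iff₀ h0] at this
    · have := Nat.lt_floor_add_one ((A + η / 2) / η)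
      rwa [div_lt_iff₀ h0] at this
  have hj : 20 ≤ j := by
    by_contra hcon
    push Not at hcon
    have : ((j : ℝ) + 1) ≤ 20 := by exact_mod_cast hcon
    nlinarith
  refine ⟨j - 20, ?_⟩
  rw [Nat.sub_add_cancel hj, al_lv, ← hA, ← hη, abs_le]
  constructor <;> linarith

/-! ### The point in the rotated plane -/

/-- the point `w` in the rotated plane -/
noncomputable def w1 (δ ℓ : ℝ) (N : ℕ) (v₀ : ℤ × ℤ) (w : ℂ) : ℂ :=
  w / ((ℓ / (N * δ) : ℝ) : ℂ) + δ * pt v₀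

theorem Dat.af_w1 : af δ ℓ N v₀ (w1 δ ℓ N v₀ w) = w := by
  unfold af w1
  rw [add_sub_cancel_right, mul_div_cancel₀ _ H.a0]

theorem Dat.out1 : ∀ z ∈ Om δ S, (1 + I) * z ≠ w1 δ ℓ N v₀ w := by
  intro z hz h
  rw [← H.img] at hz
  obtain ⟨z', hz', rfl⟩ := hz
  refine H.M.cut.out ⟨z', hz', ?_⟩
  rw [psi_eq, h, H.af_w1]

/-- the square which contains `w` -/
theorem Dat.csq1 {v : ℤ × ℤ} (h1 : |(fc ℓ N v₀ v).re - w.re| ≤ ℓ / N / 2)
    (h2 : |(fc ℓ N v₀ v).im - w.im| ≤ ℓ / N / 2) : w1 δ ℓ N v₀ w ∈ csq δ v := by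
  have ha : (0 : ℝ) < ℓ / (N * δ) := by linarith [H.a1]
  have e := H.aδ
  have er : (ℓ / (N * δ)) * (w1 δ ℓ N v₀ w).re = w.re + ℓ / N * v₀.1 := by
    have := congrArg Complex.re H.af_w1
    simp only [af, pt, Complex.mul_re, Complex.sub_re, Complex.sub_im, Complex.ofReal_re,
      Complex.ofReal_im, zero_mul, sub_zero] at this
    linear_combination this + (v₀.1 : ℝ) * e
  have ei : (ℓ / (N * δ)) * (w1 δ ℓ N v₀ w).im = w.im + ℓ / N * v₀.2 := by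
    have := congrArg Complex.im H.af_w1
    simp only [af, pt, Complex.mul_im, Complex.sub_re, Complex.sub_im, Complex.ofReal_re,
      Complex.ofReal_im, zero_mul, add_zero] at this
    linear_combination this + (v₀.2 : ℝ) * e
  rw [abs_le] at h1 h2
  simp only [fc] at h1 h2
  have key : ∀ x y : ℝ, (ℓ / (N * δ)) * x ≤ (ℓ / (N * δ)) * y → x ≤ y := fun x y h =>
    le_of_mul_le_mul_left h ha
  refine ⟨key _ _ ?_, key _ _ ?_, key _ _ ?_, key _ _ ?_⟩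
  · rw [er, ← mul_assoc, e]; linarith [h1.1, h1.2]
  · rw [er, ← mul_assoc, e]; linarith [h1.1, h1.2]
  · rw [ei, ← mul_assoc, e]; linarith [h2.1, h2.2]
  · rw [ei, ← mul_assoc, e]; linarith [h2.1, h2.2]

/-- the wired vertices are far -/
theorem Dat.far : ∀ i : ℕ, k ≤ i → i < n →
    (((20 : ℕ) : ℝ) + 4) * δ < dist ((1 + I) * ((δ : ℂ) * pt (p i))) (w1 δ ℓ N v₀ w) := by
  intro i hi hin
  obtain ⟨x, hx, hd⟩ := H.wir i hi hin
  by_contra hcon
  push Not at hcon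
  have h1 : dist ((1 + I) * ψ x) (w1 δ ℓ N v₀ w) ≤ 26 * δ := by
    have h2 := dist_triangle ((1 + I) * ψ x) ((1 + I) * ((δ : ℂ) * pt (p i))) (w1 δ ℓ N v₀ w)
    have h3 : dist ((1 + I) * ψ x) ((1 + I) * ((δ : ℂ) * pt (p i))) ≤ 2 * δ := by
      rw [dist_eq_norm, ← mul_sub, norm_mul, ← dist_eq_norm]
      exact mul_le_mul noI hd dist_nonneg (by norm_num)
    push_cast at hcon
    linarith
  have h4 : dist (Psi δ ℓ N v₀ ψ x) w ≤ 8 * d := by
    have h5 : dist (Psi δ ℓ N v₀ ψ x) w =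
        dist (af δ ℓ N v₀ ((1 + I) * ψ x)) (af δ ℓ N v₀ (w1 δ ℓ N v₀ w)) := by
      rw [H.af_w1]; rfl
    rw [h5, H.dist_af]
    calc ℓ / (N * δ) * dist ((1 + I) * ψ x) (w1 δ ℓ N v₀ w) ≤ ℓ / (N * δ) * (26 * δ) := by
          have := H.a1
          gcongr
      _ = 26 * (ℓ / (N * δ) * δ) := by ring
      _ = 26 * (ℓ / N) := by rw [H.aδ]
      _ ≤ 8 * d := by
        have h6 := H.ηℓ
        have h7 := ell_le H.M.cut
        have h8 := d_pos H.M.cut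
        have h9 := H.M.cut.hℓ
        linarith
  have h5 := H.M.nearX x (by simp) h4
  have h6 : dist (x : ℂ) (X : ℂ) = |x - X| := by
    rw [dist_eq_norm, ← Complex.ofReal_sub, Complex.norm_real, Real.norm_eq_abs]
  rw [h6, abs_le] at h5
  have h7 := H.hκ
  linarith [h5.1]

/-! ### The open path -/

omit H in
theorem coord_of {z : ℂ} {r : ℝ} (h1 : |al c w z| ≤ r) (h2 : |tr c w z| ≤ r) :
    |z.re - w.re| ≤ r ∧ |z.im - w.im| ≤ r := by
  cases h : c.hor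
  · simp only [al, tr, h, Bool.false_eq_true, if_false] at h1 h2
    rw [abs_sg_mul, abs_sub_comm] at h1
    exact ⟨h2, h1⟩
  · simp only [al, tr, h, if_true] at h1 h2
    rw [abs_sg_mul, abs_sub_comm] at h1
    exact ⟨h1, h2⟩

/-- the squares of the leg before `w` -/
theorem Dat.deep_lv {u : ℤ × ℤ} (hu : u ∈ Uset) {i₀ : ℕ}
    (hi₀ : |al c w (fc ℓ N v₀ ((c.leg N v₀ u).lv (i₀ + 20)))| ≤ ℓ / N / 2) {i : ℕ} (hi : i ≤ i₀) :
    ball (fc ℓ N v₀ ((c.leg N v₀ u).lv i)) (6 * (ℓ / N)) ⊆ Psi δ ℓ N v₀ ψ '' HH := by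
  have h0 := H.ηp
  obtain ⟨hA1, hA2⟩ := H.A_bd hu
  have h3 := ell_le H.M.cut
  have hℓ := H.M.cut.hℓ
  have hir : (i : ℝ) ≤ i₀ := by exact_mod_cast hi
  have hi0 : (0 : ℝ) ≤ i := Nat.cast_nonneg i
  rw [al_lv, abs_le] at hi₀
  push_cast at hi₀
  have h4 : (i : ℝ) * (ℓ / N) ≤ i₀ * (ℓ / N) := mul_le_mul_of_nonneg_right hir h0.le
  have h5 : 0 ≤ (i : ℝ) * (ℓ / N) := by positivity
  refine H.ball_leg ?_ ?_ ((H.tr_lv hu i).trans (by linarith))
  · rw [al_lv]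
    linarith [hi₀.1]
  · rw [al_lv]
    linarith

/-- **the row of squares of the leg** -/
theorem Dat.row {u : ℤ × ℤ} (hu : u ∈ Uset) : ∃ i₀ L j : ℕ, i₀ ≤ L ∧ L ≤ i₀ + 20 ∧ j < k ∧
    |al c w (fc ℓ N v₀ ((c.leg N v₀ u).lv (i₀ + 20)))| ≤ ℓ / N / 2 ∧
    (∀ i ≤ L, (c.leg N v₀ u).lv i ∈ H192.dq p k S) ∧
    (∀ i < L, ∀ m, ¬ Crn ((c.leg N v₀ u).lv i) (H192.ro (p m))) ∧
    Crn ((c.leg N v₀ u).lv L) (H192.ro (p j)) := by
  obtain ⟨i₀, hi₀⟩ := H.ex_i hu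
  have hd := fun i (hi : i ≤ i₀) => H.deep_lv hu hi₀ hi
  have h1 : ∀ t : ℕ, (c.leg N v₀ u).lv i₀ + t • (c.leg N v₀ u).s = (c.leg N v₀ u).lv (i₀ + t) :=
    fun t => (LegP.lv_add i₀ t).symm
  obtain ⟨c1, c2⟩ := coord_of hi₀ (H.tr_lv hu (i₀ + 20))
  obtain ⟨L, j, hL, hj, g1, g2, g3⟩ := (cutW n p S k δ H.poly H.encl H.hδ).2 (w1 δ ℓ N v₀ w)
    ((c.leg N v₀ u).lv i₀) (c.leg N v₀ u).s 20 (s_cases _) H.out1 (H.ball3 (hd i₀ le_rfl))
    (by rw [h1]; exact H.csq1 c1 c2) H.far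
  refine ⟨i₀, i₀ + L, j, by omega, by omega, hj, hi₀, ?_, ?_, ?_⟩
  · intro i hi
    rcases le_or_gt i i₀ with h | h
    · exact (H.deep (hd i h)).1
    · have := g1 (i - i₀) (by omega)
      rwa [h1, show i₀ + (i - i₀) = i by omega] at this
  · intro i hi
    rcases le_or_gt i i₀ with h | h
    · exact (H.deep (hd i h)).2
    · have := g2 (i - i₀) (by omega)
      rwa [h1, show i₀ + (i - i₀) = i by omega] at this
  · rwa [h1] at g3

/-- the squares below the base and of the row are deep -/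
theorem Dat.deep_box {u : ℤ × ℤ} (hu : u ∈ Uset) {v : ℤ × ℤ}
    (hv : (v.1 = v₀.1 + u.1 ∨ (c.hor = false ∧ v₀.1 + u.1 ≤ v.1 ∧
      v.1 ≤ v₀.1 + 2 * c.m * N + (N : ℤ) / 2)))
    (hv1 : v₀.2 - (N : ℤ) / 2 ≤ v.2) (hv2 : v.2 ≤ v₀.2 - 1) :
    ball (fc ℓ N v₀ v) (6 * (ℓ / N)) ⊆ Psi δ ℓ N v₀ ψ '' HH := by
  obtain ⟨hu2, hu0, hu1⟩ := uset hu
  have h0 := H.ηp
  have h1 := H.ηℓ
  have h2 := H.N2η
  have h3 := H.Nη
  have hℓ := H.M.cut.hℓ
  have hq := q_real H.M.cut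
  have hm : (c.q : ℝ) + 3 ≤ 2 * c.m := by exact_mod_cast H.M.cut.hm
  have lq : ℓ * 32 ≤ ℓ * c.q := mul_le_mul_of_nonneg_left hq hℓ.le
  have lm : ℓ * (c.q + 3) ≤ ℓ * (2 * c.m) := mul_le_mul_of_nonneg_left hm hℓ.le
  have v2l : ((v₀.2 - (N : ℤ) / 2 : ℤ) : ℝ) ≤ v.2 := by exact_mod_cast hv1
  have v2u : (v.2 : ℝ) ≤ ((v₀.2 - 1 : ℤ) : ℝ) := by exact_mod_cast hv2
  push_cast at v2l v2u
  have i1 := mul_le_mul_of_nonneg_left v2l h0.le
  have i2 := mul_le_mul_of_nonneg_left v2u h0.le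
  have him : |(fc ℓ N v₀ v).im| ≤ ℓ * (c.q + 1) := by
    simp only [fc]
    rw [abs_le]
    constructor <;> linarith
  refine H.ball_box (near_box H.M.cut ?_ ?_ him)
  · intro h
    have e : v.1 = v₀.1 + u.1 := by
      rcases hv with hv | hv
      · exact hv
      · rw [h] at hv; exact absurd hv.1 (by decide)
    have u0 : (0 : ℝ) ≤ u.1 := by exact_mod_cast hu0
    have u1 : (u.1 : ℝ) ≤ 1 := by exact_mod_cast hu1
    have er : (fc ℓ N v₀ v).re = ℓ / N * (u.1 + 1 / 2) := by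
      simp only [fc, e]; push_cast; ring
    have j1 : ℓ / N * (u.1 : ℝ) ≤ ℓ / N * 1 := mul_le_mul_of_nonneg_left u1 h0.le
    have j2 : 0 ≤ ℓ / N * (u.1 : ℝ) := by positivity
    rw [er, abs_le]
    constructor <;> linarith
  · intro h
    have v1l : v₀.1 ≤ v.1 := by
      rcases hv with hv | hv
      · omega
      · omega
    have v1u : v.1 ≤ v₀.1 + 2 * c.m * N + (N : ℤ) / 2 := by
      rcases hv with hv | hv
      · have hN := H.hN
        have hm' := H.M.cut.hm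
        have hq' := H.M.cut.hq
        have : (1 : ℤ) ≤ 2 * c.m * N := by
          have a1 : (1 : ℤ) ≤ 2 * c.m := by omega
          have a2 : (1 : ℤ) ≤ N := by exact_mod_cast (by omega : 1 ≤ N)
          nlinarith
        omega
      · exact hv.2.2
    have v1l' : (v₀.1 : ℝ) ≤ v.1 := by exact_mod_cast v1l
    have v1u' : (v.1 : ℝ) ≤ ((v₀.1 + 2 * c.m * N + (N : ℤ) / 2 : ℤ) : ℝ) := by exact_mod_cast v1u
    push_cast at v1u'
    have j1 := mul_le_mul_of_nonneg_left v1l' h0.le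
    have j2 := mul_le_mul_of_nonneg_left v1u' h0.le
    have j3 : ℓ / N * (2 * c.m * N) = ℓ * (2 * c.m) := by
      linear_combination (2 * (c.m : ℝ)) * h3
    simp only [fc]
    constructor <;> linarith

/-- the squares of the open path -/
theorem Dat.O_cases {u : ℤ × ℤ} (hu : u ∈ Uset) {L : ℕ} {v : ℤ × ℤ}
    (hv : v ∈ (c.leg N v₀ u).O L) :
    (ball (fc ℓ N v₀ v) (6 * (ℓ / N)) ⊆ Psi δ ℓ N v₀ ψ '' HH) ∨
      ∃ i ≤ L, (c.leg N v₀ u).lv i = v := by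
  obtain ⟨hu2, hu0, hu1⟩ := uset hu
  rw [LegP.mem_O] at hv
  have hN := H.hN
  have h4 := H.h4
  have hb1 : (c.leg N v₀ u).b.1 = v₀.1 + u.1 := rfl
  have hb2 : (c.leg N v₀ u).b.2 = v₀.2 + u.2 := rfl
  have hH : (c.leg N v₀ u).H = (N : ℤ) / 2 := rfl
  rcases hv with hv | hv | hv
  · rw [hb1, hb2, hH] at hv
    left
    exact H.deep_box hu (Or.inl hv.1) (by omega) (by omega)
  · rw [hb1, hb2, hH] at hv
    left
    cases h : c.hor
    · rw [leg_base_ver N v₀ u h] at hv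
      exact H.deep_box hu (Or.inr ⟨h, hv.1, hv.2.1⟩) (by omega) (by omega)
    · rw [leg_base_hor N v₀ u h] at hv
      exact H.deep_box hu (Or.inl (le_antisymm hv.2.1 hv.1)) (by omega) (by omega)
  · right
    exact hv

/-- the exit index -/
def ex (c : CutP) (N : ℕ) : ℤ := match c.hor, c.pos with
    | true, true => (2 * c.e + 1) * N
    | true, false => (2 * c.e + 1) * N + 1
    | false, true => (c.e + 1) * N + (N : ℤ) / 2
    | false, false => c.e * N - (N : ℤ) / 2 + 1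

theorem Dat.ex_pos : 1 ≤ ex c N := by
  have he := e_ge H.M.cut
  have hN : (16 : ℤ) ≤ N := by exact_mod_cast H.hN
  have h1 : (32 : ℤ) ≤ c.e * N := by nlinarith
  have h2 : (c.e + 1) * (N : ℤ) = c.e * N + N := by ring
  have h3 : (2 * c.e + 1) * (N : ℤ) = 2 * (c.e * N) + N := by ring
  have h4 : 2 * (N : ℤ) ≤ c.e * N := by nlinarith
  unfold ex
  cases c.hor <;> cases c.pos <;> simp only <;> omega

/-- the exit is before the last deep square of the leg -/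
theorem Dat.ex_le {u : ℤ × ℤ} (hu : u ∈ Uset) {i₀ : ℕ}
    (hi₀ : |al c w (fc ℓ N v₀ ((c.leg N v₀ u).lv (i₀ + 20)))| ≤ ℓ / N / 2) : ex c N ≤ i₀ := by
  obtain ⟨hu2, hu0, hu1⟩ := uset hu
  have u0 : (0 : ℝ) ≤ u.1 := by exact_mod_cast hu0
  have u1 : (u.1 : ℝ) ≤ 1 := by exact_mod_cast hu1
  have h0 := H.ηp
  have h1 := H.ηℓ
  have h2 := H.N2η
  have h3 := H.Nη
  have hℓ := H.M.cut.hℓ
  have hϱ := H.M.cut.hϱ
  have hτ := H.M.cut.hτ
  have h5 : ℓ / N * (u.1 : ℝ) ≤ ℓ / N := by nlinarith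
  have h6 : 0 ≤ ℓ / N * (u.1 : ℝ) := by positivity
  rw [al_lv, H.A_eq hu, abs_le] at hi₀
  push_cast at hi₀
  suffices h : (ex c N : ℝ) * (ℓ / N) < ((i₀ : ℝ) + 1) * (ℓ / N) by
    have h7 := lt_of_mul_lt_mul_right h h0.le
    have h8 : ex c N < (i₀ : ℤ) + 1 := by exact_mod_cast h7
    omega
  cases hh : c.hor
  · simp only [hh, Bool.false_eq_true, if_false] at hi₀
    cases hp : c.pos
    · have hsg : c.sg = -1 := by simp [CutP.sg, hp]
      have e1 := (H.M.cut.evn hh hp).1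
      rw [hsg] at hi₀
      have e : (ex c N : ℝ) * (ℓ / N) = ℓ * c.e - ℓ / 2 + ℓ / N := by
        simp only [ex, hh, hp]
        push_cast
        linear_combination (c.e : ℝ) * h3 - h2
      rw [e]
      push_cast at hi₀
      linarith [hi₀.2]
    · have hsg : c.sg = 1 := by simp [CutP.sg, hp]
      have e1 := (H.M.cut.evp hh hp).1
      rw [hsg] at hi₀
      have e : (ex c N : ℝ) * (ℓ / N) = ℓ * (c.e + 1) + ℓ / 2 := by
        simp only [ex, hh, hp]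
        push_cast
        linear_combination ((c.e : ℝ) + 1) * h3 + h2
      rw [e]
      push_cast at hi₀
      linarith [hi₀.2]
  · simp only [hh, if_true] at hi₀
    have e1 := (H.M.cut.eh hh).1
    cases hp : c.pos
    · have hsg : c.sg = -1 := by simp [CutP.sg, hp]
      rw [hsg] at hi₀ e1
      have e : (ex c N : ℝ) * (ℓ / N) = ℓ * (2 * c.e + 1) + ℓ / N := by
        simp only [ex, hh, hp]
        push_cast
        linear_combination (2 * (c.e : ℝ) + 1) * h3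
      rw [e]
      push_cast at hi₀ e1
      linarith [hi₀.2]
    · have hsg : c.sg = 1 := by simp [CutP.sg, hp]
      rw [hsg] at hi₀ e1
      have e : (ex c N : ℝ) * (ℓ / N) = ℓ * (2 * c.e + 1) := by
        simp only [ex, hh, hp]
        push_cast
        linear_combination (2 * (c.e : ℝ) + 1) * h3
      rw [e]
      push_cast at hi₀ e1
      linarith [hi₀.2]

/-- the last square is at `w` -/
theorem Dat.endw {u : ℤ × ℤ} (hu : u ∈ Uset) {i₀ L : ℕ} (h1 : i₀ ≤ L) (h2 : L ≤ i₀ + 20)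
    (hi₀ : |al c w (fc ℓ N v₀ ((c.leg N v₀ u).lv (i₀ + 20)))| ≤ ℓ / N / 2) :
    dist (fc ℓ N v₀ ((c.leg N v₀ u).lv L)) w ≤ 64 * (ℓ / N) := by
  have h0 := H.ηp
  have r1 : (i₀ : ℝ) ≤ L := by exact_mod_cast h1
  have r2 : (L : ℝ) ≤ i₀ + 20 := by exact_mod_cast h2
  have m1 := mul_le_mul_of_nonneg_right r1 h0.le
  have m2 := mul_le_mul_of_nonneg_right r2 h0.le
  have h3 : |al c w (fc ℓ N v₀ ((c.leg N v₀ u).lv L))| ≤ 21 * (ℓ / N) := by
    rw [al_lv, abs_le] at hi₀ ⊢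
    push_cast at hi₀
    constructor <;> linarith [hi₀.1, hi₀.2]
  have h4 := dist_pw_le (c := c) (w := w) (z := fc ℓ N v₀ ((c.leg N v₀ u).lv L))
  have h5 := H.tr_lv hu L
  have h6 := dist_pw_pw (c := c) (w := w) (al c w (fc ℓ N v₀ ((c.leg N v₀ u).lv L))) 0
  rw [pw_zero, sub_zero] at h6
  have h7 := dist_triangle (fc ℓ N v₀ ((c.leg N v₀ u).lv L))
    (pw c w (al c w (fc ℓ N v₀ ((c.leg N v₀ u).lv L)))) w
  linarith

/-- **The lattice part of the cut for one domain.** -/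
theorem Dat.cutLat : ∃ jf L E : ℤ × ℤ → ℕ, CutLat p k S δ ℓ N ψ X κ d ϱ τ₀ v₀ c w jf L E := by
  classical
  have h : ∀ u : ℤ × ℤ, ∃ i₀ L j : ℕ, u ∈ Uset → i₀ ≤ L ∧ L ≤ i₀ + 20 ∧ j < k ∧
      |al c w (fc ℓ N v₀ ((c.leg N v₀ u).lv (i₀ + 20)))| ≤ ℓ / N / 2 ∧
      (∀ i ≤ L, (c.leg N v₀ u).lv i ∈ H192.dq p k S) ∧
      (∀ i < L, ∀ m, ¬ Crn ((c.leg N v₀ u).lv i) (H192.ro (p m))) ∧
      Crn ((c.leg N v₀ u).lv L) (H192.ro (p j)) := by
    intro u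
    by_cases hu : u ∈ Uset
    · obtain ⟨i₀, L, j, h⟩ := H.row hu
      exact ⟨i₀, L, j, fun _ => h⟩
    · exact ⟨0, 0, 0, fun h => absurd h hu⟩
  choose i₀ L jf h using h
  have hex := H.ex_pos
  refine ⟨jf, L, fun _ => (ex c N - 1).toNat, { H.M with
    hN := H.hN
    hN2 := H.h4
    hδ := H.hδ
    deep := fun v hv => H.deep hv
    jf_lt := fun u hu => (h u hu).2.2.1
    inD := ?_
    noC := ?_
    last := fun u hu => (h u hu).2.2.2.2.2.2
    endw := fun u hu => H.endw hu (h u hu).1 (h u hu).2.1 (h u hu).2.2.2.1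
    hE := ?_
    hEL := ?_ }⟩
  · intro u hu v hv
    rcases H.O_cases hu hv with hv | ⟨i, hi, rfl⟩
    · exact (H.deep hv).1
    · exact (h u hu).2.2.2.2.1 i hi
  · intro u hu v hv hne
    rcases H.O_cases hu hv with hv | ⟨i, hi, rfl⟩
    · exact (H.deep hv).2
    · exact (h u hu).2.2.2.2.2.1 i (lt_of_le_of_ne hi fun e => hne (by rw [e]))
  · intro u hu
    rw [Int.toNat_of_nonneg (by omega), sub_add_cancel]
    rfl
  · intro u hu
    have h1 := H.ex_le hu (h u hu).2.2.2.1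
    have h2 := (h u hu).1
    omega

end Vale.Agent.P167.CL.LT

namespace Vale.Agent.P167.CL

open Vale.Agent.P153.R2.L1 (HH)
open Vale.Agent.P167.E6 Vale.Agent.P167.E2 Vale.Agent.P167.H411

/-- **[Lat]** -/
theorem lat (hwir : S_wir) : S_lat := by
  intro Φ ψ δ N k p S ψn H X κ d τ₀ ϱ ℓ hκ hℓ hϱ
  have hδ0 : ∀ n, 0 < δ n := fun n => (H.appr.1 n).1
  have hδ : ∀ᶠ n in atTop, 64 * δ n ≤ ℓ := by
    have h1 : Tendsto (fun n => 64 * δ n) atTop (𝓝 (64 * 0)) := H.appr.2.1.const_mul 64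
    rw [mul_zero] at h1
    exact (h1.eventually (gt_mem_nhds hℓ)).mono fun n hn => le_of_lt hn
  filter_upwards [hwir Φ ψ δ N k p S ψn H, hδ, good_ev H.appr] with n hw hδn hgood
  intro v₀ c w hM
  have hK : 15 ≤ ⌊ℓ / (4 * δ n)⌋₊ := by
    apply Nat.le_floor
    have := hδ0 n
    rw [le_div_iff₀ (by positivity)]
    push_cast
    linarith
  have hfl : 4 * (⌊ℓ / (4 * δ n)⌋₊ : ℝ) * δ n ≤ ℓ := by
    have := hδ0 n
    have h1 := Nat.floor_le (a := ℓ / (4 * δ n)) (by positivity)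
    rw [le_div_iff₀ (by positivity)] at h1
    linarith
  refine LT.Dat.cutLat (p := p n) (k := k n) (S := S n) (δ := δ n) (ℓ := ℓ)
    (N := 4 * ⌊ℓ / (4 * δ n)⌋₊) (ψ := ψn n) (X := X) (κ := κ) (d := d) (ϱ := ϱ) (τ₀ := τ₀)
    (v₀ := v₀) (c := c) (w := w) ?_
  exact { poly := (H.appr.1 n).2.2.2.1
          encl := (H.appr.1 n).2.2.2.2
          hδ := hδ0 n
          hN := by omega
          h4 := Dvd.intro _ rfl
          s1 := by push_cast; exact hfl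
          img := (H.isU n hgood).img
          wir := hw
          hκ := hκ
          M := hM }

end Vale.Agent.P167.CL
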