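import Vale.Agent.P167.CL.Fin1
import Vale.Agent.P167.CL.CutMP
import Vale.Agent.P167.CL.CutT
import Vale.Agent.P167.CL.Lat
import Vale.Agent.P167.CL.Wir
import Vale.Agent.P167.H531.HcmpFin
import Vale.Agent.P167.H327.Unr
import Vale.Agent.P167.H72.LabF
import Vale.Agent.P167.H450.Stage0

/-!
# P167, block CLOSE [ASM]: the structure `PosP` of one step
-/

set_option autoImplicit false

open MeasureTheory Filter Topology Set Metric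
open scoped NNReal ENNReal

namespace Vale.Agent.P167.CL

open Vale.Agent.P153.R2.R1 (IsU mb)
open Vale.Agent.P153.R2.L1 (HH)
open Vale.Agent.P164 (loewnerDomain Zf)
open Vale.Agent.P167.E6 Vale.Agent.P167.E2 Vale.Agent.P167.H411
open Vale.Agent.P167.H161 (zp)
open Vale.Agent.P167.H756 (HConf Drv)
open Vale.Agent.P167.H531 Vale.Agent.P167.H558
open Vale.Agent.P167.H446 (uX)
open Vale.Agent.P167.H327 (xf)

/-- The constants `ℓ`, `ϱ`, `τ₀`, `q` of the cut. -/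
theorem exists_scales {d m : ℝ} (hd : 0 < d) (hm : 0 < m) : ∃ (ℓ ϱ τ₀ : ℝ) (q : ℤ), 0 < ℓ ∧ 0 < ϱ ∧
    ℓ ≤ ϱ ∧ 4 * ϱ + 20 * ℓ ≤ τ₀ ∧ 32 * (τ₀ + ϱ + ℓ) ≤ d ∧ 32 ≤ q ∧ 64 * (ℓ * (q + 8)) ≤ d ∧
    2 * (d / 2048) ≤ ℓ * q ∧ ℓ < d / 2048 ∧ τ₀ + 2 * ϱ + 32 * ℓ ≤ m := by
  set x : ℝ := min m d with hx
  have hx0 : 0 < x := lt_min hm hd
  have hxm : x ≤ m := min_le_left _ _
  have hxd : x ≤ d := min_le_right _ _
  have hℓ : 0 < x / 32768 := by positivity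
  refine ⟨x / 32768, x / 1024, x / 128, ⌈4 * (d / 2048) / (x / 32768)⌉ + 40, hℓ, by positivity,
    by linarith, by linarith, by linarith, ?_, ?_, ?_, by linarith, by linarith⟩
  · have : 0 ≤ ⌈4 * (d / 2048) / (x / 32768)⌉ := Int.ceil_nonneg (by positivity)
    omega
  · have h1 := (Int.ceil_lt_add_one (4 * (d / 2048) / (x / 32768))).le
    have h2 : x / 32768 * (⌈4 * (d / 2048) / (x / 32768)⌉ : ℝ) ≤
        x / 32768 * (4 * (d / 2048) / (x / 32768) + 1) := mul_le_mul_of_nonneg_left h1 hℓ.le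
    have h3 : x / 32768 * (4 * (d / 2048) / (x / 32768) + 1) = 4 * (d / 2048) + x / 32768 := by
      field_simp
    push_cast
    have h4 : x / 32768 * ((⌈4 * (d / 2048) / (x / 32768)⌉ : ℝ) + 40 + 8) =
      x / 32768 * (⌈4 * (d / 2048) / (x / 32768)⌉ : ℝ) + 48 * (x / 32768) := by ring
    rw [h4]
    linarith
  · have h1 := Int.le_ceil (4 * (d / 2048) / (x / 32768))
    have h2 : x / 32768 * (4 * (d / 2048) / (x / 32768)) ≤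
        x / 32768 * (⌈4 * (d / 2048) / (x / 32768)⌉ : ℝ) := mul_le_mul_of_nonneg_left h1 hℓ.le
    have h3 : x / 32768 * (4 * (d / 2048) / (x / 32768)) = 4 * (d / 2048) := by
      field_simp
    push_cast
    have h4 : x / 32768 * ((⌈4 * (d / 2048) / (x / 32768)⌉ : ℝ) + 40) =
      x / 32768 * (⌈4 * (d / 2048) / (x / 32768)⌉ : ℝ) + 40 * (x / 32768) := by ring
    rw [h4]
    linarith

/-- The body of `posP_stg`. -/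
def PPs (T R Rd cd Y u₀ U ε h h₀ : ℝ) : Prop :=
  ∀ s : CL.Stg, s.Ok T R Rd cd → s.Y = Y → 0 < s.ε → s.ε ≤ h₀ →
      s.ρm + 3 * s.ℓ ≤ h₀ → IsPathConnected s.g → (∃ w ∈ s.g, w ∉ s.D) →
      (∀ u ∈ s.g, ∀ z ∈ s.g, dist u z ≤ h₀) →
      ∀ (N : ℕ) (v₀ u' : ℤ × ℤ) (δ : ℝ) (ψ : ℂ → ℂ), 0 < δ → s.ψ = CL.Psi δ s.ℓ N v₀ ψ →
      ∀ (n : ℕ) (p : ZMod n → ℤ × ℤ) (k : ℕ) (S : Finset (ℤ × ℤ)) (A : Finset (Sym2 (ℤ × ℤ)))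
        (j : ℕ), ψ '' loewnerDomain s.W s.t = Om δ S \ pl p k δ A '' Icc 0 j →
      0 < N → 2 ∣ N → 13 * s.ℓ ≤ N * s.ρm → N * δ ≤ 2 * s.ℓ → |u'.1| ≤ 1 → |u'.2| ≤ 1 →
      ∀ ip ia : ZMod s.mE, s.pE ip = s.vn true → s.pE (ip + 1) = s.vn true + (1, 0) →
      s.pE ia = s.vn false → ∀ (l : ℕ) (u : ℝ), 0 < l → l < N * s.mE →
      ((CL.qE s.pE ip N (v₀ + u') l).1 + (CL.qE s.pE ip N (v₀ + u') l).2) % 2 = 0 →
      u₀ ≤ u → u ≤ U → Pos ψ s.W s.t h₀ {u} (zp δ (CL.qE s.pE ip N (v₀ + u') l)) →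
      PosP δ p k S A j ψ s.W s.t (CL.qE s.pE ip N (v₀ + u')) (CL.sE s.SE N (v₀ + u'))
        (N * (ia - ip).val - N / 2) l ε h u

/-- The body of `H531.hcmp`. -/
def HCs (T R Rd cd Y u₀ U rc cb e ε h d₀ : ℝ) : Prop :=
  ∀ {n m : ℕ} {δ : ℝ} {p : ZMod n → ℤ × ℤ} {k : ℕ} {S : Finset (ℤ × ℤ)}
    {A : Finset (Sym2 (ℤ × ℤ))} {j : ℕ} {ψ : ℂ → ℂ} {W : ℝ → ℝ} {t : ℝ}
    {q : ZMod m → ℤ × ℤ} {PE Kc Bb B : Finset (ℤ × ℤ)} {a l jf : ℕ} {u rc' : ℝ} {κ : Cfg}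
    {L : Set (ℤ × ℤ)},
    0 < j → δ ≤ d₀ → rc' ≤ rc → u₀ ≤ u → u ≤ U →
    CDat δ p k S A j ψ W t T R Rd cd Y → Lab δ p k S A j ψ W t ε → PosF δ p k A j ψ W t ε jf u →
    PosC δ p k A j ψ W t Kc Bb rc' cb u → PosE δ ψ W t Kc Bb PE ε u →
    PosP δ p k S A j ψ W t q PE a l ε h u → CutL p k S jf q PE a l Kc Bb B κ →
    (∀ z : ℤ × ℤ, (z.1 + z.2) % 2 = 0 → (z ∈ L ↔ z ∈ arcM q 0 0 a)) →
    ∀ ω₀ : Cfg, (∀ v ∈ H161.Rd p k S A j, ω₀ v = H192.cfg (A : Set (Sym2 (ℤ × ℤ))) v) →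
      (∀ v ∈ Kc, ω₀ v = κ v) → (∀ v ∈ B, ω₀ v = true) →
      cpr fair (StM 0) (H192.dq p k S) (H161.Rd p k S A j ∪ Kc ∪ Bb) {H192.ro (p (jf : ZMod n))}
          (CL.wst p k) ω₀ ≤
        cpr fair (StM 0) PE (H161.Rd p k S A j ∪ Kc ∪ Bb) {q (l : ZMod m)} L ω₀ +
          ENNReal.ofReal e ∧
      cpr fair (StM 0) PE (H161.Rd p k S A j ∪ Kc ∪ Bb) {q (l : ZMod m)} L ω₀ ≤
        cpr fair (StM 0) (H192.dq p k S) (H161.Rd p k S A j ∪ Kc ∪ Bb)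
          {H192.ro (p (jf : ZMod n))} (CL.wst p k) ω₀ + ENNReal.ofReal e

section step

variable {n : ℕ} {p : ZMod n → ℤ × ℤ} {k : ℕ} {S : Finset (ℤ × ℤ)} {A : Finset (Sym2 (ℤ × ℤ))}
  {j : ℕ} {δ ℓ : ℝ} {N : ℕ} {ψ : ℂ → ℂ} {W : ℝ → ℝ} {t T R X Y Rd cd κ d ϱ τ₀ c₀ ρ εn : ℝ}
  {v₀ : ℤ × ℤ} {c : CutP} {w : ℂ} {jf L E : ℤ × ℤ → ℕ} {s : Stg} {F₀ : ℤ × ℤ}
  {ip ia ib : ZMod s.mP} {iE iaE : ZMod s.mE}

/-- The structure `PosP` of one step. -/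
theorem posP_step {u₀ U ε h h₀ εe x : ℝ} (HP : PPs T R (3 * Rd) cd Y u₀ U ε h h₀)
    (Q : Stp p k S A j δ ℓ N ψ W t T R X Y Rd cd κ d ϱ τ₀ c₀ ρ εn v₀ c w jf L E s F₀ ip ia ib iE iaE)
    (hεn : 0 < εn) (hεn' : εn ≤ h₀) (h1 : ϱ + 3 * ℓ ≤ h₀) (h2 : τ₀ ≤ h₀) (h3 : ℓ ≤ ϱ)
    {u : ℤ × ℤ} (hu : u ∈ Uset) {l : ℕ} (l0 : 0 < l) (lM : l < N * s.mE)
    (hexit : Crn ((c.leg N v₀ u).lv (E u + 1)) (qE s.pE iE N (v₀ + u) (l : ZMod (N * s.mE))))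
    {G : Set (ℤ × ℤ)} (hG : Cn (StM 0) G (H192.ro (p (jf u)))
      (qE s.pE iE N (v₀ + u) (l : ZMod (N * s.mE)))) (hx1 : u₀ ≤ x) (hx2 : x ≤ U)
    {Kc Bb : Finset (ℤ × ℤ)} (hK : (c.leg N v₀ u).lv (E u + 1) ∈ Kc)
    (hE : PosE δ ψ W t Kc Bb (sE s.SE N (v₀ + u)) εe x) (he : εe ≤ h₀) :
    PosP δ p k S A j ψ W t (qE s.pE iE N (v₀ + u)) (sE s.SE N (v₀ + u)) (aE s N iE iaE) l ε h x := by
  have S₁ := Q.stg
  have hδ := Q.lat.hδ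
  have hN : 0 < N := by have := Q.lat.hN; omega
  have hN16 : (16 : ℝ) ≤ N := by exact_mod_cast Q.lat.hN
  have hℓ : 0 < ℓ := Q.lat.cut.hℓ
  have hϱ : 0 < ϱ := Q.lat.cut.hϱ
  have hτ := Q.lat.cut.hτ
  have hτ0 : 0 ≤ τ₀ := by linarith
  have hu' : |u.1| ≤ 1 ∧ |u.2| ≤ 1 := by
    rcases hu with rfl | rfl <;> simp
  have hψs : s.ψ = Psi δ s.ℓ N v₀ ψ := by rw [S₁.eψ, S₁.eℓ]
  have h13 : 13 * s.ℓ ≤ N * s.ρm := by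
    rw [S₁.eℓ, S₁.eρ]
    nlinarith
  have hmar : ∀ v ∈ sE s.SE N (v₀ + u), ∀ z ∈ Dsq δ v, ball z (8 * δ) ⊆
      ψ '' loewnerDomain W t := by
    intro v hv z hz
    have h1 := H446.mar_stg S₁.ok hδ hN hψs h13 hu'.1 hu'.2 hv hz
    rwa [S₁.eW, S₁.et] at h1
  have hqP : IsPolygon (qE s.pE iE N (v₀ + u)) := qE_poly S₁.ok.polyE hN
  have hqE : Encloses (qE s.pE iE N (v₀ + u)) (sE s.SE N (v₀ + u)) :=
    qE_encl S₁.ok.polyE S₁.ok.enclE hN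
  have hfoot := foot_pos hδ hqP hqE hmar hE (l : ZMod (N * s.mE)) hK hexit
  have hpar := even_of_cn (even_ro _) hG
  have hPP := HP s S₁.ok S₁.eY (by rw [S₁.eε]; exact hεn) (by rw [S₁.eε]; exact hεn')
    (by rw [S₁.eρ, S₁.eℓ]; linarith) (by rw [S₁.cut.hg]; exact (gg_small hτ0 c w le_rfl).1)
    ⟨w, by rw [S₁.cut.hg]; exact w_mem_gg τ₀ c w, S₁.cut.cc.out⟩
    (by rw [S₁.cut.hg]; exact (gg_small hτ0 c w h2).2)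
    N v₀ u δ ψ hδ hψs n p k S A j (by rw [S₁.eW, S₁.et]; exact Q.dat.dom)
    hN ((by norm_num : 2 ∣ 4).trans Q.lat.hN2) h13 (by rw [S₁.eℓ]; linarith [Q.hNδ]) hu'.1 hu'.2
    iE iaE Q.hiE Q.hiE1 Q.hiaE l x l0 lM hpar hx1 hx2 (by
      rw [S₁.eW, S₁.et]
      exact H446.pos_mono hfoot he Subset.rfl)
  rw [S₁.eW, S₁.et] at hPP
  exact hPP

theorem legOk_of (C : CutLat p k S δ ℓ N ψ X κ d ϱ τ₀ v₀ c w jf L E) {u : ℤ × ℤ} (hu : u ∈ Uset) :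
    (c.leg N v₀ u).Ok := by
  have hN := C.hN
  have hm := C.cut.hm
  have hq := C.cut.hq
  have hu' : u.1 ≤ 1 := by
    rcases hu with rfl | rfl <;> simp
  refine ⟨?_, fun _ => ?_⟩
  · show 2 ≤ (N : ℤ) / 2
    omega
  · show (v₀ + u).1 + 5 ≤ v₀.1 + 2 * c.m * N + (N : ℤ) / 2
    have h1 : 0 ≤ 2 * c.m * (N : ℤ) := by
      have : 0 ≤ c.m := by omega
      positivity
    have h2 : (v₀ + u).1 = v₀.1 + u.1 := rfl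
    omega

/-- The square of the leg beyond the exit is frozen. -/
theorem lv_mem_kcs (C : CutLat p k S δ ℓ N ψ X κ d ϱ τ₀ v₀ c w jf L E) {u : ℤ × ℤ} (hu : u ∈ Uset)
    (KB : Finset (ℤ × ℤ)) :
    (c.leg N v₀ u).lv (E u + 1) ∈ kcs KB c N v₀ u (L u) (H192.dq p k S) := by
  have h1 := LegP.lv_mem (g := c.leg N v₀ u) (C.hEL u hu)
  exact Finset.mem_inter.2 ⟨O_subset_frz (legOk_of C hu) h1, C.inD u hu _ h1⟩

/-- **One step.** -/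
theorem latOne_step {u₀ U ε h h₀ εe x rc cb e d₀ : ℝ} {KB : Finset (ℤ × ℤ)}
    (HP : PPs T R (3 * Rd) cd Y u₀ U ε h h₀) (HC : HCs T R Rd cd Y u₀ U rc cb e ε h d₀)
    (Q : Stp p k S A j δ ℓ N ψ W t T R X Y Rd cd κ d ϱ τ₀ c₀ ρ εn v₀ c w jf L E s F₀ ip ia ib iE iaE)
    (hεn : 0 < εn) (hεn' : εn ≤ h₀) (h1 : ϱ + 3 * ℓ ≤ h₀) (h2 : τ₀ ≤ h₀) (h3 : ℓ ≤ ϱ)
    {u : ℤ × ℤ} (hu : u ∈ Uset) {l : ℕ} (l0 : 0 < l) (lM : l < N * s.mE)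
    (hexit : Crn ((c.leg N v₀ u).lv (E u + 1)) (qE s.pE iE N (v₀ + u) (l : ZMod (N * s.mE))))
    (hx1 : u₀ ≤ x) (hx2 : x ≤ U) {r Rb : ℤ} (hE : PosE δ ψ W t
      (frz (c.leg N v₀ u) (L u) (sE KB N (v₀ + u))) (BR.hbox (v₀ + u) Rb)
      (sE s.SE N (v₀ + u)) εe x) (he : εe ≤ h₀) (he' : εe ≤ ε) (hδ : δ ≤ d₀)
    (hLab : Lab δ p k S A j ψ W t ε) (hPF : PosF δ p k A j ψ W t ε (jf u) x)
    (hPC : PosC δ p k A j ψ W t (kcs KB c N v₀ u (L u) (H192.dq p k S)) (BR.hbox (v₀ + u) Rb)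
      rc cb x)
    (hCL : CutL p k S (jf u) (qE s.pE iE N (v₀ + u)) (sE s.SE N (v₀ + u)) (aE s N iE iaE) l
        (kcs KB c N v₀ u (L u) (H192.dq p k S)) (BR.hbox (v₀ + u) Rb) (BR.hbox (v₀ + u) r)
        (kap (c.leg N v₀ u) (L u)))
    (hLR : LatR p k S A j (kcs KB c N v₀ u (L u) (H192.dq p k S)) (sE s.SE N (v₀ + u))
        (sE s.SP N (v₀ + u)) (kap (c.leg N v₀ u) (L u)) (H192.ro (p (jf u)))
        (qE s.pE iE N (v₀ + u) (l : ZMod (N * s.mE))) (larc N (v₀ + u) (mkShp s.pP s.SP ip ia ib))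
        (v₀ + u) r Rb) :
    LatOne p k S A j (kcs KB c N v₀ u (L u) (H192.dq p k S))
      (sE s.SE N (v₀ + u)) (sq N (v₀ + u) (mkShp s.pP s.SP ip ia ib)) (kap (c.leg N v₀ u) (L u))
      (H192.ro (p (jf u))) (qE s.pE iE N (v₀ + u) (l : ZMod (N * s.mE)))
      (larc N (v₀ + u) (mkShp s.pP s.SP ip ia ib)) (v₀ + u) r Rb e := by
  have hN : 0 < N := by have := Q.lat.hN; omega
  have hE' : PosE δ ψ W t (kcs KB c N v₀ u (L u) (H192.dq p k S)) (BR.hbox (v₀ + u) Rb)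
      (sE s.SE N (v₀ + u)) εe x := PosE_mono hE Finset.inter_subset_left le_rfl
  have hPP := posP_step HP Q hεn hεn' h1 h2 h3 hu l0 lM hexit hCL.foot hx1 hx2
    (lv_mem_kcs Q.lat hu KB) hE' he
  rw [sq_mkShp hN]
  refine ⟨hLR.hx, hLR.hy, hLR.hP, hLR.hisl, hLR.hbP, hLR.hB, hLR.hBK, hLR.hBR, hLR.hKR, hLR.hPR, ?_⟩
  intro ω₀ w1 w2 w3
  refine HC Q.hj0 hδ le_rfl hx1 hx2 Q.dat hLab hPF hPC
    (PosE_mono hE' Subset.rfl he') hPP hCL ?_ ω₀ w1 w2 w3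
  intro z hz
  have := larc_arcM (N := N) (v₀ := v₀ + u) (p := s.pP) (p' := s.pE) (S := s.SP) (ip := ip)
    (ia := ia) (ib := ib) (ip' := iE) hN Q.hval0 Q.harc z hz
  rw [this, aE, Q.hval]

end step

end Vale.Agent.P167.CL
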