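import Vale.Agent.P167.H411.Inputs6
import Vale.Agent.P167.BR.Intf
import Vale.Agent.P167.H192.Dict2

/-!
# P167, block CLOSE: the frame

* `Shp`: a unit lattice polygon `q` (of the medial grid; one unit is `N` squares and has the length
  `ℓ` in the plane) with marks `p` = midpoint of the horizontal side `q 0 → q 1 = q 0 + (1, 0)` (domain
  above), `a = q k`, `b' = q l = 0`, `0 < k < l < m` (counterclockwise `p`, `a`, `b'`), flat (domain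
  above) at `a` up to distance one.
* `sq N v₀ P`: the squares of the polygon enlarged `N` times with `b'` at the site `v₀`; `en`: the
  enlarged polygon.
* `OF`: the mean of `F 1{the half box of b' is joined to T}`, `F` a function of the squares of a
  larger half box; `BR.OD true` is the case `F = XB`.
* `IsG`: the conformal quantity `g = |ψ⁻¹'(b')| / |ψ⁻¹(b') - ψ⁻¹(a)|`, `ψ⁻¹(p) = ∞`.
* `I_geo`: the output of CUT + GEO + CONT + CM + martingale identity, which together with BRIDGE and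
  CORE gives `I_close6 obsF`.
-/

set_option autoImplicit false

open MeasureTheory Filter Topology Set Metric
open scoped NNReal ENNReal

namespace Vale.Agent.P167.CL

open Vale.Agent.P153.R2 (Ex)
open Vale.Agent.P153.R2.R1 (IsU)
open Vale.Agent.P167.E6 Vale.Agent.P167.E2 Vale.Agent.P167.H411

/-! ### Polygons -/

/-- A unit lattice polygon with marks `p` (midpoint of `q 0 → q 1`), `a = q k`, `b' = q l`. -/
structure Shp where
  m : ℕ
  q : ZMod m → ℤ × ℤ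
  S : Finset (ℤ × ℤ)
  k : ℕ
  l : ℕ

/-- The polygon is well formed, `b' = 0`, flat at `b'` up to distance `ρ`, at `a` up to distance `1`
and at `p` up to distance `1 / 2`, with the domain above; `a` and `p` are not in the flat box of
`b'`. -/
structure Shp.Ok (P : Shp) (ρ : ℤ) : Prop where
  poly : IsPolygon P.q
  encl : Encloses P.q P.S
  east : P.q 1 = P.q 0 + (1, 0)
  k_gt : 1 < P.k
  k_lt : P.k < P.l
  l_lt : P.l < P.m
  ql : P.q P.l = (0, 0)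
  flat_a : BR.Flt P.S (P.q P.k) 1
  flat_b : BR.Flt P.S (0, 0) ρ
  far_a : ρ ≤ |(P.q P.k).1| ∨ ρ ≤ |(P.q P.k).2|
  far_p : ρ + 1 ≤ |(P.q 0).1| ∨ ρ ≤ |(P.q 0).2|

open Classical in
/-- The squares of the polygon enlarged `N` times, with `b'` at `v₀`. -/
noncomputable def sq (N : ℕ) (v₀ : ℤ × ℤ) (P : Shp) : Finset (ℤ × ℤ) :=
  (P.S.biUnion fun F =>
    Finset.Ico (N * F.1) (N * (F.1 + 1)) ×ˢ Finset.Ico (N * F.2) (N * (F.2 + 1))).image (· + v₀)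

/-- The enlarged polygon, with `b'` at `v₀`. -/
def en (N : ℕ) (v₀ : ℤ × ℤ) (P : Shp) (x : ZMod (N * P.m)) : ℤ × ℤ :=
  (N : ℤ) • P.q ((x.val / N : ℕ) : ZMod P.m) +
    ((x.val % N : ℕ) : ℤ) • (P.q (((x.val / N : ℕ) : ZMod P.m) + 1) -
      P.q ((x.val / N : ℕ) : ZMod P.m)) + v₀

/-- The base site `p` of the enlarged polygon. -/
def bsp (N : ℕ) (v₀ : ℤ × ℤ) (P : Shp) : ℤ × ℤ := (N : ℤ) • P.q 0 + (((N / 2 : ℕ) : ℤ), 0) + v₀

/-- The boundary sites of the enlarged polygon from `p` to `a`. -/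
def larc (N : ℕ) (v₀ : ℤ × ℤ) (P : Shp) : Set (ℤ × ℤ) :=
  {z | ∃ x : ℕ, N / 2 ≤ x ∧ x ≤ N * P.k ∧ en N v₀ P (x : ZMod (N * P.m)) = z}

/-- `F` depends only on the squares of `B`. -/
def DepOn (B : Finset (ℤ × ℤ)) (F : Cfg → ℝ) : Prop :=
  ∀ ω ω' : Cfg, (∀ v ∈ B, ω v = ω' v) → F ω = F ω'

open Classical in
/-- The indicator of the event that the half box of radius `r` at `b` is joined to `T` in `D` by an
open path. -/
noncomputable def ind (D : Finset (ℤ × ℤ)) (T : Set (ℤ × ℤ)) (b : ℤ × ℤ) (r : ℤ) (ω : Cfg) : ℝ :=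
  if BR.Jn true D ω (BR.sites (BR.hbox b r)) T then 1 else 0

/-- The mean of the local functional `F` on this event. -/
noncomputable def OF (D : Finset (ℤ × ℤ)) (T : Set (ℤ × ℤ)) (b : ℤ × ℤ) (r : ℤ) (F : Cfg → ℝ) : ℝ :=
  ∫ ω, F ω * ind D T b r ω ∂μ

theorem OD_eq (D : Finset (ℤ × ℤ)) (T : Set (ℤ × ℤ)) (b : ℤ × ℤ) (r R : ℤ) (f : ℤ × ℤ → ℝ) :
    BR.OD true D T b r R f = OF D T b r (BR.XB b r R f) := rfl

/-- `g = |ψ⁻¹'(b')| / |ψ⁻¹(b') - ψ⁻¹(a)|` for the polygon of mesh `ℓ`, `ψ` a conformal map from the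
upper half-plane with `ψ 0 = a`, `ψ ∞ = p`. -/
def IsG (P : Shp) (ℓ g : ℝ) : Prop :=
  ∃ (ψ : ℂ → ℂ) (x : ℝ),
    IsU ψ (interior (region ℓ P.S)) (ℓ * pt (P.q P.k)) (ℓ * (pt (P.q 0) + 1 / 2)) ∧
    0 < x ∧ 0 < g ∧ ψ x = 0 ∧ HasDerivWithinAt ψ ((1 / (g * x) : ℝ) : ℂ) {z | 0 ≤ z.im} x

/-! ### The input from CUT, GEO, CONT and CM -/

/-- The comparison for one lattice domain. `v₀` is the site of `b'`, `Dc u` the squares of the domain
minus the cut which starts below `v₀ + u`, `W` the wired sites. For every outcome and every step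
before the exit there is a polygon of the finite family `Sh` such that (i) the conditional
expectations given the first `k` steps of `F 1{half box of b' joined to W in Dc}` agree with the
expectations for the polygon up to `ε' E|F|`, for the half boxes at `v₀` and at `v₀ + (1, 0)`, for all
functions `F` of the squares of a half box of radius at most `ρ N / ℓ`; (ii) the conformal quantity is
close to the observable. -/
def GeoAt (X : Vale.Agent.P153.M1.Expl (Finset (Sym2 (ℤ × ℤ))) Medial) (T R b ε ε' ℓ ρ M : ℝ)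
    (Sh : Set Shp) (N : ℕ) : Prop :=
  ∃ (v₀ : ℤ × ℤ) (Dc : ℤ × ℤ → Finset (ℤ × ℤ)) (W : Set (ℤ × ℤ)) (g₀ : ℝ), M⁻¹ ≤ g₀ ∧ g₀ ≤ M ∧
    ∀ A ∈ X.C, ∀ k < X.K A, (∀ i < k, X.c A i ≤ T ∧ |X.V A i| ≤ R) → ∃ P ∈ Sh,
      (∀ u : ℤ × ℤ, (u = (0, 0) ∨ u = (1, 0)) → ∀ (r Rb : ℤ) (F : Cfg → ℝ), 0 < r → r ≤ Rb →
        (Rb : ℝ) ≤ ρ * N / ℓ → DepOn (BR.hbox (v₀ + u) Rb) F →
        |cex X (fun A' => F (H192.cfg (A' : Set _)) * ind (Dc u) W (v₀ + u) r (H192.cfg (A' : Set _)))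
            A k -
          OF (sq N (v₀ + u) P) (larc N (v₀ + u) P) (v₀ + u) r F| ≤ ε' * ∫ ω, |F ω| ∂μ) ∧
      ∀ g : ℝ, IsG P ℓ g → |(g / g₀) ^ (1 / 3 : ℝ) - obsF (X.W A) b (X.c A k)| ≤ ε

/-- Output of CUT + GEO + CONT + CM. The flat radius `ρ` at `b'` and the bound `M` depend on `ε`
(position and size of the cut); the mesh `ℓ` of the polygons depends also on `ε'`. -/
def I_geo : Prop := ∀ (Φ : (ℝ × ℝ) ≃ₜ (ℝ × ℝ)) (ψ : ℂ → ℂ)
  (δ : ℕ → ℝ) (N k : ℕ → ℕ) (p : ∀ n, ZMod (N n) → ℤ × ℤ) (S : ℕ → Finset (ℤ × ℤ))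
  (ψn : ℕ → ℂ → ℂ), Set6 Φ ψ δ N k p S ψn → ∀ T R : ℝ, 0 ≤ T → 0 < R → ∃ b₁ : ℝ, ∀ b : ℝ, b₁ ≤ b →
    ∀ ε : ℝ, 0 < ε → ∃ ρ M : ℝ, 0 < ρ ∧ 0 < M ∧ ∀ ε' : ℝ, 0 < ε' →
      ∃ ℓ : ℝ, 0 < ℓ ∧ ℓ < ρ ∧ ∃ Sh : Set Shp, Sh.Finite ∧
        (∀ P ∈ Sh, P.Ok (⌈2 * ρ / ℓ⌉) ∧ ∃ g, IsG P ℓ g ∧ M⁻¹ ≤ g ∧ g ≤ M) ∧
        ∀ᶠ n in atTop, GeoAt (exn δ N k p S ψn n) T R b ε ε' ℓ ρ M Sh (4 * ⌊ℓ / (4 * δ n)⌋₊)

end Vale.Agent.P167.CL
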