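import Vale.Agent.P167.CL.Sh2
import Vale.Agent.P167.H756.Glue3
import Vale.Agent.P167.H756.Chain

/-!
# P167, block CLOSE [SH]: comparison (ii) of `GeoAt` and the finite family of shapes

* `GPos.sim`, `D6_sim` : similarities;
* `Mk ρ ℓ p₀ S ip ia ib` : a marked polygon (mesh `ℓ`, `b' = 0`);
* `exists_shape` : from the structures `PD` of the polygons at the times `0` and `t` to `Shp.Ok`, the
  bounds of `g` and the comparison of `(g / g₀) ^ (1/3)` with the observable;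
* `family_finite` : the finite family.
-/

set_option autoImplicit false

open Set Topology Metric Filter Bornology

namespace Vale.Agent.P167.CL

open Vale.Agent.P153.R2.R1
open Vale.Agent.P153.R2.L1 (HH mem_HH)
open Vale.Agent.P167.E6
open Vale.Agent.P167.H756
open Vale.Agent.P167.H411 (obsF)

/-! ### Similarities -/

theorem isU_sim {ψ : ℂ → ℂ} {P : Set ℂ} {a p : ℂ} (h : IsU ψ P a p) {s : ℂ} (hs : s ≠ 0) (z₀ : ℂ) :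
    IsU (fun z => s * ψ z + z₀) ((fun z => s * z + z₀) '' P) (s * a + z₀) (s * p + z₀) where
  diff := (h.diff.const_mul s).add_const z₀
  inj := by
    intro x hx y hy e
    have e' : s * ψ x = s * ψ y := add_right_cancel e
    exact h.inj hx hy (mul_left_cancel₀ hs e')
  img := by
    rw [← h.img, image_image]
  cont := (continuousOn_const.mul h.cont).add continuousOn_const
  zero := by rw [h.zero]
  infty := (h.infty.const_mul s).add_const z₀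

theorem GPos.sim {P : Set ℂ} {a p b : ℂ} {g : ℝ} (h : GPos P a p b g) {s : ℝ} (hs : 0 < s)
    (z₀ : ℂ) : GPos ((fun z => (s : ℂ) * z + z₀) '' P) (s * a + z₀) (s * p + z₀) (s * b + z₀)
      (g / s) := by
  obtain ⟨φ, x, h1, h2, h3, h4, h5⟩ := h
  have hs' : (s : ℂ) ≠ 0 := by exact_mod_cast hs.ne'
  refine ⟨fun z => s * φ z + z₀, x, isU_sim h1 hs' z₀, h2, by positivity, ?_, ?_⟩
  · show (s : ℂ) * φ x + z₀ = s * b + z₀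
    rw [h4]
  have h6 := (h5.const_mul (s : ℂ)).add_const z₀
  have e : (s : ℂ) * ((1 / (g * x) : ℝ) : ℂ) = ((1 / (g / s * x) : ℝ) : ℂ) := by
    rw [← Complex.ofReal_mul]
    congr 1
    field_simp
  rw [e] at h6
  exact h6

/-- The domain of the same squares at another mesh. -/
theorem region_sim {s ℓ : ℝ} (hs : 0 < s) (S : Finset (ℤ × ℤ)) :
    region (s * ℓ) S = (fun z : ℂ => (s : ℂ) * z) '' region ℓ S := by
  ext z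
  constructor
  · rintro ⟨f, hf, h1, h2, h3, h4⟩
    have e : (fun z : ℂ => (s : ℂ) * z) (((1 / s : ℝ) : ℂ) * z) = z := by
      show (s : ℂ) * (((1 / s : ℝ) : ℂ) * z) = z
      rw [← mul_assoc, ← Complex.ofReal_mul, mul_one_div_cancel hs.ne', Complex.ofReal_one, one_mul]
    refine ⟨((1 / s : ℝ) : ℂ) * z, ⟨f, hf, ?_⟩, e⟩
    rw [Complex.re_ofReal_mul, Complex.im_ofReal_mul]
    have k : ∀ c u : ℝ, s * ℓ * c ≤ u → ℓ * c ≤ 1 / s * u := fun c u hc => by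
      rw [one_div, inv_mul_eq_div, le_div_iff₀ hs]; linarith
    have k' : ∀ c u : ℝ, u ≤ s * ℓ * c → 1 / s * u ≤ ℓ * c := fun c u hc => by
      rw [one_div, inv_mul_eq_div, div_le_iff₀ hs]; linarith
    exact ⟨k _ _ h1, k' _ _ h2, k _ _ h3, k' _ _ h4⟩
  · rintro ⟨w, ⟨f, hf, h1, h2, h3, h4⟩, rfl⟩
    refine ⟨f, hf, ?_⟩
    simp only [Complex.re_ofReal_mul, Complex.im_ofReal_mul, mul_assoc]
    exact ⟨mul_le_mul_of_nonneg_left h1 hs.le, mul_le_mul_of_nonneg_left h2 hs.le,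
      mul_le_mul_of_nonneg_left h3 hs.le, mul_le_mul_of_nonneg_left h4 hs.le⟩

/-- The similarity as a homeomorphism. -/
noncomputable def simH {s : ℝ} (hs : 0 < s) : ℂ ≃ₜ ℂ :=
  Homeomorph.mulLeft₀ (s : ℂ) (by exact_mod_cast hs.ne')

theorem D6_sim {s ℓ : ℝ} (hs : 0 < s) (S : Finset (ℤ × ℤ)) :
    D6 (s * ℓ) S = (fun z : ℂ => (s : ℂ) * z) '' D6 ℓ S := by
  have h := (simH hs).image_interior (region ℓ S)
  have e : (fun z : ℂ => (s : ℂ) * z) = simH hs := rfl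
  rw [D6, D6, region_sim hs, e, h]

/-- The number `g` of a shape at the actual mesh: `ℓ' = s ℓ`, the vertex `b'` at `z₀`. -/
theorem isG_sim {P : Shp} {ℓ g s : ℝ} (h : IsG P ℓ g) (hs : 0 < s) (z₀ : ℂ) :
    GPos ((· + z₀) '' D6 (s * ℓ) P.S) ((s * ℓ : ℝ) * pt (P.q P.k) + z₀)
      ((s * ℓ : ℝ) * (pt (P.q 0) + 1 / 2) + z₀) z₀ (g / s) := by
  have h1 : GPos (D6 ℓ P.S) (ℓ * pt (P.q P.k)) (ℓ * (pt (P.q 0) + 1 / 2)) 0 g := h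
  have h2 := GPos.sim h1 hs z₀
  have e : (fun z => (s : ℂ) * z + z₀) '' D6 ℓ P.S = (· + z₀) '' D6 (s * ℓ) P.S := by
    rw [D6_sim hs, image_image]
  rw [e, mul_zero, zero_add] at h2
  convert h2 using 1
  · push_cast; ring
  · push_cast; ring

/-- The lattice squares of the enlarged shape with `b'` at `v₀`. -/
theorem D6_sq {P : Shp} {δ : ℝ} (hδ : 0 < δ) {N : ℕ} (hN : 0 < N) (v₀ : ℤ × ℤ) :
    D6 δ (sq N v₀ P) = (· + δ * pt v₀) '' D6 (N * δ) P.S := by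
  have hreg : region δ (sq N v₀ P) = (· + δ * pt v₀) '' region (N * δ) P.S := by
    have hNr : (0 : ℝ) < N := by exact_mod_cast hN
    ext z
    constructor
    · rintro ⟨f, hf, h1, h2, h3, h4⟩
      simp only [sq, Finset.mem_image, Finset.mem_biUnion, Finset.mem_product,
        Finset.mem_Ico] at hf
      obtain ⟨f', ⟨F, hF, ⟨a1, a2⟩, a3, a4⟩, rfl⟩ := hf
      refine ⟨z - δ * pt v₀, ⟨F, hF, ?_⟩, by simp⟩
      have e1 : (z - δ * pt v₀).re = z.re - δ * v₀.1 := by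
        rw [Complex.sub_re, Complex.re_ofReal_mul]; rfl
      have e2 : (z - δ * pt v₀).im = z.im - δ * v₀.2 := by
        rw [Complex.sub_im, Complex.im_ofReal_mul]; rfl
      rw [e1, e2]
      simp only [Prod.fst_add, Prod.snd_add, Int.cast_add] at h1 h2 h3 h4
      have b1 : (N : ℝ) * F.1 ≤ f'.1 := by exact_mod_cast a1
      have b2 : (f'.1 : ℝ) + 1 ≤ N * (F.1 + 1) := by exact_mod_cast a2
      have b3 : (N : ℝ) * F.2 ≤ f'.2 := by exact_mod_cast a3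
      have b4 : (f'.2 : ℝ) + 1 ≤ N * (F.2 + 1) := by exact_mod_cast a4
      refine ⟨?_, ?_, ?_, ?_⟩ <;> nlinarith
    · rintro ⟨w, ⟨F, hF, h1, h2, h3, h4⟩, rfl⟩
      -- a lattice square which contains `w`
      have key : ∀ (c : ℤ) (u : ℝ), N * δ * c ≤ u → u ≤ N * δ * (c + 1) →
          ∃ x : ℤ, N * c ≤ x ∧ x < N * (c + 1) ∧ δ * x ≤ u ∧ u ≤ δ * (x + 1) := by
        intro c u g1 g2
        by_cases hlt : u < N * δ * (c + 1)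
        · refine ⟨⌊u / δ⌋, ?_, ?_, ?_, ?_⟩
          · rw [Int.le_floor]
            push_cast
            rw [le_div_iff₀ hδ]; linarith
          · rw [Int.floor_lt]
            push_cast
            rw [div_lt_iff₀ hδ]; linarith
          · have := Int.floor_le (u / δ)
            rwa [le_div_iff₀ hδ, mul_comm] at this
          · have := (Int.lt_floor_add_one (u / δ)).le
            rwa [div_le_iff₀ hδ, mul_comm] at this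
        · push Not at hlt
          have hu : u = N * δ * (c + 1) := le_antisymm g2 hlt
          refine ⟨N * (c + 1) - 1, ?_, by omega, ?_, ?_⟩
          · have : (1 : ℤ) ≤ N := by exact_mod_cast hN
            nlinarith
          · push_cast
            nlinarith
          · push_cast
            rw [hu]
            nlinarith
      obtain ⟨x, x1, x2, x3, x4⟩ := key F.1 w.re h1 h2
      obtain ⟨y, y1, y2, y3, y4⟩ := key F.2 w.im h3 h4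
      refine ⟨(x, y) + v₀, ?_, ?_⟩
      · simp only [sq, Finset.mem_image, Finset.mem_biUnion, Finset.mem_product, Finset.mem_Ico]
        exact ⟨(x, y), ⟨F, hF, ⟨x1, x2⟩, y1, y2⟩, rfl⟩
      · have e1 : (w + δ * pt v₀).re = w.re + δ * v₀.1 := by
          rw [Complex.add_re, Complex.re_ofReal_mul]; rfl
        have e2 : (w + δ * pt v₀).im = w.im + δ * v₀.2 := by
          rw [Complex.add_im, Complex.im_ofReal_mul]; rfl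
        simp only [Prod.fst_add, Prod.snd_add, Int.cast_add, e1, e2]
        refine ⟨?_, ?_, ?_, ?_⟩ <;> nlinarith
  have h := (Homeomorph.addRight ((δ : ℂ) * pt v₀)).image_interior (region (N * δ) P.S)
  rw [D6, D6, hreg]
  exact h.symm

/-! ### The marked polygons -/

/-- A square lattice polygon (mesh `ℓ`) with the marks `ip` (base point), `ia` (tip), `ib` (the point
`b' = 0`), flat with radius `2 ρ` at `b'`. -/
structure Mk (ρ ℓ : ℝ) {m : ℕ} (p₀ : ZMod m → ℤ × ℤ) (S : Finset (ℤ × ℤ)) (ip ia ib : ZMod m) :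
    Prop where
  poly : IsPolygon p₀
  encl : Encloses p₀ S
  east : p₀ (ip + 1) = p₀ ip + (1, 0)
  zero : p₀ ib = (0, 0)
  flat_a : BR.Flt S (p₀ ia) 1
  flat_b : BR.Flt S (0, 0) ⌈2 * ρ / ℓ⌉
  far_a : ⌈2 * ρ / ℓ⌉ ≤ |(p₀ ia).1| ∨ ⌈2 * ρ / ℓ⌉ ≤ |(p₀ ia).2|
  far_p : ⌈2 * ρ / ℓ⌉ + 1 ≤ |(p₀ ip).1| ∨ ⌈2 * ρ / ℓ⌉ ≤ |(p₀ ip).2|
  ne0 : ia ≠ ip
  ne1 : ia ≠ ip + 1

section Mk

variable {ρ ℓ : ℝ} {m : ℕ} {p₀ : ZMod m → ℤ × ℤ} {S : Finset (ℤ × ℤ)} {ip ia ib : ZMod m}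

theorem Mk.neZero (h : Mk ρ ℓ p₀ S ip ia ib) : NeZero m := ⟨by have := h.poly.1; omega⟩

theorem Mk.rpos (hρ : 0 < ρ) (hℓ : 0 < ℓ) : 0 < ⌈2 * ρ / ℓ⌉ :=
  Int.ceil_pos.2 (by positivity)

theorem Mk.le_mul (hℓ : 0 < ℓ) : 2 * ρ ≤ ℓ * ⌈2 * ρ / ℓ⌉ := by
  have := Int.le_ceil (2 * ρ / ℓ)
  rw [div_le_iff₀ hℓ] at this
  linarith

theorem Mk.flatUp (h : Mk ρ ℓ p₀ S ip ia ib) (hℓ : 0 < ℓ) : FlatUp (D6 ℓ S) 0 (2 * ρ) := by
  have h1 := flat_up h.flat_b hℓ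
  have e : (ℓ : ℂ) * pt (0, 0) = 0 := by apply Complex.ext <;> simp [pt]
  rw [e] at h1
  intro z hz
  refine h1 z ?_
  rw [mem_ball] at hz ⊢
  exact hz.trans_le (Mk.le_mul hℓ)

theorem dist_pt_zero {v : ℤ × ℤ} {r : ℤ} (hℓ : 0 < ℓ) (h : r ≤ |v.1| ∨ r ≤ |v.2|) :
    ℓ * r ≤ dist (ℓ * pt v) 0 := by
  rw [dist_zero_right]
  rcases h with h | h
  · have h1 := Complex.abs_re_le_norm (ℓ * pt v)
    have e : (ℓ * pt v : ℂ).re = ℓ * v.1 := by rw [Complex.re_ofReal_mul]; rfl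
    rw [e, abs_mul, abs_of_pos hℓ] at h1
    have h2 : (r : ℝ) ≤ |(v.1 : ℝ)| := by exact_mod_cast h
    have := mul_le_mul_of_nonneg_left h2 hℓ.le
    linarith
  · have h1 := Complex.abs_im_le_norm (ℓ * pt v)
    have e : (ℓ * pt v : ℂ).im = ℓ * v.2 := by rw [Complex.im_ofReal_mul]; rfl
    rw [e, abs_mul, abs_of_pos hℓ] at h1
    have h2 : (r : ℝ) ≤ |(v.2 : ℝ)| := by exact_mod_cast h
    have := mul_le_mul_of_nonneg_left h2 hℓ.le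
    linarith

theorem Mk.dist_a (h : Mk ρ ℓ p₀ S ip ia ib) (hℓ : 0 < ℓ) :
    2 * ρ ≤ dist (ℓ * pt (p₀ ia)) 0 := (Mk.le_mul hℓ).trans (dist_pt_zero hℓ h.far_a)

theorem Mk.dist_p (h : Mk ρ ℓ p₀ S ip ia ib) (hℓ : 0 < ℓ) :
    2 * ρ ≤ dist (ℓ * (pt (p₀ ip) + 1 / 2)) 0 := by
  refine (Mk.le_mul hℓ).trans ?_
  rw [dist_zero_right]
  rcases h.far_p with h | h
  · have h1 := Complex.abs_re_le_norm (ℓ * (pt (p₀ ip) + 1 / 2))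
    have e : (ℓ * (pt (p₀ ip) + 1 / 2) : ℂ).re = ℓ * ((p₀ ip).1 + 1 / 2) := by
      rw [Complex.re_ofReal_mul, Complex.add_re, pt_re]
      norm_num
    rw [e, abs_mul, abs_of_pos hℓ] at h1
    have h2 : (⌈2 * ρ / ℓ⌉ : ℝ) + 1 ≤ |((p₀ ip).1 : ℝ)| := by exact_mod_cast h
    have h3 : |((p₀ ip).1 : ℝ)| ≤ |((p₀ ip).1 : ℝ) + 1 / 2| + 1 / 2 := by
      have := abs_sub (((p₀ ip).1 : ℝ) + 1 / 2) (1 / 2)
      rw [add_sub_cancel_right, abs_of_pos (by norm_num : (0 : ℝ) < 1 / 2)] at this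
      exact this
    have := mul_le_mul_of_nonneg_left (show (⌈2 * ρ / ℓ⌉ : ℝ) ≤ |((p₀ ip).1 : ℝ) + 1 / 2| by
      linarith) hℓ.le
    linarith
  · have h1 := Complex.abs_im_le_norm (ℓ * (pt (p₀ ip) + 1 / 2))
    have e : (ℓ * (pt (p₀ ip) + 1 / 2) : ℂ).im = ℓ * (p₀ ip).2 := by
      rw [Complex.im_ofReal_mul, Complex.add_im, pt_im]
      norm_num
    rw [e, abs_mul, abs_of_pos hℓ] at h1
    have h2 : (⌈2 * ρ / ℓ⌉ : ℝ) ≤ |((p₀ ip).2 : ℝ)| := by exact_mod_cast h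
    have := mul_le_mul_of_nonneg_left h2 hℓ.le
    linarith

theorem Mk.zero_frontier (h : Mk ρ ℓ p₀ S ip ia ib) (hℓ : 0 < ℓ) :
    (0 : ℂ) ∈ frontier (D6 ℓ S) := by
  rw [frontier_D6 hℓ h.poly h.encl, range_PF6 (by have := h.poly.1; omega)]
  refine mem_iUnion.2 ⟨ib, ?_⟩
  rw [h.zero]
  have e : (ℓ : ℂ) * pt (0, 0) = 0 := by apply Complex.ext <;> simp [pt]
  rw [e]
  exact left_mem_segment ℝ _ _

/-- The shape is well formed. -/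
theorem Mk.ok (h : Mk ρ ℓ p₀ S ip ia ib) (hρ : 0 < ρ) (hℓ : 0 < ℓ) {g : ℝ}
    (hg : GPos (D6 ℓ S) (ℓ * pt (p₀ ia)) (ℓ * (pt (p₀ ip) + 1 / 2)) 0 g) :
    (mkShp p₀ S ip ia ib).Ok ⌈2 * ρ / ℓ⌉ := by
  have := h.neZero
  exact mkShp_ok hℓ h.poly h.encl h.east h.zero h.flat_a h.flat_b (Mk.rpos hρ hℓ) h.far_a h.far_p
    h.ne0 h.ne1 hg

end Mk

/-- The family of the shapes. -/
def Fam (ρ ℓ M : ℝ) (B : Finset (ℤ × ℤ)) : Set Shp :=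
  {P | P.Ok ⌈2 * ρ / ℓ⌉ ∧ P.S ⊆ B ∧ ∃ g, IsG P ℓ g ∧ M⁻¹ ≤ g ∧ g ≤ M}

theorem fam_finite (ρ ℓ M : ℝ) (B : Finset (ℤ × ℤ)) : (Fam ρ ℓ M B).Finite :=
  (shp_finite _ B).subset fun _ hP => ⟨hP.1, hP.2.1⟩

/-- **From `PD` to the shapes**: the polygon at time `0` and the polygon at time `t`. The map `ψ` is the
affine image `z ↦ c (1 + i) ψ_n z - β` of the uniformizer for which `b' = 0` and the mesh is `ℓ`.
`C` is an access to the middle of the box above `b' = 0`. -/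
theorem exists_shape {T R X Y Rd cd ε : ℝ} (hT : 0 ≤ T) (hR : 0 ≤ R) (hRd : 0 < Rd)
    (hcd : 0 < cd) (hX0 : 0 < X) (hX : 8 * R ≤ X) (hX2 : 256 * T ≤ X ^ 2) (hY0 : 0 < Y)
    (hY : 8 * R ≤ Y) (hY2 : 64 * T ≤ Y ^ 2) (hε : 0 < ε) :
    ∃ h > 0, ∀ ρ : ℝ, 0 < ρ → ∀ η : ℝ, 0 < η → ∃ M > 0,
      ∀ ℓ : ℝ, 0 < ℓ → ∀ ψ : ℂ → ℂ, HConf Rd cd Y ψ →
      ∀ {m : ℕ} (p₀ : ZMod m → ℤ × ℤ) (S₀ : Finset (ℤ × ℤ)) (ip ia ib : ZMod m) (C₀ E₀ : Set ℂ),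
      Mk ρ ℓ p₀ S₀ ip ia ib →
      PD h ψ (fun _ => 0) 0 Y (D6 ℓ S₀) (ℓ * pt (p₀ ia)) (ℓ * (pt (p₀ ip) + 1 / 2)) →
      (0 : ℂ) ∈ closure (D6 ℓ S₀ ∩ ψ '' {z | z ∈ HH ∧ ‖z - X‖ < h}) →
      IsPreconnected C₀ → ψ (Y * Complex.I) ∈ C₀ → (ρ : ℂ) * Complex.I ∈ C₀ →
      (∀ z ∈ C₀, ball z η ⊆ D6 ℓ S₀) →
      (∀ C : Set ℂ, IsPreconnected C → C ⊆ E₀ → (C ∩ D6 ℓ S₀).Nonempty → C ⊆ D6 ℓ S₀) →
      ∃ g₀ : ℝ, M⁻¹ ≤ g₀ ∧ g₀ ≤ M ∧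
        ∀ (W : ℝ → ℝ) (t : ℝ), Drv T R W t →
        ∀ {m₁ : ℕ} (p₁ : ZMod m₁ → ℤ × ℤ) (S₁ : Finset (ℤ × ℤ)) (jp ja jb : ZMod m₁)
          (C₁ E₁ : Set ℂ), Mk ρ ℓ p₁ S₁ jp ja jb →
        PD h ψ W t Y (D6 ℓ S₁) (ℓ * pt (p₁ ja)) (ℓ * (pt (p₁ jp) + 1 / 2)) →
        (0 : ℂ) ∈ closure (D6 ℓ S₁ ∩ ψ '' {z | z ∈ HH ∧ ‖z - X‖ < h}) →
        IsPreconnected C₁ → ψ (Y * Complex.I) ∈ C₁ → (ρ : ℂ) * Complex.I ∈ C₁ →
        (∀ z ∈ C₁, ball z η ⊆ D6 ℓ S₁) →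
        (∀ C : Set ℂ, IsPreconnected C → C ⊆ E₁ → (C ∩ D6 ℓ S₁).Nonempty → C ⊆ D6 ℓ S₁) →
        (∀ z ∈ ball (X : ℂ) (X / 2), 0 < z.im → ψ z ∈ D6 ℓ S₀ → ψ z ∈ E₁) →
        (∀ z ∈ ball (X : ℂ) (X / 2), 0 < z.im → ψ z ∈ D6 ℓ S₁ → ψ z ∈ E₀) →
        (mkShp p₁ S₁ jp ja jb).Ok ⌈2 * ρ / ℓ⌉ ∧
        (∃ g, IsG (mkShp p₁ S₁ jp ja jb) ℓ g ∧ M⁻¹ ≤ g ∧ g ≤ M) ∧
        ∀ g, IsG (mkShp p₁ S₁ jp ja jb) ℓ g → |(g / g₀) ^ (1 / 3 : ℝ) - obsF W X t| ≤ ε := by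
  have hX2' : 64 * T ≤ X ^ 2 := by nlinarith
  obtain ⟨h₁, hh₁, HB'⟩ := G_bounds' (T := T) (R := R) hT hR hRd hcd hX0 hX hX2' hY0 hY hY2
  obtain ⟨h₂, hh₂, HR⟩ := ratio_obsF' hT hR hRd hcd hX0 hX hX2 hY0 hY hY2 hε
  refine ⟨min h₁ h₂, lt_min hh₁ hh₂, fun ρ hρ η hη => ?_⟩
  obtain ⟨M, hM, HB⟩ := HB' (2 * ρ) (by positivity) η hη
  refine ⟨M, hM, ?_⟩
  intro ℓ hℓ ψ hψ m p₀ S₀ ip ia ib C₀ E₀ hMk hPD hbm hC1 hC2 hC3 hC4 hE₀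
  have hh0 : 0 < min h₁ h₂ := lt_min hh₁ hh₂
  have emid : (0 : ℂ) + ((2 * ρ / 2 : ℝ) : ℂ) * Complex.I = (ρ : ℂ) * Complex.I := by
    rw [zero_add]; congr 2; ring
  have hmono : ∀ {h : ℝ} {D : Set ℂ}, min h₁ h₂ ≤ h →
      (0 : ℂ) ∈ closure (D ∩ ψ '' {z | z ∈ HH ∧ ‖z - X‖ < min h₁ h₂}) →
      (0 : ℂ) ∈ closure (D ∩ ψ '' {z | z ∈ HH ∧ ‖z - X‖ < h}) := by
    intro h D hh hc
    refine closure_mono (inter_subset_inter_right _ (image_mono ?_)) hc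
    exact fun z hz => ⟨hz.1, hz.2.trans_le hh⟩
  have hD0 : Drv T R (fun _ => 0) 0 :=
    ⟨continuous_const, le_rfl, hT, fun s hs => by simpa using hR⟩
  obtain ⟨g₀, hg₀, hg₀1, hg₀2⟩ := HB ψ hψ (fun _ => 0) 0 hD0 _ _ _ 0
    (hPD.mono hh0 (min_le_left _ _)) (hMk.zero_frontier hℓ) (hmono (min_le_left _ _) hbm)
    (hMk.flatUp hℓ) (hMk.dist_p hℓ) (hMk.dist_a hℓ) C₀ hC1 hC2 (by rw [emid]; exact hC3) hC4
  refine ⟨g₀, hg₀1, hg₀2, ?_⟩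
  intro W t hW m₁ p₁ S₁ jp ja jb C₁ E₁ hMk₁ hPD₁ hbm₁ hK1 hK2 hK3 hK4 hE₁ hE01 hE10
  obtain ⟨g, hg, hg1, hg2⟩ := HB ψ hψ W t hW _ _ _ 0
    (hPD₁.mono hh0 (min_le_left _ _)) (hMk₁.zero_frontier hℓ) (hmono (min_le_left _ _) hbm₁)
    (hMk₁.flatUp hℓ) (hMk₁.dist_p hℓ) (hMk₁.dist_a hℓ) C₁ hK1 hK2 (by rw [emid]; exact hK3) hK4
  have := hMk₁.neZero
  refine ⟨hMk₁.ok hρ hℓ hg, ⟨g, isG_mkShp.2 hg, hg1, hg2⟩, ?_⟩
  intro g' hg'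
  rw [isG_mkShp] at hg'
  exact HR ψ hψ W t hW _ _ E₀ E₁ _ _ _ _ 0 (hPD.mono hh0 (min_le_right _ _))
    (hPD₁.mono hh0 (min_le_right _ _)) hE₀ hE₁ hE01 hE10 (hMk.zero_frontier hℓ)
    (hmono (min_le_right _ _) hbm) g₀ g' hg₀ hg'

end Vale.Agent.P167.CL
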