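import Vale.Agent.P167.CL.Cut
import Vale.Agent.P167.CL.Sh3

/-!
# P167, block CLOSE [ASM], first level: `I_geo` from the lattice comparison at one stage

* `LatOne` : the hypotheses of `geo_i'` for one outcome, one step, one base site, one pair of radii;
* `StageAt` : `GeoAt` with `LatOne` in place of comparison (i) and the family `Fam`;
* `i_geo_of` : `I_stage → I_geo`.
-/

set_option autoImplicit false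

open MeasureTheory Filter Topology Set Metric
open scoped NNReal ENNReal

namespace Vale.Agent.P167.CL

open Vale.Agent.P167.H531 Vale.Agent.P167.H558
open Vale.Agent.P167.E6 Vale.Agent.P167.E2 Vale.Agent.P167.H411
open Vale.Agent.P167.H161 (Rd)

/-- The lattice comparison for one outcome `A`, one step `j`, the base site `b` and the radii
`r ≤ Rb`: `Kc` the squares of the cut with the frozen configuration `κ`, `PE` the squares of the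
polygon with the cut, `P` the squares of the polygon, `x`, `y` the foot of the cut in the domain and in
`PE`, `L` the arc from the base point to the tip, `e` the error. -/
structure LatOne {n : ℕ} (p : ZMod n → ℤ × ℤ) (k : ℕ) (S : Finset (ℤ × ℤ))
    (A : Finset (Sym2 (ℤ × ℤ))) (j : ℕ) (Kc PE P : Finset (ℤ × ℤ)) (κ : Cfg) (x y : ℤ × ℤ)
    (L : Set (ℤ × ℤ)) (b : ℤ × ℤ) (r Rb : ℤ) (e : ℝ) : Prop where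
  hx : CutOk (H192.dq p k S) Kc (BR.hbox b r) κ x (wst p k)
  hy : CutOk PE Kc (BR.hbox b r) κ y L
  hP : P ⊆ PE \ Kc
  hisl : ∀ i ∈ PE \ Kc, i ∉ P → ∀ v ∈ P, ∀ u, Crn i u → ¬ Crn v u
  hbP : BR.hbox b r ⊆ P
  hB : BR.hbox b Rb ⊆ H192.dq p k S
  hBK : Disjoint Kc (BR.hbox b Rb)
  hBR : Disjoint (Rd p k S A j) (BR.hbox b Rb)
  hKR : Disjoint (Rd p k S A j) Kc
  hPR : Disjoint (Rd p k S A j) PE
  hcmp : ∀ ω₀ : Cfg, (∀ v ∈ Rd p k S A j, ω₀ v = H192.cfg (A : Set _) v) →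
    (∀ v ∈ Kc, ω₀ v = κ v) → (∀ v ∈ BR.hbox b r, ω₀ v = true) →
    cpr fair (StM 0) (H192.dq p k S) (Rd p k S A j ∪ Kc ∪ BR.hbox b Rb) {x} (wst p k) ω₀ ≤
      cpr fair (StM 0) PE (Rd p k S A j ∪ Kc ∪ BR.hbox b Rb) {y} L ω₀ + ENNReal.ofReal e ∧
    cpr fair (StM 0) PE (Rd p k S A j ∪ Kc ∪ BR.hbox b Rb) {y} L ω₀ ≤
      cpr fair (StM 0) (H192.dq p k S) (Rd p k S A j ∪ Kc ∪ BR.hbox b Rb) {x} (wst p k) ω₀ +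
        ENNReal.ofReal e

/-- The outcomes are sets of edges of the domain. -/
theorem sub_of_mem {δ : ℕ → ℝ} {N k : ℕ → ℕ} {p : ∀ n, ZMod (N n) → ℤ × ℤ}
    {S : ℕ → Finset (ℤ × ℤ)} {ψn : ℕ → ℂ → ℂ} {n : ℕ} {A : Finset (Sym2 (ℤ × ℤ))}
    (hA : A ∈ (exn δ N k p S ψn n).C) : A ⊆ edges (S n) := by
  have h : A ∈ ((edges (S n)).powerset : Set (Finset (Sym2 (ℤ × ℤ)))) := hA
  exact Finset.mem_powerset.1 (Finset.mem_coe.1 h)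

/-- The comparison for one lattice domain, at the level of the lattice. -/
def StageAt (δ : ℕ → ℝ) (N k : ℕ → ℕ) (p : ∀ n, ZMod (N n) → ℤ × ℤ) (S : ℕ → Finset (ℤ × ℤ))
    (ψn : ℕ → ℂ → ℂ) (n : ℕ) (T R b ε ε' ℓ ρ M : ℝ) (Bx : Finset (ℤ × ℤ)) (Nn : ℕ) : Prop :=
  ∃ (v₀ : ℤ × ℤ) (Kc : ℤ × ℤ → Finset (ℤ × ℤ)) (κ : ℤ × ℤ → Cfg) (x : ℤ × ℤ → ℤ × ℤ) (g₀ : ℝ),
    M⁻¹ ≤ g₀ ∧ g₀ ≤ M ∧
    ∀ A ∈ (exn δ N k p S ψn n).C, ∀ j < (exn δ N k p S ψn n).K A,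
      (∀ i < j, (exn δ N k p S ψn n).c A i ≤ T ∧ |(exn δ N k p S ψn n).V A i| ≤ R) →
      ∃ P ∈ Fam ρ ℓ M Bx,
        (∀ u : ℤ × ℤ, (u = (0, 0) ∨ u = (1, 0)) → ∀ (r Rb : ℤ), 0 < r → r ≤ Rb →
          (Rb : ℝ) ≤ ρ * Nn / ℓ → ∃ (PE : Finset (ℤ × ℤ)) (y : ℤ × ℤ),
            LatOne (p n) (k n) (S n) A j (Kc u) PE (sq Nn (v₀ + u) P) (κ u) (x u) y
              (larc Nn (v₀ + u) P) (v₀ + u) r Rb ε') ∧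
        ∀ g : ℝ, IsG P ℓ g →
          |(g / g₀) ^ (1 / 3 : ℝ) - obsF ((exn δ N k p S ψn n).W A) b
            ((exn δ N k p S ψn n).c A j)| ≤ ε

theorem geoAt_of {δ : ℕ → ℝ} {N k : ℕ → ℕ} {p : ∀ n, ZMod (N n) → ℤ × ℤ}
    {S : ℕ → Finset (ℤ × ℤ)} {ψn : ℕ → ℂ → ℂ} {n : ℕ} {T R b ε ε' ℓ ρ M : ℝ}
    {Bx : Finset (ℤ × ℤ)} {Nn : ℕ} (hε' : 0 ≤ ε')
    (h : StageAt δ N k p S ψn n T R b ε ε' ℓ ρ M Bx Nn) :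
    GeoAt (exn δ N k p S ψn n) T R b ε ε' ℓ ρ M (Fam ρ ℓ M Bx) Nn := by
  obtain ⟨v₀, Kc, κ, x, g₀, h1, h2, H⟩ := h
  refine ⟨v₀, fun u => H192.dq (p n) (k n) (S n) \ Kc u, wst (p n) (k n), g₀, h1, h2, ?_⟩
  intro A hA j hj hc
  obtain ⟨P, hP, Hi, Hii⟩ := H A hA j hj hc
  refine ⟨P, hP, ?_, Hii⟩
  intro u hu r Rb F hr hrR hRb hF
  obtain ⟨PE, y, L⟩ := Hi u hu r Rb hr hrR hRb
  exact geo_i' δ N k p S ψn n (sub_of_mem hA) j hrR L.hx L.hy L.hP L.hisl L.hbP L.hB L.hBK L.hBR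
    L.hKR L.hPR hε' L.hcmp hF

/-- The lattice comparison, for all large `n`. -/
def I_stage : Prop := ∀ (Φ : (ℝ × ℝ) ≃ₜ (ℝ × ℝ)) (ψ : ℂ → ℂ)
  (δ : ℕ → ℝ) (N k : ℕ → ℕ) (p : ∀ n, ZMod (N n) → ℤ × ℤ) (S : ℕ → Finset (ℤ × ℤ))
  (ψn : ℕ → ℂ → ℂ), Set6 Φ ψ δ N k p S ψn → ∀ T R : ℝ, 0 ≤ T → 0 < R → ∃ b₁ : ℝ, ∀ b : ℝ, b₁ ≤ b →
    ∀ ε : ℝ, 0 < ε → ∃ ρ M : ℝ, 0 < ρ ∧ 0 < M ∧ ∀ ε' : ℝ, 0 < ε' →
      ∃ ℓ : ℝ, 0 < ℓ ∧ ℓ < ρ ∧ ∃ Bx : Finset (ℤ × ℤ),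
        ∀ᶠ n in atTop, StageAt δ N k p S ψn n T R b ε ε' ℓ ρ M Bx (4 * ⌊ℓ / (4 * δ n)⌋₊)

/-- **`I_geo` from the comparison at one stage.** -/
theorem i_geo_of (h : I_stage) : I_geo := by
  intro Φ ψ δ N k p S ψn hS T R hT hR
  obtain ⟨b₁, h1⟩ := h Φ ψ δ N k p S ψn hS T R hT hR
  refine ⟨b₁, fun b hb ε hε => ?_⟩
  obtain ⟨ρ, M, hρ, hM, h2⟩ := h1 b hb ε hε
  refine ⟨ρ, M, hρ, hM, fun ε' hε' => ?_⟩
  obtain ⟨ℓ, hℓ, hℓρ, Bx, h3⟩ := h2 ε' hε'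
  refine ⟨ℓ, hℓ, hℓρ, Fam ρ ℓ M Bx, fam_finite ρ ℓ M Bx, fun P hP => ⟨hP.1, hP.2.2⟩, ?_⟩
  exact h3.mono fun n hn => geoAt_of hε'.le hn

end Vale.Agent.P167.CL
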