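import Vale.Agent.P167.CL.Geo2
import Vale.Agent.P167.CL.CutDefs

/-!
# P167, block CLOSE [ASM]: the cut of a stage, the flat box at `b'` and the marked polygon

`CutS` : the stage `s` has the cut with the parameters `c`, `w`. For `s.Ok` and `CutS`:
* `cutC'` : the hypotheses of the cut for the domain without the notches;
* `box_SP` : the faces above `b' = 0` are faces of `SP`; `flat_b` : flatness at `b'`;
* `far_vn`, `vn_ne` : the vertices at the notches;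
* `exists_Mk` : the marked polygon.
-/

set_option autoImplicit false

open MeasureTheory Filter Topology Set Metric
open scoped NNReal ENNReal

namespace Vale.Agent.P167.CL

open Vale.Agent.P153.R2.R1 (mb)
open Vale.Agent.P153.R2.L1 (HH)
open Vale.Agent.P164 (loewnerDomain Zf)
open Vale.Agent.P167.E6 Vale.Agent.P167.E2 Vale.Agent.P167.H411
open Vale.Agent.P167.H756
open Vale.Agent.P167.H446.Cut
open Vale.Agent.P167.H450

/-- The constants of the class. -/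
structure Cst (T R X Y : ℝ) : Prop where
  hT : 0 ≤ T
  hR : 0 ≤ R
  hX0 : 0 < X
  hX : 16 * R ≤ X
  hX2 : 1024 * T ≤ X ^ 2
  hY0 : 0 < Y
  hY : 8 * R ≤ Y
  hY2 : 64 * T ≤ Y ^ 2

/-- The size of the notches. -/
structure SmE (ε X : ℝ) : Prop where
  pos : 0 < ε
  one : ε ≤ 1
  X16 : ε ≤ X / 16
  inv : ε ≤ 1 / (3 * X + 1)

/-- The cut of a stage. -/
structure CutS (s : Stg) (X κ μ d τ₀ : ℝ) (c : CutP) (w : ℂ) : Prop where
  cc : CutC s.ℓ s.ρm μ d τ₀ c s.D w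
  hg : s.g = gg τ₀ c w
  hB : s.B = cutSet s.ℓ d c w
  hKB : (s.KB : Set (ℤ × ℤ)) = c.KF
  near : ∀ z : ℂ, 0 < z.im → dist (s.ψ z) w ≤ 8 * d → ‖z - X‖ ≤ κ
  hκ : κ ≤ X / 2

theorem gf_mono {ℓ ρ : ℝ} {D D' E E' : Set ℂ} (hD : D ⊆ D') (hE : E ⊆ E') :
    GF ℓ ρ D E ⊆ GF ℓ ρ D' E' :=
  fun _ hF => ⟨fun z hz => (hF.1 z hz).trans hE, hF.2.trans hD⟩

theorem norm_dv (c : CutP) : ‖c.dv‖ = 1 := by
  unfold CutP.dv CutP.sg
  rcases c.hor <;> rcases c.pos <;> simp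

namespace Stg

variable {s : Stg} {T R X Y Rd cd κ μ d τ₀ : ℝ} {c : CutP} {w : ℂ}

theorem Ok.D_eq (H : s.Ok T R Rd cd) : s.D = s.ψ '' loewnerDomain s.W s.t := FD_img H.drv s.ψ

theorem Ok.cutF (H : s.Ok T R Rd cd) : CutF s.ψ s.W s.t s.ε s.ℓ xi s.x s.k s.q s.K :=
  CutF.of_sys H.drv xi_cases H.sysE

/-- The points near `X` are not in the notches. -/
theorem Ok.off (H : s.Ok T R Rd cd) (hc : Cst T R X Y) (hε : SmE s.ε X) {z : ℂ}
    (hz : ‖z - X‖ ≤ 3 / 4 * X) (hz0 : 0 < z.im) (j : Bool) : s.ψ z ∉ s.K j :=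
  H.cutF.not_mem H.drv hc.hX0 hc.hX hc.hX2 hε.pos hε.one hε.X16 hε.inv hz hz0 j

/-- The points of the domain are images of points of the half-plane. -/
theorem Ok.exists_pt (H : s.Ok T R Rd cd) {u : ℂ} (hu : u ∈ s.D) :
    ∃ z ∈ loewnerDomain s.W s.t, 0 < z.im ∧ s.ψ z = u := by
  rw [H.D_eq] at hu
  obtain ⟨z, hz, rfl⟩ := hu
  exact ⟨z, hz, Vale.Agent.P164.im_pos_of_dom H.drv.nn hz, rfl⟩

/-- Points near `w` are not in the notches. -/
theorem Ok.off_w (H : s.Ok T R Rd cd) (hc : Cst T R X Y) (hε : SmE s.ε X)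
    (C : CutS s X κ μ d τ₀ c w) {u : ℂ} (hu : u ∈ s.D) (hd : dist u w ≤ 8 * d) (j : Bool) :
    u ∉ s.K j := by
  obtain ⟨z, -, hz0, rfl⟩ := H.exists_pt hu
  have h1 := C.near z hz0 hd
  have h2 := C.hκ
  have h3 := hc.hX0
  exact H.off hc hε (by linarith) hz0 j

end Stg

section CutC

variable {ℓ ϱ μ d τ₀ : ℝ} {c : CutP} {D : Set ℂ} {w : ℂ}

theorem CutC.d_pos (C : CutC ℓ ϱ μ d τ₀ c D w) : 0 < d := by
  have h1 := C.hd
  have h2 := C.hℓ
  have h3 := C.hϱ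
  have h4 := C.hτ
  linarith

theorem CutC.ℓd (C : CutC ℓ ϱ μ d τ₀ c D w) : 640 * ℓ ≤ d := by
  have h1 := C.hd
  have h2 := C.hℓ
  have h3 := C.hϱ
  have h4 := C.hτ
  linarith

theorem CutC.w_le (C : CutC ℓ ϱ μ d τ₀ c D w) : ‖w‖ ≤ d / 2 := by
  have h0 := C.ℓd
  have h1 := C.hμℓ
  have hμ := C.hμ
  have hℓ := C.hℓ
  have hsg : |(c.sg : ℝ)| = 1 := by unfold CutP.sg; split_ifs <;> simp
  have hsgn : ∀ x : ℝ, |(c.sg : ℝ) * x| = |x| := fun x => by rw [abs_mul, hsg, one_mul]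
  have h2 := Complex.norm_le_abs_re_add_abs_im w
  by_cases hh : c.hor = true
  · obtain ⟨h3, h4⟩ := C.posh hh
    have h5 : |w.im| ≤ μ + ℓ / 2 := by
      have := abs_sub (w.im + ℓ / 2) (ℓ / 2)
      rw [add_sub_cancel_right, abs_of_pos (by linarith : 0 < ℓ / 2)] at this
      linarith
    have h6 : |w.re| ≤ μ + d / 4 := by
      rw [← hsgn w.re]
      have := abs_add_le (c.sg * w.re - d / 4) (d / 4)
      rw [sub_add_cancel, abs_of_pos (by linarith : 0 < d / 4)] at this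
      linarith
    linarith
  · rw [Bool.not_eq_true] at hh
    obtain ⟨h3, h4⟩ := C.posv hh
    have hm := C.hmd
    have hq := C.hq
    have hm2 := C.hm
    have hm' : (0 : ℝ) < 2 * c.m := by
      have : (0 : ℤ) < 2 * c.m := by omega
      exact_mod_cast this
    have h7 : 0 < ℓ * (2 * c.m + 1 / 2) := by positivity
    have h5 : |w.re| ≤ μ + ℓ * (2 * c.m + 1 / 2) := by
      have := abs_add_le (w.re - ℓ * (2 * c.m + 1 / 2)) (ℓ * (2 * c.m + 1 / 2))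
      rw [sub_add_cancel, abs_of_pos h7] at this
      linarith
    have h6 : |w.im| ≤ μ + d / 4 := by
      rw [← hsgn w.im]
      have := abs_add_le (c.sg * w.im - d / 4) (d / 4)
      rw [sub_add_cancel, abs_of_pos (by linarith : 0 < d / 4)] at this
      linarith
    have h8 : ℓ * (2 * c.m + 1 / 2) ≤ d / 64 := by nlinarith
    linarith

theorem CutC.dist_clr (_C : CutC ℓ ϱ μ d τ₀ c D w) {τ : ℝ} (hτ0 : 0 < τ) (hτ : τ ≤ d / 2) {u : ℂ}
    (hu : u ∈ ball (w - (τ : ℂ) * c.dv) (τ / 2)) : dist u w ≤ d := by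
  rw [mem_ball] at hu
  have h1 : dist (w - (τ : ℂ) * c.dv) w = τ := by
    rw [dist_eq_norm, sub_sub_cancel_left, norm_neg, norm_mul, norm_dv, mul_one,
      Complex.norm_real, Real.norm_of_nonneg hτ0.le]
  have h2 := dist_triangle u (w - (τ : ℂ) * c.dv) w
  linarith

end CutC

namespace Stg

variable {s : Stg} {T R X Y Rd cd κ μ d τ₀ : ℝ} {c : CutP} {w : ℂ}

/-- **The cut in the domain without the notches.** -/
theorem cutC' (H : s.Ok T R Rd cd) (hc : Cst T R X Y) (hε : SmE s.ε X)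
    (C : CutS s X κ μ d τ₀ c w) : CutC s.ℓ s.ρm μ d τ₀ c (s.D \ ⋃ j, s.K j) w :=
  { C.cc with
    out := fun h => C.cc.out h.1
    clr := by
      intro τ hτ0 hτ u hu
      have h1 := C.cc.clr τ hτ0 hτ hu
      refine ⟨h1, fun h => ?_⟩
      obtain ⟨j, hj⟩ := mem_iUnion.1 h
      have h2 := C.cc.dist_clr hτ0 hτ hu
      have h3 := C.cc.d_pos
      exact H.off_w hc hε C h1 (by linarith) j hj }

/-- The good faces of the domain without the notches. -/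
theorem gf_GP (C : CutS s X κ μ d τ₀ c w) {F : ℤ × ℤ}
    (hF : F ∈ GF s.ℓ s.ρm ((s.D \ ⋃ j, s.K j) \ cutSet s.ℓ d c w)
      ((s.D \ ⋃ j, s.K j) \ gg τ₀ c w)) : F ∈ s.GP := by
  refine gf_mono ?_ ?_ hF
  · rw [← C.hB]
    exact fun z hz => ⟨⟨hz.1.1, hz.2⟩, hz.1.2⟩
  · rw [← C.hg]
    exact fun z hz => Or.inl ⟨⟨hz.1.1, hz.2⟩, hz.1.2⟩

theorem gf_GE (C : CutS s X κ μ d τ₀ c w) {F : ℤ × ℤ}
    (hF : F ∈ GF s.ℓ s.ρm ((s.D \ ⋃ j, s.K j) \ gg τ₀ c w)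
      ((s.D \ ⋃ j, s.K j) \ gg τ₀ c w)) : F ∈ s.GE := by
  refine gf_mono ?_ ?_ hF
  · rw [← C.hg]
    exact fun z hz => ⟨⟨hz.1.1, hz.2⟩, hz.1.2⟩
  · rw [← C.hg]
    exact fun z hz => Or.inl ⟨⟨hz.1.1, hz.2⟩, hz.1.2⟩

/-- The faces above `b'` are good. -/
theorem box_good (hG1 : S_cutG1) (H : s.Ok T R Rd cd) (hc : Cst T R X Y) (hε : SmE s.ε X)
    (C : CutS s X κ μ d τ₀ c w) {F : ℤ × ℤ} (h1 : 0 ≤ F.2) (h2 : F.2 < c.q) (h3 : -c.q ≤ F.1)
    (h4 : F.1 < c.q) : F ∈ s.GP :=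
  gf_GP C ((hG1 _ _ _ _ _ _ _ _ (cutC' H hc hε C)).2.2.2.2.2 F h1 h2 h3 h4)

/-- A face of the box in the component gives all of them. -/
theorem box_cmp {A : Set (ℤ × ℤ)} {q : ℤ}
    (hA : ∀ F : ℤ × ℤ, 0 ≤ F.2 → F.2 < q → -q ≤ F.1 → F.1 < q → F ∈ A) {F₀ G F : ℤ × ℤ}
    (hG : G ∈ Cmp A F₀) (g1 : 0 ≤ G.2) (g2 : G.2 < q) (g3 : -q ≤ G.1) (g4 : G.1 < q)
    (h1 : 0 ≤ F.2) (h2 : F.2 < q) (h3 : -q ≤ F.1) (h4 : F.1 < q) : F ∈ Cmp A F₀ := by
  obtain ⟨a, b⟩ := F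
  obtain ⟨x, y⟩ := G
  simp only at g1 g2 g3 g4 h1 h2 h3 h4
  have e1 : Relation.ReflTransGen (Adj A) (x, y) (a, y) :=
    row_conn fun i hi1 hi2 => hA _ g1 g2 (by simp only; omega) (by simp only; omega)
  have e2 : Relation.ReflTransGen (Adj A) (a, y) (a, b) :=
    col_conn fun i hi1 hi2 => hA _ (by simp only; omega) (by simp only; omega) h3 h4
  exact Relation.ReflTransGen.trans hG (e1.trans e2)

/-- The faces above `b'` are faces of the polygon, if the point `z` of the box is in it. -/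
theorem box_SP (hG1 : S_cutG1) (H : s.Ok T R Rd cd) (hc : Cst T R X Y) (hε : SmE s.ε X)
    (C : CutS s X κ μ d τ₀ c w) {z : ℂ} (hz : z ∈ D6 s.ℓ s.SP) (z1 : |z.re| < s.ℓ * c.q)
    (z2 : 0 < z.im) (z3 : z.im < s.ℓ * c.q) {F : ℤ × ℤ} (h1 : 0 ≤ F.2) (h2 : F.2 < c.q)
    (h3 : -c.q ≤ F.1) (h4 : F.1 < c.q) : F ∈ s.SP := by
  have hℓ := H.hℓ
  obtain ⟨G, hG⟩ := exists_sqr hℓ z
  have hGS : G ∈ (s.SP : Set (ℤ × ℤ)) := by
    refine mem_of_interior hℓ (A := (s.SP : Set (ℤ × ℤ))) ?_ hG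
    exact hz
  rw [H.setP] at hGS
  obtain ⟨g1, g2, g3, g4⟩ := hG
  rw [abs_lt] at z1
  have key : ∀ a b : ℝ, s.ℓ * a < s.ℓ * b → a < b := fun a b h => lt_of_mul_lt_mul_left h hℓ.le
  have b1 : (G.1 : ℝ) < c.q := key _ _ (by linarith)
  have b2 : (-c.q : ℝ) < G.1 + 1 := key _ _ (by linarith)
  have b3 : (G.2 : ℝ) < c.q := key _ _ (by linarith)
  have b4 : (0 : ℝ) < G.2 + 1 := key _ _ (by linarith)
  have c1 : G.1 < c.q := by exact_mod_cast b1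
  have c2 : -c.q < G.1 + 1 := by exact_mod_cast b2
  have c3 : G.2 < c.q := by exact_mod_cast b3
  have c4 : 0 < G.2 + 1 := by exact_mod_cast b4
  rw [memP H]
  exact box_cmp (fun F a b c' d' => box_good hG1 H hc hε C a b c' d') hGS (by omega) c3 (by omega)
    c1 h1 h2 h3 h4

/-- The points of the box above `b'`. -/
theorem box_D6 {S : Finset (ℤ × ℤ)} {ℓ : ℝ} (hℓ : 0 < ℓ) {q : ℤ}
    (hS : ∀ F : ℤ × ℤ, 0 ≤ F.2 → F.2 < q → -q ≤ F.1 → F.1 < q → F ∈ S) {z : ℂ}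
    (z1 : |z.re| < ℓ * q) (z2 : 0 < z.im) (z3 : z.im < ℓ * q) : z ∈ D6 ℓ S := by
  refine mem_interior_reg (A := (S : Set (ℤ × ℤ))) hℓ fun F hF => ?_
  obtain ⟨g1, g2, g3, g4⟩ := hF
  rw [abs_lt] at z1
  have key : ∀ a b : ℝ, ℓ * a < ℓ * b → a < b := fun a b h => lt_of_mul_lt_mul_left h hℓ.le
  have b1 : (F.1 : ℝ) < q := key _ _ (by linarith)
  have b2 : (-q : ℝ) < F.1 + 1 := key _ _ (by linarith)
  have b3 : (F.2 : ℝ) < q := key _ _ (by linarith)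
  have b4 : (0 : ℝ) < F.2 + 1 := key _ _ (by linarith)
  have c1 : F.1 < q := by exact_mod_cast b1
  have c2 : -q < F.1 + 1 := by exact_mod_cast b2
  have c3 : F.2 < q := by exact_mod_cast b3
  have c4 : 0 < F.2 + 1 := by exact_mod_cast b4
  exact hS F (by omega) c3 (by omega) c1

/-- **Flatness at `b'`.** -/
theorem flat_b (hG1 : S_cutG1) (H : s.Ok T R Rd cd) (hc : Cst T R X Y) (hε : SmE s.ε X)
    (C : CutS s X κ μ d τ₀ c w) {z : ℂ} (hz : z ∈ D6 s.ℓ s.SP) (z1 : |z.re| < s.ℓ * c.q)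
    (z2 : 0 < z.im) (z3 : z.im < s.ℓ * c.q) {r : ℤ} (hr : r ≤ c.q) : BR.Flt s.SP (0, 0) r := by
  intro v h1 h2 h3 h4
  simp only at h1 h2 h3 h4 ⊢
  constructor
  · intro hv
    by_contra hlt
    push Not at hlt
    have hK : v ∈ c.KF := ⟨v, Or.inl ⟨by omega, hlt, by omega, by omega⟩, rfl⟩
    rw [← C.hKB] at hK
    exact (Finset.mem_sdiff.1 (SP_sub H hv)).2 (Finset.mem_coe.1 hK)
  · intro hv
    exact box_SP hG1 H hc hε C hz z1 z2 z3 hv (by omega) (by omega) (by omega)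

/-- The vertices of a notch are in the box below the line. -/
theorem vtx_lo (H : s.Ok T R Rd cd) (j : Bool) {v : ℤ × ℤ} (hv : v.2 = s.k j)
    (h : |s.ℓ * v.1 - s.x j| ≤ 2 * s.ℓ) :
    (s.ℓ : ℂ) * pt v ∈ lo (s.x j) (s.ℓ * s.k j) (s.q j) := by
  have h1 := (H.sysE.ntc j).q_ge
  have h2 := H.mesh
  have h3 := H.hρm
  have h4 := H.hℓ
  have e1 : ((s.ℓ : ℂ) * pt v).re = s.ℓ * v.1 := by rw [Complex.re_ofReal_mul]; rfl
  have e2 : ((s.ℓ : ℂ) * pt v).im = s.ℓ * s.k j := by rw [Complex.im_ofReal_mul, ← hv]; rfl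
  refine ⟨?_, ?_, ?_⟩
  · rw [e1]; linarith
  · rw [e2]; linarith
  · rw [e2]

theorem vn_lo (H : s.Ok T R Rd cd) (j : Bool) :
    (s.ℓ : ℂ) * pt (s.vn j) ∈ lo (s.x j) (s.ℓ * s.k j) (s.q j) :=
  vtx_lo H j rfl (by have := vn_near H j; have := H.hℓ; linarith)

/-- The vertices at the notches are far from `w`. -/
theorem vn_far (H : s.Ok T R Rd cd) (hc : Cst T R X Y) (hε : SmE s.ε X)
    (C : CutS s X κ μ d τ₀ c w) (j : Bool) : 8 * d < dist ((s.ℓ : ℂ) * pt (s.vn j)) w := by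
  by_contra hlt
  push Not at hlt
  have h1 := vn_lo H j
  exact H.off_w hc hε C ((H.sysE.ntc j).loD h1) hlt j ((H.sysE.ntc j).low h1)

/-- The vertices at the notches are not in the box at `b'`. -/
theorem far_vn (H : s.Ok T R Rd cd) (hc : Cst T R X Y) (hε : SmE s.ε X)
    (C : CutS s X κ μ d τ₀ c w) (j : Bool) {r : ℤ} (hr : s.ℓ * r ≤ d) :
    r + 1 ≤ |(s.vn j).1| ∨ r + 1 ≤ |(s.vn j).2| := by
  by_contra hcon
  push Not at hcon
  obtain ⟨h1, h2⟩ := hcon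
  have h3 := vn_far H hc hε C j
  have hℓ := H.hℓ
  have h4 := C.cc.w_le
  have h5 := C.cc.ℓd
  have h6 : |((s.vn j).1 : ℝ)| ≤ r := by exact_mod_cast Int.lt_add_one_iff.1 h1
  have h7 : |((s.vn j).2 : ℝ)| ≤ r := by exact_mod_cast Int.lt_add_one_iff.1 h2
  have h8 : ‖(s.ℓ : ℂ) * pt (s.vn j)‖ ≤ 2 * d := by
    refine (Complex.norm_le_abs_re_add_abs_im _).trans ?_
    have e1 : ((s.ℓ : ℂ) * pt (s.vn j)).re = s.ℓ * (s.vn j).1 := by
      rw [Complex.re_ofReal_mul]; rfl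
    have e2 : ((s.ℓ : ℂ) * pt (s.vn j)).im = s.ℓ * (s.vn j).2 := by
      rw [Complex.im_ofReal_mul]; rfl
    rw [e1, e2, abs_mul, abs_mul, abs_of_pos hℓ]
    have := mul_le_mul_of_nonneg_left h6 hℓ.le
    have := mul_le_mul_of_nonneg_left h7 hℓ.le
    linarith
  have h9 := dist_le_norm_add_norm ((s.ℓ : ℂ) * pt (s.vn j)) w
  have h10 := C.cc.d_pos
  linarith

/-- A point is not in two notches. -/
theorem lo_disj (H : s.Ok T R Rd cd) (hε : s.ε ≤ 1 / 2) {u : ℂ}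
    (h0 : u ∈ lo (s.x false) (s.ℓ * s.k false) (s.q false))
    (h1 : u ∈ lo (s.x true) (s.ℓ * s.k true) (s.q true)) : False := by
  obtain ⟨v, hv, rfl⟩ := (H.sysE.ntc false).loD h0
  have h2 := (H.sysE.ntc false).preK v hv ((H.sysE.ntc false).low h0)
  have h3 := (H.sysE.ntc true).preK v hv ((H.sysE.ntc true).low h1)
  have h4 := dist_triangle_left (xi false) (xi true) v
  have h5 : dist (xi false) (xi true) = 2 := by
    rw [dist_eq_norm]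
    simp only [xi, Bool.false_eq_true, if_false, if_true]
    norm_num
  linarith

theorem vn_ne (H : s.Ok T R Rd cd) (hε : s.ε ≤ 1 / 2) : s.vn false ≠ s.vn true := by
  intro h
  have h1 := vn_lo H false
  rw [h] at h1
  exact lo_disj H hε h1 (vn_lo H true)

theorem vn_ne' (H : s.Ok T R Rd cd) (hε : s.ε ≤ 1 / 2) : s.vn false ≠ s.vn true + (1, 0) := by
  intro h
  have h1 := vn_lo H false
  rw [h] at h1
  refine lo_disj H hε h1 (vtx_lo H true ?_ ?_)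
  · show s.k true + 0 = s.k true
    rw [add_zero]
  · have h2 := vn_near H true
    have hℓ := H.hℓ
    have e : s.ℓ * ((s.vn true + (1, 0)).1 : ℤ) - s.x true =
        (s.ℓ * (s.vn true).1 - s.x true) + s.ℓ := by
      show s.ℓ * (((s.vn true).1 + 1 : ℤ) : ℝ) - s.x true = _
      push_cast
      ring
    rw [e]
    refine (abs_add_le _ _).trans ?_
    rw [abs_of_pos hℓ]
    linarith

/-- **The marked polygon.** -/
theorem exists_Mk (hG1 : S_cutG1) (H : s.Ok T R Rd cd) (hc : Cst T R X Y) (hε : SmE s.ε X)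
    (hε2 : s.ε ≤ 1 / 2) (C : CutS s X κ μ d τ₀ c w) {z : ℂ} (hz : z ∈ D6 s.ℓ s.SP)
    (z1 : |z.re| < s.ℓ * c.q) (z2 : 0 < z.im) (z3 : z.im < s.ℓ * c.q) {ρ : ℝ} (hρ : 0 < ρ)
    (hr : ⌈2 * ρ / s.ℓ⌉ ≤ c.q) :
    ∃ ip ia ib, Mk ρ s.ℓ s.pP s.SP ip ia ib ∧ s.pP ip = s.vn true ∧ s.pP ia = s.vn false := by
  have hℓ := H.hℓ
  have h1 : s.ℓ * (⌈2 * ρ / s.ℓ⌉ : ℤ) ≤ d := by
    have h2 : ((⌈2 * ρ / s.ℓ⌉ : ℤ) : ℝ) ≤ c.q := by exact_mod_cast hr
    have h3 := mul_le_mul_of_nonneg_left h2 hℓ.le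
    have h4 := C.cc.hqd
    nlinarith
  refine exists_mk hρ hℓ H.polyP H.enclP (flatP H true (flat_one H true))
    (flatP H false (flat_one H false)) (flat_b hG1 H hc hε C hz z1 z2 z3 hr) ?_ ?_ (vn_ne H hε2)
    (vn_ne' H hε2)
  · rcases far_vn H hc hε C false h1 with h | h
    · exact Or.inl (by omega)
    · exact Or.inr (by omega)
  · rcases far_vn H hc hε C true h1 with h | h
    · exact Or.inl (by omega)
    · exact Or.inr (by omega)

end Stg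

end Vale.Agent.P167.CL
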