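import Vale.Agent.P167.CL.Geo3

/-!
# P167, block CLOSE [ASM]: `PD`, access and mark for the polygon `pP` of a stage

* `joinedIn_sUnion` : a finite connected union of closed path connected sets is path connected;
* `access` : the access to the box above `b'`;
* `mark` : the point `b'` is conformally near `X`;
* `pdP`, `pdE` : the structures `PD` of the two polygons.
-/

set_option autoImplicit false

open MeasureTheory Filter Topology Set Metric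
open scoped NNReal ENNReal

namespace Vale.Agent.P167.CL

open Vale.Agent.P153.R2.R1 (mb)
open Vale.Agent.P153.R2.L1 (HH)
open Vale.Agent.P164 (loewnerDomain Zf)
open Vale.Agent.P167.E6 Vale.Agent.P167.E2 Vale.Agent.P167.H411
open Vale.Agent.P167.H756
open Vale.Agent.P167.H446.Cut
open Vale.Agent.P167.H450

/-! ### Finite unions -/

/-- A finite connected union of closed path connected sets is path connected. -/
theorem joinedIn_sUnion {X : Type*} [TopologicalSpace X] {𝒜 : Set (Set X)} (hf : 𝒜.Finite)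
    (hc : ∀ A ∈ 𝒜, IsClosed A) (hp : ∀ A ∈ 𝒜, IsPathConnected A) (hB : IsPreconnected (⋃₀ 𝒜))
    {x y : X} (hx : x ∈ ⋃₀ 𝒜) (hy : y ∈ ⋃₀ 𝒜) : JoinedIn (⋃₀ 𝒜) x y := by
  classical
  set J : Set (Set X) := {A ∈ 𝒜 | ∃ y ∈ A, JoinedIn (⋃₀ 𝒜) x y} with hJ
  have hJf : J.Finite := hf.subset fun A hA => hA.1
  have hJ'f : (𝒜 \ J).Finite := hf.subset fun A hA => hA.1
  have hall : ∀ A ∈ J, ∀ z ∈ A, JoinedIn (⋃₀ 𝒜) x z := by
    rintro A ⟨hA, y, hyA, hxy⟩ z hz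
    exact hxy.trans (((hp A hA).joinedIn y hyA z hz).mono (subset_sUnion_of_mem hA))
  have hcl : ∀ K : Set (Set X), K ⊆ 𝒜 → K.Finite → IsClosed (⋃₀ K) := by
    intro K hK hKf
    rw [sUnion_eq_biUnion]
    exact hKf.isClosed_biUnion fun A hA => hc A (hK hA)
  obtain ⟨A, hA, hyA⟩ := hy
  by_cases hAJ : A ∈ J
  · exact hall A hAJ y hyA
  exfalso
  have h1 := (isPreconnected_closed_iff.1 hB) (⋃₀ J) (⋃₀ (𝒜 \ J)) (hcl J (fun A hA => hA.1) hJf)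
    (hcl _ (fun A hA => hA.1) hJ'f)
    (by
      rintro z ⟨A, hA, hz⟩
      by_cases h : A ∈ J
      · exact Or.inl ⟨A, h, hz⟩
      · exact Or.inr ⟨A, ⟨hA, h⟩, hz⟩)
    (by
      obtain ⟨A₀, hA₀, hxA⟩ := hx
      exact ⟨x, ⟨A₀, hA₀, hxA⟩, A₀, ⟨hA₀, x, hxA, JoinedIn.refl ⟨A₀, hA₀, hxA⟩⟩, hxA⟩)
    ⟨y, ⟨A, hA, hyA⟩, A, ⟨hA, hAJ⟩, hyA⟩
  obtain ⟨z, -, ⟨A₁, hA₁, hz₁⟩, A₂, hA₂, hz₂⟩ := h1
  exact hA₂.2 ⟨hA₂.1, z, hz₂, hall A₁ hA₁ z hz₁⟩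

theorem sqr_eq (ℓ : ℝ) (F : ℤ × ℤ) : sqr ℓ F = (Complex.re ⁻¹' Icc (ℓ * F.1) (ℓ * (F.1 + 1))) ∩
    (Complex.im ⁻¹' Icc (ℓ * F.2) (ℓ * (F.2 + 1))) := by
  ext z
  simp only [sqr, mem_ofPred_eq, mem_inter_iff, mem_preimage, mem_Icc]
  tauto

theorem convex_sqr (ℓ : ℝ) (F : ℤ × ℤ) : Convex ℝ (sqr ℓ F) := by
  rw [sqr_eq]
  exact ((convex_Icc _ _).linear_preimage Complex.reLm).inter
    ((convex_Icc _ _).linear_preimage Complex.imLm)

theorem isClosed_sqr (ℓ : ℝ) (F : ℤ × ℤ) : IsClosed (sqr ℓ F) := by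
  rw [sqr_eq]
  exact (isClosed_Icc.preimage Complex.continuous_re).inter
    (isClosed_Icc.preimage Complex.continuous_im)

/-- The cut is path connected. -/
theorem joinedIn_cutSet {ℓ d : ℝ} (hℓ : 0 < ℓ) {c : CutP} {w : ℂ} (hf : c.KF.Finite)
    (h : IsPreconnected (cutSet ℓ d c w)) {x y : ℂ} (hx : x ∈ cutSet ℓ d c w)
    (hy : y ∈ cutSet ℓ d c w) : JoinedIn (cutSet ℓ d c w) x y := by
  have e : cutSet ℓ d c w = ⋃₀ (insert (lam ℓ d c w) (sqr ℓ '' c.KF)) := by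
    rw [sUnion_insert, sUnion_image, cutSet, union_comm]
    congr 1
    ext z
    simp only [reg, mem_ofPred_eq, mem_iUnion, exists_prop]
  rw [e] at h hx hy ⊢
  refine joinedIn_sUnion ((hf.image _).insert _) ?_ ?_ h hx hy
  · rintro A (rfl | ⟨F, -, rfl⟩)
    · rw [lam, ← convexHull_pair]
      exact (Set.Finite.isClosed_convexHull ℝ (Set.toFinite _))
    · exact isClosed_sqr ℓ F
  · rintro A (rfl | ⟨F, -, rfl⟩)
    · exact (convex_segment _ _).isPathConnected ⟨_, left_mem_segment ℝ _ _⟩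
    · refine (convex_sqr ℓ F).isPathConnected ⟨⟨ℓ * F.1, ℓ * F.2⟩, ?_⟩
      refine ⟨le_rfl, ?_, le_rfl, ?_⟩
      · exact mul_le_mul_of_nonneg_left (by linarith) hℓ.le
      · exact mul_le_mul_of_nonneg_left (by linarith) hℓ.le

namespace Stg

variable {s : Stg} {T R X Y Rd cd κ μ d τ₀ : ℝ} {c : CutP} {w : ℂ}

theorem D6P_sub (H : s.Ok T R Rd cd) : D6 s.ℓ s.SP ⊆ s.D := fun _ hz =>
  marginP H (interior_subset hz) (mem_ball_self H.hρm)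

theorem BP_P (H : s.Ok T R Rd cd) :
    BP s.ℓ s.ρm (s.ψ '' loewnerDomain s.W s.t \ s.B) (s.D \ s.g) s.x s.k s.q s.K s.F₀ =
      D6 s.ℓ s.SP := by
  rw [← H.D_eq]
  exact BP_eq H.setP

theorem BP_E (H : s.Ok T R Rd cd) :
    BP s.ℓ s.ρm (s.ψ '' loewnerDomain s.W s.t \ s.g) (s.D \ s.g) s.x s.k s.q s.K s.F₀ =
      D6 s.ℓ s.SE := by
  rw [← H.D_eq]
  exact BP_eq H.setE

theorem F_w₀ (H : s.Ok T R Rd cd) (hc : Cst T R X s.Y) : s.F s.w₀ = s.ψ (s.Y * Complex.I) := by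
  obtain ⟨hd, -, -, -⟩ := H.drv.base hc.hY0 hc.hY hc.hY2
  exact FD_mb H.drv s.ψ hd

theorem base' (H : s.Ok T R Rd cd) (hc : Cst T R X s.Y) : s.ψ (s.Y * Complex.I) ∈ sqr s.ℓ s.F₀ := by
  rw [← F_w₀ H hc]
  exact H.base

/-- The balls around the points of an access do not meet the notches. -/
theorem ball_notch (H : s.Ok T R Rd cd) {c₀ : ℝ} (hε : s.ε ≤ c₀ / 2) {u : ℂ}
    (hu : ball u c₀ ⊆ s.D) : ball u (c₀ / 2) ⊆ s.D \ ⋃ j, s.K j := by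
  intro v hv
  rw [mem_ball] at hv
  have h0 : 0 < c₀ := by
    have := dist_nonneg (x := v) (y := u)
    linarith
  refine ⟨hu (mem_ball.2 (by linarith)), fun h => ?_⟩
  obtain ⟨j, hj⟩ := mem_iUnion.1 h
  obtain ⟨w', hw', hw'D⟩ := (H.sysE.ntc j).meet
  have h1 := (H.sysE.ntc j).diam w' hw' v hj
  refine hw'D (hu (mem_ball.2 ?_))
  have := dist_triangle w' v u
  linarith

/-- **Access to the box above `b'`.** -/
theorem access (hG1 : S_cutG1) (hG2 : S_cutG2) (H : s.Ok T R Rd cd) (hc : Cst T R X s.Y)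
    (hε : SmE s.ε X) (C : CutS s X κ μ d τ₀ c w) {c₀ ρ : ℝ} (hρ : 0 < ρ)
    (hεc : s.ε ≤ c₀ / 2) (hℓc : 64 * s.ℓ ≤ c₀)
    (hm : s.ρm + 3 * s.ℓ ≤ min (c₀ / 2) (2 * ρ) / 32) (hq : 2 * ρ ≤ s.ℓ * c.q) {C₀ : Set ℂ}
    (hC₀ : IsPreconnected C₀) (hC1 : s.ψ (s.Y * Complex.I) ∈ C₀)
    (hC2 : w - ((d / 4 : ℝ) : ℂ) * c.dv ∈ C₀) (hC3 : ∀ u ∈ C₀, ball u c₀ ⊆ s.D) :
    (∃ z ∈ D6 s.ℓ s.SP, |z.re| < s.ℓ * c.q ∧ 0 < z.im ∧ z.im < s.ℓ * c.q) ∧
    ∃ C₁ : Set ℂ, IsPreconnected C₁ ∧ s.ψ (s.Y * Complex.I) ∈ C₁ ∧ (ρ : ℂ) * Complex.I ∈ C₁ ∧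
      ∀ z ∈ C₁, ball z (min (c₀ / 2) (2 * ρ) / 32) ⊆ D6 s.ℓ s.SP := by
  have hℓ := H.hℓ
  have hρm := H.hρm
  have hmesh := H.mesh
  have hdpos := C.cc.d_pos
  have hX0 := hc.hX0
  have hfar : d ≤ dist (s.ψ (s.Y * Complex.I)) w := by
    by_contra hlt
    push Not at hlt
    have hY := hc.hY0
    have h1 := C.near (s.Y * Complex.I) (by simpa using hY) (by linarith)
    have h2 := Complex.abs_re_le_norm ((s.Y : ℂ) * Complex.I - X)
    have e : ((s.Y : ℂ) * Complex.I - X).re = -X := by simp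
    rw [e, abs_neg, abs_of_pos hX0] at h2
    have h3 := C.hκ
    linarith
  obtain ⟨C', hC'1, hC'2, hC'3, hC'4⟩ := hG2 _ _ _ _ _ _ _ _ (cutC' H hc hε C) (c₀ / 2) C₀
    (s.ψ (s.Y * Complex.I)) (by linarith) hC₀ hC1 hC2 (fun u hu => ball_notch H hεc (hC3 u hu)) hfar
  have hmin : min (c₀ / 2) (2 * ρ) ≤ min (c₀ / 2) (s.ℓ * c.q) := min_le_min_left _ hq
  set η' : ℝ := min (c₀ / 2) (2 * ρ) / 32 with hη'
  have hη'ρ : η' ≤ ρ / 16 := by
    have := min_le_right (c₀ / 2) (2 * ρ)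
    rw [hη']; linarith
  have hη'0 : 0 < η' := by linarith
  have hacc := access_of_sys H.drv hc.hY0 hc.hY hc.hY2 H.sysP H.hρm (by linarith) (base' H hc)
    hC'1 hC'2 hm (fun u hu => by
      refine Subset.trans ?_ ((hC'4 u hu).trans ?_)
      · exact ball_subset_ball (by linarith)
      · rw [← H.D_eq, C.hB]
        exact fun z hz => ⟨⟨hz.1.1, hz.2⟩, hz.1.2⟩)
  rw [BP_P H] at hacc
  have hmid := hacc _ hC'3 (mem_ball_self hη'0)
  have e1 : (((s.ℓ * c.q / 2 : ℝ) : ℂ) * Complex.I).re = 0 := by simp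
  have e2 : (((s.ℓ * c.q / 2 : ℝ) : ℂ) * Complex.I).im = s.ℓ * c.q / 2 := by
    simp
  have hbox : ∀ F : ℤ × ℤ, 0 ≤ F.2 → F.2 < c.q → -c.q ≤ F.1 → F.1 < c.q → F ∈ s.SP :=
    fun F a1 a2 a3 a4 => box_SP hG1 H hc hε C hmid (by rw [e1, abs_zero]; linarith)
      (by rw [e2]; linarith) (by rw [e2]; linarith) a1 a2 a3 a4
  refine ⟨⟨_, hmid, by rw [e1, abs_zero]; linarith, by rw [e2]; linarith, by rw [e2]; linarith⟩, ?_⟩
  refine ⟨C' ∪ segment ℝ (((s.ℓ * c.q / 2 : ℝ) : ℂ) * Complex.I) ((ρ : ℂ) * Complex.I), ?_,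
    Or.inl hC'2, Or.inr (right_mem_segment ℝ _ _), ?_⟩
  · exact IsPreconnected.union _ hC'3 (left_mem_segment ℝ _ _) hC'1
      (convex_segment _ _).isPreconnected
  · rintro z (hz | hz)
    · exact hacc z hz
    · obtain ⟨a, b, ha, hb, hab, rfl⟩ := hz
      have f1 : (a • (((s.ℓ * c.q / 2 : ℝ) : ℂ) * Complex.I) + b • ((ρ : ℂ) * Complex.I)).re = 0 := by
        simp
      have f2 : (a • (((s.ℓ * c.q / 2 : ℝ) : ℂ) * Complex.I) + b • ((ρ : ℂ) * Complex.I)).im =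
          a * (s.ℓ * c.q / 2) + b * ρ := by
        simp
      intro u hu
      rw [mem_ball, dist_eq_norm] at hu
      have d1 := lt_of_le_of_lt (Complex.abs_re_le_norm _) hu
      have d2 := lt_of_le_of_lt (Complex.abs_im_le_norm _) hu
      rw [Complex.sub_re, f1, sub_zero] at d1
      rw [Complex.sub_im, f2, abs_lt] at d2
      have g1 : ρ ≤ a * (s.ℓ * c.q / 2) + b * ρ := by nlinarith
      have g2 : a * (s.ℓ * c.q / 2) + b * ρ ≤ s.ℓ * c.q / 2 := by nlinarith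
      exact box_D6 hℓ hbox (by linarith) (by linarith) (by linarith)

end Stg

end Vale.Agent.P167.CL
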