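import Vale.Agent.P167.CL.Geo4
import Vale.Agent.P167.CL.CutN
import Vale.Agent.P167.CL.CutG1
import Vale.Agent.P167.CL.CutG2
import Vale.Agent.P167.H446.Stage
import Vale.Agent.P167.H446.PosX
import Vale.Agent.P167.H756.Stg

/-!
# P167, block CLOSE [ASM]: the stages of one cut, and comparison (ii)

* `Ok.change` : change of the base face;
* `exists_stg` : existence of the stage with the cut of `CutN`;
* `part_two` : for one cut, the number `g₀` and for every Loewner chain of the class a stage whose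
  polygon `pP` is a well-formed shape, with comparison (ii).
-/

set_option autoImplicit false

open MeasureTheory Filter Topology Set Metric
open scoped NNReal ENNReal

namespace Vale.Agent.P167.CL

open Vale.Agent.P153.R2.R1 (mb imb imb_im_pos mb_imb)
open Vale.Agent.P153.R2.L1 (HH)
open Vale.Agent.P164 (loewnerDomain Zf)
open Vale.Agent.P167.E6 Vale.Agent.P167.E2 Vale.Agent.P167.H411
open Vale.Agent.P167.H756
open Vale.Agent.P167.H446 (uX)
open Vale.Agent.P167.H446.Cut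
open Vale.Agent.P167.H450

/-! ### The base face -/

theorem cmp_back {A : Set (ℤ × ℤ)} {F₀ F : ℤ × ℤ} (h0 : F₀ ∈ A) (h : F ∈ Cmp A F₀) :
    F₀ ∈ Cmp A F := by
  have key : ∀ G, Relation.ReflTransGen (fun a b => b ∈ A ∧ ∃ r, b = a + dir r) F₀ G →
      G ∈ A ∧ Relation.ReflTransGen (fun a b => b ∈ A ∧ ∃ r, b = a + dir r) G F₀ := by
    intro G hG
    induction hG with
    | refl => exact ⟨h0, Relation.ReflTransGen.refl⟩
    | tail hab hbc ih => exact ⟨hbc.1, Relation.ReflTransGen.head ⟨ih.1, adj_symm hbc.2⟩ ih.2⟩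
  exact (key F h).2

theorem cmp_eq {A : Set (ℤ × ℤ)} {F₀ F : ℤ × ℤ} (h0 : F₀ ∈ A) (h : F ∈ Cmp A F₀) :
    Cmp A F = Cmp A F₀ := by
  ext G
  exact ⟨fun hG => Relation.ReflTransGen.trans h hG,
    fun hG => Relation.ReflTransGen.trans (cmp_back h0 h) hG⟩

/-- The same stage with another base face. -/
def Stg.withF (s : Stg) (F₁ : ℤ × ℤ) : Stg := { s with F₀ := F₁ }

namespace Stg

variable {s : Stg} {T R X Y Rd cd κ μ d τ₀ c₀ ρ ε : ℝ} {c : CutP} {w : ℂ}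

theorem base_mem (H : s.Ok T R Rd cd) {F₁ : ℤ × ℤ} (h : s.F s.w₀ ∈ sqr s.ℓ F₁) :
    F₁ ∈ Cmp s.GE s.F₀ ∧ F₁ ∈ Cmp s.GP s.F₀ := by
  have hℓ := H.hℓ
  have hρ := H.hρm
  have hm := H.mesh
  have h1 := (data H.sysE.cuts hℓ hρ (goodE H)).inner (isPreconnected_singleton (x := s.F s.w₀))
    rfl H.base (fun z hz => by
      rw [mem_singleton_iff.1 hz]
      exact (ball_subset_ball (by linarith)).trans
        (H.sysE.ball_sub false (H.sysE.ntc false).Cw))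
  have h2 := (data H.sysP.cuts hℓ hρ (goodP H)).inner (isPreconnected_singleton (x := s.F s.w₀))
    rfl H.base (fun z hz => by
      rw [mem_singleton_iff.1 hz]
      exact (ball_subset_ball (by linarith)).trans
        (H.sysP.ball_sub false (H.sysP.ntc false).Cw))
  exact ⟨mem_of_interior hℓ (h1 rfl) h, mem_of_interior hℓ (h2 rfl) h⟩

theorem Ok.change (H : s.Ok T R Rd cd) {F₁ : ℤ × ℤ} (h : s.F s.w₀ ∈ sqr s.ℓ F₁) :
    (s.withF F₁).Ok T R Rd cd where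
  conf := H.conf
  drv := H.drv
  hρm := H.hρm
  mesh := H.mesh
  gB := H.gB
  regB := H.regB
  brk := H.brk
  KG := H.KG
  offB := H.offB
  sysE := H.sysE
  sysP := H.sysP
  base := h
  setE := H.setE.trans (cmp_eq (goodE H) (base_mem H h).1).symm
  setP := H.setP.trans (cmp_eq (goodP H) (base_mem H h).2).symm
  polyE := H.polyE
  enclE := H.enclE
  polyP := H.polyP
  enclP := H.enclP

end Stg

/-! ### The points of the disc -/

theorem exists_of_disc {T R : ℝ} {ψ : ℂ → ℂ} {W : ℝ → ℝ} {t : ℝ} (H : Drv T R W t) {v : ℂ}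
    (hv : v ∈ ball (0 : ℂ) 1) : ∃ z ∈ loewnerDomain W t, v = mb 1 Complex.I (Zf W z t) ∧
      FD ψ W t v = ψ z := by
  have hI : 0 < Complex.I.im := by simp
  have hvn : ‖v‖ < 1 := mem_ball_zero_iff.1 hv
  have hv1 : v ≠ 1 := by
    rintro rfl
    rw [norm_one] at hvn
    exact lt_irrefl _ hvn
  have h3 := imb_im_pos norm_one hI hvn (β := 1)
  have h4 := (mb_imb norm_one hI hv1).2
  obtain ⟨h5, h6⟩ := mapsTo_inv H (ζ := imb 1 Complex.I v) h3
  refine ⟨_, h5, ?_, ?_⟩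
  · rw [h6, h4]
  · have h7 := FD_mb H ψ h5
    rw [h6, h4] at h7
    exact h7

/-! ### The cut -/

section cut

variable {ℓ ϱ μ d τ₀ : ℝ} {c : CutP} {D : Set ℂ} {w : ℂ}

theorem gg_sub (C : CutC ℓ ϱ μ d τ₀ c D w) : gg τ₀ c w ⊆ cutSet ℓ d c w := by
  have h1 := C.hd
  have h2 := C.hℓ
  have h3 := C.hϱ
  have h4 := C.hτ
  have h5 := C.ℓd
  refine fun z hz => Or.inr ?_
  refine (convex_segment _ _).segment_subset ?_ (right_mem_segment ℝ _ _) hz
  have hpos : 0 < d / 4 - ℓ := by linarith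
  have hτ0 : 0 < τ₀ := by linarith
  refine ⟨τ₀ / (d / 4 - ℓ), 1 - τ₀ / (d / 4 - ℓ), by positivity, ?_, by ring, ?_⟩
  · rw [sub_nonneg, div_le_one hpos]
    linarith
  · have e : (τ₀ / (d / 4 - ℓ)) * (d / 4 - ℓ) = τ₀ := div_mul_cancel₀ _ hpos.ne'
    have e' : ((τ₀ / (d / 4 - ℓ) : ℝ) : ℂ) * ((d / 4 - ℓ : ℝ) : ℂ) = (τ₀ : ℂ) := by
      rw [← Complex.ofReal_mul, e]
    rw [Complex.real_smul, Complex.real_smul]
    push_cast at e' ⊢
    linear_combination (-c.dv) * e'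

theorem w_mem_gg (τ₀ : ℝ) (c : CutP) (w : ℂ) : w ∈ gg τ₀ c w := right_mem_segment ℝ _ _

theorem bricky_KF (c : CutP) : Bricky c.KF := by
  intro F G h
  constructor
  · rintro ⟨F', h1, h2⟩
    exact ⟨F', h1, h.symm.trans h2⟩
  · rintro ⟨F', h1, h2⟩
    exact ⟨F', h1, h.trans h2⟩

theorem pc_diff {D B : Set ℂ} (hD : IsPreconnected Dᶜ) (hB : IsPreconnected B) {w : ℂ}
    (hwB : w ∈ B) (hwD : w ∉ D) : IsPreconnected (D \ B)ᶜ := by
  have e : (D \ B)ᶜ = Dᶜ ∪ B := by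
    ext z
    simp only [mem_compl_iff, Set.mem_sdiff, not_and, not_not, mem_union]
    tauto
  rw [e]
  exact IsPreconnected.union w hwD hwB hD hB

end cut

/-- **Existence of the stage with a given cut.** -/
theorem exists_stg {T R X Y Rd cd : ℝ} (hRd : 0 < Rd) (hcd : 0 < cd) (hc : Cst T R X Y) :
    ∃ κ₀ > 0, ∃ ε₀ > 0, ∀ ε : ℝ, 0 < ε → ε ≤ ε₀ → ∃ η > 0, ∀ (κ d c₀ ℓ ϱ μ τ₀ : ℝ) (ψ : ℂ → ℂ)
      (c : CutP) (w : ℂ), κ ≤ κ₀ → 0 < ℓ → 0 < ϱ → 2 * (ϱ + 4 * ℓ) ≤ η → HConf Rd cd Y ψ →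
      CutN T R X Y κ d c₀ ℓ ϱ μ τ₀ ψ c w → ∀ F₀ : ℤ × ℤ, ψ (Y * Complex.I) ∈ sqr ℓ F₀ →
      ∀ (W : ℝ → ℝ) (t : ℝ), Drv T R W t → IsPreconnected (ψ '' loewnerDomain W t)ᶜ →
      ∃ s : Stg, s.Ok T R Rd cd ∧ s.ψ = ψ ∧ s.W = W ∧ s.t = t ∧ s.Y = Y ∧ s.ℓ = ℓ ∧ s.ρm = ϱ ∧
        s.ε = ε ∧ s.F₀ = F₀ ∧ s.g = gg τ₀ c w ∧ s.B = cutSet ℓ d c w ∧
        (s.KB : Set (ℤ × ℤ)) = c.KF := by
  have hX8 : 8 * R ≤ X := by have := hc.hR; have := hc.hX; linarith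
  have hX64 : 64 * T ≤ X ^ 2 := by have := hc.hT; have := hc.hX2; linarith
  obtain ⟨r, hr, ε₀, hε₀, H⟩ := H446.exists_stage (T := T) (R := R) hRd hcd hc.hX0 hX8 hX64
    hc.hY0 hc.hY hc.hY2
  obtain ⟨ηX, hηX, hnX⟩ := H446.near_X (T := T) (R := R) hc.hX0 hX8 hX64 hr
  refine ⟨ηX, hηX, ε₀, hε₀, fun ε hε hε1 => ?_⟩
  obtain ⟨η, hη, H⟩ := H ε hε hε1
  refine ⟨η, hη, ?_⟩
  intro κ d c₀ ℓ ϱ μ τ₀ ψ c w hκ hℓ hϱ hmesh hψ C F₀ hF₀ W t hD hpc
  have hcc := C.cc W t hD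
  have himg : FD ψ W t '' ball 0 1 = ψ '' loewnerDomain W t := FD_img hD ψ
  obtain ⟨g1, g2, g3, g4, g5, g6⟩ := cutG1 _ _ _ _ _ _ _ _ hcc
  -- `KF` is finite
  have hbd : Bornology.IsBounded (ψ '' loewnerDomain W t \ gg τ₀ c w) := by
    rw [← himg]
    refine Bornology.IsBounded.subset ?_ sdiff_subset
    obtain ⟨c', hc', hcls⟩ := cls_FD (T := T) (R := R) hRd hcd hc.hY0 hc.hY hc.hY2
    refine (isBounded_closedBall (x := FD ψ W t 0) (r := Rd)).subset ?_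
    rintro _ ⟨v, hv, rfl⟩
    rw [mem_closedBall, dist_eq_norm]
    exact (hcls ψ hψ W t hD).bdd v hv
  have hfin : c.KF.Finite := (finite_gf hℓ hbd).subset g4
  obtain ⟨s, hs, e1, e2, e3, e4, e5, e6, e7, e8, e9, e10, e11⟩ := H ψ hψ W t hD ℓ ϱ hℓ hϱ hmesh
    (gg τ₀ c w) (cutSet ℓ d c w) hfin.toFinset (gg_sub hcc)
    (by rw [hfin.coe_toFinset]; exact subset_union_left)
    (by rw [hfin.coe_toFinset]; exact bricky_KF c)
    (by rw [hfin.coe_toFinset, himg]; exact g4)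
    (by
      rw [hfin.coe_toFinset, himg]
      rintro F hF ⟨z, hz, hzK | hzl⟩
      · obtain ⟨G, hG, hzG⟩ := hzK
        exact absurd ((bricky_KF c _ _ (br_of_meet hℓ hz hzG)).1 hG) hF
      · exact g5 F hF ⟨z, hz, hzl⟩)
    (by
      intro v hv hvB
      obtain ⟨z, hz, hvz, hFz⟩ := exists_of_disc (ψ := ψ) hD hv
      have hz0 := Vale.Agent.P164.im_pos_of_dom hD.nn hz
      rw [hFz] at hvB
      have h1 := g2 _ hvB
      have h2 := C.near z hz0.le (by have := hcc.d_pos; linarith)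
      rw [dist_eq_norm] at h2
      rw [hvz]
      exact (hnX W t hD z hz0 (h2.trans hκ)).2.2)
    (by
      rw [himg]
      exact pc_diff hpc (convex_segment _ _).isPreconnected (w_mem_gg τ₀ c w) hcc.out)
    (by
      rw [himg]
      exact pc_diff hpc g1 (gg_sub hcc (w_mem_gg τ₀ c w)) hcc.out)
    (by rw [himg]; exact g3)
  have hbase : s.F s.w₀ ∈ sqr s.ℓ F₀ := by
    rw [Stg.F_w₀ (X := X) hs (by rw [e4]; exact hc), e1, e4, e5]
    exact hF₀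
  refine ⟨s.withF F₀, hs.change hbase, e1, e2, e3, e4, e5, e6, e7, rfl, e9, e10, ?_⟩
  show (s.KB : Set (ℤ × ℤ)) = c.KF
  rw [e11, hfin.coe_toFinset]

end Vale.Agent.P167.CL
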