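import Vale.Agent.P167.CL.Frame
import Vale.Agent.P167.H531.Med
import Vale.Agent.P167.H531.Frozen
import Vale.Agent.P167.H161.Cex

/-!
# P167, block CLOSE: the cut as a frozen configuration, and the comparison given the near box

`cr_cut`: joining the zone `Z` to `T` in the domain minus the cut = joining the point `x` to `T` in the
domain with the cut frozen (the cut joins `x` to the zone, and the class of `x` in the frozen squares
touches the other squares only at the zone).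
`loc_diff`: comparison of two events given the squares of a finite set on which `F` depends.
-/

set_option autoImplicit false

open MeasureTheory Filter Topology Set Metric
open scoped NNReal ENNReal

namespace Vale.Agent.P167.CL

open Vale.Agent.P145.FB (PStep)
open Vale.Agent.P167.H531 Vale.Agent.P167.H558

/-! ### Paths of even sites -/

theorem step_iff {F : Set (ℤ × ℤ)} {u v : ℤ × ℤ} (hu : (u.1 + u.2) % 2 = 0) :
    PStep F u v ↔ ∃ i ∈ F, StM 0 i u v := by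
  constructor
  · rintro ⟨h1, h2, h3⟩
    exact ⟨_, h3, rfl, h1, h2, hu⟩
  · rintro ⟨i, hi, h1, h2, h3, -⟩
    exact ⟨h2, h3, h1 ▸ hi⟩

theorem cn_even {F : Set (ℤ × ℤ)} {u v : ℤ × ℤ} (hu : (u.1 + u.2) % 2 = 0)
    (h : Relation.ReflTransGen (PStep F) u v) : (v.1 + v.2) % 2 = 0 ∧ Cn (StM 0) F u v := by
  induction h with
  | refl => exact ⟨hu, Cn.refl _ _⟩
  | @tail b c _ hbc ih =>
    obtain ⟨h1, h2⟩ := ih
    refine ⟨?_, h2.tail ((step_iff h1).1 hbc)⟩
    obtain ⟨h3, h4, -⟩ := hbc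
    omega

theorem cn_path {F : Set (ℤ × ℤ)} {u v : ℤ × ℤ} (h : Cn (StM 0) F u v) :
    Relation.ReflTransGen (PStep F) u v := by
  refine Relation.ReflTransGen.mono ?_ _ _ h
  rintro a b ⟨i, hi, h1, h2, h3, -⟩
  exact ⟨h2, h3, h1 ▸ hi⟩

/-- The even sites of a set. -/
def ev (U : Set (ℤ × ℤ)) : Set (ℤ × ℤ) := {u | u ∈ U ∧ (u.1 + u.2) % 2 = 0}

theorem jn_iff {D : Finset (ℤ × ℤ)} {ω : Cfg} {U T : Set (ℤ × ℤ)} :
    BR.Jn true D ω U T ↔ Cr (StM 0) (op ω ∩ ↑D) (ev U) T := by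
  constructor
  · rintro ⟨u, hu, t, ht, h0, h⟩
    have hu0 : (u.1 + u.2) % 2 = 0 := h0
    exact ⟨u, ⟨hu, hu0⟩, t, ht, (cn_even hu0 h).2⟩
  · rintro ⟨u, ⟨hu, h0⟩, t, ht, h⟩
    exact ⟨u, hu, t, ht, h0, cn_path h⟩

theorem Op_eq (ω : Cfg) : Op ω = op ω := rfl

/-! ### The cut -/

/-- The frozen cut `Kc` (configuration `κ`) in the domain `D` joins the site `x` to the zone with the
squares `B` (regarded as open), and the class of `x` touches the squares which are not frozen only at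
the even sites of the zone. -/
structure CutOk (D Kc B : Finset (ℤ × ℤ)) (κ : Cfg) (x : ℤ × ℤ) (T : Set (ℤ × ℤ)) : Prop where
  /-- the zone is joined to `x` -/
  join : ∀ z ∈ ev (BR.sites B), Cn (StM 0) ((op κ ∩ (↑D ∩ ↑Kc)) ∪ (↑D ∩ ↑B)) x z
  /-- the class touches the other squares only at the zone -/
  out : ∀ u, Cn (StM 0) ((op κ ∩ (↑D ∩ ↑Kc)) ∪ (↑D ∩ ↑B)) x u → ∀ i ∈ D, i ∉ Kc → i ∉ B → ∀ v,
    StM 0 i u v → u ∈ ev (BR.sites B)
  /-- every open frozen square is in the class -/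
  cls : ∀ i ∈ D, i ∈ Kc → κ i = true → ∀ u v, StM 0 i u v →
    Cn (StM 0) ((op κ ∩ (↑D ∩ ↑Kc)) ∪ (↑D ∩ ↑B)) x u
  /-- the target is off the class -/
  tgt : ∀ t ∈ T, Cn (StM 0) ((op κ ∩ (↑D ∩ ↑Kc)) ∪ (↑D ∩ ↑B)) x t → t ∈ ev (BR.sites B)
  /-- the zone is off the cut -/
  disj : Disjoint Kc B

theorem corner_sites {B : Finset (ℤ × ℤ)} {i u v : ℤ × ℤ} (hi : i ∈ B) (h : StM 0 i u v) :
    u ∈ ev (BR.sites B) ∧ v ∈ ev (BR.sites B) := by
  obtain ⟨h1, h2, h3, h4⟩ := h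
  have e1 : i.1 = min u.1 v.1 := by rw [h1]
  have e2 : i.2 = min u.2 v.2 := by rw [h1]
  unfold ev BR.sites
  simp only [Finset.coe_biUnion, mem_iUnion, Finset.coe_insert, Finset.coe_singleton,
    mem_insert_iff, mem_singleton_iff, mem_ofPred_eq, Finset.mem_coe]
  refine ⟨⟨⟨i, hi, ?_⟩, by omega⟩, ⟨i, hi, ?_⟩, by omega⟩ <;>
    simp only [Prod.ext_iff] <;> omega

/-- **Joining the zone to `T` off the cut is joining `x` to `T` with the frozen cut.** -/
theorem cr_cut {D Kc B : Finset (ℤ × ℤ)} {κ : Cfg} {x : ℤ × ℤ} {T : Set (ℤ × ℤ)}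
    (h : CutOk D Kc B κ x T) {ω ω₁ : Cfg} (h1 : ∀ v ∈ Kc, ω₁ v = κ v) (h2 : ∀ v ∈ B, ω₁ v = true)
    (h3 : ∀ v, v ∉ Kc → v ∉ B → ω₁ v = ω v) :
    Cr (StM 0) (op ω₁ ∩ ↑D) {x} T ↔ Cr (StM 0) (op ω ∩ ↑(D \ Kc)) (ev (BR.sites B)) T := by
  set G : Set (ℤ × ℤ) := (op κ ∩ (↑D ∩ ↑Kc)) ∪ (↑D ∩ ↑B) with hG
  have hGsub : G ⊆ op ω₁ ∩ ↑D := by
    rintro v (⟨hv1, hv2, hv3⟩ | ⟨hv1, hv2⟩)
    · exact ⟨(h1 v hv3).trans hv1, hv2⟩
    · exact ⟨h2 v hv2, hv1⟩
  constructor
  · rintro ⟨x', hx', t, ht, hp⟩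
    rw [mem_singleton_iff.1 hx'] at hp
    have key : ∀ w, Cn (StM 0) (op ω₁ ∩ ↑D) x w → Cn (StM 0) G x w ∨
        ∃ z ∈ ev (BR.sites B), Cn (StM 0) (op ω ∩ ↑(D \ Kc)) z w := by
      intro w hw
      induction hw with
      | refl => exact Or.inl (Cn.refl _ _)
      | @tail b c _ hbc ih =>
        obtain ⟨i, ⟨hi1, hi2⟩, hs⟩ := hbc
        by_cases hK : i ∈ Kc
        · left
          refine h.cls i hi2 hK ((h1 i hK).symm.trans hi1) c b ?_
          exact (isSt_M 0).symm i b c hs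
        · by_cases hB : i ∈ B
          · left
            exact h.join c (corner_sites hB hs).2
          · right
            have hstep : ∃ j ∈ op ω ∩ (↑(D \ Kc) : Set (ℤ × ℤ)), StM 0 j b c := by
              refine ⟨i, ⟨(h3 i hK hB).symm.trans hi1, ?_⟩, hs⟩
              rw [Finset.coe_sdiff]
              exact ⟨hi2, hK⟩
            rcases ih with ih | ⟨z, hz, ih⟩
            · exact ⟨b, h.out b ih i hi2 hK hB c hs, Relation.ReflTransGen.single hstep⟩
            · exact ⟨z, hz, ih.tail hstep⟩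
    rcases key t hp with h4 | ⟨z, hz, h4⟩
    · exact ⟨t, h.tgt t ht h4, t, ht, Cn.refl _ _⟩
    · exact ⟨z, hz, t, ht, h4⟩
  · rintro ⟨z, hz, t, ht, hp⟩
    refine ⟨x, rfl, t, ht, ((h.join z hz).mono hGsub).trans (hp.mono ?_)⟩
    rintro i ⟨hi1, hi2⟩
    rw [Finset.coe_sdiff] at hi2
    refine ⟨?_, hi2.1⟩
    by_cases hB : i ∈ B
    · exact h2 i hB
    · exact (h3 i hi2.2 hB).trans hi1

/-! ### Comparison given a finite set of squares -/

theorem DepOn.measurable {B : Finset (ℤ × ℤ)} {F : Cfg → ℝ} (hF : DepOn B F) : Measurable F := by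
  have : Past (fun _ : Cfg => B) F := fun ω ω' h => hF ω' ω h
  exact this.measurable

theorem DepOn.bdd {B : Finset (ℤ × ℤ)} {F : Cfg → ℝ} (hF : DepOn B F) : ∃ M, ∀ ω, |F ω| ≤ M := by
  classical
  -- finitely many values
  let e : (B → Bool) → Cfg := fun s v => if h : v ∈ B then s ⟨v, h⟩ else false
  have he : ∀ ω, F ω = F (e fun v => ω v) := by
    intro ω
    refine hF _ _ fun v hv => ?_
    show ω v = if h : v ∈ B then ω v else false
    rw [dif_pos hv]
  obtain ⟨M, hM⟩ := (Set.finite_range fun s : B → Bool => |F (e s)|).bddAbove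
  exact ⟨M, fun ω => by rw [he ω]; exact hM ⟨(fun v : B => ω v), rfl⟩⟩

theorem integral_glue (K : Finset (ℤ × ℤ)) {G : Cfg → ℝ} (hG : Measurable G) {M : ℝ}
    (hM : ∀ ω, |G ω| ≤ M) : ∫ ω, G ω ∂μ = ∫ ω, ∫ ω', G (glue (↑K) ω ω') ∂μ ∂μ := by
  have e : Measure.map (fun p : Cfg × Cfg => glue (↑K : Set (ℤ × ℤ)) p.1 p.2) (μ.prod μ) = μ :=
    map_glue (ν := fair) (ι := ℤ × ℤ) (↑K)
  conv_lhs => rw [← e]
  rw [integral_map (measurable_glue _).aemeasurable hG.aestronglyMeasurable]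
  have hi : Integrable (fun p : Cfg × Cfg => G (glue (↑K : Set (ℤ × ℤ)) p.1 p.2)) (μ.prod μ) := by
    refine Integrable.of_bound (hG.comp (measurable_glue _)).aestronglyMeasurable M ?_
    exact ae_of_all _ fun p => by rw [Real.norm_eq_abs]; exact hM _
  exact integral_prod _ hi

/-- Comparison of two events given the squares of `B`. -/
theorem loc_diff {B : Finset (ℤ × ℤ)} {F : Cfg → ℝ} (hF : DepOn B F) {E₁ E₂ : Set Cfg}
    (h1 : MeasurableSet E₁) (h2 : MeasurableSet E₂) {e : ℝ}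
    (he : ∀ s : Cfg, |μ.real {ω' | glue (↑B) s ω' ∈ E₁} - μ.real {ω' | glue (↑B) s ω' ∈ E₂}| ≤ e) :
    |∫ ω, F ω * E₁.indicator 1 ω ∂μ - ∫ ω, F ω * E₂.indicator 1 ω ∂μ| ≤ e * ∫ ω, |F ω| ∂μ := by
  obtain ⟨M, hM⟩ := hF.bdd
  have hFm := hF.measurable
  have hFi : Integrable F μ := Integrable.of_bound hFm.aestronglyMeasurable M
    (ae_of_all _ fun ω => by rw [Real.norm_eq_abs]; exact hM ω)
  have key : ∀ E : Set Cfg, MeasurableSet E → ∫ ω, F ω * E.indicator 1 ω ∂μ =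
      ∫ ω, F ω * μ.real {ω' | glue (↑B) ω ω' ∈ E} ∂μ := by
    intro E hE
    have hm : Measurable fun ω : Cfg => F ω * E.indicator (1 : Cfg → ℝ) ω :=
      hFm.mul (measurable_one.indicator hE)
    have hb : ∀ ω : Cfg, |F ω * E.indicator (1 : Cfg → ℝ) ω| ≤ M := by
      intro ω
      rw [abs_mul]
      have h3 : |E.indicator (1 : Cfg → ℝ) ω| ≤ 1 := by
        by_cases h : ω ∈ E
        · rw [indicator_of_mem h]; simp
        · rw [indicator_of_notMem h]; simp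
      exact (mul_le_of_le_one_right (abs_nonneg _) h3).trans (hM ω)
    rw [integral_glue B hm hb]
    refine integral_congr_ae (ae_of_all _ fun ω => ?_)
    have h4 : ∀ ω' : Cfg, F (glue (↑B) ω ω') = F ω := fun ω' =>
      hF _ _ fun v hv => glue_mem (Finset.mem_coe.2 hv)
    simp only [h4]
    rw [integral_const_mul]
    congr 1
    have h5 : MeasurableSet {ω' : Cfg | glue (↑B : Set (ℤ × ℤ)) ω ω' ∈ E} :=
      hE.preimage ((measurable_glue (↑B : Set (ℤ × ℤ))).comp measurable_prodMk_left)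
    rw [← integral_indicator_one h5]
    rfl
  have hr : ∀ E : Set Cfg, MeasurableSet E →
      Integrable (fun ω => F ω * μ.real {ω' | glue (↑B : Set (ℤ × ℤ)) ω ω' ∈ E}) μ := by
    intro E hE
    have hm : Measurable fun ω : Cfg => μ.real {ω' | glue (↑B : Set (ℤ × ℤ)) ω ω' ∈ E} := by
      have h5 : MeasurableSet {p : Cfg × Cfg | glue (↑B : Set (ℤ × ℤ)) p.1 p.2 ∈ E} :=
        hE.preimage (measurable_glue _)
      exact (measurable_measure_prodMk_left h5).ennreal_toReal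
    refine Integrable.of_bound (hFm.mul hm).aestronglyMeasurable M (ae_of_all _ fun ω => ?_)
    rw [Real.norm_eq_abs, abs_mul]
    refine (mul_le_of_le_one_right (abs_nonneg _) ?_).trans (hM ω)
    rw [abs_of_nonneg measureReal_nonneg]
    exact measureReal_le_one
  rw [key E₁ h1, key E₂ h2, ← integral_sub (hr E₁ h1) (hr E₂ h2)]
  refine (abs_integral_le_integral_abs).trans ?_
  rw [← integral_const_mul]
  refine integral_mono (((hr E₁ h1).sub (hr E₂ h2)).abs) (hFi.abs.const_mul e) fun ω => ?_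
  show |F ω * _ - F ω * _| ≤ e * |F ω|
  rw [← mul_sub, abs_mul, mul_comm]
  exact mul_le_mul_of_nonneg_right (he ω) (abs_nonneg _)

end Vale.Agent.P167.CL
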