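import Vale.Agent.P167.CL.Loc

/-!
# P167, block CLOSE: the comparison (i) of `GeoAt` from the comparison of the frozen quads
-/

set_option autoImplicit false

open MeasureTheory Filter Topology Set Metric
open scoped NNReal ENNReal

namespace Vale.Agent.P167.CL

open Vale.Agent.P145.FB (PStep)
open Vale.Agent.P167.H531 Vale.Agent.P167.H558
open Vale.Agent.P167.E6 Vale.Agent.P167.E2 Vale.Agent.P167.H411
open Vale.Agent.P167.H161 (Rd cex_eq)

/-- `Jn` only depends on the squares of the domain. -/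
theorem jn_congr {D : Finset (ℤ × ℤ)} {ω ω' : Cfg} {U T : Set (ℤ × ℤ)}
    (h : ∀ v ∈ D, ω v = ω' v) : BR.Jn true D ω U T ↔ BR.Jn true D ω' U T := by
  have e : op ω ∩ (↑D : Set (ℤ × ℤ)) = op ω' ∩ ↑D := by
    ext v
    simp only [op, mem_inter_iff, mem_ofPred_eq, Finset.mem_coe]
    constructor
    · rintro ⟨h1, h2⟩; exact ⟨(h v h2).symm.trans h1, h2⟩
    · rintro ⟨h1, h2⟩; exact ⟨(h v h2).trans h1, h2⟩
  rw [jn_iff, jn_iff, e]

theorem ind_congr {D : Finset (ℤ × ℤ)} {ω ω' : Cfg} {T : Set (ℤ × ℤ)} {b : ℤ × ℤ} {r : ℤ}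
    (h : ∀ v ∈ D, ω v = ω' v) : ind D T b r ω = ind D T b r ω' := by
  classical
  unfold ind
  by_cases h1 : BR.Jn true D ω (BR.sites (BR.hbox b r)) T
  · rw [if_pos h1, if_pos ((jn_congr h).1 h1)]
  · rw [if_neg h1, if_neg fun h2 => h1 ((jn_congr h).2 h2)]

theorem ind_eq_indicator (D : Finset (ℤ × ℤ)) (T : Set (ℤ × ℤ)) (b : ℤ × ℤ) (r : ℤ) (ω : Cfg) :
    ind D T b r ω =
      {ω : Cfg | BR.Jn true D ω (BR.sites (BR.hbox b r)) T}.indicator (1 : Cfg → ℝ) ω := by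
  classical
  rw [Set.indicator_apply]
  rfl

/-- The wired sites. -/
def wst {n : ℕ} (p : ZMod n → ℤ × ℤ) (k : ℕ) : Set (ℤ × ℤ) := H192.ro '' arcV p k (n - 1)

/-- **The comparison (i)** of `GeoAt`, for one outcome and one step, from the comparison of the
crossing probabilities of the frozen quads. `D` = the random squares, `Kc` = the squares of the cut,
`κ` its frozen configuration, `PE` = the squares of the polygon with the cut, `P = PE \ Kc`. -/
theorem geo_i (δ : ℕ → ℝ) (N k : ℕ → ℕ) (p : ∀ n, ZMod (N n) → ℤ × ℤ)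
    (S : ℕ → Finset (ℤ × ℤ)) (ψn : ℕ → ℂ → ℂ) (n : ℕ) {A : Finset (Sym2 (ℤ × ℤ))}
    (hA : A ⊆ edges (S n)) (j : ℕ) {Kc PE P : Finset (ℤ × ℤ)} {κ : Cfg} {x y : ℤ × ℤ}
    {L : Set (ℤ × ℤ)} {b : ℤ × ℤ} {r Rb : ℤ} (hrR : r ≤ Rb)
    (hx : CutOk (H192.dq (p n) (k n) (S n)) Kc (BR.hbox b r) κ x (wst (p n) (k n)))
    (hy : CutOk PE Kc (BR.hbox b r) κ y L) (hP : P = PE \ Kc)
    (hB : BR.hbox b Rb ⊆ H192.dq (p n) (k n) (S n))
    (hBK : Disjoint Kc (BR.hbox b Rb)) (hBR : Disjoint (Rd (p n) (k n) (S n) A j) (BR.hbox b Rb))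
    (hKR : Disjoint (Rd (p n) (k n) (S n) A j) Kc) (hPR : Disjoint (Rd (p n) (k n) (S n) A j) PE)
    {e : ℝ} (he : 0 ≤ e)
    (hcmp : ∀ ω₀ : Cfg, (∀ v ∈ Rd (p n) (k n) (S n) A j, ω₀ v = H192.cfg (A : Set _) v) →
      (∀ v ∈ Kc, ω₀ v = κ v) → (∀ v ∈ BR.hbox b r, ω₀ v = true) →
      cpr fair (StM 0) (H192.dq (p n) (k n) (S n))
          (Rd (p n) (k n) (S n) A j ∪ Kc ∪ BR.hbox b Rb) {x} (wst (p n) (k n)) ω₀ ≤
        cpr fair (StM 0) PE (Rd (p n) (k n) (S n) A j ∪ Kc ∪ BR.hbox b Rb) {y} L ω₀ +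
          ENNReal.ofReal e ∧
      cpr fair (StM 0) PE (Rd (p n) (k n) (S n) A j ∪ Kc ∪ BR.hbox b Rb) {y} L ω₀ ≤
        cpr fair (StM 0) (H192.dq (p n) (k n) (S n))
          (Rd (p n) (k n) (S n) A j ∪ Kc ∪ BR.hbox b Rb) {x} (wst (p n) (k n)) ω₀ +
          ENNReal.ofReal e)
    {F : Cfg → ℝ} (hF : DepOn (BR.hbox b Rb) F) :
    |cex (exn δ N k p S ψn n) (fun A' => F (H192.cfg (A' : Set _)) *
        ind (H192.dq (p n) (k n) (S n) \ Kc) (wst (p n) (k n)) b r (H192.cfg (A' : Set _))) A j -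
      OF P L b r F| ≤ e * ∫ ω, |F ω| ∂μ := by
  classical
  set D := H192.dq (p n) (k n) (S n) with hD
  set W := wst (p n) (k n) with hW
  set R := Rd (p n) (k n) (S n) A j with hR
  set wA : Cfg := H192.cfg (A : Set (Sym2 (ℤ × ℤ))) with hwA
  set B := BR.hbox b r with hBdef
  set Bb := BR.hbox b Rb with hBb
  have hBB : B ⊆ Bb := by
    intro v hv
    rw [hBdef, BR.hbox, Finset.mem_product, Finset.mem_Icc, Finset.mem_Icc] at hv
    rw [hBb, BR.hbox, Finset.mem_product, Finset.mem_Icc, Finset.mem_Icc]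
    omega
  -- the two events
  set E₁ : Set Cfg := {ω | BR.Jn true (D \ Kc) (glue (↑R) wA ω) (BR.sites B) W} with hE₁
  set E₂ : Set Cfg := {ω | BR.Jn true P ω (BR.sites B) L} with hE₂
  have hdE : ∀ v ∈ D, H192.ed v ∈ edges (S n) := fun v hv => (H192.mem_dq.1 hv).1
  have m1 : MeasurableSet E₁ := by
    refine meas_of_dep (K := D) fun ω ω' h h' => ?_
    refine (jn_congr fun v hv => ?_).1 h'
    have hvD : v ∈ D := (Finset.mem_sdiff.1 hv).1
    by_cases hvR : v ∈ (↑R : Set (ℤ × ℤ))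
    · rw [glue_mem hvR, glue_mem hvR]
    · rw [glue_not_mem hvR, glue_not_mem hvR, h v hvD]
  have m2 : MeasurableSet E₂ := by
    refine meas_of_dep (K := P) fun ω ω' h h' => ?_
    exact (jn_congr fun v hv => (h v hv).symm).1 h'
  -- the left side
  have hl : cex (exn δ N k p S ψn n) (fun A' => F (H192.cfg (A' : Set _)) *
        ind (D \ Kc) W b r (H192.cfg (A' : Set _))) A j = ∫ ω, F ω * E₁.indicator 1 ω ∂μ := by
    rw [cex_eq δ N k p S ψn n _ hA j]
    refine integral_congr_ae (ae_of_all _ fun ω => ?_)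
    show F (H192.cfg (H192.As (S n) (glue (↑R) wA ω) : Set _)) *
      ind (D \ Kc) W b r (H192.cfg (H192.As (S n) (glue (↑R) wA ω) : Set _)) = _
    have e1 : F (H192.cfg (H192.As (S n) (glue (↑R) wA ω) : Set _)) = F ω := by
      refine hF _ _ fun v hv => ?_
      rw [H161.cfg_As (hdE v (hB hv)), glue_not_mem]
      exact fun h => Finset.disjoint_left.1 hBR (Finset.mem_coe.1 h) hv
    have e2 : ind (D \ Kc) W b r (H192.cfg (H192.As (S n) (glue (↑R) wA ω) : Set _)) =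
        ind (D \ Kc) W b r (glue (↑R) wA ω) :=
      ind_congr fun v hv => H161.cfg_As (hdE v (Finset.mem_sdiff.1 hv).1)
    rw [e1, e2, ind_eq_indicator]
    rfl
  have hr : OF P L b r F = ∫ ω, F ω * E₂.indicator 1 ω ∂μ := by
    unfold OF
    simp only [ind_eq_indicator]
    rfl
  rw [hl, hr]
  refine loc_diff hF m1 m2 fun s => ?_
  -- the frozen configuration
  set ω₀ : Cfg := fun v => if v ∈ Kc then κ v else if v ∈ B then true else
    if v ∈ R then wA v else s v with hω₀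
  have hKB : Disjoint Kc B := hBK.mono_right hBB
  have c1 : ∀ v ∈ R, ω₀ v = wA v := by
    intro v hv
    have h1 : v ∉ Kc := Finset.disjoint_left.1 hKR hv
    have h2 : v ∉ B := fun h => Finset.disjoint_left.1 hBR hv (hBB h)
    rw [hω₀]
    simp only [h1, h2, hv, if_false, if_true]
  have c2 : ∀ v ∈ Kc, ω₀ v = κ v := by
    intro v hv
    rw [hω₀]
    simp only [hv, if_true]
  have c3 : ∀ v ∈ B, ω₀ v = true := by
    intro v hv
    have h1 : v ∉ Kc := fun h => Finset.disjoint_left.1 hKB h hv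
    rw [hω₀]
    simp only [h1, hv, if_false, if_true]
  set K : Finset (ℤ × ℤ) := R ∪ Kc ∪ Bb with hK
  have k1 : ∀ (ω' : Cfg), ∀ v ∈ Kc, glue (↑K) ω₀ ω' v = κ v := fun ω' v hv => by
    rw [glue_mem (Finset.mem_coe.2 (by rw [hK]; simp [hv])), c2 v hv]
  have k2 : ∀ (ω' : Cfg), ∀ v ∈ B, glue (↑K) ω₀ ω' v = true := fun ω' v hv => by
    rw [glue_mem (Finset.mem_coe.2 (by rw [hK]; simp [hBB hv])), c3 v hv]
  have k3 : ∀ (ω' : Cfg), ∀ v, v ∉ Kc → v ∉ B →
      glue (↑K) ω₀ ω' v = glue (↑R) wA (glue (↑Bb) s ω') v := by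
    intro ω' v h1 h2
    by_cases hvR : v ∈ R
    · rw [glue_mem (Finset.mem_coe.2 (by rw [hK]; simp [hvR])), glue_mem (Finset.mem_coe.2 hvR),
        c1 v hvR]
    · rw [glue_not_mem (K := (↑R : Set (ℤ × ℤ))) fun h => hvR (Finset.mem_coe.1 h)]
      by_cases hvB : v ∈ Bb
      · rw [glue_mem (Finset.mem_coe.2 (by rw [hK]; simp [hvB])), glue_mem (Finset.mem_coe.2 hvB)]
        rw [hω₀]
        simp only [h1, h2, hvR, if_false]
      · rw [glue_not_mem fun h => hvB (Finset.mem_coe.1 h), glue_not_mem]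
        intro h
        rw [Finset.mem_coe, hK, Finset.mem_union, Finset.mem_union] at h
        rcases h with (h | h) | h
        · exact hvR h
        · exact h1 h
        · exact hvB h
  have q1 : μ.real {ω' | glue (↑Bb) s ω' ∈ E₁} = (cpr fair (StM 0) D K {x} W ω₀).toReal := by
    rw [Measure.real]
    congr 1
    unfold cpr
    rw [show (μ : Measure Cfg) = Pm fair (ℤ × ℤ) from rfl]
    congr 1
    ext ω'
    show BR.Jn true (D \ Kc) (glue (↑R) wA (glue (↑Bb) s ω')) (BR.sites B) W ↔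
      Cr (StM 0) (Op (glue (↑K) ω₀ ω') ∩ ↑D) {x} W
    rw [jn_iff, Op_eq, cr_cut hx (k1 ω') (k2 ω') (k3 ω')]
  have q2 : μ.real {ω' | glue (↑Bb) s ω' ∈ E₂} = (cpr fair (StM 0) PE K {y} L ω₀).toReal := by
    rw [Measure.real]
    congr 1
    unfold cpr
    rw [show (μ : Measure Cfg) = Pm fair (ℤ × ℤ) from rfl]
    congr 1
    ext ω'
    show BR.Jn true P (glue (↑Bb) s ω') (BR.sites B) L ↔
      Cr (StM 0) (Op (glue (↑K) ω₀ ω') ∩ ↑PE) {y} L
    rw [Op_eq, cr_cut hy (k1 ω') (k2 ω') (k3 ω'), ← jn_iff, ← hP]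
    refine jn_congr fun v hv => ?_
    rw [hP, Finset.mem_sdiff] at hv
    rw [glue_not_mem (K := (↑R : Set (ℤ × ℤ))) fun h =>
      Finset.disjoint_left.1 hPR (Finset.mem_coe.1 h) hv.1]
  rw [q1, q2]
  obtain ⟨h1, h2⟩ := hcmp ω₀ c1 c2 c3
  have f1 : cpr fair (StM 0) D K {x} W ω₀ ≠ ⊤ := by unfold cpr; exact measure_ne_top _ _
  have f2 : cpr fair (StM 0) PE K {y} L ω₀ ≠ ⊤ := by unfold cpr; exact measure_ne_top _ _
  have g1 := ENNReal.toReal_mono (by finiteness) h1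
  have g2 := ENNReal.toReal_mono (by finiteness) h2
  rw [ENNReal.toReal_add f2 ENNReal.ofReal_ne_top, ENNReal.toReal_ofReal he] at g1
  rw [ENNReal.toReal_add f1 ENNReal.ofReal_ne_top, ENNReal.toReal_ofReal he] at g2
  rw [abs_sub_le_iff]
  constructor <;> linarith

end Vale.Agent.P167.CL
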