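import Vale.Agent.P167.CL.Frame
import Vale.Agent.P167.E6.Poly6
import Vale.Agent.P167.H756.Flat

/-!
# P167, block CLOSE [SH]: the shapes

* `mem_D6_of_flt`, `flat_up` : flatness of the set of squares gives flatness of the open domain;
* `shp_finite` : there are finitely many well-formed shapes in a box.
-/

set_option autoImplicit false

open Set Topology Metric Filter Bornology

namespace Vale.Agent.P167.CL

open Vale.Agent.P153.R2.R1
open Vale.Agent.P167.E6

/-! ### Flatness -/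

/-- Near a flat point the domain is a half-plane. -/
theorem mem_D6_of_flt {S : Finset (ℤ × ℤ)} {b : ℤ × ℤ} {ρ : ℤ} (hF : BR.Flt S b ρ) {ℓ : ℝ}
    (hℓ : 0 < ℓ) {z : ℂ} (h1 : |z.re - ℓ * b.1| < ℓ * ρ) (h2 : |z.im - ℓ * b.2| < ℓ * ρ) :
    z ∈ D6 ℓ S ↔ ℓ * b.2 < z.im := by
  -- the open window
  set O : Set ℂ := {w | |w.re - ℓ * b.1| < ℓ * ρ ∧ |w.im - ℓ * b.2| < ℓ * ρ} with hO
  have hOo : IsOpen O := by
    apply IsOpen.inter
    · exact isOpen_lt ((Complex.continuous_re.sub continuous_const).abs) continuous_const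
    · exact isOpen_lt ((Complex.continuous_im.sub continuous_const).abs) continuous_const
  have key1 : ∀ w ∈ O, ℓ * b.2 < w.im → w ∈ region ℓ S := by
    rintro w ⟨g1, g2⟩ hw
    rw [abs_lt] at g1 g2
    set f : ℤ × ℤ := (⌊w.re / ℓ⌋, ⌊w.im / ℓ⌋) with hf
    have e1 : ℓ * ⌊w.re / ℓ⌋ ≤ w.re := by
      have := Int.floor_le (w.re / ℓ)
      rwa [le_div_iff₀ hℓ, mul_comm] at this
    have e2 : w.re < ℓ * (⌊w.re / ℓ⌋ + 1) := by
      have := Int.lt_floor_add_one (w.re / ℓ)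
      rwa [div_lt_iff₀ hℓ, mul_comm] at this
    have e3 : ℓ * ⌊w.im / ℓ⌋ ≤ w.im := by
      have := Int.floor_le (w.im / ℓ)
      rwa [le_div_iff₀ hℓ, mul_comm] at this
    have e4 : w.im < ℓ * (⌊w.im / ℓ⌋ + 1) := by
      have := Int.lt_floor_add_one (w.im / ℓ)
      rwa [div_lt_iff₀ hℓ, mul_comm] at this
    have c1 : b.1 - ρ ≤ f.1 := by
      have : ℓ * ((b.1 : ℝ) - ρ) < ℓ * (f.1 + 1) := by simp only [hf]; linarith
      have := lt_of_mul_lt_mul_left this hℓ.le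
      have h : b.1 - ρ < f.1 + 1 := by exact_mod_cast this
      omega
    have c2 : f.1 < b.1 + ρ := by
      have : ℓ * (f.1 : ℝ) < ℓ * (b.1 + ρ) := by simp only [hf]; linarith
      have := lt_of_mul_lt_mul_left this hℓ.le
      exact_mod_cast this
    have c3 : b.2 ≤ f.2 := by
      have : ℓ * (b.2 : ℝ) < ℓ * (f.2 + 1) := by simp only [hf]; linarith
      have := lt_of_mul_lt_mul_left this hℓ.le
      have h : b.2 < f.2 + 1 := by exact_mod_cast this
      omega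
    have c4 : f.2 < b.2 + ρ := by
      have : ℓ * (f.2 : ℝ) < ℓ * (b.2 + ρ) := by simp only [hf]; linarith
      have := lt_of_mul_lt_mul_left this hℓ.le
      exact_mod_cast this
    have hρ : 0 < ρ := by omega
    exact ⟨f, (hF f c1 c2 (by omega) c4).2 c3, e1, e2.le, e3, e4.le⟩
  constructor
  · intro hz
    by_contra hlt
    push Not at hlt
    obtain ⟨r, hr, hball⟩ := Metric.isOpen_iff.1 ((isOpen_D6 ℓ S).inter hOo) z ⟨hz, h1, h2⟩
    have hw : z - ((r / 2 : ℝ) : ℂ) * Complex.I ∈ ball z r := by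
      rw [mem_ball, dist_eq_norm, sub_sub_cancel_left, norm_neg, norm_mul, Complex.norm_I, mul_one,
        Complex.norm_real, Real.norm_of_nonneg (by positivity)]
      linarith
    obtain ⟨hw1, hw2, hw3⟩ := hball hw
    have him : (z - ((r / 2 : ℝ) : ℂ) * Complex.I).im = z.im - r / 2 := by
      rw [Complex.sub_im, Complex.im_ofReal_mul, Complex.I_im, mul_one]
    set w := z - ((r / 2 : ℝ) : ℂ) * Complex.I with hwdef
    obtain ⟨f, hf, f1, f2, f3, f4⟩ := interior_subset hw1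
    rw [abs_lt] at hw2 hw3
    have c3 : f.2 < b.2 := by
      have : ℓ * (f.2 : ℝ) < ℓ * b.2 := by linarith
      have := lt_of_mul_lt_mul_left this hℓ.le
      exact_mod_cast this
    have c1 : b.1 - ρ ≤ f.1 := by
      have : ℓ * ((b.1 : ℝ) - ρ) < ℓ * (f.1 + 1) := by linarith
      have := lt_of_mul_lt_mul_left this hℓ.le
      have h : b.1 - ρ < f.1 + 1 := by exact_mod_cast this
      omega
    have c2 : f.1 < b.1 + ρ := by
      have : ℓ * (f.1 : ℝ) < ℓ * (b.1 + ρ) := by linarith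
      have := lt_of_mul_lt_mul_left this hℓ.le
      exact_mod_cast this
    have c4 : b.2 - ρ ≤ f.2 := by
      have : ℓ * ((b.2 : ℝ) - ρ) < ℓ * (f.2 + 1) := by linarith
      have := lt_of_mul_lt_mul_left this hℓ.le
      have h : b.2 - ρ < f.2 + 1 := by exact_mod_cast this
      omega
    have := (hF f c1 c2 c4 (by omega)).1 hf
    omega
  · intro hz
    have hU : IsOpen (O ∩ {w : ℂ | ℓ * b.2 < w.im}) :=
      hOo.inter (isOpen_lt continuous_const Complex.continuous_im)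
    exact interior_maximal (fun w hw => key1 w hw.1 hw.2) hU ⟨⟨h1, h2⟩, hz⟩

theorem flat_up {S : Finset (ℤ × ℤ)} {b : ℤ × ℤ} {ρ : ℤ} (hF : BR.Flt S b ρ) {ℓ : ℝ}
    (hℓ : 0 < ℓ) : H756.FlatUp (D6 ℓ S) (ℓ * pt b) (ℓ * ρ) := by
  intro z hz
  rw [mem_ball, dist_eq_norm] at hz
  have h1 := (Complex.abs_re_le_norm (z - ℓ * pt b)).trans_lt hz
  have h2 := (Complex.abs_im_le_norm (z - ℓ * pt b)).trans_lt hz
  have e1 : (ℓ * pt b : ℂ).re = ℓ * b.1 := by rw [Complex.re_ofReal_mul]; rfl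
  have e2 : (ℓ * pt b : ℂ).im = ℓ * b.2 := by rw [Complex.im_ofReal_mul]; rfl
  rw [Complex.sub_re, e1] at h1
  rw [Complex.sub_im, e2] at h2
  rw [e2]
  exact mem_D6_of_flt hF hℓ h1 h2

/-! ### Finiteness -/

variable {P : Shp} {ρ : ℤ} {ℓ : ℝ}

theorem Shp.Ok.m_pos (h : P.Ok ρ) : 2 < P.m := h.poly.1

/-- The sites of the polygon are corners of enclosed squares. -/
theorem Shp.Ok.site (h : P.Ok ρ) (i : ZMod P.m) :
    ∃ f ∈ P.S, f.1 ≤ (P.q i).1 ∧ (P.q i).1 ≤ f.1 + 1 ∧ f.2 ≤ (P.q i).2 ∧ (P.q i).2 ≤ f.2 + 1 := by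
  obtain ⟨r, hr⟩ := h.poly.2.2 i
  obtain ⟨h1, -⟩ := (h.encl (P.q i) r).1 ⟨i, rfl, hr⟩
  refine ⟨_, h1, ?_⟩
  fin_cases r <;> simp [face]

/-- There are finitely many well-formed shapes in a box. -/
theorem shp_finite (ρ : ℤ) (B : Finset (ℤ × ℤ)) : {P : Shp | P.Ok ρ ∧ P.S ⊆ B}.Finite := by
  classical
  -- the sites
  set B' : Finset (ℤ × ℤ) := B ∪ B.image (· + (1, 0)) ∪ B.image (· + (0, 1)) ∪
    B.image (· + (1, 1)) with hB'
  have hsite : ∀ P : Shp, P.Ok ρ → P.S ⊆ B → ∀ i, P.q i ∈ B' := by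
    intro P h hS i
    obtain ⟨f, hf, h1, h2, h3, h4⟩ := h.site i
    have hfB := hS hf
    simp only [hB', Finset.mem_union, Finset.mem_image]
    have e1 : (P.q i).1 = f.1 ∨ (P.q i).1 = f.1 + 1 := by omega
    have e2 : (P.q i).2 = f.2 ∨ (P.q i).2 = f.2 + 1 := by omega
    rcases e1 with e1 | e1 <;> rcases e2 with e2 | e2
    · left; left; left
      have : P.q i = f := Prod.ext e1 e2
      rwa [this]
    · left; right
      exact ⟨f, hfB, by ext <;> simp [e1, e2]⟩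
    · left; left; right
      exact ⟨f, hfB, by ext <;> simp [e1, e2]⟩
    · right
      exact ⟨f, hfB, by ext <;> simp [e1, e2]⟩
  have hm : ∀ P : Shp, P.Ok ρ → P.S ⊆ B → P.m ≤ B'.card := by
    intro P h hS
    have hm3 := h.m_pos
    have : NeZero P.m := ⟨by omega⟩
    have h1 : (Finset.univ.image P.q).card ≤ B'.card := by
      refine Finset.card_le_card ?_
      intro z hz
      obtain ⟨i, -, rfl⟩ := Finset.mem_image.1 hz
      exact hsite P h hS i
    rwa [Finset.card_image_of_injective _ h.poly.2.1, Finset.card_univ, ZMod.card] at h1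
  refine ((Set.finite_Icc 1 B'.card).biUnion
    (t := fun m => (fun x : (ZMod m → ℤ × ℤ) × Finset (ℤ × ℤ) × ℕ × ℕ =>
      (⟨m, x.1, x.2.1, x.2.2.1, x.2.2.2⟩ : Shp)) ''
        ((Set.univ.pi fun _ => (B' : Set (ℤ × ℤ))) ×ˢ ((B.powerset : Set (Finset (ℤ × ℤ))) ×ˢ
          (Set.Iio m ×ˢ Set.Iio m)))) ?_).subset ?_
  · intro m hm
    have : NeZero m := ⟨by have := hm.1; omega⟩
    refine Set.Finite.image _ ?_
    refine Set.Finite.prod ?_ ?_
    · exact Set.Finite.pi fun _ => B'.finite_toSet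
    · exact (B.powerset.finite_toSet).prod ((Set.finite_Iio m).prod (Set.finite_Iio m))
  · rintro P ⟨h, hS⟩
    have h1 := h.m_pos
    have h2 := h.k_lt
    have h3 := h.l_lt
    refine Set.mem_biUnion (x := P.m) ⟨by omega, hm P h hS⟩ ?_
    refine ⟨(P.q, P.S, P.k, P.l), ⟨?_, ?_, ?_, ?_⟩, rfl⟩
    · intro i _
      exact hsite P h hS i
    · simpa using hS
    · show P.k < P.m
      omega
    · exact h3

end Vale.Agent.P167.CL
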