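import Vale.Agent.P167.CL.Top3

/-!
# P167, block CLOSE, top: the observable from the geometric input, the bridge and the core
-/

set_option autoImplicit false
set_option linter.unusedVariables false

open MeasureTheory Filter Topology Set

namespace Vale.Agent.P167.CL

open Vale.Agent.P167.E6 Vale.Agent.P167.E2 Vale.Agent.P167.H411
open Vale.Agent.P167.BR (Flt hbox sites OD Zl XB)
open Vale.Agent.P153.R2 (Ex)
open Vale.Agent.P153.M1 (Expl)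

theorem exists_theta {A C θ₁ : ℝ} (hA : 0 < A) (hθ₁ : 0 < θ₁) :
    ∃ θ : ℝ, 0 < θ ∧ θ ≤ θ₁ ∧ |C| * (4 * θ) ^ (5 / 6 : ℝ) ≤ A * θ ^ (1 / 3 : ℝ) := by
  set B : ℝ := A / (4 * (|C| + 1)) with hB
  have hB0 : 0 < B := by positivity
  set θ : ℝ := min θ₁ (B ^ 2) with hθ
  have hθ0 : 0 < θ := by positivity
  refine ⟨θ, hθ0, min_le_left _ _, ?_⟩
  have h1 : (4 * θ) ^ (5 / 6 : ℝ) = 4 ^ (5 / 6 : ℝ) * θ ^ (5 / 6 : ℝ) :=
    Real.mul_rpow (by norm_num) hθ0.le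
  have h2 : (4 : ℝ) ^ (5 / 6 : ℝ) ≤ 4 := by
    calc (4 : ℝ) ^ (5 / 6 : ℝ) ≤ 4 ^ (1 : ℝ) := Real.rpow_le_rpow_of_exponent_le (by norm_num) (by norm_num)
      _ = 4 := Real.rpow_one 4
  have h3 : θ ^ (5 / 6 : ℝ) = θ ^ (1 / 2 : ℝ) * θ ^ (1 / 3 : ℝ) := by
    rw [← Real.rpow_add hθ0]; norm_num
  have h4 : θ ^ (1 / 2 : ℝ) ≤ B := by
    calc θ ^ (1 / 2 : ℝ) ≤ (B ^ 2) ^ (1 / 2 : ℝ) :=
          Real.rpow_le_rpow hθ0.le (min_le_right _ _) (by norm_num)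
      _ = B := by
        rw [← Real.sqrt_eq_rpow, Real.sqrt_sq hB0.le]
  have h5 : 0 ≤ θ ^ (1 / 3 : ℝ) := by positivity
  rw [h1, h3]
  calc |C| * (4 ^ (5 / 6 : ℝ) * (θ ^ (1 / 2 : ℝ) * θ ^ (1 / 3 : ℝ)))
      ≤ (|C| + 1) * (4 * (B * θ ^ (1 / 3 : ℝ))) := by
        gcongr
        linarith
    _ = A * θ ^ (1 / 3 : ℝ) := by rw [hB]; field_simp

theorem exists_theta' {A C θ₁ : ℝ} (hA : 0 < A) (hθ₁ : 0 < θ₁) :
    ∃ θ : ℝ, 0 < θ ∧ θ ≤ θ₁ ∧ |C| * (8 * θ) ^ (5 / 12 : ℝ) ≤ A := by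
  have hcont : Continuous fun θ : ℝ => |C| * (8 * θ) ^ (5 / 12 : ℝ) :=
    continuous_const.mul ((continuous_const.mul continuous_id).rpow_const
      fun _ => Or.inr (by norm_num))
  have h0 : |C| * (8 * (0 : ℝ)) ^ (5 / 12 : ℝ) = 0 := by
    rw [mul_zero, Real.zero_rpow (by norm_num), mul_zero]
  have h1 := (hcont.tendsto 0).eventually (gt_mem_nhds (show |C| * (8 * (0 : ℝ)) ^ (5 / 12 : ℝ) < A by
    rw [h0]; exact hA))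
  obtain ⟨η, hη, hb⟩ := Metric.eventually_nhds_iff.1 h1
  refine ⟨min θ₁ (η / 2), by positivity, min_le_left _ _, (hb ?_).le⟩
  rw [Real.dist_eq, sub_zero, abs_of_pos (by positivity)]
  exact (min_le_right _ _).trans_lt (by linarith)

/-- **The observable.** -/
theorem i_close6_of (hgeo : I_geo) (hbr : BR.S_br) (hmom : BR.S_mom) (hE2 : I_E2) (hB7 : I_B7) :
    I_close6 obsF := by
  intro Φ ψ δ N k p S ψn hSet T R hT hR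
  obtain ⟨b₁, hb₁⟩ := hgeo Φ ψ δ N k p S ψn hSet T R hT hR
  refine ⟨b₁, fun b hb ε hε => ?_⟩
  obtain ⟨ρ, M, hρ, hM, hgeo'⟩ := hb₁ b hb (ε / 4) (by positivity)
  obtain ⟨χ, hχ⟩ := exists_bmp0
  obtain ⟨c, hc, hB⟩ := hB7 χ hχ
  obtain ⟨C, r₀, hr₀, hbr1⟩ := br_one hbr hχ
  obtain ⟨Cm, r₁, hr₁, hmom1⟩ := mom_one hmom hχ
  obtain ⟨Mw, hMw⟩ : ∃ Mw : ℝ, Mw = (M * M) ^ (1 / 3 : ℝ) := ⟨_, rfl⟩
  have hMw0 : 0 < Mw := by rw [hMw]; positivity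
  obtain ⟨ε₁, hε₁⟩ : ∃ ε₁ : ℝ, ε₁ = c * ε / (4 * Mw) := ⟨_, rfl⟩
  have hε₁0 : 0 < ε₁ := by rw [hε₁]; positivity
  obtain ⟨θ₁, hθ₁, hB'⟩ := hB ε₁ hε₁0
  obtain ⟨A₀, hA₀⟩ : ∃ A₀ : ℝ, A₀ = c * (ρ / M) ^ (1 / 3 : ℝ) := ⟨_, rfl⟩
  have hA₀0 : 0 < A₀ := by rw [hA₀]; positivity
  obtain ⟨θ, hθ0, hθle, hθC⟩ := exists_theta (A := ε / 16 * A₀) (C := C)
    (θ₁ := min θ₁ (1 / 16)) (by positivity) (by positivity)
  have hθθ₁ : θ ≤ θ₁ := hθle.trans (min_le_left _ _)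
  have hθ16 : θ ≤ 1 / 16 := hθle.trans (min_le_right _ _)
  obtain ⟨κ₀, hκ₀⟩ : ∃ κ₀ : ℝ, κ₀ = c * (θ * ρ / M) ^ (1 / 3 : ℝ) := ⟨_, rfl⟩
  have hκ₀0 : 0 < κ₀ := by rw [hκ₀]; positivity
  have hκA : A₀ * θ ^ (1 / 3 : ℝ) = κ₀ := by
    rw [hA₀, hκ₀, mul_assoc, ← Real.mul_rpow (by positivity) hθ0.le]
    congr 2
    ring
  obtain ⟨ε', hε'⟩ : ∃ ε' : ℝ, ε' = ε * κ₀ / (32 * (|Cm| + 1)) := ⟨_, rfl⟩
  have hε'0 : 0 < ε' := by rw [hε']; positivity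
  obtain ⟨ℓ, hℓ, hℓρ, Sh, hfin, hSh, hev⟩ := hgeo' ε' hε'0
  obtain ⟨ρZ, hρZ⟩ : ∃ ρZ : ℤ, ρZ = ⌈2 * ρ / ℓ⌉ := ⟨_, rfl⟩
  rw [← hρZ] at hSh
  have hρℓ : 1 < ρ / ℓ := by rw [lt_div_iff₀ hℓ]; linarith
  have hρZ1 : ρ / ℓ ≤ ρZ - 1 := by
    have h1 : 2 * ρ / ℓ ≤ ρZ := by rw [hρZ]; exact Int.le_ceil _
    have h2 : 2 * ρ / ℓ = ρ / ℓ + ρ / ℓ := by ring
    linarith
  have hρZ2 : 1 < ρZ := by
    have : (1 : ℝ) < ρZ := by linarith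
    exact_mod_cast this
  obtain ⟨η, hη⟩ : ∃ η : ℝ, η = θ * ρ / ℓ := ⟨_, rfl⟩
  have hη0 : 0 < η := by rw [hη]; positivity
  have hηr : η = θ * (ρ / ℓ) := by rw [hη]; ring
  have hηle : η ≤ ρ / ℓ := by
    rw [hηr]
    calc θ * (ρ / ℓ) ≤ 1 * (ρ / ℓ) := by gcongr; linarith
      _ = ρ / ℓ := one_mul _
  have hηℓ : η * ℓ = θ * ρ := by rw [hη]; field_simp
  obtain ⟨ηa, hηa0, hηale, hηaC⟩ := exists_theta' (A := ε / 16 * κ₀) (C := C)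
    (θ₁ := min θ₁ (1 / 32)) (by positivity) (by positivity)
  have hηaθ₁ : ηa ≤ θ₁ := hηale.trans (min_le_left _ _)
  have hηa32 : ηa ≤ 1 / 32 := hηale.trans (min_le_right _ _)
  -- the limit for the finitely many polygons
  have hlimP : ∀ P ∈ Sh, ∀ᶠ n : ℕ in atTop, ∃ (h : P.Ok ρZ) (g e : ℝ), IsG P ℓ g ∧ M⁻¹ ≤ g ∧
      g ≤ M ∧ |Rt (dat P h) (bmp χ (pt (P.q P.k)) ηa) (bmp χ (pt 0) η) n - e| ≤ ε / 16 * κ₀ ∧
      |e - c * (η * ℓ * g) ^ (1 / 3 : ℝ)| ≤ ε₁ * (η * ℓ * g) ^ (1 / 3 : ℝ) := by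
    intro P hP
    obtain ⟨hOk, g, hg, hg1, hg2⟩ := hSh P hP
    obtain ⟨e, he, hee⟩ := lim_one hE2 hχ hB' hOk hℓ hg (rb := ρ / ℓ) (ηa := ηa) (ηb := η)
      (by positivity) hρZ1 hηa0 (by linarith) hηaθ₁ hη0 hηle
      (by rw [hηr]; gcongr)
    have h1 := (Metric.tendsto_nhds.1 he) (ε / 16 * κ₀) (by positivity)
    filter_upwards [h1] with n hn
    rw [Real.dist_eq] at hn
    exact ⟨hOk, g, e, hg, hg1, hg2, hn.le, hee⟩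
  have hlim : ∀ᶠ n : ℕ in atTop, ∀ P ∈ Sh, ∃ (h : P.Ok ρZ) (g e : ℝ), IsG P ℓ g ∧ M⁻¹ ≤ g ∧
      g ≤ M ∧ |Rt (dat P h) (bmp χ (pt (P.q P.k)) ηa) (bmp χ (pt 0) η) n - e| ≤ ε / 16 * κ₀ ∧
      |e - c * (η * ℓ * g) ^ (1 / 3 : ℝ)| ≤ ε₁ * (η * ℓ * g) ^ (1 / 3 : ℝ) :=
    (Filter.eventually_all_finite hfin).2 hlimP
  -- the number of squares per unit
  have hj : Tendsto (fun n => ⌊ℓ / (4 * δ n)⌋₊) atTop atTop := by
    refine tendsto_nat_floor_atTop.comp ?_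
    have h1 : Tendsto (fun n => 4 * δ n) atTop (𝓝[>] 0) := by
      refine tendsto_nhdsWithin_iff.2 ⟨?_, Eventually.of_forall fun n => ?_⟩
      · have := hSet.appr.2.1.const_mul 4
        rwa [mul_zero] at this
      · have := (hSet.appr.1 n).1
        show 0 < 4 * δ n
        positivity
    exact (tendsto_inv_nhdsGT_zero.comp h1).const_mul_atTop hℓ
  have hNt : Tendsto (fun n => 4 * ⌊ℓ / (4 * δ n)⌋₊) atTop atTop := by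
    refine tendsto_atTop_mono (fun n => ?_) hj
    omega
  have hR1 : Tendsto (fun n => ηa * ((4 * ⌊ℓ / (4 * δ n)⌋₊ : ℕ) : ℝ)) atTop atTop :=
    (tendsto_natCast_atTop_atTop.comp hNt).const_mul_atTop hηa0
  have hR2 : Tendsto (fun n => η * ((4 * ⌊ℓ / (4 * δ n)⌋₊ : ℕ) : ℝ)) atTop atTop :=
    (tendsto_natCast_atTop_atTop.comp hNt).const_mul_atTop hη0
  have hf : ∀ n, (exn δ N k p S ψn n).C.Finite := by
    intro n
    refine (Finset.finite_toSet (edges (S n)).powerset).subset fun A hA => ?_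
    have h' : A ⊆ edges (S n) := (mem_Qc (p := p n) (k := k n) (δ := δ n) (S := S n)).1 hA
    exact Finset.mem_coe.2 (Finset.mem_powerset.2 h')
  -- the main estimate
  have key : ∀ᶠ n in atTop, ∃ φ : Finset (Sym2 (ℤ × ℤ)) → ℝ, ∀ h ∈ (exn δ N k p S ψn n).C,
      ∀ j < (exn δ N k p S ψn n).K h, (∀ i < j, (exn δ N k p S ψn n).c h i ≤ T ∧
        |(exn δ N k p S ψn n).V h i| ≤ R) →
      |cex (exn δ N k p S ψn n) φ h j -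
        obsF ((exn δ N k p S ψn n).W h) b ((exn δ N k p S ψn n).c h j)| ≤ ε := by
    filter_upwards [hev, hNt.eventually hlim, hR1.eventually_ge_atTop 2,
      hR2.eventually_ge_atTop 2, hR1.eventually_ge_atTop (r₀ : ℝ),
      hR2.eventually_ge_atTop (r₀ : ℝ), hR2.eventually_ge_atTop (r₁ : ℝ),
      hj.eventually_ge_atTop 1] with n hgn hln h2a h2b hra hrb hrb' hj1
    obtain ⟨j₀, hj₀⟩ : ∃ j₀ : ℕ, j₀ = ⌊ℓ / (4 * δ n)⌋₊ := ⟨_, rfl⟩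
    obtain ⟨n', hn'⟩ : ∃ n' : ℕ, n' = 4 * j₀ := ⟨_, rfl⟩
    rw [← hj₀] at hgn hln h2a h2b hra hrb hrb' hj1
    rw [← hn'] at hgn hln h2a h2b hra hrb hrb'
    have hn0 : 0 < n' := by omega
    have hn0' : (0 : ℝ) < n' := by exact_mod_cast hn0
    obtain ⟨v₀, Dc, W, g₀, hg₀, hg₀', hGeo⟩ := hgn
    have hg₀0 : 0 < g₀ := lt_of_lt_of_le (by positivity) hg₀
    obtain ⟨rb, hrbd⟩ : ∃ rb : ℤ, rb = ⌈η * n'⌉ := ⟨_, rfl⟩
    obtain ⟨Rb, hRbd⟩ : ∃ Rb : ℤ, Rb = ⌊ρ * n' / ℓ⌋ := ⟨_, rfl⟩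
    have hrb1 : (rb : ℝ) ≤ 2 * (η * n') := by
      rw [hrbd]
      have := (Int.ceil_lt_add_one (η * n')).le
      linarith
    have hrb2 : η * n' ≤ (rb : ℝ) := by rw [hrbd]; exact Int.le_ceil _
    have hηn : η * n' = θ * (ρ * n' / ℓ) := by rw [hη]; ring
    have hX : 2 ≤ ρ * n' / ℓ := by
      have h1 : η * n' ≤ 1 * (ρ * n' / ℓ) := by
        rw [hηn]; gcongr; linarith
      linarith
    have hRb1 : (Rb : ℝ) ≤ ρ * n' / ℓ := by rw [hRbd]; exact Int.floor_le _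
    have hRb2 : ρ * n' / ℓ / 2 ≤ (Rb : ℝ) := by
      rw [hRbd]
      have := (Int.lt_floor_add_one (ρ * n' / ℓ)).le
      linarith
    have h4rb : 4 * rb ≤ Rb := by
      rw [hRbd, Int.le_floor]
      push_cast
      calc 4 * (rb : ℝ) ≤ 4 * (2 * (η * n')) := by gcongr
        _ = 8 * θ * (ρ * n' / ℓ) := by rw [hηn]; ring
        _ ≤ 1 * (ρ * n' / ℓ) := by gcongr; linarith
        _ = ρ * n' / ℓ := one_mul _
    have hrb0 : 0 < rb := by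
      have : (0 : ℝ) < rb := lt_of_lt_of_le (by positivity) hrb2
      exact_mod_cast this
    have hr₀b : r₀ ≤ rb := by
      have : (r₀ : ℝ) ≤ rb := hrb.trans hrb2
      exact_mod_cast this
    have hr₁b : r₁ ≤ rb := by
      have : (r₁ : ℝ) ≤ rb := hrb'.trans hrb2
      exact_mod_cast this
    have hRbn : Rb ≤ n' * ρZ - n' := by
      have h1 : (Rb : ℝ) ≤ n' * ρZ - n' := by
        calc (Rb : ℝ) ≤ ρ * n' / ℓ := hRb1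
          _ = n' * (ρ / ℓ) := by ring
          _ ≤ n' * (ρZ - 1) := by gcongr
          _ = n' * ρZ - n' := by ring
      exact_mod_cast h1
    have hratb : (rb : ℝ) / Rb ≤ 4 * θ := by
      have hRb0 : (0 : ℝ) < Rb := lt_of_lt_of_le (by positivity) hRb2
      rw [div_le_iff₀ hRb0]
      calc (rb : ℝ) ≤ 2 * (θ * (ρ * n' / ℓ)) := by rw [← hηn]; exact hrb1
        _ = 4 * θ * (ρ * n' / ℓ / 2) := by ring
        _ ≤ 4 * θ * Rb := by gcongr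
    obtain ⟨ra, hrad⟩ : ∃ ra : ℤ, ra = ⌈ηa * n'⌉ := ⟨_, rfl⟩
    have hra1 : (ra : ℝ) ≤ 2 * (ηa * n') := by
      rw [hrad]
      have := (Int.ceil_lt_add_one (ηa * n')).le
      linarith
    have hra2 : ηa * n' ≤ (ra : ℝ) := by rw [hrad]; exact Int.le_ceil _
    have hr₀a : r₀ ≤ ra := by
      have : (r₀ : ℝ) ≤ ra := hra.trans hra2
      exact_mod_cast this
    have hnj : (n' : ℝ) = 4 * j₀ := by rw [hn']; push_cast; ring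
    have h4ra : 4 * ra ≤ (j₀ : ℤ) := by
      have h1 : 4 * (ra : ℝ) ≤ (j₀ : ℝ) := by
        calc 4 * (ra : ℝ) ≤ 4 * (2 * (ηa * n')) := by gcongr
          _ = 32 * ηa * j₀ := by rw [hnj]; ring
          _ ≤ 1 * j₀ := by gcongr; linarith
          _ = j₀ := one_mul _
      exact_mod_cast h1
    have hj₀0 : (0 : ℝ) < j₀ := by exact_mod_cast (by omega : 0 < j₀)
    have hrata : (ra : ℝ) / ((j₀ : ℤ) : ℝ) ≤ 8 * ηa := by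
      rw [Int.cast_natCast, div_le_iff₀ hj₀0]
      calc (ra : ℝ) ≤ 2 * (ηa * n') := hra1
        _ = 8 * ηa * j₀ := by rw [hnj]; ring
    have hra0 : (0 : ℝ) ≤ ra := le_trans (by positivity) hra2
    have hrb0' : (0 : ℝ) ≤ rb := le_trans (by positivity) hrb2
    have hRb0' : (0 : ℝ) < Rb := lt_of_lt_of_le (by positivity) hRb2
    -- the bound for the bridge
    have hbrC : C * (((ra : ℝ) / ((j₀ : ℤ) : ℝ)) ^ (5 / 12 : ℝ) + ((rb : ℝ) / Rb) ^ (5 / 6 : ℝ)) ≤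
        ε / 16 * κ₀ + ε / 16 * κ₀ := by
      have hja : (0 : ℝ) ≤ ((j₀ : ℤ) : ℝ) := by rw [Int.cast_natCast]; positivity
      have a1 : |C| * ((ra : ℝ) / ((j₀ : ℤ) : ℝ)) ^ (5 / 12 : ℝ) ≤ ε / 16 * κ₀ := by
        refine le_trans ?_ hηaC
        gcongr
      have a2 : |C| * ((rb : ℝ) / Rb) ^ (5 / 6 : ℝ) ≤ ε / 16 * κ₀ := by
        calc |C| * ((rb : ℝ) / Rb) ^ (5 / 6 : ℝ) ≤ |C| * (4 * θ) ^ (5 / 6 : ℝ) := by gcongr
          _ ≤ ε / 16 * A₀ * θ ^ (1 / 3 : ℝ) := hθC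
          _ = ε / 16 * κ₀ := by rw [mul_assoc, hκA]
      have a3 : 0 ≤ ((ra : ℝ) / ((j₀ : ℤ) : ℝ)) ^ (5 / 12 : ℝ) + ((rb : ℝ) / Rb) ^ (5 / 6 : ℝ) := by
        positivity
      calc C * (((ra : ℝ) / ((j₀ : ℤ) : ℝ)) ^ (5 / 12 : ℝ) + ((rb : ℝ) / Rb) ^ (5 / 6 : ℝ))
          ≤ |C| * (((ra : ℝ) / ((j₀ : ℤ) : ℝ)) ^ (5 / 12 : ℝ) + ((rb : ℝ) / Rb) ^ (5 / 6 : ℝ)) :=
            mul_le_mul_of_nonneg_right (le_abs_self C) a3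
        _ ≤ _ := by rw [mul_add]; exact add_le_add a1 a2
    obtain ⟨f, hfd⟩ : ∃ f : ℤ × ℤ → ℝ, f = fz χ 0 η n' := ⟨_, rfl⟩
    obtain ⟨Z, hZd⟩ : ∃ Z : ℝ, Z = Zl 0 rb Rb f := ⟨_, rfl⟩
    obtain ⟨y₀, hy₀d⟩ : ∃ y₀ : ℝ, y₀ = (η * ℓ * g₀) ^ (1 / 3 : ℝ) := ⟨_, rfl⟩
    have hy₀ : 0 < y₀ := by rw [hy₀d]; positivity
    obtain ⟨F₀, hF₀⟩ : ∃ F₀ : Finset (Sym2 (ℤ × ℤ)) → ℝ, F₀ = fun A' : Finset (Sym2 (ℤ × ℤ)) =>
      XB (v₀ + (0, 0)) rb Rb (fun z => f (z - (v₀ + (0, 0)))) (H192.cfg (A' : Set _)) *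
        ind (Dc (0, 0)) W (v₀ + (0, 0)) rb (H192.cfg (A' : Set _)) := ⟨_, rfl⟩
    obtain ⟨F₁, hF₁⟩ : ∃ F₁ : Finset (Sym2 (ℤ × ℤ)) → ℝ, F₁ = fun A' : Finset (Sym2 (ℤ × ℤ)) =>
      XB (v₀ + (1, 0)) rb Rb (fun z => f (z - (v₀ + (1, 0)))) (H192.cfg (A' : Set _)) *
        ind (Dc (1, 0)) W (v₀ + (1, 0)) rb (H192.cfg (A' : Set _)) := ⟨_, rfl⟩
    refine ⟨fun A' => Z / (c * y₀) * (F₀ A' + F₁ A'), fun h hh j hj hst => ?_⟩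
    obtain ⟨P, hP, hPu, hPg⟩ := hGeo h hh j hj hst
    obtain ⟨hOk, g, e, hg, hg1, hg2, hV, hee⟩ := hln P hP
    have hg0 : 0 < g := lt_of_lt_of_le (by positivity) hg1
    have hm := hmom1 P ρZ hOk n' η Rb hη0 h2b (hηle.trans (by linarith))
      (by rw [← hrbd]; exact hr₁b) (by rw [← hrbd]; exact h4rb)
    rw [← hrbd, ← hfd] at hm
    have hb := hbr1 P ρZ hOk n' ηa η (j₀ : ℤ) Rb hn0 hηa0 hη0 h2a h2b (by linarith)
      (hηle.trans (by linarith)) hρZ2 (by rw [← hrad]; exact hr₀a) (by rw [← hrad]; exact h4ra)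
      (by rw [← hrbd]; exact hr₀b) (by rw [← hrbd]; exact h4rb) (by rw [hn']; push_cast; rfl)
      hRbn
    rw [← hrbd, ← hrad, ← hfd] at hb
    have hx₀ := hPu (0, 0) (Or.inl rfl) rb Rb
      (XB (v₀ + (0, 0)) rb Rb (fun z => f (z - (v₀ + (0, 0))))) hrb0 (by omega) hRb1
      (depOn_XB _ _ _ _)
    have hx₁ := hPu (1, 0) (Or.inr rfl) rb Rb
      (XB (v₀ + (1, 0)) rb Rb (fun z => f (z - (v₀ + (1, 0))))) hrb0 (by omega) hRb1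
      (depOn_XB _ _ _ _)
    rw [int_abs_tr] at hx₀ hx₁
    rw [cex_mul, cex_add (hf n)]
    subst hF₀
    subst hF₁
    have hwy : (g / g₀) ^ (1 / 3 : ℝ) * y₀ = (η * ℓ * g) ^ (1 / 3 : ℝ) := by
      rw [hy₀d, ← Real.mul_rpow (by positivity) (by positivity)]
      congr 1
      field_simp
    have hwM : (g / g₀) ^ (1 / 3 : ℝ) ≤ Mw := by
      rw [hMw]
      refine Real.rpow_le_rpow (by positivity) ?_ (by norm_num)
      rw [div_le_iff₀ hg₀0]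
      have h1 : 1 ≤ M * g₀ := by
        calc (1 : ℝ) = M * M⁻¹ := by field_simp
          _ ≤ M * g₀ := by gcongr
      calc g ≤ M * 1 := by linarith
        _ ≤ M * (M * g₀) := by gcongr
        _ = M * M * g₀ := by ring
    have hκy : κ₀ ≤ c * y₀ := by
      rw [hκ₀, hy₀d, hηℓ]
      gcongr
      calc θ * ρ / M = θ * ρ * M⁻¹ := by ring
        _ ≤ θ * ρ * g₀ := by gcongr
    rw [← hZd] at hm hb
    have hfinal := arith (m := ∫ ω, |XB 0 rb Rb f ω| ∂μ) hm.1 hm.2 hx₀ hx₁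
      (OF_sum hn0 v₀ rb Rb f) (hb.trans hbrC) hV hee hc hy₀ hwy hε'0.le
      hε₁0.le hwM hκ₀0 hκy (hPg g hg)
    refine hfinal.trans ?_
    have h6 : ε₁ / c * Mw = ε / 4 := by rw [hε₁]; field_simp
    have h7 : 2 * (ε' * Cm) ≤ ε / 16 * κ₀ := by
      have h8 : ε' * Cm ≤ ε' * (|Cm| + 1) := by
        gcongr
        linarith [le_abs_self Cm]
      have h9 : ε' * (|Cm| + 1) = ε * κ₀ / 32 := by rw [hε']; field_simp
      linarith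
    have h8 : (2 * (ε' * Cm) + (ε / 16 * κ₀ + ε / 16 * κ₀) + ε / 16 * κ₀) / κ₀ ≤ ε / 4 := by
      rw [div_le_iff₀ hκ₀0]
      linarith
    rw [h6]
    linarith
  obtain ⟨φ, hφ⟩ := Filter.Eventually.choice key
  exact ⟨φ, hφ⟩

end Vale.Agent.P167.CL
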