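import Vale.Agent.P167.CL.Enl
import Vale.Agent.P167.CL.Bump
import Vale.Agent.P167.BR.Sym
import Vale.Agent.P167.BR.Ind
import Vale.Agent.P167.H450.Brick

/-!
# P167, block CLOSE, top: the lattice bridge for an enlarged polygon
-/

set_option autoImplicit false
set_option linter.unusedVariables false

open MeasureTheory Filter Topology Set

namespace Vale.Agent.P167.CL

open Vale.Agent.P167.BVP (Test)
open Vale.Agent.P167.E6
open Vale.Agent.P167.BR (Bmp Flt hbox sites VD OD Zl XB XD)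

/-- The data of the core for a polygon. -/
noncomputable def dat (P : Shp) {ρ : ℤ} (h : P.Ok ρ) : CA.Dat where
  l := P.m
  p := P.q
  Q := P.S
  poly := h.poly
  enc := h.encl
  r := 0
  step := h.east
  tp := 1 / 2
  tp0 := by norm_num
  tp1 := by norm_num

theorem dat_P (P : Shp) {ρ : ℤ} (h : P.Ok ρ) : (dat P h).P = interior (region 1 P.S) := rfl

theorem dat_D (P : Shp) {ρ : ℤ} (h : P.Ok ρ) (N : ℕ) : (dat P h).D N = CA.enl P.S N := rfl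

theorem dat_bp (P : Shp) {ρ : ℤ} (h : P.Ok ρ) : (dat P h).bp = pt (P.q 0) + 1 / 2 := by
  show pt (P.q 0) + ((1 / 2 : ℝ) : ℂ) * pt (dir 0) = _
  have : pt (dir 0) = 1 := by
    apply Complex.ext <;> simp [pt, dir]
  rw [this]
  push_cast
  ring

theorem dat_b (P : Shp) {ρ : ℤ} (h : P.Ok ρ) (N : ℕ) : (dat P h).b N =
    (N : ℤ) • P.q 0 + ((N / 2 : ℕ) : ℤ) • ((1, 0) : ℤ × ℤ) := by
  show (N : ℤ) • P.q 0 + ((⌊(1 / 2 : ℝ) * N⌋₊ : ℕ) : ℤ) • dir 0 = _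
  have e : (1 / 2 : ℝ) * N = (N : ℝ) / (2 : ℕ) := by push_cast; ring
  rw [e, Nat.floor_div_natCast, Nat.floor_natCast]
  rfl

/-- Flatness of the domain. -/
theorem flatAt_of_flt {S : Finset (ℤ × ℤ)} {b : ℤ × ℤ} {ρ : ℤ} (h : Flt S b ρ) {r : ℝ}
    (hr : r ≤ ρ) : FlatAt (interior (region 1 S)) (pt b) r := by
  intro z h1 h2
  have hre : (pt b).re = b.1 := rfl
  have him : (pt b).im = b.2 := rfl
  rw [hre, abs_lt] at h1
  rw [him, abs_lt] at h2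
  rw [him]
  constructor
  · intro hz
    by_contra hlt
    push Not at hlt
    have c1 := Int.floor_le z.re
    have c2 := Int.lt_floor_add_one z.re
    have c3 := Int.le_ceil z.im
    have c4 := Int.ceil_lt_add_one z.im
    have k1 : b.1 - ρ ≤ ⌊z.re⌋ := by
      rw [Int.le_floor]; push_cast; linarith
    have k2 : ⌊z.re⌋ < b.1 + ρ := by
      rw [Int.floor_lt]; push_cast; linarith
    have k3 : b.2 - ρ ≤ ⌈z.im⌉ - 1 := by
      have : b.2 - ρ < ⌈z.im⌉ := by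
        rw [Int.lt_ceil]; push_cast; linarith
      omega
    have k4 : ⌈z.im⌉ - 1 < b.2 := by
      have : ⌈z.im⌉ ≤ b.2 := Int.ceil_le.2 hlt
      omega
    have h5 : (⌊z.re⌋, ⌈z.im⌉ - 1) ∈ S := by
      refine CA.mem_of_interior hz c1 c2.le ?_ ?_
      · push_cast; linarith
      · push_cast; linarith
    have h6 := (h (⌊z.re⌋, ⌈z.im⌉ - 1) k1 k2 k3 (by
      have : (0 : ℝ) < ρ := by linarith
      have : 0 < ρ := by exact_mod_cast this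
      simp only; omega)).1 h5
    simp only at h6
    omega
  · intro hz
    have h5 : z ∈ interior (H450.reg 1 (S : Set (ℤ × ℤ))) := by
      refine H450.mem_interior_reg one_pos fun F hF => ?_
      obtain ⟨g1, g2, g3, g4⟩ := hF
      rw [one_mul] at g1 g2 g3 g4
      have k1 : b.1 - ρ ≤ F.1 := by
        have : ((b.1 - ρ : ℤ) : ℝ) < ((F.1 + 1 : ℤ) : ℝ) := by push_cast; linarith
        have := Int.cast_lt.1 this
        omega
      have k2 : F.1 < b.1 + ρ := by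
        have : ((F.1 : ℤ) : ℝ) < ((b.1 + ρ : ℤ) : ℝ) := by push_cast; linarith
        exact Int.cast_lt.1 this
      have k3 : b.2 ≤ F.2 := by
        have : ((b.2 : ℤ) : ℝ) < ((F.2 + 1 : ℤ) : ℝ) := by push_cast; linarith
        have := Int.cast_lt.1 this
        omega
      have k4 : F.2 < b.2 + ρ := by
        have : ((F.2 : ℤ) : ℝ) < ((b.2 + ρ : ℤ) : ℝ) := by push_cast; linarith
        exact Int.cast_lt.1 this
      have h0 : (0 : ℝ) < ρ := by linarith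
      have h0' : 0 < ρ := by exact_mod_cast h0
      exact (h F k1 k2 (by omega) k4).2 k3
    rwa [H450.reg_coe] at h5

variable {χ : ℂ → ℝ}

/-- The bump at a vertex, cell masses. -/
noncomputable def fz (χ : ℂ → ℝ) (β : ℤ × ℤ) (η : ℝ) (N : ℕ) : ℤ × ℤ → ℝ :=
  CA.cms (bmp χ (pt β) η) (1 / N)

theorem cms_neg (f : ℂ → ℝ) (δ : ℝ) (s : ℤ × ℤ) : CA.cms (fun z => - f z) δ s = - CA.cms f δ s := by
  unfold CA.cms; rw [integral_neg]

/-- The ratio of the functionals. -/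
noncomputable def Rt (S : CA.Dat) (φa φb : ℂ → ℝ) (n : ℕ) : ℝ :=
  S.V n (fun z => φb z - φa z) * S.V n (fun z => - φb z) / S.V n (fun z => - φa z)

theorem hbox_sites {b : ℤ × ℤ} {R : ℤ} {z : ℤ × ℤ} (hz : z ∈ sites (hbox b R)) :
    b.1 - R ≤ z.1 ∧ z.1 ≤ b.1 + R ∧ b.2 ≤ z.2 ∧ z.2 ≤ b.2 + R := by
  unfold sites at hz
  rw [Finset.mem_biUnion] at hz
  obtain ⟨v, hv, hz⟩ := hz
  simp only [hbox, Finset.mem_product, Finset.mem_Icc] at hv
  simp only [Finset.mem_insert, Finset.mem_singleton] at hz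
  rcases hz with h | h | h | h <;> subst h <;> constructor <;> (try constructor) <;>
    (try constructor) <;> (try simp only) <;> omega

theorem far_mul {N : ℕ} (hN : 0 < N) {ρ x : ℤ} (h : ρ ≤ |x|) :
    (N : ℤ) * ρ ≤ N * x ∨ (N : ℤ) * x ≤ -(N * ρ) := by
  have hN' : (0 : ℤ) < N := by exact_mod_cast hN
  rcases le_total 0 x with h1 | h1
  · left
    rw [abs_of_nonneg h1] at h
    exact mul_le_mul_of_nonneg_left h hN'.le
  · right
    rw [abs_of_nonpos h1] at h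
    have := mul_le_mul_of_nonneg_left h hN'.le
    linarith

section off

variable {P : Shp} {ρ : ℤ} {N : ℕ}

theorem base_off_a (h : P.Ok ρ) (hN : 2 ≤ N) {Ra : ℤ} (hRaN : 4 * Ra ≤ N) :
    (dat P h).b N ∉ sites (hbox ((N : ℤ) • P.q P.k) Ra) := by
  intro hz
  obtain ⟨g1, g2, -, -⟩ := hbox_sites hz
  have hN' : (2 : ℤ) ≤ N := by exact_mod_cast hN
  have hb1 : ((dat P h).b N).1 = N * (P.q 0).1 + (N / 2 : ℕ) := by rw [dat_b]; simp
  have e1 : ((N : ℤ) • P.q P.k).1 = N * (P.q P.k).1 := rfl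
  rw [hb1, e1] at g1 g2
  have h2 : ((N / 2 : ℕ) : ℤ) = N / 2 := by push_cast; rfl
  rw [h2] at g1 g2
  rcases lt_trichotomy (P.q 0).1 (P.q P.k).1 with h3 | h3 | h3
  · have : (N : ℤ) * (P.q 0).1 + N ≤ N * (P.q P.k).1 := by nlinarith
    omega
  · rw [h3] at g1 g2
    omega
  · have : (N : ℤ) * (P.q P.k).1 + N ≤ N * (P.q 0).1 := by nlinarith
    omega

theorem base_off_b (h : P.Ok ρ) (hN : 0 < N) (hρ : 1 < ρ) {Rb : ℤ} (hRbN : Rb ≤ N * ρ - N) :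
    (dat P h).b N ∉ sites (hbox 0 Rb) := by
  intro hz
  obtain ⟨g1, g2, g3, g4⟩ := hbox_sites hz
  have hN' : (0 : ℤ) < N := by exact_mod_cast hN
  have hb1 : ((dat P h).b N).1 = N * (P.q 0).1 + (N / 2 : ℕ) := by rw [dat_b]; simp
  have hb2 : ((dat P h).b N).2 = N * (P.q 0).2 := by rw [dat_b]; simp
  have h2 : ((N / 2 : ℕ) : ℤ) = N / 2 := by push_cast; rfl
  have e1 : (0 : ℤ × ℤ).1 = 0 := rfl
  have e2 : (0 : ℤ × ℤ).2 = 0 := rfl
  rw [hb1, h2, e1] at g1 g2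
  rw [hb2, e2] at g3 g4
  have h5 : (0 : ℤ) < N * ρ := by nlinarith
  rcases h.far_p with h3 | h3
  · rcases far_mul hN (le_trans (by omega : ρ ≤ ρ + 1) h3) with h4 | h4 <;> omega
  · rcases far_mul hN h3 with h4 | h4 <;> omega

theorem dis_ab (h : P.Ok ρ) (hN : 0 < N) (hρ : 1 < ρ) {Ra Rb : ℤ} (hRaN : 4 * Ra ≤ N)
    (hRbN : Rb ≤ N * ρ - N) : Disjoint (hbox ((N : ℤ) • P.q P.k) Ra) (hbox 0 Rb) := by
  rw [Finset.disjoint_left]
  intro v hv hv'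
  have hN' : (0 : ℤ) < N := by exact_mod_cast hN
  simp only [hbox, Finset.mem_product, Finset.mem_Icc] at hv hv'
  have e1 : ((N : ℤ) • P.q P.k).1 = N * (P.q P.k).1 := rfl
  have e1' : ((N : ℤ) • P.q P.k).2 = N * (P.q P.k).2 := rfl
  have e2 : (0 : ℤ × ℤ).1 = 0 := rfl
  have e3 : (0 : ℤ × ℤ).2 = 0 := rfl
  rw [e1, e1'] at hv
  rw [e2, e3] at hv'
  obtain ⟨⟨a1, a2⟩, a3, a4⟩ := hv
  obtain ⟨⟨b1, b2⟩, b3, b4⟩ := hv'
  have h5 : (0 : ℤ) < N * ρ := by nlinarith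
  rcases h.far_a with h3 | h3
  · rcases far_mul hN h3 with h4 | h4 <;> omega
  · rcases far_mul hN h3 with h4 | h4 <;> omega

end off

/-- **The bridge for an enlarged polygon.** -/
theorem br_one (hbr : BR.S_br) {χ : ℂ → ℝ} (hχ : Bmp0 χ) : ∃ (C : ℝ) (r₀ : ℤ), 0 < r₀ ∧
    ∀ (P : Shp) (ρ : ℤ) (h : P.Ok ρ) (N : ℕ) (ηa ηb : ℝ) (Ra Rb : ℤ), 0 < N →
      0 < ηa → 0 < ηb → 2 ≤ ηa * N → 2 ≤ ηb * N → ηa ≤ 1 → ηb ≤ ρ → 1 < ρ →
      r₀ ≤ ⌈ηa * N⌉ → 4 * ⌈ηa * N⌉ ≤ Ra → r₀ ≤ ⌈ηb * N⌉ → 4 * ⌈ηb * N⌉ ≤ Rb →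
      4 * Ra ≤ N → Rb ≤ N * ρ - N →
      |Rt (dat P h) (bmp χ (pt (P.q P.k)) ηa) (bmp χ (pt 0) ηb) N -
        Zl 0 ⌈ηb * N⌉ Rb (fz χ 0 ηb N) *
          (OD true (CA.enl P.S N) (larc N 0 P) 0 ⌈ηb * N⌉ Rb (fz χ 0 ηb N) +
          OD false (CA.enl P.S N) (larc N 0 P) 0 ⌈ηb * N⌉ Rb (fz χ 0 ηb N))| ≤
        C * (((⌈ηa * N⌉ : ℝ) / Ra) ^ (5 / 12 : ℝ) + ((⌈ηb * N⌉ : ℝ) / Rb) ^ (5 / 6 : ℝ)) := by
  obtain ⟨B, hB0, hB⟩ := hχ.bdd
  obtain ⟨C, r₀, hr₀, hC⟩ := hbr (max (4 * B) 8) (by positivity)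
  refine ⟨C, r₀, hr₀, ?_⟩
  intro P ρ h N ηa ηb Ra Rb hN hηa hηb hna hnb hηa1 hηbρ hρ hra hRa hrb hRb hRaN hRbN
  have hN' : (0 : ℤ) < N := by exact_mod_cast hN
  have hNt : 2 ≤ N := by
    have h1 : (2 : ℝ) ≤ N := by nlinarith [(Nat.cast_nonneg N : (0 : ℝ) ≤ N)]
    exact_mod_cast h1
  have hm : 2 < P.m := h.poly.1
  have hk1 := h.k_gt
  have hkl := h.k_lt
  have hlm := h.l_lt
  have hN2 : N / 2 < N := Nat.div_lt_self hN (by norm_num)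
  have hNk : N ≤ N * P.k := Nat.le_mul_of_pos_right _ (by omega)
  have hNkl : N * P.k + N ≤ N * P.l := by
    calc N * P.k + N = N * (P.k + 1) := by ring
      _ ≤ N * P.l := Nat.mul_le_mul_left N hkl
  have hNlm : N * P.l + N ≤ N * P.m := by
    calc N * P.l + N = N * (P.l + 1) := by ring
      _ ≤ N * P.m := Nat.mul_le_mul_left N hlm
  set k' : ℕ := N * P.k - N / 2 with hk'
  set l' : ℕ := N * P.l - N / 2 with hl'
  set q := re P.q N (N / 2) with hq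
  have q0 : q 0 = (dat P h).b N := by
    have e := re_nat (q := P.q) hN (N / 2) 0
    rw [Nat.cast_zero, zero_add] at e
    rw [hq, e, dat_b]
    have e2 := pe_mul_add (q := P.q) hN 0 hN2
    rw [mul_zero, zero_add, Nat.cast_zero, zero_add, h.east, add_sub_cancel_left] at e2
    exact e2
  have qk : q (k' : ℕ) = (N : ℤ) • P.q P.k := by
    rw [hq, re_nat hN, hk', Nat.sub_add_cancel (by omega), pe_mul hN]
  have ql : q (l' : ℕ) = 0 := by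
    rw [hq, re_nat hN, hl', Nat.sub_add_cancel (by omega), pe_mul hN, h.ql]
    simp
  have hfa : FlatAt (interior (region 1 P.S)) (pt (P.q P.k)) 1 :=
    flatAt_of_flt h.flat_a (by norm_num)
  have hfb : FlatAt (interior (region 1 P.S)) (pt (0 : ℤ × ℤ)) ρ := flatAt_of_flt h.flat_b le_rfl
  have hBa := bmp_cms hχ hB0 hB hηa hna (β := P.q P.k) hfa hηa1
  have hBb := bmp_cms hχ hB0 hB hηb hnb (β := 0) hfb hηbρ
  rw [smul_zero] at hBb
  have hpa : q 0 ∉ sites (hbox (q (k' : ℕ)) Ra) := by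
    rw [q0, qk]; exact base_off_a h hNt hRaN
  have hpb : q 0 ∉ sites (hbox (q (l' : ℕ)) Rb) := by
    rw [q0, ql]; exact base_off_b h hN hρ hRbN
  have hdis : Disjoint (hbox (q (k' : ℕ)) Ra) (hbox (q (l' : ℕ)) Rb) := by
    rw [qk, ql]; exact dis_ab h hN hρ hRaN hRbN
  have hfla : Flt (CA.enl P.S N) (q (k' : ℕ)) Ra := by
    rw [qk]; exact enl_flat hN h.flat_a (by omega)
  have hflb : Flt (CA.enl P.S N) (q (l' : ℕ)) Rb := by
    have := enl_flat hN h.flat_b (R := Rb) (by omega)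
    rw [ql]
    have e : (N : ℤ) • ((0, 0) : ℤ × ℤ) = 0 := by simp
    rwa [e] at this
  have hmain := (hC (N * P.m) q (CA.enl P.S N) (re_poly h.poly hN _) (re_encl h.poly h.encl hN _)
    k' l' (by omega) (by omega) (by omega) ⌈ηa * N⌉ Ra ⌈ηb * N⌉ Rb (fz χ (P.q P.k) ηa N)
    (fz χ 0 ηb N) hra hRa hrb hRb hfla hflb hdis hpa hpb (by rw [qk]; exact hBa)
    (by rw [ql]; exact hBb)).2
  rw [ql, q0, arc_re hN (by omega) hk'] at hmain
  have hta : Test (interior (region 1 P.S)) (bmp χ (pt (P.q P.k)) ηa) :=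
    bmp_test hχ hfa hηa hηa1
  have htb : Test (interior (region 1 P.S)) (bmp χ (pt 0) ηb) := bmp_test hχ hfb hηb hηbρ
  have v1 : (dat P h).V N (fun z => bmp χ (pt 0) ηb z - bmp χ (pt (P.q P.k)) ηa z) =
      VD (CA.enl P.S N) ((dat P h).b N) (fz χ 0 ηb N - fz χ (P.q P.k) ηa N) := by
    unfold CA.Dat.V
    rw [dat_D]
    congr 1
    funext s
    exact CA.cms_sub (CA.Test.integrable htb) (CA.Test.integrable hta) _ _
  have v2 : (dat P h).V N (fun z => - bmp χ (pt 0) ηb z) =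
      VD (CA.enl P.S N) ((dat P h).b N) (-fz χ 0 ηb N) := by
    unfold CA.Dat.V
    rw [dat_D]
    congr 1
    funext s
    exact cms_neg _ _ _
  have v3 : (dat P h).V N (fun z => - bmp χ (pt (P.q P.k)) ηa z) =
      VD (CA.enl P.S N) ((dat P h).b N) (-fz χ (P.q P.k) ηa N) := by
    unfold CA.Dat.V
    rw [dat_D]
    congr 1
    funext s
    exact cms_neg _ _ _
  unfold Rt
  rw [v1, v2, v3]
  exact hmain

/-- **Moments.** -/
theorem mom_one (hmom : BR.S_mom) {χ : ℂ → ℝ} (hχ : Bmp0 χ) : ∃ (C : ℝ) (r₀ : ℤ), 0 < r₀ ∧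
    ∀ (P : Shp) (ρ : ℤ) (h : P.Ok ρ) (N : ℕ) (ηb : ℝ) (Rb : ℤ), 0 < ηb → 2 ≤ ηb * N → ηb ≤ ρ →
      r₀ ≤ ⌈ηb * N⌉ → 4 * ⌈ηb * N⌉ ≤ Rb →
      0 ≤ Zl 0 ⌈ηb * N⌉ Rb (fz χ 0 ηb N) ∧
      Zl 0 ⌈ηb * N⌉ Rb (fz χ 0 ηb N) * ∫ ω, |XB 0 ⌈ηb * N⌉ Rb (fz χ 0 ηb N) ω| ∂μ ≤ C := by
  obtain ⟨B, hB0, hB⟩ := hχ.bdd
  obtain ⟨C, r₀, hr₀, hC⟩ := hmom (max (4 * B) 8) (by positivity)
  refine ⟨C, r₀, hr₀, ?_⟩
  intro P ρ h N ηb Rb hηb hnb hηbρ hrb hRb
  have hfb : FlatAt (interior (region 1 P.S)) (pt (0 : ℤ × ℤ)) ρ := flatAt_of_flt h.flat_b le_rfl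
  have hBb := bmp_cms hχ hB0 hB hηb hnb (β := 0) hfb hηbρ
  rw [smul_zero] at hBb
  obtain ⟨h1, -, h3⟩ := hC 0 ⌈ηb * N⌉ Rb (fz χ 0 ηb N) hrb hRb hBb
  exact ⟨h1, h3⟩

end Vale.Agent.P167.CL
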