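import Vale.Agent.P167.CL.Top1
import Vale.Agent.P167.E6.Poly6
import Vale.Agent.P153.R2.R1.Out1

/-!
# P167, block CLOSE, top: the limit of the ratio of the functionals
-/

set_option autoImplicit false
set_option linter.unusedVariables false

open MeasureTheory Filter Topology Set Bornology

namespace Vale.Agent.P167.CL

open Vale.Agent.P167.BVP (Test)
open Vale.Agent.P167.E6
open Vale.Agent.P167.BR (Flt)
open Vale.Agent.P153.R2.R1 (IsU)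

theorem mem_region_div {ℓ : ℝ} (hℓ : 0 < ℓ) {S : Finset (ℤ × ℤ)} {z : ℂ} :
    z / ℓ ∈ region 1 S ↔ z ∈ region ℓ S := by
  unfold region
  simp only [mem_ofPred_eq, Complex.div_ofReal_re, Complex.div_ofReal_im, one_mul]
  refine exists_congr fun f => and_congr_right fun _ => ?_
  rw [le_div_iff₀ hℓ, div_le_iff₀ hℓ, le_div_iff₀ hℓ, div_le_iff₀ hℓ]
  constructor <;> rintro ⟨h1, h2, h3, h4⟩ <;> refine ⟨?_, ?_, ?_, ?_⟩ <;> linarith

theorem mem_int_div {ℓ : ℝ} (hℓ : 0 < ℓ) {S : Finset (ℤ × ℤ)} {z : ℂ} :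
    z / ℓ ∈ interior (region 1 S) ↔ z ∈ interior (region ℓ S) := by
  have hc : (ℓ : ℂ)⁻¹ ≠ 0 := inv_ne_zero (by exact_mod_cast hℓ.ne')
  have e : region ℓ S = (Homeomorph.mulRight₀ (ℓ : ℂ)⁻¹ hc) ⁻¹' region 1 S := by
    ext z
    rw [mem_preimage, Homeomorph.coe_mulRight₀]
    show _ ↔ z * (ℓ : ℂ)⁻¹ ∈ region 1 S
    rw [← div_eq_mul_inv, mem_region_div hℓ]
  rw [e, ← Homeomorph.preimage_interior, mem_preimage, Homeomorph.coe_mulRight₀]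
  show _ ↔ z * (ℓ : ℂ)⁻¹ ∈ interior (region 1 S)
  rw [← div_eq_mul_inv]

theorem isU_div {ℓ : ℝ} (hℓ : 0 < ℓ) {S : Finset (ℤ × ℤ)} {ψ : ℂ → ℂ} {a p : ℂ}
    (h : IsU ψ (interior (region ℓ S)) (ℓ * a) (ℓ * p)) :
    IsU (fun z => ψ z / ℓ) (interior (region 1 S)) a p := by
  have hℓc : (ℓ : ℂ) ≠ 0 := by exact_mod_cast hℓ.ne'
  refine ⟨h.diff.div_const _, ?_, ?_, h.cont.div_const _, ?_, ?_⟩
  · intro z hz z' hz' he
    exact h.inj hz hz' (by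
      have := congrArg (· * (ℓ : ℂ)) he
      simpa [div_mul_cancel₀ _ hℓc] using this)
  · ext w
    constructor
    · rintro ⟨z, hz, rfl⟩
      have h1 : ψ z ∈ interior (region ℓ S) := by rw [← h.img]; exact mem_image_of_mem _ hz
      exact (mem_int_div hℓ).2 h1
    · intro hw
      have h1 : w * ℓ ∈ interior (region ℓ S) := by
        rw [← mem_int_div hℓ, mul_div_cancel_right₀ _ hℓc]; exact hw
      rw [← h.img] at h1
      obtain ⟨z, hz, hzw⟩ := h1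
      exact ⟨z, hz, by simp only; rw [hzw, mul_div_cancel_right₀ _ hℓc]⟩
  · show ψ 0 / ℓ = a
    rw [h.zero, mul_div_cancel_left₀ _ hℓc]
  · have h1 := h.infty.div_const (ℓ : ℂ)
    rwa [mul_div_cancel_left₀ _ hℓc] at h1

theorem off_aux {P : Shp} {ρ : ℤ} (h : P.Ok ρ) :
    Off (pt (P.q P.k)) 1 (pt (P.q 0) + 1 / 2) := by
  have hm : 2 < P.m := h.poly.1
  have hk1 := h.k_gt
  have hkm : P.k < P.m := h.k_lt.trans h.l_lt
  have e1 : (pt (P.q 0) + 1 / 2 : ℂ).re = (P.q 0).1 + 1 / 2 := by simp [pt]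
  have e2 : (pt (P.q 0) + 1 / 2 : ℂ).im = (P.q 0).2 := by simp [pt]
  have e3 : (pt (P.q P.k)).re = (P.q P.k).1 := rfl
  have e4 : (pt (P.q P.k)).im = (P.q P.k).2 := rfl
  unfold Off
  rw [e1, e2, e3, e4]
  by_contra hcon
  push Not at hcon
  obtain ⟨h1, h2⟩ := hcon
  have h3 : (P.q 0).2 = (P.q P.k).2 := by
    rw [← Int.cast_sub, ← Int.cast_abs] at h2
    have h4 : |(P.q 0).2 - (P.q P.k).2| < 1 := by exact_mod_cast h2
    have := Int.abs_lt_one_iff.1 h4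
    omega
  rw [abs_lt] at h1
  have h5 : (P.q 0).1 - (P.q P.k).1 < 1 := by
    have : (((P.q 0).1 - (P.q P.k).1 : ℤ) : ℝ) < ((1 : ℤ) : ℝ) := by push_cast; linarith
    exact Int.cast_lt.1 this
  have h6 : -2 < (P.q 0).1 - (P.q P.k).1 := by
    have : ((-2 : ℤ) : ℝ) < (((P.q 0).1 - (P.q P.k).1 : ℤ) : ℝ) := by push_cast; linarith
    exact Int.cast_lt.1 this
  have h7 : (P.q 0).1 - (P.q P.k).1 = 0 ∨ (P.q 0).1 - (P.q P.k).1 = -1 := by omega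
  rcases h7 with h7 | h7
  · have h8 : P.q 0 = P.q P.k := Prod.ext (by omega) h3
    have h9 := h.poly.2.1 h8
    have h10 : ((P.k : ℕ) : ZMod P.m) = 0 := h9.symm
    rw [ZMod.natCast_eq_zero_iff] at h10
    have := Nat.le_of_dvd (by omega) h10
    omega
  · have h8 : P.q 1 = P.q P.k := by
      rw [h.east]
      refine Prod.ext ?_ ?_
      · simp only [Prod.fst_add]; omega
      · simp only [Prod.snd_add]; omega
    have h9 := h.poly.2.1 h8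
    have h10 : ((1 : ℕ) : ZMod P.m) = ((P.k : ℕ) : ZMod P.m) := by rw [← h9]; simp
    have h11 := (ZMod.natCast_eq_natCast_iff' _ _ _).1 h10
    rw [Nat.mod_eq_of_lt (by omega), Nat.mod_eq_of_lt hkm] at h11
    omega

/-- **The limit of the ratio.** -/
theorem lim_one (hE2 : I_E2) {χ : ℂ → ℝ} (hχ : Bmp0 χ) {c ε θ : ℝ}
    (hB7 : ∀ (P : Set ℂ) (ψ g : ℂ → ℂ) (a b q : ℂ) (ra rb xa xb : ℝ) (d : ℂ), IsOpen P →
      Bornology.IsBounded P → CA.Pair P ψ g →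
      Tendsto ψ (Bornology.cobounded ℂ ⊓ 𝓟 {z | 0 ≤ z.im}) (𝓝 q) → ψ xa = a → ψ xb = b →
      HasDerivWithinAt ψ d {z | 0 ≤ z.im} xb → d ≠ 0 → 0 < ra → 0 < rb →
      FlatAt P a ra → FlatAt P b rb → Off b rb a → Off b rb q → Off a ra b → Off a ra q →
      ∀ ηa ηb : ℝ, 0 < ηa → ηa ≤ θ * ra → 0 < ηb → ηb ≤ θ * rb →
        |Real.exp (CA.sc * (CA.en g (bmp χ a ηa) (bmp χ b ηb) -
            CA.en g (bmp χ b ηb) (bmp χ b ηb))) -
          c * (ηb / (|xb - xa| * ‖d‖)) ^ (1 / 3 : ℝ)| ≤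
        ε * (ηb / (|xb - xa| * ‖d‖)) ^ (1 / 3 : ℝ))
    {P : Shp} {ρ : ℤ} (h : P.Ok ρ) {ℓ g : ℝ} (hℓ : 0 < ℓ) (hg : IsG P ℓ g) {rb ηa ηb : ℝ}
    (hrb : 0 < rb) (hrbρ : rb ≤ ρ - 1) (hηa : 0 < ηa) (hηa1 : ηa ≤ 1) (hηaθ : ηa ≤ θ)
    (hηb : 0 < ηb) (hηbr : ηb ≤ rb) (hηbθ : ηb ≤ θ * rb) :
    ∃ e : ℝ, Tendsto (Rt (dat P h) (bmp χ (pt (P.q P.k)) ηa) (bmp χ (pt 0) ηb)) atTop (𝓝 e) ∧
      |e - c * (ηb * ℓ * g) ^ (1 / 3 : ℝ)| ≤ ε * (ηb * ℓ * g) ^ (1 / 3 : ℝ) := by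
  obtain ⟨ψ, x, hψ, hx, hg0, hψx, hder⟩ := hg
  have hρ1 : (1 : ℝ) ≤ ρ := by linarith
  have hU := isU_div hℓ hψ
  have hgood := good_D6 one_pos h.poly h.encl
  have hinj := (hU.injOn hgood.nocut).1
  set ψ₁ : ℂ → ℂ := fun z => ψ z / ℓ with hψ₁
  set G : ℂ → ℂ := Function.invFunOn ψ₁ {z | 0 < z.im} with hG
  have hpair : CA.Pair (interior (region 1 P.S)) ψ₁ G := by
    refine ⟨hU.diff, hU.img, hU.cont, hinj, ⟨_, hU.infty⟩, fun z hz => ?_⟩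
    have hex : ∃ w ∈ {z : ℂ | 0 < z.im}, ψ₁ w = ψ₁ z := ⟨z, hz, rfl⟩
    have h1 : 0 < (G (ψ₁ z)).im := Function.invFunOn_mem hex
    have h2 : ψ₁ (G (ψ₁ z)) = ψ₁ z := Function.invFunOn_eq hex
    exact hinj h1.le (le_of_lt hz) h2
  have hfa : FlatAt (interior (region 1 P.S)) (pt (P.q P.k)) 1 :=
    flatAt_of_flt h.flat_a (by norm_num)
  have hfb : FlatAt (interior (region 1 P.S)) (pt (0 : ℤ × ℤ)) rb :=
    flatAt_of_flt h.flat_b (by linarith)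
  have hta := bmp_test hχ hfa hηa hηa1
  have htb := bmp_test hχ hfb hηb hηbr
  have hlim := hE2 (dat P h) ψ₁ G rfl hpair (by rw [dat_bp]; exact hU.infty) _ _ hta htb
    (bmp_nonneg hχ) (bmp_nonneg hχ) (bmp_mass hχ hηa) (bmp_mass hχ hηb)
  refine ⟨_, hlim, ?_⟩
  have hpt0 : pt (0 : ℤ × ℤ) = 0 := by apply Complex.ext <;> simp [pt]
  have hxb : ψ₁ (x : ℂ) = pt (0 : ℤ × ℤ) := by
    rw [hψ₁, hpt0]; simp only; rw [hψx, zero_div]
  have hd : HasDerivWithinAt ψ₁ (((1 / (g * x) : ℝ) : ℂ) / ℓ) {z | 0 ≤ z.im} x := hder.div_const _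
  have hd0 : ((1 / (g * x) : ℝ) : ℂ) / ℓ ≠ 0 := by
    refine div_ne_zero ?_ (by exact_mod_cast hℓ.ne')
    exact_mod_cast (by positivity : (1 / (g * x) : ℝ) ≠ 0)
  have hnorm : ‖((1 / (g * x) : ℝ) : ℂ) / ℓ‖ = 1 / (g * x) / ℓ := by
    rw [norm_div, Complex.norm_real, Complex.norm_real, Real.norm_of_nonneg (by positivity),
      Real.norm_of_nonneg hℓ.le]
  have hre0 : (pt (0 : ℤ × ℤ)).re = 0 := by rw [hpt0]; rfl
  have him0 : (pt (0 : ℤ × ℤ)).im = 0 := by rw [hpt0]; rfl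
  have hrk : (pt (P.q P.k)).re = (P.q P.k).1 := rfl
  have hik : (pt (P.q P.k)).im = (P.q P.k).2 := rfl
  have o1 : Off (pt (0 : ℤ × ℤ)) rb (pt (P.q P.k)) := by
    unfold Off
    rw [hre0, him0, hrk, hik, sub_zero, sub_zero]
    rcases h.far_a with h1 | h1
    · left
      have : (ρ : ℝ) ≤ |((P.q P.k).1 : ℝ)| := by exact_mod_cast h1
      linarith
    · right
      have : (ρ : ℝ) ≤ |((P.q P.k).2 : ℝ)| := by exact_mod_cast h1
      linarith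
  have e1 : (pt (P.q 0) + 1 / 2 : ℂ).re = (P.q 0).1 + 1 / 2 := by simp [pt]
  have e2 : (pt (P.q 0) + 1 / 2 : ℂ).im = (P.q 0).2 := by simp [pt]
  have o2 : Off (pt (0 : ℤ × ℤ)) rb (dat P h).bp := by
    unfold Off
    rw [dat_bp, e1, e2, hre0, him0, sub_zero, sub_zero]
    rcases h.far_p with h1 | h1
    · left
      have h2 : (ρ : ℝ) + 1 ≤ |((P.q 0).1 : ℝ)| := by exact_mod_cast h1
      have h3 := abs_sub_abs_le_abs_sub ((P.q 0).1 : ℝ) (-(1 / 2))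
      rw [sub_neg_eq_add, abs_neg, abs_of_pos (by norm_num : (0 : ℝ) < 1 / 2)] at h3
      linarith
    · right
      have h2 : (ρ : ℝ) ≤ |((P.q 0).2 : ℝ)| := by exact_mod_cast h1
      linarith
  have o3 : Off (pt (P.q P.k)) 1 (pt (0 : ℤ × ℤ)) := by
    unfold Off
    rw [hre0, him0, hrk, hik, zero_sub, zero_sub, abs_neg, abs_neg]
    rcases h.far_a with h1 | h1
    · left
      have : (ρ : ℝ) ≤ |((P.q P.k).1 : ℝ)| := by exact_mod_cast h1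
      linarith
    · right
      have : (ρ : ℝ) ≤ |((P.q P.k).2 : ℝ)| := by exact_mod_cast h1
      linarith
  have hmain := hB7 (interior (region 1 P.S)) ψ₁ G (pt (P.q P.k)) (pt 0) (dat P h).bp 1 rb 0 x
    (((1 / (g * x) : ℝ) : ℂ) / ℓ) isOpen_interior hgood.bdd hpair
    (by rw [dat_bp]; exact hU.infty) (by rw [Complex.ofReal_zero]; exact hU.zero) hxb hd hd0 one_pos hrb hfa hfb o1 o2 o3
    (by rw [dat_bp]; exact off_aux h) ηa ηb hηa (by rw [mul_one]; exact hηaθ) hηb hηbθ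
  rw [hnorm, sub_zero, abs_of_pos hx] at hmain
  have e3 : ηb / (x * (1 / (g * x) / ℓ)) = ηb * ℓ * g := by
    field_simp
  rw [e3] at hmain
  exact hmain

end Vale.Agent.P167.CL
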