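import Vale.Agent.P167.CL.Top2

/-!
# P167, block CLOSE, top: one step of the exploration
-/

set_option autoImplicit false
set_option linter.unusedVariables false

open MeasureTheory Filter Topology Set

namespace Vale.Agent.P167.CL

open Vale.Agent.P167.E6 Vale.Agent.P167.E2 Vale.Agent.P167.H411
open Vale.Agent.P167.BR (Flt hbox sites OD Zl XB)
open Vale.Agent.P153.R2 (Ex)
open Vale.Agent.P153.M1 (Expl)

section cex

variable {A B : Type*} {X : Expl A B}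

theorem cex_add (hf : X.C.Finite) (φ ψ : A → ℝ) (h : A) (k : ℕ) :
    cex X (fun a => φ a + ψ a) h k = cex X φ h k + cex X ψ h k := by
  unfold cex Ex
  rw [finsum_mem_add_distrib (hf.subset (cyl_sub X h k)), add_div]

theorem cex_mul (c : ℝ) (φ : A → ℝ) (h : A) (k : ℕ) :
    cex X (fun a => c * φ a) h k = c * cex X φ h k := by
  unfold cex Ex
  rw [← mul_div_assoc]
  congr 1
  exact (mul_finsum_mem _ _).symm

end cex

section tr

variable {P : Shp} {N : ℕ}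

theorem OF_tr (hN : 0 < N) (a : ℤ × ℤ) (r R : ℤ) (f : ℤ × ℤ → ℝ) :
    OF (sq N a P) (larc N a P) a r (XB a r R (fun z => f (z - a))) =
      OD (decide (Even (a.1 + a.2))) (CA.enl P.S N) (larc N 0 P) 0 r R f := by
  have h := BR.OD_sh (decide (Even (a.1 + a.2))) (CA.enl P.S N) (larc N 0 P) 0 r R f a
  rw [← h, ← OD_eq, sq_eq hN, larc_tr hN, zero_add]
  by_cases he : Even (a.1 + a.2) <;> simp [he]

theorem OF_sum (hN : 0 < N) (v : ℤ × ℤ) (r R : ℤ) (f : ℤ × ℤ → ℝ) :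
    OF (sq N (v + (0, 0)) P) (larc N (v + (0, 0)) P) (v + (0, 0)) r
        (XB (v + (0, 0)) r R (fun z => f (z - (v + (0, 0))))) +
      OF (sq N (v + (1, 0)) P) (larc N (v + (1, 0)) P) (v + (1, 0)) r
        (XB (v + (1, 0)) r R (fun z => f (z - (v + (1, 0))))) =
      OD true (CA.enl P.S N) (larc N 0 P) 0 r R f + OD false (CA.enl P.S N) (larc N 0 P) 0 r R f := by
  rw [OF_tr hN, OF_tr hN]
  have e1 : (v + (0, 0)).1 + (v + (0, 0)).2 = v.1 + v.2 := by simp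
  have e2 : (v + (1, 0)).1 + (v + (1, 0)).2 = v.1 + v.2 + 1 := by
    simp only [Prod.fst_add, Prod.snd_add]; ring
  rw [e1, e2]
  by_cases he : Even (v.1 + v.2)
  · have h2 : ¬ Even (v.1 + v.2 + 1) := by rw [Int.even_add_one]; simpa using he
    rw [decide_eq_true he, decide_eq_false h2]
  · have h2 : Even (v.1 + v.2 + 1) := by rw [Int.even_add_one]; exact he
    rw [decide_eq_false he, decide_eq_true h2, add_comm]

theorem int_abs_tr (a : ℤ × ℤ) (r R : ℤ) (f : ℤ × ℤ → ℝ) :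
    ∫ ω, |XB a r R (fun z => f (z - a)) ω| ∂μ = ∫ ω, |XB 0 r R f ω| ∂μ := by
  rw [← BR.integral_sh a (fun ω => |XB a r R (fun z => f (z - a)) ω|)]
  congr 1
  funext ω
  have h := BR.XB_sh (ω := ω) (a := a) 0 r R f
  rw [zero_add] at h
  rw [h]

theorem depOn_XB (b : ℤ × ℤ) (r R : ℤ) (f : ℤ × ℤ → ℝ) : DepOn (hbox b R) (XB b r R f) :=
  BR.dep_XB

end tr

/-- The arithmetic of one step. -/
theorem arith {x₀ x₁ o₀ o₁ Z m Cm ε' OT OF' V br e ε'' c y y₀ ε₁ w Mw κ₀ o ε₀ : ℝ}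
    (hZ : 0 ≤ Z) (hZm : Z * m ≤ Cm) (hx₀ : |x₀ - o₀| ≤ ε' * m)
    (hx₁ : |x₁ - o₁| ≤ ε' * m) (ho : o₀ + o₁ = OT + OF') (hV : |V - Z * (OT + OF')| ≤ br)
    (he : |V - e| ≤ ε'') (hey : |e - c * y| ≤ ε₁ * y) (hc : 0 < c) (hy₀ : 0 < y₀)
    (hw : w * y₀ = y) (hε' : 0 ≤ ε') (hε₁ : 0 ≤ ε₁) (hwM : w ≤ Mw)
    (hκ : 0 < κ₀) (hκy : κ₀ ≤ c * y₀) (hwo : |w - o| ≤ ε₀) :
    |Z / (c * y₀) * (x₀ + x₁) - o| ≤ ε₀ + (2 * (ε' * Cm) + br + ε'') / κ₀ + ε₁ / c * Mw := by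
  have hcy : 0 < c * y₀ := by positivity
  have h1 : |Z * (x₀ + x₁) - Z * (OT + OF')| ≤ 2 * (ε' * Cm) := by
    rw [← ho, ← mul_sub, abs_mul, abs_of_nonneg hZ]
    have e1 : x₀ + x₁ - (o₀ + o₁) = (x₀ - o₀) + (x₁ - o₁) := by ring
    rw [e1]
    have h2 : |(x₀ - o₀) + (x₁ - o₁)| ≤ 2 * (ε' * m) := by
      refine (abs_add_le _ _).trans ?_
      linarith
    calc Z * |(x₀ - o₀) + (x₁ - o₁)| ≤ Z * (2 * (ε' * m)) := mul_le_mul_of_nonneg_left h2 hZ
      _ = 2 * (ε' * (Z * m)) := by ring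
      _ ≤ 2 * (ε' * Cm) := by gcongr
  have h3 : |Z * (x₀ + x₁) - c * y| ≤ (2 * (ε' * Cm) + br + ε'') + ε₁ * y := by
    have e1 : Z * (x₀ + x₁) - c * y = (Z * (x₀ + x₁) - Z * (OT + OF')) -
        (V - Z * (OT + OF')) + (V - e) + (e - c * y) := by ring
    rw [e1]
    refine (abs_add_le _ _).trans ?_
    refine add_le_add ((abs_add_le _ _).trans (add_le_add ((abs_sub _ _).trans
      (add_le_add h1 hV)) he)) hey
  have hA0 : 0 ≤ 2 * (ε' * Cm) + br + ε'' := by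
    have a1 := (abs_nonneg _).trans h1
    have a2 := (abs_nonneg _).trans hV
    have a3 := (abs_nonneg _).trans he
    linarith
  have e2 : Z / (c * y₀) * (x₀ + x₁) - o = (Z * (x₀ + x₁) - c * y) / (c * y₀) + (w - o) := by
    rw [← hw]
    field_simp
    ring
  rw [e2]
  refine (abs_add_le _ _).trans ?_
  have h4 : |(Z * (x₀ + x₁) - c * y) / (c * y₀)| ≤
      (2 * (ε' * Cm) + br + ε'') / κ₀ + ε₁ / c * Mw := by
    rw [abs_div, abs_of_pos hcy]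
    calc |Z * (x₀ + x₁) - c * y| / (c * y₀)
        ≤ ((2 * (ε' * Cm) + br + ε'') + ε₁ * y) / (c * y₀) := by gcongr
      _ = (2 * (ε' * Cm) + br + ε'') / (c * y₀) + ε₁ / c * w := by
        rw [← hw]; field_simp
      _ ≤ (2 * (ε' * Cm) + br + ε'') / κ₀ + ε₁ / c * Mw := by gcongr
  linarith

end Vale.Agent.P167.CL
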