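import Vale.Agent.P167.CA.Defs
import Vale.Agent.P167.CL.Frame

/-!
# P167, block CLOSE: the inputs of `CL/Top.lean` from the core and from the calculus

* `Bmp0 χ`: a smooth bump of mass `π / 3` in the upper half-plane, `bmp χ b η` its copy of scale `η`
  at the point `b`;
* `I_E2` (947): the two-point function in a lattice polygon;
* `I_B7` (411): the explicit value is `c (η G)^{1/3}`, uniformly in the domain.
-/

set_option autoImplicit false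

open MeasureTheory Filter Topology Set

namespace Vale.Agent.P167.CL

open Vale.Agent.P167.BVP (Test)
open Vale.Agent.P167.CA (Pair sc)
open Vale.Agent.P167.E6 (pt)

/-- A smooth bump of mass `π / 3` in the upper half of the unit square. -/
structure Bmp0 (χ : ℂ → ℝ) : Prop where
  smooth : ContDiff ℝ (⊤ : ℕ∞) χ
  nonneg : ∀ z, 0 ≤ χ z
  supp : tsupport χ ⊆ {z | |z.re| ≤ 1 / 2 ∧ 1 / 4 ≤ z.im ∧ z.im ≤ 1 / 2}
  mass : ∫ z, χ z = Real.pi / 3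

/-- The copy of `χ` of scale `η` at `b`. -/
noncomputable def bmp (χ : ℂ → ℝ) (b : ℂ) (η : ℝ) (z : ℂ) : ℝ := χ ((z - b) / η) / η ^ 2

/-- Near `b` (up to distance `r`) the domain `P` is the half-plane above `b`. -/
def FlatAt (P : Set ℂ) (b : ℂ) (r : ℝ) : Prop :=
  ∀ z : ℂ, |z.re - b.re| < r → |z.im - b.im| < r → (z ∈ P ↔ b.im < z.im)

/-- The point `a` is not in the open square of radius `r` around `b`. -/
def Off (b : ℂ) (r : ℝ) (a : ℂ) : Prop := r ≤ |a.re - b.re| ∨ r ≤ |a.im - b.im|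

/-- (E2) The two-point function for positive charges of mass `π / 3`, with the base point `ψ ∞`. -/
def I_E2 : Prop := ∀ (S : CA.Dat) (ψ g : ℂ → ℂ), S.r = 0 → Pair S.P ψ g →
  Tendsto ψ (Bornology.cobounded ℂ ⊓ 𝓟 {z | 0 ≤ z.im}) (𝓝 S.bp) →
  ∀ φa φb : ℂ → ℝ, Test S.P φa → Test S.P φb → (∀ z, 0 ≤ φa z) → (∀ z, 0 ≤ φb z) →
    ∫ z, φa z = Real.pi / 3 → ∫ z, φb z = Real.pi / 3 →
    Tendsto (fun n : ℕ => S.V n (fun z => φb z - φa z) * S.V n (fun z => - φb z) /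
      S.V n (fun z => - φa z)) atTop (𝓝 (Real.exp (sc * (CA.en g φa φb - CA.en g φb φb))))

/-- (B7) Asymptotics of the explicit value, uniformly in the domain. -/
def I_B7 : Prop := ∀ χ : ℂ → ℝ, Bmp0 χ → ∃ c : ℝ, 0 < c ∧ ∀ ε : ℝ, 0 < ε → ∃ θ : ℝ, 0 < θ ∧
  ∀ (P : Set ℂ) (ψ g : ℂ → ℂ) (a b q : ℂ) (ra rb xa xb : ℝ) (d : ℂ), IsOpen P →
    Bornology.IsBounded P → Pair P ψ g →
    Tendsto ψ (Bornology.cobounded ℂ ⊓ 𝓟 {z | 0 ≤ z.im}) (𝓝 q) → ψ xa = a → ψ xb = b →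
    HasDerivWithinAt ψ d {z | 0 ≤ z.im} xb → d ≠ 0 → 0 < ra → 0 < rb →
    FlatAt P a ra → FlatAt P b rb → Off b rb a → Off b rb q → Off a ra b → Off a ra q →
    ∀ ηa ηb : ℝ, 0 < ηa → ηa ≤ θ * ra → 0 < ηb → ηb ≤ θ * rb →
      |Real.exp (sc * (CA.en g (bmp χ a ηa) (bmp χ b ηb) - CA.en g (bmp χ b ηb) (bmp χ b ηb))) -
          c * (ηb / (|xb - xa| * ‖d‖)) ^ (1 / 3 : ℝ)| ≤
        ε * (ηb / (|xb - xa| * ‖d‖)) ^ (1 / 3 : ℝ)

end Vale.Agent.P167.CL
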